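import Vale.Agent.P092.H714.Cl2
import Vale.Agent.P092.H933.HM1
import Mathlib.Topology.Algebra.Group.Matrix

/-!
P092, block A-CLASS (helper714), part 3: Mautner phenomenon for the groups generated by the
transvections of a hermitian form.
-/

set_option linter.all false

open Matrix Filter Topology

namespace Vale.Agent.P092.H714.Cl

open Vale.Agent.P092.H303 (FormGroup)
open Vale.Agent.P092.H933 (Len)

section alg

variable {n : Type} [Fintype n] [DecidableEq n] {k : Type} [Field k]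
  {σ : k →+* k} {ε : k} {J : Matrix n n k} {G : Subgroup (SpecialLinearGroup n k)}

/-- Transvections as elements of the group. -/
noncomputable def tg (hG : GT σ ε J ≤ G) {u : n → k} (hu : hf σ J u u = 0) {c : k}
    (hc : c + ε * σ c = 0) : G := ⟨tv σ J u c, hG (tv_mem_GT hu hc)⟩

theorem tg_val (hG : GT σ ε J ≤ G) {u : n → k} (hu : hf σ J u u = 0) {c : k}
    (hc : c + ε * σ c = 0) : (tg hG hu hc).1 = tv σ J u c := rfl

/-- Hyperbolic elements as elements of the group. -/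
noncomputable def dg (hG : GT σ ε J ≤ G) (hF : Frm σ ε J) {u w : n → k} (hu : hf σ J u u = 0)
    (hw : hf σ J w w = 0) {s r : k} (hs0 : s ≠ 0) (hs : s + ε * σ s = 0) (hr0 : r ≠ 0)
    (hr : σ r = r) : G := ⟨dv σ ε J u w s r, hG (dv_mem hF hu hw hs0 hs hr0 hr)⟩

/-- The inverse acts by the inverse scalar. -/
theorem inv_of_smul {g : SpecialLinearGroup n k} {x : n → k} {r : k} (hr0 : r ≠ 0)
    (h : x ᵥ* g.1 = r • x) : x ᵥ* (g⁻¹).1 = r⁻¹ • x := by
  have h1 := vecMul_cancel_inv x g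
  rw [h, smul_vecMul] at h1
  have h2 : r⁻¹ • (r • (x ᵥ* (g⁻¹).1)) = r⁻¹ • x := by rw [h1]
  rwa [smul_smul, inv_mul_cancel₀ hr0, one_smul] at h2

theorem conj_tv' {g : SpecialLinearGroup n k} (hg : g ∈ FormGroup σ J) {u : n → k}
    (hu : hf σ J u u = 0) (c : k) : g * tv σ J u c * g⁻¹ = tv σ J (u ᵥ* (g⁻¹).1) c := by
  have h := conj_tv (inv_mem hg) hu c
  rwa [inv_inv] at h

end alg

variable {n : Type} [Fintype n] [DecidableEq n] {k : Type} [NontriviallyNormedField k]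
  {σ : k →+* k} {ε : k} {J : Matrix n n k} {G : Subgroup (SpecialLinearGroup n k)}

theorem continuous_of_norm (hσ : ∀ x, ‖σ x‖ = ‖x‖) : Continuous σ :=
  (Isometry.of_dist_eq fun x y => by rw [dist_eq_norm, dist_eq_norm, ← map_sub, hσ]).continuous

theorem continuous_tvm (hσc : Continuous σ) :
    Continuous fun p : (n → k) × k => tvm σ J p.1 p.2 := by
  unfold tvm
  refine continuous_const.add ?_
  refine Continuous.matrix_vecMulVec ?_ ?_
  · refine Continuous.matrix_mulVec continuous_const ?_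
    refine continuous_pi fun i => ?_
    exact hσc.comp ((continuous_apply i).comp continuous_fst)
  · exact continuous_snd.smul continuous_fst

theorem continuous_hf (hσc : Continuous σ) :
    Continuous fun p : (n → k) × (n → k) => hf σ J p.1 p.2 := by
  unfold hf
  refine Continuous.dotProduct continuous_fst ?_
  refine Continuous.matrix_mulVec continuous_const ?_
  exact continuous_pi fun i => hσc.comp ((continuous_apply i).comp continuous_snd)

theorem tendsto_tvm {ι : Type*} {l : Filter ι} (hσc : Continuous σ) {u : ι → n → k} {c : ι → k}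
    {u₀ : n → k} {c₀ : k} (hut : Tendsto u l (𝓝 u₀)) (hct : Tendsto c l (𝓝 c₀)) :
    Tendsto (fun i => tvm σ J (u i) (c i)) l (𝓝 (tvm σ J u₀ c₀)) := by
  have h6 := hut.prodMk_nhds hct
  have h7 := (continuous_tvm (J := J) hσc).tendsto (u₀, c₀)
  have h8 := h7.comp h6
  exact h8

theorem isInducing_val : IsInducing (Subtype.val : SpecialLinearGroup n k → Matrix n n k) := ⟨rfl⟩

theorem tendsto_SL {ι : Type*} {l : Filter ι} {g : ι → SpecialLinearGroup n k}
    {g₀ : SpecialLinearGroup n k} (h : Tendsto (fun i => (g i).1) l (𝓝 g₀.1)) :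
    Tendsto g l (𝓝 g₀) := isInducing_val.tendsto_nhds_iff.2 h

theorem tendsto_tv {ι : Type*} {l : Filter ι} (hσc : Continuous σ) {u : ι → n → k} {c : ι → k}
    {u₀ : n → k} {c₀ : k} (hu : ∀ i, hf σ J (u i) (u i) = 0) (hu₀ : hf σ J u₀ u₀ = 0)
    (hut : Tendsto u l (𝓝 u₀)) (hct : Tendsto c l (𝓝 c₀)) :
    Tendsto (fun i => tv σ J (u i) (c i)) l (𝓝 (tv σ J u₀ c₀)) := by
  have h3 := tendsto_tvm (J := J) hσc hut hct
  refine tendsto_SL ?_
  have e1 : (fun i => (tv σ J (u i) (c i)).1) = fun i => tvm σ J (u i) (c i) :=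
    funext fun i => tv_val (hu i) _
  rw [e1, tv_val hu₀]
  exact h3

theorem tendsto_tg {ι : Type*} {l : Filter ι} (hσc : Continuous σ) (hG : GT σ ε J ≤ G)
    {u : ι → n → k} {c : ι → k} {u₀ : n → k} {c₀ : k} (hu : ∀ i, hf σ J (u i) (u i) = 0)
    (hc : ∀ i, c i + ε * σ (c i) = 0) (hu₀ : hf σ J u₀ u₀ = 0) (hc₀ : c₀ + ε * σ c₀ = 0)
    (hut : Tendsto u l (𝓝 u₀)) (hct : Tendsto c l (𝓝 c₀)) :
    Tendsto (fun i => tg hG (hu i) (hc i)) l (𝓝 (tg hG hu₀ hc₀)) := by
  rw [tendsto_subtype_rng]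
  exact tendsto_tv hσc hu hu₀ hut hct

theorem tendsto_tg_one {ι : Type*} {l : Filter ι} (hσc : Continuous σ) (hG : GT σ ε J ≤ G)
    {u : n → k} {c : ι → k} (hu : hf σ J u u = 0) (hc : ∀ i, c i + ε * σ (c i) = 0)
    (hct : Tendsto c l (𝓝 0)) :
    Tendsto (fun i => tg hG hu (hc i)) l (𝓝 1) := by
  have h := tendsto_tg hσc hG (fun _ => hu) hc hu (c₀ := 0) (by simp) tendsto_const_nhds hct
  have e : tg hG hu (c := 0) (show (0 : k) + ε * σ 0 = 0 by simp) = 1 :=
    Subtype.ext (by rw [tg_val, tv_zero]; rfl)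
  rwa [e] at h

/-- An element of the fixed field of norm larger than one. -/
theorem exists_fix (hF : Frm σ ε J) (hσ : ∀ x, ‖σ x‖ = ‖x‖) :
    ∃ r : k, σ r = r ∧ 1 < ‖r‖ := by
  obtain ⟨x, hx⟩ := NormedField.exists_one_lt_norm k
  refine ⟨x * σ x, ?_, ?_⟩
  · rw [map_mul, hF.inv, mul_comm]
  · rw [norm_mul, hσ]
    nlinarith

section mautner

variable (hσ : ∀ x, ‖σ x‖ = ‖x‖) (hF : Frm σ ε J) (hG : GT σ ε J ≤ G)
  (hGF : G ≤ FormGroup σ J) {f : G → ℝ} (hf' : Len f)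

include hσ hF hGF hf' in
/-- Mautner for a hyperbolic pair. -/
theorem mautner_pair {u w : n → k} (hu : hf σ J u u = 0) (hw : hf σ J w w = 0)
    (huw : hf σ J u w = 1) (h : ∀ c (hc : c + ε * σ c = 0), f (tg hG hu hc) = 0) (d : k)
    (hd : d + ε * σ d = 0) : f (tg hG hw hd) = 0 := by
  obtain ⟨r, hr, hr1⟩ := exists_fix hF hσ
  obtain ⟨s, hs0, hs⟩ := hF.cc
  have hσc := continuous_of_norm hσ
  have hr0 : r ≠ 0 := by
    rintro rfl
    rw [norm_zero] at hr1
    linarith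
  -- the sequences
  have hrN0 : ∀ N : ℕ, r ^ N ≠ 0 := fun N => pow_ne_zero _ hr0
  have hrN : ∀ N : ℕ, σ (r ^ N) = r ^ N := fun N => by rw [map_pow, hr]
  have hi : ∀ N : ℕ, σ ((r ^ N)⁻¹) = (r ^ N)⁻¹ := fun N => by rw [map_inv₀, hrN]
  have hsN0 : ∀ N : ℕ, ((r ^ N)⁻¹ * (r ^ N)⁻¹) * s ≠ 0 := fun N =>
    mul_ne_zero (mul_ne_zero (inv_ne_zero (hrN0 N)) (inv_ne_zero (hrN0 N))) hs0
  have hsN : ∀ N : ℕ, ((r ^ N)⁻¹ * (r ^ N)⁻¹) * s + ε * σ (((r ^ N)⁻¹ * (r ^ N)⁻¹) * s) = 0 :=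
    fun N => cc_fix (by rw [map_mul, hi]) hs
  have hs2 : ∀ N : ℕ, -(r ^ N * (((r ^ N)⁻¹ * (r ^ N)⁻¹) * s)) +
      ε * σ (-(r ^ N * (((r ^ N)⁻¹ * (r ^ N)⁻¹) * s))) = 0 := fun N => by
    have := cc_fix (r := -(r ^ N)) (by rw [map_neg, hrN]) (hsN N)
    rwa [neg_mul] at this
  have t0 : Tendsto (fun N : ℕ => (r ^ N)⁻¹) atTop (𝓝 0) := by
    have h1 : Tendsto (fun N : ℕ => (r⁻¹) ^ N) atTop (𝓝 0) := by
      apply tendsto_pow_atTop_nhds_zero_of_norm_lt_one
      rw [norm_inv]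
      exact inv_lt_one_of_one_lt₀ hr1
    simpa only [inv_pow] using h1
  have t1 : Tendsto (fun N : ℕ => ((r ^ N)⁻¹ * (r ^ N)⁻¹) * s) atTop (𝓝 0) := by
    have := (t0.mul t0).mul_const s
    simpa using this
  have t2 : Tendsto (fun N : ℕ => -(r ^ N * (((r ^ N)⁻¹ * (r ^ N)⁻¹) * s))) atTop (𝓝 0) := by
    have h1 : Tendsto (fun N : ℕ => -((r ^ N)⁻¹ * s)) atTop (𝓝 0) := by
      have := (t0.mul_const s).neg
      simpa using this
    refine h1.congr fun N => ?_
    have := hrN0 N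
    field_simp
  set D : ℕ → G := fun N => dg hG hF hu hw (hsN0 N) (hsN N) (hrN0 N) (hrN N) with hD
  have hDf : Tendsto (fun N => f (D N)) atTop (𝓝 0) := by
    have h1 : Tendsto (fun N => f (tg hG hw (hsN N)) + f (tg hG hw (hs2 N))) atTop (𝓝 0) := by
      have := (hf'.cont.comp (tendsto_tg_one hσc hG hw hsN t1)).add
        (hf'.cont.comp (tendsto_tg_one hσc hG hw hs2 t2))
      simpa using this
    refine squeeze_zero (fun N => hf'.nonneg _) (fun N => ?_) h1
    have e : D N = tg hG hu (cc_x hF (hsN0 N) (hsN N) (hrN N)) * tg hG hw (hsN N) *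
        tg hG hu (cc_z hF (hsN0 N) (hsN N) (hrN0 N) (hrN N)) * tg hG hw (hs2 N) := rfl
    rw [e]
    refine (hf'.mul _ _).trans ?_
    refine (add_le_add_left ((hf'.mul _ _).trans (add_le_add_left (hf'.mul _ _) _)) _).trans ?_
    rw [h, h]
    linarith
  have hDc : Tendsto (fun N => D N * tg hG hw hd * (D N)⁻¹) atTop (𝓝 1) := by
    have hd2 : ∀ N : ℕ, ((r ^ N)⁻¹ * (r ^ N)⁻¹) * d + ε * σ (((r ^ N)⁻¹ * (r ^ N)⁻¹) * d) = 0 :=
      fun N => cc_fix (by rw [map_mul, hi]) hd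
    have t3 : Tendsto (fun N : ℕ => ((r ^ N)⁻¹ * (r ^ N)⁻¹) * d) atTop (𝓝 0) := by
      have := (t0.mul t0).mul_const d
      simpa using this
    refine (tendsto_tg_one hσc hG hw hd2 t3).congr fun N => ?_
    refine Subtype.ext ?_
    change tv σ J w _ = (D N).1 * tv σ J w d * ((D N).1)⁻¹
    have hm : (D N).1 ∈ FormGroup σ J := hGF (D N).2
    have h9 : w ᵥ* (((D N).1 : SpecialLinearGroup n k)⁻¹).1 = (r ^ N)⁻¹ • w :=
      inv_of_smul (hrN0 N) (w_dv hF hu hw huw (hsN0 N) (hrN0 N))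
    rw [conj_tv' hm hw, h9, tv_smul hw, hi]
    congr 1
    ring
  have hfin : Tendsto (fun N => f (D N * tg hG hw hd * (D N)⁻¹) + (f (D N) + f (D N))) atTop
      (𝓝 0) := by
    have := (hf'.cont.comp hDc).add (hDf.add hDf)
    simpa using this
  refine le_antisymm (ge_of_tendsto' hfin fun N => ?_) (hf'.nonneg _)
  have e : tg hG hw hd = (D N)⁻¹ * (D N * tg hG hw hd * (D N)⁻¹) * D N := by group
  calc f (tg hG hw hd) = f ((D N)⁻¹ * (D N * tg hG hw hd * (D N)⁻¹) * D N) := by rw [← e]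
    _ ≤ f ((D N)⁻¹ * (D N * tg hG hw hd * (D N)⁻¹)) + f (D N) := hf'.mul _ _
    _ ≤ f (D N)⁻¹ + f (D N * tg hG hw hd * (D N)⁻¹) + f (D N) :=
        add_le_add_left (hf'.mul _ _) _
    _ = _ := by rw [hf'.inv]; ring

include hσ hF hGF hf' in
theorem mautner_step {u w : n → k} (hu : hf σ J u u = 0) (hw : hf σ J w w = 0)
    (huw : hf σ J u w ≠ 0) (h : ∀ c (hc : c + ε * σ c = 0), f (tg hG hu hc) = 0) (d : k)
    (hd : d + ε * σ d = 0) : f (tg hG hw hd) = 0 := by
  set a : k := σ (hf σ J u w)⁻¹ with ha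
  have ha0 : a ≠ 0 := by
    rw [ha, Ne, map_eq_zero]
    exact inv_ne_zero huw
  have h1 : hf σ J u (a • w) = 1 := by
    rw [hf_smul_right, ha, hF.inv, inv_mul_cancel₀ huw]
  have hd' : a⁻¹ * d * σ a⁻¹ + ε * σ (a⁻¹ * d * σ a⁻¹) = 0 := cc_smul hF.inv hd a⁻¹
  have h2 := mautner_pair hσ hF hG hGF hf' hu (iso_smul hw a) h1 h _ hd'
  have e : tg hG (iso_smul hw a) hd' = tg hG hw hd := by
    refine Subtype.ext ?_
    rw [tg_val, tg_val, tv_smul hw]
    congr 1
    have h3 : σ a⁻¹ * σ a = 1 := by rw [← map_mul, inv_mul_cancel₀ ha0, map_one]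
    linear_combination (a * a⁻¹ * d) * h3 + d * (mul_inv_cancel₀ ha0)
  rwa [e] at h2

include hσ hF hGF hf' in
/-- All transvections. -/
theorem mautner_all {u : n → k} (hu0 : u ≠ 0) (hu : hf σ J u u = 0)
    (h : ∀ c (hc : c + ε * σ c = 0), f (tg hG hu hc) = 0) {w : n → k} (hw : hf σ J w w = 0) (d : k)
    (hd : d + ε * σ d = 0) : f (tg hG hw hd) = 0 := by
  by_cases hw0 : w = 0
  · subst hw0
    have e : tg hG hw hd = 1 := by
      refine Subtype.ext ?_
      rw [tg_val]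
      refine ext_vecMul fun x => ?_
      rw [vecMul_tv hw, smul_zero, add_zero]
      exact (vecMul_one' x).symm
    rw [e, hf'.one]
  · obtain ⟨z, hz, h1, h2⟩ := hF.exists_conn hu0 hu hw0 hw
    exact mautner_step hσ hF hG hGF hf' hz hw h2
      (mautner_step hσ hF hG hGF hf' hu hz h1 h) d hd

omit [Fintype n] [DecidableEq n] [NontriviallyNormedField k] in
theorem _root_.Vale.Agent.P092.H714.Cl.len_continuous {X : Type*} [Group X] [TopologicalSpace X]
    [IsTopologicalGroup X] {f : X → ℝ} (hf : Len f) : Continuous f := by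
  rw [continuous_iff_continuousAt]
  intro x
  have h1 : Tendsto (fun y => x⁻¹ * y) (𝓝 x) (𝓝 1) := by
    have h2 : Continuous fun y : X => x⁻¹ * y := by fun_prop
    have := h2.tendsto x
    rwa [inv_mul_cancel] at this
  have h2 : Tendsto (fun y => f (x⁻¹ * y)) (𝓝 x) (𝓝 0) := hf.cont.comp h1
  rw [ContinuousAt, tendsto_iff_dist_tendsto_zero]
  refine squeeze_zero (fun _ => dist_nonneg) (fun y => ?_) h2
  rw [Real.dist_eq, abs_le]
  constructor
  · have h3 := hf.mul y (x⁻¹ * y)⁻¹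
    rw [hf.inv] at h3
    have e : y * (x⁻¹ * y)⁻¹ = x := by group
    rw [e] at h3
    linarith
  · have h3 := hf.mul x (x⁻¹ * y)
    rw [mul_inv_cancel_left] at h3
    linarith

include hσ hF hGF hf' in
/-- The kernel contains the group generated by the transvections. -/
theorem mautner_GT {u : n → k} (hu0 : u ≠ 0) (hu : hf σ J u u = 0)
    (h : ∀ c (hc : c + ε * σ c = 0), f (tg hG hu hc) = 0) :
    ∀ x (hx : x ∈ GT σ ε J), f ⟨x, hG hx⟩ = 0 := by
  intro x hx
  have h2 : GT σ ε J ≤ (hf'.ker).map G.subtype := by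
    rw [GT, Subgroup.closure_le]
    rintro _ ⟨v, c, hv, hc, rfl⟩
    exact ⟨tg hG hv hc, mautner_all hσ hF hG hGF hf' hu0 hu h hv c hc, rfl⟩
  obtain ⟨y, hy, hyx⟩ := h2 hx
  have : y = ⟨x, hG hx⟩ := Subtype.ext hyx
  rw [← this]
  exact hy

include hσ hF hGF hf' in
/-- **Mautner**: a length function, continuous at `1`, which vanishes on the transvections of one
isotropic vector, vanishes. -/
theorem mautner (hGc : G ≤ (GT σ ε J).topologicalClosure) {u : n → k} (hu0 : u ≠ 0)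
    (hu : hf σ J u u = 0) (h : ∀ c (hc : c + ε * σ c = 0), f (tg hG hu hc) = 0) (g : G) :
    f g = 0 := by
  have hg : (g : SpecialLinearGroup n k) ∈ closure (GT σ ε J : Set (SpecialLinearGroup n k)) :=
    hGc g.2
  have hcl : g ∈ closure {x : G | (x : SpecialLinearGroup n k) ∈ GT σ ε J} := by
    rw [closure_subtype]
    refine closure_mono ?_ hg
    intro x hx
    exact ⟨⟨x, hG hx⟩, hx, rfl⟩
  have hc : IsClosed {x : G | f x = 0} :=
    isClosed_eq (len_continuous hf') continuous_const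
  have hsub : {x : G | (x : SpecialLinearGroup n k) ∈ GT σ ε J} ⊆ {x : G | f x = 0} := by
    intro x hx
    exact mautner_GT hσ hF hG hGF hf' hu0 hu h x.1 hx
  exact closure_minimal hsub hc hcl

end mautner

end Vale.Agent.P092.H714.Cl
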