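import Vale.Agent.P092.H714.Fin
import Vale.Agent.P092.PA.Defs

/-!
P092, block A-FIN, second part: the picture `Pic` of helper701 attached to an isomorphism
`θ : L(Γ) → L(Λ)`, and the passage from `Can` to canonicity.
-/

set_option linter.all false

open scoped InnerProductSpace
open ContinuousLinearMap

namespace Vale.Agent.P092.H714.Fin

open Vale.Agent.P092.H160 Vale.Agent.P092.PA

section gen

variable {Γ Λ K : Type} [Group Γ] [Group Λ] [NormedAddCommGroup K] [InnerProductSpace ℂ K]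
  [CompleteSpace K]

theorem pr_of_pic (D : Pic Γ Λ K) : Pr D.ρ D.V D.Ω := ⟨D.hρ, D.hV, D.comm⟩

/-- The picture with the two groups exchanged. -/
def swp (D : Pic Γ Λ K) : Pic Λ Γ K :=
  ⟨D.V, D.ρ, D.Ω, D.hV, D.hρ, fun v g => (D.comm g v).symm⟩

/-- Elements of `V(Λ)'` and `ρ(Γ)'` commute. -/
theorem pic_commute (D : Pic Γ Λ K) {A B : K →L[ℂ] K} (hA : ∀ v, A * D.V v = D.V v * A)
    (hB : ∀ g, B * D.ρ g = D.ρ g * B) : A * B = B * A := (pr_of_pic D).commute hA hB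

/-- The two trace vector representations have the structure of `Can` in terms of END. -/
theorem can_of_end (D : Pic Γ Λ K) (h : EndC D.ρ D.V D.Ω) : Can D := by
  obtain ⟨w, δ, χ, hw1, hw2, hw, hχ, hδ⟩ := h
  have hwi : ∀ x y, ⟪w x, w y⟫_ℂ = ⟪x, y⟫_ℂ := by
    intro x y
    have h1 : (adjoint w * w) y = y := by rw [hw1]; rfl
    rw [← adjoint_inner_right]
    exact congrArg (fun z => ⟪x, z⟫_ℂ) h1
  have hwV : ∀ v x, w (D.V v x) = D.V v (w x) := fun v x => Cmm.apply hw v x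
  refine ⟨w D.Ω, fun g => (δ g)⁻¹, χ, ?_, ?_, ?_, hχ, fun g => ?_⟩
  · have h1 := hwi D.Ω D.Ω
    rw [inner_self_eq_norm_sq_to_K, inner_self_eq_norm_sq_to_K, D.hV.norm_one] at h1
    have h2 : ‖w D.Ω‖ ^ 2 = 1 ^ 2 := by exact_mod_cast h1
    exact (pow_left_inj₀ (norm_nonneg _) zero_le_one two_ne_zero).mp h2
  · intro v hv
    rw [← hwV, hwi]
    exact D.hV.inner_zero v hv
  · exact (inv_involutive.bijective).comp δ.bijective
  · -- the right translation by `δ g`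
    obtain ⟨R, hR, hR1⟩ := H87.exists_right (toU D.V D.hV.adj) D.hV.basis (ξ₀ := D.Ω)
      (fun v => D.hV.basis_apply v)
    have h1 := hδ g (R (δ g)) (hR (δ g)) (hR1 (δ g))
    have h2 : (D.ρ g * w) D.Ω = (χ g • (w * (R (δ g) : K →L[ℂ] K))) D.Ω := by rw [h1]
    have h3 : (R (δ g) : K →L[ℂ] K) D.Ω = D.V (δ g)⁻¹ D.Ω := hR1 (δ g)
    calc D.ρ g (w D.Ω) = χ g • w ((R (δ g) : K →L[ℂ] K) D.Ω) := h2
      _ = χ g • D.V (δ g)⁻¹ (w D.Ω) := by rw [h3, hwV]

end gen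

section iso

variable {Γ Λ : Type} [Group Γ] [Group Λ]

/-- The picture attached to a frame on `ℓ²(Λ)`. -/
noncomputable def picF {α : Γ →* (Ell2 Λ →L[ℂ] Ell2 Λ)} (h : Frame α) : Pic Γ Λ (Ell2 Λ) :=
  ⟨α, rhoH (G := Λ), dl 1, h.reg, regRep_rho, fun g v => h.comm g v⟩

/-- The canonical form from `Can`. -/
theorem form_of_can {α : Γ →* (Ell2 Λ →L[ℂ] Ell2 Λ)} (hα : Frame α) (h : Can (picF hα)) :
    ∃ (V : Ell2 Λ →L[ℂ] Ell2 Λ) (δ : Γ ≃* Λ) (χ : Γ →* Circle), Cmm rhoH V ∧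
      adjoint V * V = 1 ∧ V * adjoint V = 1 ∧
      ∀ g, α g = (χ g : ℂ) • (V * lam (δ g) * adjoint V) := by
  obtain ⟨e, δ₀, χ₀, he, hort, hbij, hχ, hδ₀⟩ := h
  have horth : ∀ k : Λ, k ≠ 1 → ⟪e, rho k e⟫_ℂ = 0 := hort
  have hδ₀' : ∀ g, α g e = χ₀ g • rho (δ₀ g) e := hδ₀
  set δ : Γ → Λ := fun g => (δ₀ g)⁻¹ with hδd
  set χ : Γ → Circle := fun g => ⟨χ₀ g, mem_sphere_zero_iff_norm.mpr (hχ g)⟩ with hχd
  have hδ : ∀ g, α g e = (χ g : ℂ) • rho (δ g)⁻¹ e := by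
    intro g
    rw [hδ₀', hδd]
    simp only [inv_inv]
    rfl
  have hbijδ : Function.Bijective δ := inv_involutive.bijective.comp hbij
  have hreg : RegRep (rhoH (G := Λ)) e := regRep_of_orth he horth
  have ho := orth_translates he horth
  set V := opOf (bes_of_orthonormal ho) with hV
  have hVdl : ∀ x, V (dl x) = rho x⁻¹ e := fun x => opOf_dl _ x
  have hi : adjoint V * V = 1 := opOf_isometry ho
  have hVc : Cmm rhoH V := by
    intro y
    apply op_ext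
    intro x
    rw [mul_ap, mul_ap, rhoH_apply, rho_dl, hVdl, hVdl, mul_inv_rev, inv_inv, rho_mul]
    rfl
  have hf := regRep_rho.finite hVc hi
  have hαV : ∀ g, α g * V = (χ g : ℂ) • (V * lam (δ g)) := by
    intro g
    apply op_ext
    intro x
    change α g (V (dl x)) = (χ g : ℂ) • V (lam (δ g) (dl x))
    rw [hVdl, hα.apply_comm, hδ, lam_dl, hVdl, map_smul, mul_inv_rev, rho_mul]
    rfl
  have hαf : ∀ g, α g = (χ g : ℂ) • (V * lam (δ g) * adjoint V) := by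
    intro g
    calc α g = α g * (V * adjoint V) := by rw [hf, mul_one]
      _ = (α g * V) * adjoint V := by rw [mul_assoc]
      _ = _ := by rw [hαV, smul_mul_assoc]
  have hV1 : ∀ v : Ell2 Λ, adjoint V (V v) = v := fun v =>
    congrArg (fun L : Ell2 Λ →L[ℂ] Ell2 Λ => L v) hi
  have hkey : ∀ g h, (χ (g * h) : ℂ) • (dl (δ (g * h)) : Ell2 Λ) =
      ((χ g : ℂ) * (χ h : ℂ)) • dl (δ g * δ h) := by
    intro g h
    have h1 : (α (g * h) * V) (dl 1) = (α g * (α h * V)) (dl 1) := by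
      rw [map_mul, mul_assoc]
    rw [hαV, hαV] at h1
    have h2 : (α g * ((χ h : ℂ) • (V * lam (δ h)))) (dl 1) =
        ((χ h : ℂ) • ((α g * V) * lam (δ h))) (dl 1) := by
      rw [mul_smul_comm, mul_assoc]
    rw [h2, hαV] at h1
    have h3 : (χ (g * h) : ℂ) • V (lam (δ (g * h)) (dl 1)) =
        (χ h : ℂ) • (χ g : ℂ) • V (lam (δ g) (lam (δ h) (dl 1))) := h1
    have h4 := congrArg (adjoint V) h3
    rw [map_smul, map_smul, map_smul, hV1, hV1, lam_dl, lam_dl, lam_dl, mul_one, mul_one,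
      smul_smul, mul_comm (χ h : ℂ)] at h4
    exact h4
  have hδm : ∀ g h, δ (g * h) = δ g * δ h := by
    intro g h
    by_contra hne
    have h1 := congrArg (fun u : Ell2 Λ => u (δ (g * h))) (hkey g h)
    change (χ (g * h) : ℂ) * (dl (δ (g * h)) : Ell2 Λ) (δ (g * h)) =
      ((χ g : ℂ) * (χ h : ℂ)) * (dl (δ g * δ h) : Ell2 Λ) (δ (g * h)) at h1
    rw [dl_self, dl_ne hne, mul_one, mul_zero] at h1
    exact (Circle.coe_ne_zero _) h1
  have hχm : ∀ g h, χ (g * h) = χ g * χ h := by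
    intro g h
    have h1 := congrArg (fun u : Ell2 Λ => u (δ (g * h))) (hkey g h)
    change (χ (g * h) : ℂ) * (dl (δ (g * h)) : Ell2 Λ) (δ (g * h)) =
      ((χ g : ℂ) * (χ h : ℂ)) * (dl (δ g * δ h) : Ell2 Λ) (δ (g * h)) at h1
    rw [← hδm, dl_self, mul_one, mul_one] at h1
    exact Circle.ext (by rw [Circle.coe_mul]; exact h1)
  exact ⟨V, MulEquiv.ofBijective (MonoidHom.mk' δ hδm) hbijδ,
    MonoidHom.mk' χ hχm, hVc, hi, hf, hαf⟩

/-- **A-FIN**: if `Can` holds for the picture of `θ` then `θ` is canonical. -/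
theorem canonical_of_can
    (hΓ : ∀ g : Γ, g ≠ 1 → Set.Infinite {y : Γ | ∃ h, y = h * g * h⁻¹}) (θ : St.StarIso Γ Λ)
    (h : Can (picF (frame_of_iso hΓ (toAlg θ)))) : St.Canonical θ :=
  canonical_iff θ (canonical_of_form _ (form_of_can _ h))

/-- The same, for all pictures at once. -/
theorem canonical_of_pics
    (hΓ : ∀ g : Γ, g ≠ 1 → Set.Infinite {y : Γ | ∃ h, y = h * g * h⁻¹})
    (H : ∀ {K : Type} [NormedAddCommGroup K] [InnerProductSpace ℂ K] [CompleteSpace K]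
      (D : Pic Γ Λ K), Can D) (θ : St.StarIso Γ Λ) : St.Canonical θ :=
  canonical_of_can hΓ θ (H _)

end iso

end Vale.Agent.P092.H714.Fin
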