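import Vale.Agent.P092.H328.TopA
import Vale.Agent.P092.PA.FacInst
import Vale.Agent.P092.H264.S2Sl
import Vale.Agent.P092.H515.RkFin
import Vale.Agent.P092.H714.Fin2
import Vale.Agent.P092.SR.St

/-!
P092, block A-CLASS (helper714): the class `Fct` of factors, and the theorem for irreducible lattices
in products of two factors of the class, given the abstract blocks.
-/

set_option linter.all false

open MeasureTheory Filter Topology ContinuousLinearMap
open scoped InnerProductSpace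

namespace Vale.Agent.P092.H714.TF

open Vale.Agent.P092.PA (Pic NeS Can Blocks FacS)
open Vale.Agent.P092.H259 (Cf PQ pq p₁ p₂ GrpOut grpOut cf_SL)
open Vale.Agent.P092.H264 (S2Asm Chn s2_one s2_two nes_of)
open Vale.Agent.P092.H933 (LocK HoweMoore)
open Vale.Agent.P092.H515 (Src Tgt)

/-- The class of factors: locally compact groups of rank `r` with all the facts which are used. -/
structure Fct (E : Type) [Group E] [TopologicalSpace E] (r : ℕ) : Prop where
  top : IsTopologicalGroup E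
  lc : LocallyCompactSpace E
  sc : SecondCountableTopology E
  t2 : T2Space E
  cf : Cf E
  fac : FacS (PQ E)
  hm : HoweMoore E
  chn : Chn E r
  tgt : Tgt E r
  pos : 1 ≤ r

namespace Fct

variable {E : Type} [Group E] [TopologicalSpace E] {r : ℕ}

theorem src (h : Fct E r) : Src E r where
  top := h.top
  lc := h.lc
  sc := h.sc
  t2 := h.t2
  chain := by
    obtain ⟨C, -⟩ := h.chn
    exact ⟨C⟩

theorem nontrivial (h : Fct E r) : Nontrivial E := by
  by_contra hn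
  rw [not_nontrivial_iff_subsingleton] at hn
  refine h.fac.nc ⟨?_⟩
  have : (Set.univ : Set (PQ E)).Subsingleton := by
    intro x _ y _
    obtain ⟨x, rfl⟩ := QuotientGroup.mk'_surjective (Subgroup.center E) x
    obtain ⟨y, rfl⟩ := QuotientGroup.mk'_surjective (Subgroup.center E) y
    rw [Subsingleton.elim x y]
  exact this.isCompact

end Fct

/-- `SL_{m+1}(k)` is a factor of rank `m`. -/
theorem fct_sl {k : Type} [NontriviallyNormedField k] [ProperSpace k] (hk : LocK k) {m : ℕ}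
    (hm : 1 ≤ m) : Fct (Matrix.SpecialLinearGroup (Fin (m + 1)) k) m where
  top := inferInstance
  lc := H303.locallyCompact_SL
  sc := H303.secondCountable_SL
  t2 := PA.t2_SL
  cf := cf_SL _ _
  fac := PA.facS_psl hk (by omega)
  hm := H933.hm_sl hk (by omega)
  chn := H264.chn_sl k m
  tgt := H933.tgt_sl_loc hk m
  pos := hm

/-- The rank inequality, for a picture. -/
theorem rank_le {E G : Type} [Group E] [TopologicalSpace E] [Group G] [TopologicalSpace G]
    [IsTopologicalGroup G] [T2Space G] {m r : ℕ} (hE : Src E m) (hG : Tgt G r) {Γ : Subgroup E}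
    {Λ : Subgroup G} (hΓ : H515.IsLattice Γ) (hΛ : DiscreteTopology Λ)
    {K : Type} [NormedAddCommGroup K] [InnerProductSpace ℂ K] [CompleteSpace K]
    (D : Pic Γ Λ K) : m ≤ r := by
  by_contra hlt
  push Not at hlt
  exact H515.no_arep hE hG hlt hΛ hΓ (MonoidHom.id Λ) (MonoidHom.id Γ) Function.injective_id
    (by rw [MonoidHom.range_eq_top.2 Function.surjective_id]; infer_instance)
    Function.injective_id _ _ _ (H264.arep (H714.Fin.swp D).frm)

section two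

variable {E₁ E₂ F₁ F₂ : Type} [Group E₁] [TopologicalSpace E₁] [Group E₂] [TopologicalSpace E₂]
  [Group F₁] [TopologicalSpace F₁] [Group F₂] [TopologicalSpace F₂] {m₁ m₂ n₁ n₂ : ℕ}
  {K : Type} [NormedAddCommGroup K] [InnerProductSpace ℂ K] [CompleteSpace K]

/-- The theorem for a picture of two lattices. -/
theorem can_fct (B : Blocks FacS) (hS : S2Asm) (hE₁ : Fct E₁ m₁) (hE₂ : Fct E₂ m₂)
    (hF₁ : Fct F₁ n₁) (hF₂ : Fct F₂ n₂)
    (Γ : Subgroup (E₁ × E₂)) (Λ : Subgroup (F₁ × F₂))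
    (hΓ : H515.St.IsLattice Γ) (hΛ : H515.St.IsLattice Λ) (iΓ : PA.Icc Γ) (iΛ : PA.Icc Λ)
    (dΓ₁ : DenseRange fun γ : Γ => (γ : E₁ × E₂).1) (dΓ₂ : DenseRange fun γ : Γ => (γ : E₁ × E₂).2)
    (dΛ₁ : DenseRange fun γ : Λ => (γ : F₁ × F₂).1) (dΛ₂ : DenseRange fun γ : Λ => (γ : F₁ × F₂).2)
    (D : Pic Γ Λ K) : Can D := by
  haveI := hE₁.top
  haveI := hE₁.lc
  haveI := hE₁.sc
  haveI := hE₁.t2
  haveI := hE₂.top
  haveI := hE₂.lc
  haveI := hE₂.sc
  haveI := hE₂.t2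
  haveI := hF₁.top
  haveI := hF₁.lc
  haveI := hF₁.sc
  haveI := hF₁.t2
  haveI := hF₂.top
  haveI := hF₂.lc
  haveI := hF₂.sc
  haveI := hF₂.t2
  have hr : m₁ + m₂ ≤ n₁ + n₂ :=
    rank_le (hE₁.src.prod hE₂.src) (hF₁.tgt.prod hF₂.tgt) ⟨hΓ.disc, hΓ.covol⟩ hΛ.disc D
  borelize (PQ E₁) (PQ E₂)
  haveI := hE₁.fac.isMulRightInvariant (Measure.haar : Measure (PQ E₁))
  haveI := hE₂.fac.isMulRightInvariant (Measure.haar : Measure (PQ E₂))
  have hdΓ := hΓ.disc
  have hcΓ : Countable Γ := H790.countable_of_discrete Γ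
  have hφ : ∀ C : Set (E₁ × E₂), IsCompact C → {x | Γ.subtype x ∈ C}.Finite :=
    fun C hC => H515.finite_of_compact Γ hC
  have s₁ := s2_one (Measure.haar : Measure (PQ E₁)) (Measure.haar : Measure (PQ E₂)) hS
    (Λ := Λ) ⟨hΛ.disc, hΛ.covol⟩ D.frm hF₁.chn hF₂.chn hF₂.pos hF₂.hm hE₁.tgt hE₂.tgt hr
    Γ.subtype hφ (QuotientGroup.mk' (Subgroup.center E₁)) continuous_quotient_mk'
    (QuotientGroup.mk' (Subgroup.center E₂)) continuous_quotient_mk'
  have s₂ := s2_two (Measure.haar : Measure (PQ E₁)) (Measure.haar : Measure (PQ E₂)) hS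
    (Λ := Λ) ⟨hΛ.disc, hΛ.covol⟩ D.frm hF₂.chn hF₁.chn hF₁.pos hF₁.hm hE₁.tgt hE₂.tgt
    (by omega)
    Γ.subtype hφ (QuotientGroup.mk' (Subgroup.center E₁)) continuous_quotient_mk'
    (QuotientGroup.mk' (Subgroup.center E₂)) continuous_quotient_mk'
  have nΓ : ∃ v : Γ, v ≠ 1 := by
    haveI := hE₁.nontrivial
    exact H259.exists_ne_one (q := (MonoidHom.fst _ _).comp Γ.subtype) dΓ₁
  have nΛ : ∃ v : Λ, v ≠ 1 := by
    haveI := hF₁.nontrivial
    exact H259.exists_ne_one (q := (MonoidHom.fst _ _).comp Λ.subtype) dΛ₁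
  exact H328.can_abs B hE₁.cf hE₂.cf hF₁.cf hF₂.cf hE₁.fac hE₂.fac hF₁.fac hF₂.fac Γ Λ hΓ hΛ iΓ iΛ
    nΓ nΛ dΓ₁ dΓ₂ dΛ₁ dΛ₂ D _ _ (s₁.imp nes_of nes_of) (s₂.imp nes_of nes_of)

/-- The theorem for a picture of two abstract groups embedded as irreducible lattices. -/
theorem can_irr (B : Blocks FacS) (hS : S2Asm) (hE₁ : Fct E₁ m₁) (hE₂ : Fct E₂ m₂)
    (hF₁ : Fct F₁ n₁) (hF₂ : Fct F₂ n₂) {Γ Λ : Type} [Group Γ] [Group Λ]
    (i : Γ →* E₁ × E₂) (j : Λ →* F₁ × F₂)
    (hi : SR.St.IrrLattice i) (hj : SR.St.IrrLattice j) (iΓ : PA.Icc Γ) (iΛ : PA.Icc Λ)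
    (D : Pic Γ Λ K) : Can D := by
  have e : i.range ≃* Γ := (MonoidHom.ofInjective hi.inj).symm
  have f : j.range ≃* Λ := (MonoidHom.ofInjective hj.inj).symm
  have key : ∀ {X Y Z : Type} [Group X] [Group Y] [TopologicalSpace Z] (φ : X →* Y) (π : Y → Z),
      DenseRange (fun x => π (φ x)) → DenseRange fun γ : φ.range => π γ := by
    intro X Y Z _ _ _ φ π h
    have h1 : Set.range (fun x => π (φ x)) ⊆ Set.range fun γ : φ.range => π γ := by
      rintro _ ⟨x, rfl⟩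
      exact ⟨⟨φ x, x, rfl⟩, rfl⟩
    exact h.mono h1
  exact H328.can_comap D e f (can_fct B hS hE₁ hE₂ hF₁ hF₂ i.range j.range hi.lat hj.lat
    (H328.icc_equiv e iΓ) (H328.icc_equiv f iΛ) (key i Prod.fst hi.dense₁)
    (key i Prod.snd hi.dense₂) (key j Prod.fst hj.dense₁) (key j Prod.snd hj.dense₂) _)

/-- **The theorem, given the abstract blocks**: every isomorphism is canonical. -/
theorem canonical_fct (B : Blocks FacS) (hS : S2Asm) (hE₁ : Fct E₁ m₁) (hE₂ : Fct E₂ m₂)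
    (hF₁ : Fct F₁ n₁) (hF₂ : Fct F₂ n₂) {Γ Λ : Type} [Group Γ] [Group Λ]
    (i : Γ →* E₁ × E₂) (j : Λ →* F₁ × F₂)
    (hi : SR.St.IrrLattice i) (hj : SR.St.IrrLattice j) (iΓ : PA.Icc Γ) (iΛ : PA.Icc Λ)
    (θ : H160.St.StarIso Γ Λ) : H160.St.Canonical θ :=
  H714.Fin.canonical_of_pics iΓ (fun {K} _ _ _ D => can_irr B hS hE₁ hE₂ hF₁ hF₂ i j hi hj iΓ iΛ D)
    θ

end two

end Vale.Agent.P092.H714.TF
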