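import Vale.Agent.P092.H714.Cl5
import Vale.Agent.P092.H714.TopF
import Vale.Agent.P092.H515.Witt

/-!
P092, block A-CLASS (helper714), part 6: the forms `hyp q ε J₀`, and the class `Fct` for their
groups.
-/

set_option linter.all false

open Matrix Filter Topology

namespace Vale.Agent.P092.H714.Cl

open Vale.Agent.P092.H303 (FormGroup hyp Idx)
open Vale.Agent.P092.H933 (LocK)

section alg

variable {ι : Type} [Fintype ι] [DecidableEq ι] {k : Type} [Field k]
  {σ : k →+* k} {ε : k} {J₀ : Matrix ι ι k} {q : ℕ}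

/-- The form of `hyp q ε J₀`. -/
theorem hf_hyp (x y : Idx q ι → k) : hf σ (hyp q ε J₀) x y =
    (∑ i : Fin q, x (.inl (.inl i)) * σ (y (.inl (.inr i)))) +
      ε * (∑ i : Fin q, x (.inl (.inr i)) * σ (y (.inl (.inl i)))) +
      hf σ J₀ (fun i => x (.inr i)) (fun i => y (.inr i)) := by
  unfold hf hyp
  rw [dotProduct, Fintype.sum_sum_type, Fintype.sum_sum_type]
  congr 1
  congr 1
  · refine Finset.sum_congr rfl fun i _ => ?_
    congr 1
    simp [mulVec, dotProduct, Fintype.sum_sum_type, Matrix.one_apply]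
  · rw [Finset.mul_sum]
    refine Finset.sum_congr rfl fun i _ => ?_
    rw [mul_left_comm]
    congr 1
    simp [mulVec, dotProduct, Fintype.sum_sum_type, Matrix.one_apply]
  · unfold dotProduct
    refine Finset.sum_congr rfl fun i _ => ?_
    congr 1
    simp [mulVec, dotProduct, Fintype.sum_sum_type]

/-- The properties of the form on the rest. -/
structure Frm0 (σ : k →+* k) (ε : k) (J₀ : Matrix ι ι k) : Prop where
  herm : ∀ x y, hf σ J₀ y x = ε * σ (hf σ J₀ x y)
  nondeg : ∀ x, x ≠ 0 → ∃ y, hf σ J₀ x y ≠ 0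
  tv : ∀ y, ∃ β, hf σ J₀ y y = β + ε * σ β

theorem frm0_empty [IsEmpty ι] : Frm0 σ ε J₀ where
  herm x y := by
    have e : ∀ x y, hf σ J₀ x y = 0 := fun x y => by unfold hf; simp [dotProduct]
    rw [e, e, map_zero, mul_zero]
  nondeg x hx := (hx (Subsingleton.elim _ _)).elim
  tv y := ⟨0, by unfold hf; simp [dotProduct]⟩

/-- The form `hyp q ε J₀` has all the properties. -/
theorem frm_hyp (hinv : ∀ x, σ (σ x) = x) (heps : ε * ε = 1) (hseps : σ ε = ε)
    (h0 : Frm0 σ ε J₀) (hcc : ∃ c : k, c ≠ 0 ∧ c + ε * σ c = 0) (hq : 1 ≤ q) :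
    Frm σ ε (hyp q ε J₀) where
  inv := hinv
  eps := heps
  seps := hseps
  herm x y := by
    rw [hf_hyp, hf_hyp, h0.herm (fun i => x (.inr i)) fun i => y (.inr i)]
    simp only [map_add, map_mul, map_sum, hinv, hseps]
    have e1 : ∀ (a b : Fin q → k), ∑ i, σ (a i) * b i = ∑ i, b i * σ (a i) := fun a b =>
      Finset.sum_congr rfl fun i _ => mul_comm _ _
    rw [e1, e1]
    linear_combination -(∑ i : Fin q, y (.inl (.inl i)) * σ (x (.inl (.inr i)))) * heps
  nondeg x hx := by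
    obtain ⟨p, hp⟩ := Function.ne_iff.1 hx
    rcases p with (i | i) | i
    · refine ⟨Pi.single (.inl (.inr i)) 1, ?_⟩
      rw [hf_hyp]
      have e1 : ∀ j : Fin q, (Pi.single (.inl (.inr i)) (1 : k) : Idx q ι → k) (.inl (.inl j)) = 0 :=
        fun j => Pi.single_eq_of_ne (by simp) _
      have e2 : (fun j => (Pi.single (.inl (.inr i)) (1 : k) : Idx q ι → k) (.inr j)) = 0 :=
        funext fun j => Pi.single_eq_of_ne (by simp) _
      have e3 : ∀ j : Fin q, (Pi.single (.inl (.inr i)) (1 : k) : Idx q ι → k) (.inl (.inr j)) =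
          if j = i then 1 else 0 := by
        intro j
        by_cases h : j = i
        · subst h; simp
        · rw [if_neg h]; exact Pi.single_eq_of_ne (by simpa using h) _
      rw [e2, hf_zero_right]
      simp only [e1, e3, map_zero, mul_zero, Finset.sum_const_zero, add_zero]
      rw [Finset.sum_eq_single i (fun j _ hj => by simp [hj]) (by simp)]
      simpa using hp
    · refine ⟨Pi.single (.inl (.inl i)) 1, ?_⟩
      rw [hf_hyp]
      have e1 : ∀ j : Fin q, (Pi.single (.inl (.inl i)) (1 : k) : Idx q ι → k) (.inl (.inr j)) = 0 :=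
        fun j => Pi.single_eq_of_ne (by simp) _
      have e2 : (fun j => (Pi.single (.inl (.inl i)) (1 : k) : Idx q ι → k) (.inr j)) = 0 :=
        funext fun j => Pi.single_eq_of_ne (by simp) _
      have e3 : ∀ j : Fin q, (Pi.single (.inl (.inl i)) (1 : k) : Idx q ι → k) (.inl (.inl j)) =
          if j = i then 1 else 0 := by
        intro j
        by_cases h : j = i
        · subst h; simp
        · rw [if_neg h]; exact Pi.single_eq_of_ne (by simpa using h) _
      rw [e2, hf_zero_right]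
      simp only [e1, e3, map_zero, mul_zero, Finset.sum_const_zero, add_zero, zero_add]
      rw [Finset.sum_eq_single i (fun j _ hj => by simp [hj]) (by simp)]
      have he : ε ≠ 0 := by
        rintro rfl
        rw [mul_zero] at heps
        exact zero_ne_one heps
      simpa using ⟨he, hp⟩
    · obtain ⟨y, hy⟩ := h0.nondeg (fun j => x (.inr j)) fun h => hp (congrFun h i)
      refine ⟨Sum.elim 0 y, ?_⟩
      rw [hf_hyp]
      simpa using hy
  tv y := by
    obtain ⟨β, hβ⟩ := h0.tv fun i => y (.inr i)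
    refine ⟨(∑ i : Fin q, y (.inl (.inl i)) * σ (y (.inl (.inr i)))) + β, ?_⟩
    rw [hf_hyp, hβ]
    simp only [map_add, map_mul, map_sum, hinv]
    have e1 : ∑ i : Fin q, σ (y (.inl (.inl i))) * y (.inl (.inr i)) =
        ∑ i : Fin q, y (.inl (.inr i)) * σ (y (.inl (.inl i))) :=
      Finset.sum_congr rfl fun i _ => mul_comm _ _
    rw [e1]
    ring
  iso := by
    refine ⟨Pi.single (.inl (.inl ⟨0, hq⟩)) 1, ?_, ?_⟩
    · intro h
      have := congrFun h (.inl (.inl ⟨0, hq⟩))
      simp at this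
    · rw [hf_hyp]
      have e1 : ∀ j : Fin q, (Pi.single (.inl (.inl ⟨0, hq⟩)) (1 : k) : Idx q ι → k)
          (.inl (.inr j)) = 0 := fun j => Pi.single_eq_of_ne (by simp) _
      have e2 : (fun j => (Pi.single (.inl (.inl ⟨0, hq⟩)) (1 : k) : Idx q ι → k) (.inr j)) = 0 :=
        funext fun j => Pi.single_eq_of_ne (by simp) _
      rw [e2, hf_zero_right]
      simp only [e1, map_zero, mul_zero, zero_mul, Finset.sum_const_zero, add_zero]
  cc := hcc

end alg

section top

variable {ι : Type} [Fintype ι] [DecidableEq ι] {k : Type} [NontriviallyNormedField k]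
  {σ : k →+* k} {ε : k} {J₀ : Matrix ι ι k} {q : ℕ}

theorem tendsto_cocompact_of {E : Type*} [TopologicalSpace E] {f : E → ℝ} (hf : Continuous f)
    {b : ℕ → E} (h : Tendsto (fun N => f (b N)) atTop atTop) : Tendsto b atTop (cocompact E) := by
  rw [hasBasis_cocompact.tendsto_right_iff]
  intro K hK
  obtain ⟨C, hC⟩ := (hK.image hf).bddAbove
  filter_upwards [h.eventually_gt_atTop C] with N hN
  intro hm
  exact absurd (hC ⟨b N, hm, rfl⟩) (not_le.2 hN)

/-- The chain of the group of a form. -/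
theorem chn_form [ProperSpace k] (hσ : ∀ x, ‖σ x‖ = ‖x‖) (hinv : ∀ x, σ (σ x) = x)
    (heps : ε * ε = 1) (hseps : σ ε = ε) :
    H264.Chn (FormGroup σ (hyp (q + 2) ε J₀)) (q + 2) := by
  let _ : MeasurableSpace (FormGroup σ (hyp (q + 2) ε J₀)) := borel _
  have _ : BorelSpace (FormGroup σ (hyp (q + 2) ε J₀)) := ⟨rfl⟩
  obtain ⟨x, hx⟩ := NormedField.exists_one_lt_norm k
  have hw1 : 1 < ‖x * σ x‖ := by
    rw [norm_mul, hσ]
    nlinarith
  have hσw : σ (x * σ x) = x * σ x := by rw [map_mul, hinv, mul_comm]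
  refine ⟨H303.formChain q J₀ (continuous_of_norm hσ) hinv heps hseps hw1 hσw, fun hn => ?_⟩
  have hw : x * σ x ≠ 0 := norm_pos_iff.mp (lt_trans one_pos hw1)
  have hcont : Continuous fun g : FormGroup σ (hyp (q + 2) ε J₀) =>
      ‖g.1.1 (H303.ra q ι ⟨0, hn⟩) (H303.ra q ι ⟨0, hn⟩)‖ := by
    have h : Continuous fun x : FormGroup σ (hyp (q + 2) ε J₀) => x.1.1 :=
      continuous_subtype_val.comp continuous_subtype_val
    exact (((continuous_apply _).comp ((continuous_apply _).comp h))).norm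
  refine tendsto_cocompact_of hcont ?_
  obtain ⟨e, e1, -, -⟩ := H303.dg_ratio (ι := ι) q (x * σ x) ⟨0, hn⟩
  have key : ∀ N : ℕ, ‖((H303.formChain q J₀ (continuous_of_norm hσ) hinv heps hseps hw1 hσw).b
      ⟨0, hn⟩ N).1.1 (H303.ra q ι ⟨0, hn⟩) (H303.ra q ι ⟨0, hn⟩)‖ = ‖x * σ x‖ ^ N := by
    intro N
    have h1 := H303.torF_pow_row (q + 2) hw (H303.lam q ⟨0, hn⟩) (H303.ra q ι ⟨0, hn⟩) N
      (1 : SpecialLinearGroup (Idx (q + 2) ι) k)
    rw [mul_one, e1] at h1
    have h2 := congrFun h1 (H303.ra q ι ⟨0, hn⟩)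
    change ‖(H303.torF (q + 2) ι hw (H303.lam q ⟨0, hn⟩) ^ N).1 _ _‖ = _
    rw [h2]
    change ‖(x * σ x) ^ N * (1 : Matrix (Idx (q + 2) ι) (Idx (q + 2) ι) k) _ _‖ = _
    rw [Matrix.one_apply_eq, mul_one, norm_pow]
  simp only [key]
  exact tendsto_pow_atTop_atTop_of_one_lt hw1

/-- **The group of a form of Witt index `q ≥ 2` is in the class**, if it is generated by transvections
and has the Howe–Moore property. -/
theorem fct_form [ProperSpace k] (hk : LocK k) (hσ : ∀ x, ‖σ x‖ = ‖x‖)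
    (hinv : ∀ x, σ (σ x) = x) (heps : ε * ε = 1) (hseps : σ ε = ε) (h0 : Frm0 σ ε J₀)
    (hcc : ∃ c : k, c ≠ 0 ∧ c + ε * σ c = 0) (hq : 2 ≤ q)
    (hJ : ∀ v : ι → k, v ≠ 0 → v ⬝ᵥ (J₀ *ᵥ fun l => σ (v l)) ≠ 0)
    (hG : FormGroup σ (hyp q ε J₀) = GT σ ε (hyp q ε J₀))
    (hm : H933.HoweMoore (FormGroup σ (hyp q ε J₀))) :
    TF.Fct (FormGroup σ (hyp q ε J₀)) q := by
  have hF : Frm σ ε (hyp q ε J₀) := frm_hyp hinv heps hseps h0 hcc (by omega)
  have hc : IsClosed (FormGroup σ (hyp q ε J₀) : Set (SpecialLinearGroup (Idx q ι) k)) :=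
    H303.isClosed_formGroup (continuous_of_norm hσ) _
  exact
  { top := inferInstance
    lc := lc_G hc
    sc := sc_G
    t2 := t2_G
    cf := cf_G hσ hF hG.ge le_rfl
    fac := facS_G hσ hF hG hc (PA.hm_of_howeMoore hm)
    hm := hm
    chn := by
      obtain ⟨q, rfl⟩ := Nat.exists_eq_add_of_le' hq
      exact chn_form hσ hinv heps hseps
    tgt := H515.tgt_formGroup hk hσ hinv hF.eps_ne hJ
    pos := by omega }

end top

end Vale.Agent.P092.H714.Cl
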