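import Vale.Agent.P092.H15.Sp
import Vale.Agent.P092.H455.Hm1

/-!
P092, Team P, block P-HM (helper714): Moore sets of the symplectic groups.
-/

set_option linter.all false

open Matrix Filter Topology

namespace Vale.Agent.P092.H714.Sp

open Vale.Agent.P092.RC (Moore)
open Vale.Agent.P092.H15 (HMG Alt)
open Vale.Agent.P092.H933 (URep)
open Vale.Agent.P092.H303 (FormGroup)

section abs

variable {G : Type} [Group G] [TopologicalSpace G] [IsTopologicalGroup G]

/-- **Unbounded sets are Moore sets** in groups with the group form of the Howe–Moore property. -/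
theorem moore_of_tendsto (h : HMG G) {S : Set G} {ι : Type*} {l : Filter ι} [l.NeBot] {b : ι → G}
    (hb : Tendsto b l (cocompact G)) (hS : ∀ᶠ i in l, b i ∈ S) : Moore S := by
  intro 𝓗 _ _ _ u h1 h2 ξ hξ g
  have hσ : URep u := ⟨h1, fun ξ => by
    have := (h2 ξ).tendsto 1
    rwa [map_one] at this⟩
  obtain ⟨U, hU⟩ := Ultrafilter.exists_le l
  refine h.fixed hσ U (hb.mono_left hU) (tendsto_const_nhds (x := ξ)) (fun η => ?_) g
  refine tendsto_const_nhds.congr' ?_
  filter_upwards [hU hS] with i hi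
  rw [hξ _ hi]

/-- A continuous function which is unbounded along a filter. -/
theorem tendsto_cocompact_of {ι : Type*} {l : Filter ι} {b : ι → G} {f : G → ℝ} (hf : Continuous f)
    (hb : Tendsto (fun i => f (b i)) l atTop) : Tendsto b l (cocompact G) := by
  rw [hasBasis_cocompact.tendsto_right_iff]
  intro C hC
  obtain ⟨M, hM⟩ := (hC.image hf).bddAbove
  filter_upwards [hb.eventually_gt_atTop M] with i hi hmem
  have h1 : f (b i) ≤ M := hM ⟨_, hmem, rfl⟩
  linarith

end abs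

section alg

variable {n : Type} [Fintype n] [DecidableEq n] {k : Type} [Field k]

/-- The bilinear form of a matrix. -/
def om (K : Matrix n n k) (x y : n → k) : k := x ⬝ᵥ (K *ᵥ y)

theorem om_eq (K : Matrix n n k) (x y : n → k) : om K x y = (x ᵥ* K) ⬝ᵥ y := by
  rw [om, dotProduct_mulVec]

/-- The isometry group of a form, acting on columns. -/
def SpG (K : Matrix n n k) : Subgroup (SpecialLinearGroup n k) where
  carrier := {g | g.1ᵀ * K * g.1 = K}
  one_mem' := by
    show (1 : Matrix n n k)ᵀ * K * 1 = K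
    rw [transpose_one, Matrix.one_mul, Matrix.mul_one]
  mul_mem' := by
    intro g h hg hh
    have hg' : g.1ᵀ * K * g.1 = K := hg
    have hh' : h.1ᵀ * K * h.1 = K := hh
    show (g.1 * h.1)ᵀ * K * (g.1 * h.1) = K
    rw [transpose_mul]
    calc h.1ᵀ * g.1ᵀ * K * (g.1 * h.1) = h.1ᵀ * (g.1ᵀ * K * g.1) * h.1 := by
          simp only [Matrix.mul_assoc]
      _ = K := by rw [hg', hh']
  inv_mem' := by
    intro g hg
    have hg' : g.1ᵀ * K * g.1 = K := hg
    have h1 : g.1 * (g⁻¹).1 = 1 := congrArg Subtype.val (mul_inv_cancel g)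
    have h2 : (g⁻¹).1ᵀ * g.1ᵀ = 1 := by rw [← transpose_mul, h1, transpose_one]
    show (g⁻¹).1ᵀ * K * (g⁻¹).1 = K
    calc (g⁻¹).1ᵀ * K * (g⁻¹).1 = (g⁻¹).1ᵀ * (g.1ᵀ * K * g.1) * (g⁻¹).1 := by rw [hg']
      _ = ((g⁻¹).1ᵀ * g.1ᵀ) * K * (g.1 * (g⁻¹).1) := by simp only [Matrix.mul_assoc]
      _ = K := by rw [h1, h2, Matrix.one_mul, Matrix.mul_one]

variable {K : Matrix n n k}

theorem mem_SpG {g : SpecialLinearGroup n k} : g ∈ SpG K ↔ g.1ᵀ * K * g.1 = K := Iff.rfl

theorem SpG_eq (hK : IsUnit K.det) : SpG K = FormGroup (RingHom.id k) K⁻¹ := by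
  have h1 : K * K⁻¹ = 1 := mul_nonsing_inv K hK
  have h2 : K⁻¹ * K = 1 := nonsing_inv_mul K hK
  ext g
  rw [H303.mem_formGroup]
  have e : (g.1.map (RingHom.id k))ᵀ = g.1ᵀ := by
    ext i j
    rfl
  rw [e]
  constructor
  · intro h
    have h' : g.1ᵀ * K * g.1 = K := h
    have h3 : K⁻¹ * (g.1ᵀ * K * g.1) = 1 := by rw [h', h2]
    have h4 : (K⁻¹ * g.1ᵀ * K) * g.1 = 1 := by
      rw [← h3]; simp only [Matrix.mul_assoc]
    have h5 : g.1 * (K⁻¹ * g.1ᵀ * K) = 1 := mul_eq_one_comm.1 h4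
    calc g.1 * K⁻¹ * g.1ᵀ = (g.1 * (K⁻¹ * g.1ᵀ * K)) * K⁻¹ := by
          simp only [Matrix.mul_assoc, h1, Matrix.mul_one]
      _ = K⁻¹ := by rw [h5, Matrix.one_mul]
  · intro h
    have h3 : (g.1 * K⁻¹ * g.1ᵀ) * K = 1 := by rw [h, h2]
    have h4 : g.1 * (K⁻¹ * g.1ᵀ * K) = 1 := by
      rw [← h3]; simp only [Matrix.mul_assoc]
    have h5 : (K⁻¹ * g.1ᵀ * K) * g.1 = 1 := mul_eq_one_comm.1 h4
    show g.1ᵀ * K * g.1 = K
    calc g.1ᵀ * K * g.1 = (K * K⁻¹) * (g.1ᵀ * K * g.1) := by rw [h1, Matrix.one_mul]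
      _ = K * ((K⁻¹ * g.1ᵀ * K) * g.1) := by simp only [Matrix.mul_assoc]
      _ = K := by rw [h5, Matrix.mul_one]

theorem om_smul {g : SpecialLinearGroup n k} (hg : g ∈ SpG K) (x y : n → k) :
    om K (g.1 *ᵥ x) (g.1 *ᵥ y) = om K x y := by
  have h : g.1ᵀ * K * g.1 = K := hg
  unfold om
  calc (g.1 *ᵥ x) ⬝ᵥ (K *ᵥ (g.1 *ᵥ y)) = x ⬝ᵥ (g.1ᵀ *ᵥ (K *ᵥ (g.1 *ᵥ y))) := by
        rw [dotProduct_mulVec x, vecMul_transpose]
    _ = x ⬝ᵥ ((g.1ᵀ * K * g.1) *ᵥ y) := by simp only [mulVec_mulVec, Matrix.mul_assoc]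
    _ = x ⬝ᵥ (K *ᵥ y) := by rw [h]

/-- The matrix of the transvection `x ↦ x + s ω(u, x) u`. -/
def trM (K : Matrix n n k) (u : n → k) (s : k) : Matrix n n k := 1 + vecMulVec u (s • (u ᵥ* K))

theorem trM_mulVec (u x : n → k) (s : k) : trM K u s *ᵥ x = x + (s * om K u x) • u := by
  rw [trM, add_mulVec, one_mulVec, vecMulVec_mulVec, op_smul_eq_smul, smul_dotProduct, om_eq,
    smul_eq_mul]

theorem trM_zero (u : n → k) : trM K u 0 = 1 := by
  rw [trM, zero_smul, vecMulVec_zero, add_zero]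

theorem om_self (hK : Alt K) (u : n → k) : om K u u = 0 := by
  have := hK.hf_self u
  rw [H15.hf_id] at this
  exact this

theorem vecMul_skew (hK : Alt K) (u : n → k) : u ᵥ* K = -(K *ᵥ u) := by
  have e : K = -Kᵀ := by
    ext i j
    rw [Matrix.neg_apply, transpose_apply, hK.skew i j, neg_neg]
  conv_lhs => rw [e]
  rw [vecMul_neg, vecMul_transpose]

theorem om_skew (hK : Alt K) (x y : n → k) : om K y x = -om K x y := by
  rw [om_eq, vecMul_skew hK, neg_dotProduct, dotProduct_comm]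
  rfl

theorem det_trM (hK : Alt K) (u : n → k) (s : k) : (trM K u s).det = 1 := by
  rw [trM, vecMulVec_eq Unit, det_one_add_replicateCol_mul_replicateRow, smul_dotProduct,
    ← om_eq, om_self hK, smul_zero, add_zero]

theorem trM_iso (hK : Alt K) (u : n → k) (s : k) : (trM K u s)ᵀ * K * trM K u s = K := by
  refine Matrix.ext_of_mulVec_single fun j => ?_
  refine funext fun i => ?_
  have key : ∀ x y : n → k, x ⬝ᵥ (((trM K u s)ᵀ * K * trM K u s) *ᵥ y) = x ⬝ᵥ (K *ᵥ y) := by
    intro x y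
    have h1 : x ⬝ᵥ (((trM K u s)ᵀ * K * trM K u s) *ᵥ y) =
        om K (trM K u s *ᵥ x) (trM K u s *ᵥ y) := by
      unfold om
      rw [← mulVec_mulVec, ← mulVec_mulVec, dotProduct_mulVec x, vecMul_transpose]
    rw [h1, trM_mulVec, trM_mulVec]
    change om K _ _ = om K x y
    unfold om
    simp only [mulVec_add, mulVec_smul, dotProduct_add, add_dotProduct, smul_dotProduct,
      dotProduct_smul, smul_eq_mul]
    have e1 := om_self hK u
    have e2 := om_skew hK u x
    unfold om at e1 e2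
    rw [e1, e2]
    ring
  have := key (Pi.single i 1) (Pi.single j 1)
  rwa [single_one_dotProduct, single_one_dotProduct] at this

/-- The transvection. -/
def tr (hK : Alt K) (u : n → k) (s : k) : SpG K :=
  ⟨⟨trM K u s, det_trM hK u s⟩, trM_iso hK u s⟩

theorem tr_mulVec (hK : Alt K) (u x : n → k) (s : k) :
    (tr hK u s).1.1 *ᵥ x = x + (s * om K u x) • u := trM_mulVec u x s

end alg

section top

variable {n : Type} [Fintype n] [DecidableEq n] {k : Type} [NontriviallyNormedField k]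
  {K : Matrix n n k}

theorem isUnit_det (hK : Alt K) : IsUnit K.det := isUnit_iff_ne_zero.2 hK.det

theorem alt_inv (hK : Alt K) : Alt K⁻¹ := by
  have h1 : K * K⁻¹ = 1 := mul_nonsing_inv K (isUnit_det hK)
  have h2 : K⁻¹ * K = 1 := nonsing_inv_mul K (isUnit_det hK)
  have ht : K.transpose = -K := by
    ext i j
    rw [transpose_apply, Matrix.neg_apply, hK.skew i j]
  have ht' : (K⁻¹).transpose = -K⁻¹ := by
    rw [transpose_nonsing_inv, ht]
    refine Matrix.inv_eq_right_inv ?_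
    rw [neg_mul_neg, h1]
  refine ⟨fun i => ?_, fun i j => ?_, ?_⟩
  · -- the diagonal
    have e : (K⁻¹ i i) = om K (K⁻¹ *ᵥ Pi.single i 1) (K⁻¹ *ᵥ Pi.single i 1) := by
      unfold om
      rw [mulVec_mulVec, h1, one_mulVec, dotProduct_single_one, mulVec_single_one]
      rfl
    rw [e, om_self hK]
  · have := congrFun (congrFun ht' i) j
    rwa [transpose_apply, Matrix.neg_apply] at this
  · intro h0
    have := congrArg Matrix.det h1
    rw [det_mul, h0, mul_zero, det_one] at this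
    exact zero_ne_one this

/-- **Howe–Moore**, group form. -/
theorem hmg [Nonempty n] [ProperSpace k] (hK : Alt K) : HMG (SpG K) := by
  rw [SpG_eq (isUnit_det hK)]
  exact H15.hmg_alt (alt_inv hK)

/-- A family of elements with an unbounded entry. -/
theorem tendsto_of_entry {ι : Type*} {l : Filter ι} {b : ι → SpG K} (x : n → k) (i : n)
    (hb : Tendsto (fun j => ‖((b j).1.1 *ᵥ x) i‖) l atTop) : Tendsto b l (cocompact (SpG K)) := by
  have c0 : Continuous fun g : SpG K => g.1.1 := continuous_subtype_val.comp continuous_subtype_val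
  exact tendsto_cocompact_of (f := fun g : SpG K => ‖(g.1.1 *ᵥ x) i‖)
    ((continuous_apply i).comp (c0.matrix_mulVec continuous_const)).norm hb

theorem exists_om (hK : Alt K) {u : n → k} (hu : u ≠ 0) : ∃ x, om K u x ≠ 0 := by
  by_contra hcon
  push Not at hcon
  have h1 : u ᵥ* K = 0 := by
    funext i
    have := hcon (Pi.single i 1)
    rw [om_eq, dotProduct_single_one] at this
    exact this
  exact hu (Matrix.eq_zero_of_vecMul_eq_zero hK.det h1)

theorem tendsto_tr (hK : Alt K) {u : n → k} (hu : u ≠ 0) :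
    Tendsto (tr hK u) (Bornology.cobounded k) (cocompact (SpG K)) := by
  obtain ⟨x, hx⟩ := exists_om hK hu
  obtain ⟨i, hi⟩ := Function.ne_iff.1 hu
  refine tendsto_of_entry x i ?_
  have h1 : ∀ s, ((tr hK u s).1.1 *ᵥ x) i = x i + s * (om K u x * u i) := fun s => by
    rw [tr_mulVec, Pi.add_apply, Pi.smul_apply, smul_eq_mul, mul_assoc]
  have hc : om K u x * u i ≠ 0 := mul_ne_zero hx hi
  have h2 : Tendsto (fun s : k => ‖s‖ * ‖om K u x * u i‖ - ‖x i‖) (Bornology.cobounded k) atTop := by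
    refine tendsto_atTop_add_const_right _ _ ?_
    exact tendsto_norm_cobounded_atTop.atTop_mul_const (norm_pos_iff.2 hc)
  refine tendsto_atTop_mono (fun s => ?_) h2
  rw [h1]
  have := norm_sub_norm_le (s * (om K u x * u i)) (-x i)
  rw [norm_mul, norm_neg, sub_neg_eq_add, add_comm (s * _)] at this
  exact this

/-- **A root group is a Moore set.** -/
theorem moore_root [Nonempty n] [ProperSpace k] (hK : Alt K) {u : n → k} (hu : u ≠ 0) :
    Moore (Set.range (tr hK u)) :=
  moore_of_tendsto (hmg hK) (tendsto_tr hK hu) (Eventually.of_forall fun s => ⟨s, rfl⟩)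

theorem moore_of_root [Nonempty n] [ProperSpace k] (hK : Alt K) {u : n → k} (hu : u ≠ 0)
    {S : Set (SpG K)} (hS : ∀ s, tr hK u s ∈ S) : Moore S :=
  moore_of_tendsto (hmg hK) (tendsto_tr hK hu) (Eventually.of_forall hS)

end top

end Vale.Agent.P092.H714.Sp
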