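import Vale.Agent.P092.H370.Po2
import Vale.Agent.P092.H714.SpM

/-!
P092, Team P, stage 3, block P3-HM (helper714): two flags of singular subspaces are preserved by the
dilations of one hyperbolic pair. Consequence: Moore sets in every isometry group.
-/

set_option linter.all false

open Matrix Module Set Filter Topology

namespace Vale.Agent.P092.H714.Sg

open Vale.Agent.P092.H303 (FormGroup)
open Vale.Agent.P092.H714.Cl
open Vale.Agent.P092.H370.Po (Sing Ort act mem_act finrank_act)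
open Vale.Agent.P092.RC (Moore)
open Vale.Agent.P092.H15 (HMG)

section alg

variable {n : Type} [Fintype n] [DecidableEq n] {k : Type} [Field k]
  {σ : k →+* k} {ε : k} {J : Matrix n n k}

/-- A nondegenerate trace valued hermitian form which has an isotropic vector (any kind). -/
structure Fm (σ : k →+* k) (ε : k) (J : Matrix n n k) : Prop where
  inv : ∀ x, σ (σ x) = x
  eps : ε * ε = 1
  seps : σ ε = ε
  herm : ∀ x y, hf σ J y x = ε * σ (hf σ J x y)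
  nondeg : ∀ x, x ≠ 0 → ∃ y, hf σ J x y ≠ 0
  tv : ∀ y, ∃ β, hf σ J y y = β + ε * σ β
  iso : ∃ u, u ≠ 0 ∧ hf σ J u u = 0

theorem _root_.Vale.Agent.P092.H714.Cl.Frm.fm (h : Frm σ ε J) : Fm σ ε J :=
  ⟨h.inv, h.eps, h.seps, h.herm, h.nondeg, h.tv, h.iso⟩

variable (hF : Fm σ ε J)

include hF

theorem Fm.symm0 {x y : n → k} (h : hf σ J x y = 0) : hf σ J y x = 0 := by
  rw [hF.herm, h, map_zero, mul_zero]

theorem Fm.corr {u y : n → k} (hu : hf σ J u u = 0) (hy : hf σ J u y ≠ 0) :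
    ∃ α : k, hf σ J (y + α • u) (y + α • u) = 0 := by
  obtain ⟨β, hβ⟩ := hF.tv y
  refine ⟨-β / hf σ J u y, ?_⟩
  rw [hf_add_left, hf_add_right, hf_add_right, hf_smul_left, hf_smul_left, hf_smul_right,
    hf_smul_right, hu, mul_zero, mul_zero, add_zero, hβ, hF.herm u y, map_div₀, map_neg]
  have hs : σ (hf σ J u y) ≠ 0 := by rwa [Ne, map_eq_zero]
  field_simp
  ring

/-- The double orthogonal. -/
theorem Fm.sep {Y : Submodule k (n → k)} {u : n → k} (hu : u ∉ Y) :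
    ∃ v, hf σ J u v = 1 ∧ ∀ y ∈ Y, hf σ J y v = 0 := by
  obtain ⟨f, hf0, hp⟩ := Submodule.exists_le_ker_of_notMem hu
  have hdet : J.det ≠ 0 := by
    intro h0
    obtain ⟨v, hv, hv0⟩ := Matrix.exists_vecMul_eq_zero_iff.2 h0
    obtain ⟨y, hy⟩ := hF.nondeg v hv
    apply hy
    unfold hf
    rw [dotProduct_mulVec, hv0, zero_dotProduct]
  have hJ : J * J⁻¹ = 1 := mul_nonsing_inv J (isUnit_iff_ne_zero.2 hdet)
  set φ : n → k := fun i => (f u)⁻¹ * f (Pi.single i 1) with hφ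
  have h1 : ∀ x : n → k, x ⬝ᵥ φ = (f u)⁻¹ * f x := by
    intro x
    have h2 : f x = ∑ i, x i * f (Pi.single i 1) := by
      conv_lhs => rw [pi_eq_sum_univ' x]
      rw [map_sum]
      refine Finset.sum_congr rfl fun i _ => ?_
      rw [map_smul, smul_eq_mul]
    rw [h2, dotProduct, Finset.mul_sum]
    refine Finset.sum_congr rfl fun i _ => ?_
    rw [hφ]
    ring
  have h2 : ∀ x : n → k, hf σ J x (fun i => σ ((J⁻¹ *ᵥ φ) i)) = (f u)⁻¹ * f x := by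
    intro x
    unfold hf
    have e : (fun i => σ (σ ((J⁻¹ *ᵥ φ) i))) = J⁻¹ *ᵥ φ := funext fun i => hF.inv _
    rw [e, mulVec_mulVec, hJ, one_mulVec, h1]
  refine ⟨_, by rw [h2, inv_mul_cancel₀ hf0], fun y hy => ?_⟩
  rw [h2, LinearMap.mem_ker.1 (hp hy), mul_zero]

/-- An isotropic vector in the orthogonal of `Y`, with product one with `u`. -/
theorem Fm.partner {Y : Submodule k (n → k)} {u : n → k} (hu : hf σ J u u = 0) (huY : u ∉ Y)
    (hY : ∀ y ∈ Y, hf σ J y u = 0) :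
    ∃ v, hf σ J v v = 0 ∧ hf σ J u v = 1 ∧ ∀ y ∈ Y, hf σ J y v = 0 := by
  obtain ⟨v, hv1, hv⟩ := hF.sep huY
  obtain ⟨α, hα⟩ := hF.corr hu (y := v) (by rw [hv1]; exact one_ne_zero)
  refine ⟨v + α • u, hα, ?_, fun y hy => ?_⟩
  · rw [hf_add_right, hf_smul_right, hu, mul_zero, add_zero, hv1]
  · rw [hf_add_right, hf_smul_right, hY y hy, mul_zero, add_zero, hv y hy]

omit hF in
/-- `Z` is preserved by the dilations of the pair `(e, f)`. -/
def Good (σ : k →+* k) (J : Matrix n n k) (e f : n → k) (Z : Submodule k (n → k)) : Prop :=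
  (e ∈ Z ∨ ∀ z ∈ Z, hf σ J z f = 0) ∧ (f ∈ Z ∨ ∀ z ∈ Z, hf σ J z e = 0)

omit [DecidableEq n] hF in
theorem Good.mem {e f : n → k} {Z : Submodule k (n → k)} (h : Good σ J e f Z) (a b : k)
    {z : n → k} (hz : z ∈ Z) : z + (a * hf σ J z f) • e + (b * hf σ J z e) • f ∈ Z := by
  refine Z.add_mem (Z.add_mem hz ?_) ?_
  · rcases h.1 with h1 | h1
    · exact Z.smul_mem _ h1
    · rw [h1 z hz, mul_zero, zero_smul]
      exact Z.zero_mem
  · rcases h.2 with h1 | h1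
    · exact Z.smul_mem _ h1
    · rw [h1 z hz, mul_zero, zero_smul]
      exact Z.zero_mem

/-- **Two flags of singular subspaces are preserved by the dilations of one hyperbolic pair.** -/
theorem Fm.flags {𝒳 𝒴 : Set (Submodule k (n → k))} (hX : ∀ X ∈ 𝒳, Sing σ J X)
    (hY : ∀ Y ∈ 𝒴, Sing σ J Y) (cX : IsChain (· ≤ ·) 𝒳) (cY : IsChain (· ≤ ·) 𝒴) :
    ∃ e f, hf σ J e e = 0 ∧ hf σ J f f = 0 ∧ hf σ J e f = 1 ∧ (∀ X ∈ 𝒳, Good σ J e f X) ∧
      ∀ Y ∈ 𝒴, Good σ J e f Y := by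
  -- the vector `e`
  obtain ⟨e, he0, he, heX⟩ : ∃ e, e ≠ 0 ∧ hf σ J e e = 0 ∧ ∀ X ∈ 𝒳, e ∈ X ∨ X = ⊥ := by
    by_cases h : ∃ X ∈ 𝒳, X ≠ ⊥
    · obtain ⟨X₀, ⟨hX₀, hne⟩, hmin⟩ := (wellFounded_lt (α := Submodule k (n → k))).has_min
        {X | X ∈ 𝒳 ∧ X ≠ ⊥} (by obtain ⟨X, h1, h2⟩ := h; exact ⟨X, h1, h2⟩)
      obtain ⟨e, he, he0⟩ := Submodule.exists_mem_ne_zero_of_ne_bot hne
      refine ⟨e, he0, hX X₀ hX₀ e he e he, fun X h1 => ?_⟩
      by_cases h2 : X = ⊥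
      · exact Or.inr h2
      · refine Or.inl ?_
        have h3 : X₀ ≤ X := by
          rcases cX.total hX₀ h1 with h3 | h3
          · exact h3
          · by_contra h4
            exact hmin X ⟨h1, h2⟩ (lt_of_le_not_ge h3 h4)
        exact h3 he
    · push Not at h
      obtain ⟨e, he0, he⟩ := hF.iso
      exact ⟨e, he0, he, fun X h1 => Or.inr (h X h1)⟩
  have key : ∀ f, ∀ X ∈ 𝒳, Good σ J e f X := by
    intro f X h1
    rcases heX X h1 with h2 | h2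
    · exact ⟨Or.inl h2, Or.inr fun z hz => hX X h1 z hz e h2⟩
    · subst h2
      refine ⟨Or.inr fun z hz => ?_, Or.inr fun z hz => ?_⟩
      · rw [(Submodule.mem_bot k).1 hz, hf_zero_left]
      · rw [(Submodule.mem_bot k).1 hz, hf_zero_left]
  by_cases hA : ∀ Y ∈ 𝒴, ∀ y ∈ Y, hf σ J y e = 0
  · -- all `Y` are orthogonal to `e`
    by_cases hB : ∃ Y ∈ 𝒴, e ∉ Y
    · obtain ⟨Y₀, ⟨hY₀, hne⟩, hmax⟩ := (wellFounded_gt (α := Submodule k (n → k))).has_min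
        {Y | Y ∈ 𝒴 ∧ e ∉ Y} (by obtain ⟨Y, h1, h2⟩ := hB; exact ⟨Y, h1, h2⟩)
      obtain ⟨f, hf0, hef, hfY⟩ := hF.partner he hne (hA Y₀ hY₀)
      refine ⟨e, f, he, hf0, hef, key f, fun Y h1 => ?_⟩
      by_cases h2 : e ∈ Y
      · exact ⟨Or.inl h2, Or.inr (hA Y h1)⟩
      · have h3 : Y ≤ Y₀ := by
          rcases cY.total h1 hY₀ with h3 | h3
          · exact h3
          · by_contra h4
            exact hmax Y ⟨h1, h2⟩ (lt_of_le_not_ge h3 h4)
        exact ⟨Or.inr fun z hz => hfY z (h3 hz), Or.inr (hA Y h1)⟩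
    · push Not at hB
      have hbot : e ∉ (⊥ : Submodule k (n → k)) := fun h => he0 ((Submodule.mem_bot k).1 h)
      obtain ⟨f, hf0, hef, -⟩ := hF.partner he hbot fun y hy => by
        rw [(Submodule.mem_bot k).1 hy, hf_zero_left]
      exact ⟨e, f, he, hf0, hef, key f, fun Y h1 => ⟨Or.inl (hB Y h1), Or.inr (hA Y h1)⟩⟩
  · push Not at hA
    obtain ⟨Y₀, ⟨hY₀, y, hy, hye⟩, hmin⟩ := (wellFounded_lt (α := Submodule k (n → k))).has_min
      {Y | Y ∈ 𝒴 ∧ ∃ y ∈ Y, hf σ J y e ≠ 0} (by obtain ⟨Y, h1, y, hy, h2⟩ := hA; exact ⟨Y, h1, y, hy, h2⟩)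
    have hey : hf σ J e y ≠ 0 := fun h => hye (hF.symm0 h)
    set f : n → k := σ (hf σ J e y)⁻¹ • y with hfd
    have hfY : f ∈ Y₀ := Y₀.smul_mem _ hy
    have hef : hf σ J e f = 1 := by
      rw [hfd, hf_smul_right, hF.inv, inv_mul_cancel₀ hey]
    refine ⟨e, f, he, hY Y₀ hY₀ f hfY f hfY, hef, key f, fun Y h1 => ?_⟩
    by_cases h2 : ∀ z ∈ Y, hf σ J z e = 0
    · have h3 : Y ≤ Y₀ := by
        rcases cY.total h1 hY₀ with h3 | h3
        · exact h3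
        · exact absurd (h2 y (h3 hy)) hye
      exact ⟨Or.inr fun z hz => hY Y₀ hY₀ z (h3 hz) f hfY, Or.inr h2⟩
    · push Not at h2
      have h3 : Y₀ ≤ Y := by
        rcases cY.total hY₀ h1 with h3 | h3
        · exact h3
        · by_contra h4
          exact hmin Y ⟨h1, h2⟩ (lt_of_le_not_ge h3 h4)
      exact ⟨Or.inr fun z hz => hY Y h1 z hz f (h3 hfY), Or.inl (h3 hfY)⟩

end alg

section top

variable {n : Type} [Fintype n] [DecidableEq n] {k : Type} [NontriviallyNormedField k]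
  {σ : k →+* k} {ε : k} {J : Matrix n n k} {G : Subgroup (SpecialLinearGroup n k)}

/-- The group contains an unbounded dilation of every hyperbolic pair (rows). -/
def HasTor (σ : k →+* k) (ε : k) (J : Matrix n n k) (G : Subgroup (SpecialLinearGroup n k)) :
    Prop :=
  ∀ e f, hf σ J e e = 0 → hf σ J f f = 0 → hf σ J e f = 1 → ∃ g : G, ∃ t : k, 1 < ‖t‖ ∧
    ∀ x, x ᵥ* g.1.1 = x + ((t - 1) * hf σ J x f) • e + ((t⁻¹ - 1) * ε * hf σ J x e) • f

/-- The powers of a dilation. -/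
theorem tor_pow (hF : Fm σ ε J) {e f : n → k} (he : hf σ J e e = 0) (hf' : hf σ J f f = 0)
    (hef : hf σ J e f = 1) {g : SpecialLinearGroup n k} {t : k} (ht : t ≠ 0)
    (hg : ∀ x, x ᵥ* g.1 = x + ((t - 1) * hf σ J x f) • e + ((t⁻¹ - 1) * ε * hf σ J x e) • f)
    (N : ℕ) (x : n → k) : x ᵥ* (g ^ N).1 =
      x + ((t ^ N - 1) * hf σ J x f) • e + (((t ^ N)⁻¹ - 1) * ε * hf σ J x e) • f := by
  have hfe : hf σ J f e = ε := by rw [hF.herm, hef, map_one, mul_one]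
  induction N with
  | zero =>
    rw [pow_zero, pow_zero, vecMul_one', sub_self, inv_one, sub_self, zero_mul, zero_mul, zero_mul,
      zero_smul, zero_smul, add_zero, add_zero]
  | succ N ih =>
    rw [pow_succ, vecMul_mul', ih, hg]
    simp only [hf_add_left, hf_smul_left, he, hf', hef, hfe, mul_zero, add_zero, zero_add, mul_one]
    have h2 := hF.eps
    have h3 : t ^ N ≠ 0 := pow_ne_zero _ ht
    rw [pow_succ]
    match_scalars
    · ring
    · field_simp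
      ring
    · field_simp
      linear_combination (ε * hf σ J x e) * (1 - t + t * t ^ N - t ^ N) * h2

theorem act_of_good {e f : n → k} {Z : Submodule k (n → k)} (hZ : Good σ J e f Z)
    {g : SpecialLinearGroup n k} {a b : k}
    (hg : ∀ x, x ᵥ* g.1 = x + (a * hf σ J x f) • e + (b * hf σ J x e) • f) : act g Z = Z := by
  refine Submodule.eq_of_le_of_finrank_eq ?_ (finrank_act g Z)
  intro y hy
  obtain ⟨x, hx, rfl⟩ := mem_act.1 hy
  rw [hg]
  exact hZ.mem a b hx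

/-- **Two flags: unbounded sequence.** -/
theorem flags_tendsto (hF : Fm σ ε J) (hT : HasTor σ ε J G) {𝒳 𝒴 : Set (Submodule k (n → k))}
    (hX : ∀ X ∈ 𝒳, Sing σ J X) (hY : ∀ Y ∈ 𝒴, Sing σ J Y) (cX : IsChain (· ≤ ·) 𝒳)
    (cY : IsChain (· ≤ ·) 𝒴) : ∃ g : ℕ → G, (∀ N, (∀ X ∈ 𝒳, act (g N).1 X = X) ∧
      ∀ Y ∈ 𝒴, act (g N).1 Y = Y) ∧ ∃ (x : n → k) (i : n),
      Tendsto (fun N => ‖(x ᵥ* (g N).1.1) i‖) atTop atTop := by
  obtain ⟨e, f, he, hf', hef, h1, h2⟩ := hF.flags hX hY cX cY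
  obtain ⟨g, t, ht, hg⟩ := hT e f he hf' hef
  have ht0 : t ≠ 0 := by
    rintro rfl
    rw [norm_zero] at ht
    linarith
  have hp : ∀ N : ℕ, ∀ x : n → k, x ᵥ* ((g ^ N).1).1 =
      x + ((t ^ N - 1) * hf σ J x f) • e + (((t ^ N)⁻¹ - 1) * ε * hf σ J x e) • f := fun N x =>
    tor_pow hF he hf' hef ht0 hg N x
  refine ⟨fun N => g ^ N, fun N => ⟨fun X hX' => act_of_good (h1 X hX') (hp N),
    fun Y hY' => act_of_good (h2 Y hY') (hp N)⟩, ?_⟩
  have he0 : e ≠ 0 := by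
    rintro rfl
    rw [hf_zero_left] at hef
    exact zero_ne_one hef
  obtain ⟨i, hi⟩ := Function.ne_iff.1 he0
  refine ⟨e, i, ?_⟩
  have h3 : ∀ N : ℕ, ‖(e ᵥ* ((g ^ N).1).1) i‖ = ‖t‖ ^ N * ‖e i‖ := fun N => by
    rw [hp, hef, he, mul_zero, zero_smul, add_zero, mul_one]
    have e1 : e + (t ^ N - 1) • e = t ^ N • e := by module
    rw [e1, Pi.smul_apply, smul_eq_mul, norm_mul, norm_pow]
  simp only [h3]
  exact (tendsto_pow_atTop_atTop_of_one_lt ht).atTop_mul_const (norm_pos_iff.2 hi)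

/-- **Two flags: Moore set.** -/
theorem moore_flags (hF : Fm σ ε J) (hT : HasTor σ ε J G) (hm : HMG G)
    {𝒳 𝒴 : Set (Submodule k (n → k))} (hX : ∀ X ∈ 𝒳, Sing σ J X) (hY : ∀ Y ∈ 𝒴, Sing σ J Y)
    (cX : IsChain (· ≤ ·) 𝒳) (cY : IsChain (· ≤ ·) 𝒴) :
    Moore {g : G | (∀ X ∈ 𝒳, act g.1 X = X) ∧ ∀ Y ∈ 𝒴, act g.1 Y = Y} := by
  obtain ⟨g, hg, x, i, ht⟩ := flags_tendsto hF hT hX hY cX cY
  have c0 : Continuous fun g : G => g.1.1 := continuous_subtype_val.comp continuous_subtype_val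
  exact Sp.moore_of_tendsto hm (Sp.tendsto_cocompact_of (f := fun g : G => ‖(x ᵥ* g.1.1) i‖)
    ((continuous_apply i).comp (continuous_const.matrix_vecMul c0)).norm ht)
    (Eventually.of_forall hg)

/-- **Two flags: unbounded entries.** -/
theorem flags_unb (hF : Fm σ ε J) (hT : HasTor σ ε J G) {𝒳 𝒴 : Set (Submodule k (n → k))}
    (hX : ∀ X ∈ 𝒳, Sing σ J X) (hY : ∀ Y ∈ 𝒴, Sing σ J Y) (cX : IsChain (· ≤ ·) 𝒳)
    (cY : IsChain (· ≤ ·) 𝒴) (C : ℝ) : ∃ g : G, ((∀ X ∈ 𝒳, act g.1 X = X) ∧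
      ∀ Y ∈ 𝒴, act g.1 Y = Y) ∧ ∃ i j, C < ‖g.1.1 i j‖ := by
  obtain ⟨g, hg, x, i, ht⟩ := flags_tendsto hF hT hX hY cX cY
  obtain ⟨m, hm⟩ := (ht.eventually_gt_atTop (∑ j, ‖x j‖ * C)).exists
  refine ⟨g m, hg m, ?_⟩
  by_contra hcon
  push Not at hcon
  apply absurd hm
  rw [not_lt]
  calc ‖(x ᵥ* (g m).1.1) i‖ = ‖∑ j, x j * (g m).1.1 j i‖ := rfl
    _ ≤ ∑ j, ‖x j * (g m).1.1 j i‖ := norm_sum_le _ _
    _ ≤ ∑ j, ‖x j‖ * C := by
      refine Finset.sum_le_sum fun j _ => ?_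
      rw [norm_mul]
      exact mul_le_mul_of_nonneg_left (hcon j i) (norm_nonneg _)

theorem chain_two {X X' : Submodule k (n → k)} (h : X ≤ X') :
    IsChain (· ≤ ·) ({X, X'} : Set (Submodule k (n → k))) := by
  intro a ha b hb hne
  simp only [Set.mem_insert_iff, Set.mem_singleton_iff] at ha hb
  rcases ha with rfl | rfl <;> rcases hb with rfl | rfl
  · exact absurd rfl hne
  · exact Or.inl h
  · exact Or.inr h
  · exact absurd rfl hne

/-- Two flags of length two. -/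
theorem moore_flags2 (hF : Fm σ ε J) (hT : HasTor σ ε J G) (hm : HMG G)
    {X X' Y Y' : Submodule k (n → k)} (hX : Sing σ J X') (hY : Sing σ J Y') (h1 : X ≤ X')
    (h2 : Y ≤ Y') :
    Moore {g : G | act g.1 X = X ∧ act g.1 X' = X' ∧ act g.1 Y = Y ∧ act g.1 Y' = Y'} := by
  have h := moore_flags hF hT hm (𝒳 := {X, X'}) (𝒴 := {Y, Y'})
    (by rintro Z (rfl | rfl); exacts [hX.mono h1, hX])
    (by rintro Z (rfl | rfl); exacts [hY.mono h2, hY]) (chain_two h1) (chain_two h2)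
  refine H455.moore_mono h fun g hg => ?_
  exact ⟨hg.1 X (by simp), hg.1 X' (by simp), hg.2 Y (by simp), hg.2 Y' (by simp)⟩

/-- Two singular subspaces. -/
theorem moore_two (hF : Fm σ ε J) (hT : HasTor σ ε J G) (hm : HMG G)
    {X Y : Submodule k (n → k)} (hX : Sing σ J X) (hY : Sing σ J Y) :
    Moore {g : G | act g.1 X = X ∧ act g.1 Y = Y} :=
  H455.moore_mono (moore_flags2 hF hT hm hX hY le_rfl le_rfl) fun g hg => ⟨hg.1, hg.2.2.1⟩

/-- **Groups which contain the transvections have all dilations.** -/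
theorem hasTor (hσ : ∀ x, ‖σ x‖ = ‖x‖) (hF : Frm σ ε J) (hG : GT σ ε J ≤ G) : HasTor σ ε J G := by
  intro e f he hf' hef
  obtain ⟨r, hr, hr1⟩ := exists_fix hF hσ
  have hr0 : r ≠ 0 := by
    rintro rfl
    rw [norm_zero] at hr1
    linarith
  obtain ⟨s, hs0, hs⟩ := hF.cc
  have hfe : hf σ J f e = ε := hF.swap hef
  have hri : σ r⁻¹ = r⁻¹ := by rw [map_inv₀, hr]
  refine ⟨⟨dv σ ε J e f s r⁻¹, hG (dv_mem hF he hf' hs0 hs (inv_ne_zero hr0) hri)⟩, r, hr1,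
    fun x => ?_⟩
  set x₀ : n → k := x - (hf σ J x f) • e - (ε * hf σ J x e) • f with hx₀
  have h1 : hf σ J x₀ e = 0 := by
    rw [hx₀, sub_eq_add_neg, sub_eq_add_neg, hf_add_left, hf_add_left, ← neg_smul, ← neg_smul,
      hf_smul_left, hf_smul_left, he, hfe]
    linear_combination (-hf σ J x e) * hF.eps
  have h2 : hf σ J x₀ f = 0 := by
    rw [hx₀, sub_eq_add_neg, sub_eq_add_neg, hf_add_left, hf_add_left, ← neg_smul, ← neg_smul,
      hf_smul_left, hf_smul_left, hf', hef]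
    ring
  have h3 : x = x₀ + (hf σ J x f) • e + (ε * hf σ J x e) • f := by rw [hx₀]; module
  have e1 : e ᵥ* (dv σ ε J e f s r⁻¹).1 = r • e := by
    rw [u_dv hF he hf' hef hs0 (inv_ne_zero hr0), inv_inv]
  have e2 : f ᵥ* (dv σ ε J e f s r⁻¹).1 = r⁻¹ • f :=
    w_dv hF he hf' hef hs0 (inv_ne_zero hr0)
  have e3 : x₀ ᵥ* (dv σ ε J e f s r⁻¹).1 = x₀ := y_dv he hf' h1 h2
  have key : x ᵥ* (dv σ ε J e f s r⁻¹).1 =
      x₀ + (hf σ J x f) • (r • e) + (ε * hf σ J x e) • (r⁻¹ • f) := by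
    conv_lhs => rw [h3]
    rw [add_vecMul, add_vecMul, smul_vecMul, smul_vecMul, e1, e2, e3]
  change x ᵥ* (dv σ ε J e f s r⁻¹).1 = _
  rw [key, hx₀]
  module

end top

end Vale.Agent.P092.H714.Sg
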