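import Vale.Agent.P092.H714.Pc6
import Vale.Agent.P092.H714.SgM
import Vale.Agent.P092.H325.ClGood
import Vale.Agent.P092.H370.Fo5
import Vale.Agent.P092.H375.P3.Tau2
import Vale.Agent.P092.H416.CLlet

/-!
P092 (helper714), [P3-CLS], the adapter: `Let.sem` for the forms `hf σ J` of Witt index at least
two, in the letters `pt e`, `EP e E` of helper416 and `Cr`, `qv` of helper375.
-/

set_option linter.all false

namespace Vale.Agent.P092.H714.Pc

open Module Matrix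
open Vale.Agent.P092.H375.X2 (sgm Jf)
open Vale.Agent.P092.H375.Cls (Rl)
open Vale.Agent.P092.H375.P3 (Cr qv Pv)
open Vale.Agent.P092.H820 (pj pj_eq pj_surj)
open Vale.Agent.P092.H466 Vale.Agent.P092.H171
open Vale.Agent.P092.H714.Sg (Fm)
open Vale.Agent.P092.H714.Cl (hf hf_add_left hf_smul_left hf_add_right hf_smul_right)
open MeasureTheory Topology TopologicalSpace Filter
open scoped LinearAlgebra.Projectivization

section data

variable {n : Type} [Fintype n] [DecidableEq n] {k : Type} [Field k] {σ : k →+* k} {ε : k}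
  {J : Matrix n n k}

theorem sf_fm (hF : Fm σ ε J) : SF σ ε (hf σ J) where
  inv := hF.inv
  eps := hF.eps
  seps := hF.seps
  add := hf_add_left σ J
  smul := hf_smul_left σ J
  herm := hF.herm

theorem nd_fm (hF : Fm σ ε J) (x : n → k) (h : ∀ y, hf σ J x y = 0) : x = 0 := by
  by_contra h0
  obtain ⟨y, hy⟩ := hF.nondeg x h0
  exact hy (h y)

/-- the data of the classification -/
theorem exists_data (hF : Fm σ ε J) (hW : H325.Wi2 σ J)
    (hb : (∃ c, c ≠ 0 ∧ c + ε * σ c = 0) ∨ 4 < Fintype.card n) :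
    ∃ (e f : n → k) (m : ℕ) (B : Basis (Fin m ⊕ Bool) k (n → k)), hf σ J e e = 0 ∧
      hf σ J f f = 0 ∧ hf σ J e f = 1 ∧ 0 < m ∧ (∀ i, SW (hf σ J) e f (B (Sum.inl i))) ∧
      B (Sum.inr false) = e ∧ B (Sum.inr true) = f ∧ Big σ ε m := by
  have hh := sf_fm hF
  have nd := nd_fm hF
  obtain ⟨e, he0, he⟩ := hF.iso
  obtain ⟨y, hy⟩ := hF.nondeg e he0
  obtain ⟨α, hα⟩ := hF.corr he hy
  have hev : hf σ J e (y + α • e) ≠ 0 := by
    rw [hf_add_right, hf_smul_right, he, mul_zero, add_zero]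
    exact hy
  obtain ⟨f, hf0, hff, hef⟩ : ∃ f, True ∧ hf σ J f f = 0 ∧ hf σ J e f = 1 := by
    refine ⟨σ (hf σ J e (y + α • e))⁻¹ • (y + α • e), trivial, ?_, ?_⟩
    · rw [hf_smul_left, hf_smul_right, hα, mul_zero, mul_zero]
    · rw [hf_smul_right, hF.inv, inv_mul_cancel₀ hev]
  obtain ⟨w, hw, hew, hwe⟩ := hW e he0 he
  obtain ⟨u, hu⟩ : ∃ u, SW (hf σ J) e f u := by
    refine ⟨w - hf σ J w f • e, fun h0 => hwe ?_, ?_, ?_, ?_⟩
    · rw [sub_eq_zero.1 h0]
      exact Submodule.smul_mem _ _ (Submodule.mem_span_singleton_self e)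
    · have e1 : w - hf σ J w f • e = w + (-hf σ J w f) • e := by rw [neg_smul, sub_eq_add_neg]
      rw [e1, hf_add_left, hf_add_right, hf_add_right, hf_smul_left, hf_smul_left, hf_smul_right,
        hf_smul_right, hw, he, hew, hh.symm hew]
      ring
    · rw [hh.sub_left, hf_smul_left, he, hh.symm hew]; ring
    · rw [hh.sub_left, hf_smul_left, hef]; ring
  obtain ⟨m, B, hB, hBe, hBf⟩ := exists_iso_basis hh hu he hff hef nd hF.tv
  have hm : 0 < m := by
    rcases Nat.eq_zero_or_pos m with h0 | h0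
    · exfalso
      refine hu.1 (nd u fun y => ?_)
      rw [← B.sum_repr y, hh.sum_right]
      refine Finset.sum_eq_zero fun j _ => ?_
      rw [hf_smul_right]
      rcases j with j | j
      · exact (Fin.cast h0 j).elim0
      · cases j
        · rw [hBe, hu.2.2.1, mul_zero]
        · rw [hBf, hu.2.2.2, mul_zero]
    · exact h0
  refine ⟨e, f, m, B, he, hff, hef, hm, hB, hBe, hBf, ?_⟩
  by_cases hc : ∃ c, c ≠ 0 ∧ c + ε * σ c = 0
  · exact Or.inl hc
  · right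
    have hn := hb.resolve_left hc
    have key : ∀ x, ε * σ x = x := by
      intro x
      by_contra h0
      refine hc ⟨x - ε * σ x, fun h1 => h0 (sub_eq_zero.1 h1).symm, ?_⟩
      rw [map_sub, map_mul, hF.seps, hF.inv]
      linear_combination (-x) * hF.eps
    have h1 : ε = 1 := by
      have := key 1
      rwa [map_one, mul_one] at this
    refine ⟨fun x => ?_, h1, fun h2 => hc ⟨1, one_ne_zero, ?_⟩, ?_⟩
    · have := key x
      rwa [h1, one_mul] at this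
    · rw [map_one, h1, mul_one, one_add_one_eq_two, h2]
    · have h3 : finrank k (n → k) = Fintype.card (Fin m ⊕ Bool) := finrank_eq_card_basis B
      rw [finrank_fintype_fun_eq_card, Fintype.card_sum, Fintype.card_fin, Fintype.card_bool] at h3
      omega

end data

section pts

variable {kS k : Type} [NontriviallyNormedField kS] [NontriviallyNormedField k] [ProperSpace k]
  {N : ℕ} {τ : kS →+* k} {σ : kS →+* kS} {ε : kS} {J : Matrix (Fin (N + 1)) (Fin (N + 1)) kS}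
  {σ' : k →+* k} {ε' : k} {J' : Matrix (Fin (N + 1)) (Fin (N + 1)) k}
  {P₀ K : Type} [NormedAddCommGroup K] [InnerProductSpace ℂ K] [CompleteSpace K]
  {pt : P₀ → ℙ kS (Fin (N + 1) → kS)}
  {E : P₀ → (C(ℙ k (Fin (N + 1) → k), ℂ) →⋆ₐ[ℂ] (K →L[ℂ] K))}

theorem pj_mk {F : Type} [Field F] {d : ℕ} {v : Fin d → F} (hv : v ≠ 0) :
    pj F (Fin d) ⟨v, hv⟩ = Projectivization.mk F v hv := rfl

/-- **[P3-SEM] over a family of points** -/
theorem sem_pt (hS : Fm σ ε J) (hW : H325.Wi2 σ J)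
    (hb : (∃ c, c ≠ 0 ∧ c + ε * σ c = 0) ∨ 4 < N + 1) (hT : Fm σ' ε' J')
    (hinj : Function.Injective pt)
    (hpt : ∀ (v : Fin (N + 1) → kS) (hv : v ≠ 0), hf σ J v v = 0 →
      ∃ b, pt b = Projectivization.mk kS v hv)
    (hiso : ∀ b, hf σ J (pt b).rep (pt b).rep = 0)
    (com : ∀ a b f g, Commute (E a f) (E b g))
    (perp : ∀ a b, ∀ Φ : C(Fin 2 → ℙ k (Fin (N + 1) → k), ℂ) →⋆ₐ[ℂ] (K →L[ℂ] K),
      (∀ i f, Φ (co i f) = E (![a, b] i) f) → ∀ ξ, ∀ᵐ z ∂(ms Φ ξ),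
        (hf σ' J' (z 0).rep (z 1).rep = 0 ↔ hf σ J (pt a).rep (pt b).rep = 0))
    (line : ∀ x y, LinearIndependent kS ![x, y] → hf σ J x x = 0 → hf σ J y y = 0 →
      hf σ J x y = 0 → ∀ s, Cr pt E (qv x y s) (τ s))
    {κ : Type} [Fintype κ] (a : κ → P₀)
    (Φ : C(κ → ℙ k (Fin (N + 1) → k), ℂ) →⋆ₐ[ℂ] (K →L[ℂ] K)) (hΦ : ∀ i f, Φ (co i f) = E (a i) f)
    (ξ : K) : ∀ᵐ z ∂(ms Φ ξ), ∃ M : GL (Fin (N + 1)) k, ∀ i, z i = M • sgm τ (N + 1) (pt (a i)) := by
  classical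
  have hh := sf_fm hS
  obtain ⟨e, f, m, B, he, hff, hef, hm, hB, hBe, hBf, hbig⟩ := exists_data hS hW (by
    rw [Fintype.card_fin]; exact hb)
  have he0 := e_ne hh hef
  obtain ⟨b₀, -⟩ := hpt e he0 he
  -- every isotropic point of the projective space is a point
  have hall : ∀ p : ℙ kS (Fin (N + 1) → kS), Is (hf σ J) p → ∃ b, pt b = p := by
    intro p hp
    obtain ⟨b, hb'⟩ := hpt p.rep p.rep_nonzero hp
    exact ⟨b, hb'.trans p.mk_rep⟩
  let E' : ℙ kS (Fin (N + 1) → kS) → (C(ℙ k (Fin (N + 1) → k), ℂ) →⋆ₐ[ℂ] (K →L[ℂ] K)) :=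
    fun p => if h : ∃ b, pt b = p then E h.choose else E b₀
  have hE' : ∀ b, E' (pt b) = E b := by
    intro b
    have h : ∃ b', pt b' = pt b := ⟨b, rfl⟩
    change dite _ _ _ = _
    rw [dif_pos h, hinj h.choose_spec]
  have hE'' : ∀ p, Is (hf σ J) p → ∃ b, pt b = p ∧ E' p = E b := by
    intro p hp
    obtain ⟨b, rfl⟩ := hall p hp
    exact ⟨b, rfl, hE' b⟩
  have hL : Let τ (hf σ J) (hf σ' J') E' := by
    refine ⟨?_, ?_, ?_⟩
    · intro p q hp hq f g
      obtain ⟨b, -, h1⟩ := hE'' p hp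
      obtain ⟨c, -, h2⟩ := hE'' q hq
      rw [h1, h2]
      exact com b c f g
    · intro p q hp hq Ψ hΨ ξ
      obtain ⟨b, hb1, h1⟩ := hE'' p hp
      obtain ⟨c, hc1, h2⟩ := hE'' q hq
      have h3 := perp b c Ψ (fun i f => by
        rw [hΨ]
        fin_cases i
        · exact congrArg (fun F => F f) h1
        · exact congrArg (fun F => F f) h2) ξ
      rw [hb1, hc1] at h3
      exact h3
    · intro x y hx hy hI hxx hyy hxy s hne hne' Ψ hΨ ξ
      have hq : ∀ i : Fin 4, ∃ (h0 : qv x y s i ≠ 0), hf σ J (qv x y s i) (qv x y s i) = 0 := by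
        have hyx := hh.symm hxy
        intro i
        fin_cases i
        · exact ⟨hx, hxx⟩
        · exact ⟨hy, hyy⟩
        · refine ⟨hne, ?_⟩
          change hf σ J (x + y) (x + y) = 0
          rw [hf_add_left, hf_add_right, hf_add_right, hxx, hyy, hxy, hyx]
          ring
        · refine ⟨hne', ?_⟩
          change hf σ J (s • x + y) (s • x + y) = 0
          rw [hf_add_left, hf_add_right, hf_add_right, hf_smul_left, hf_smul_left, hf_smul_right,
            hf_smul_right, hxx, hyy, hxy, hyx]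
          ring
      choose c hc using fun i => hpt (qv x y s i) (hq i).1 (hq i).2
      refine line x y hI hxx hyy hxy s c (fun i => ⟨(hq i).1, hc i⟩) Ψ (fun i f => ?_) ξ
      rw [hΨ]
      change _ = E (c i) f
      rw [← hE', hc]
      fin_cases i <;> rfl
  refine hL.sem hh (sf_fm hT) (nd_fm hS) (nd_fm hT) he hff hef hm B hB hBe hBf hbig
    (fun i => pt (a i)) (fun i => hiso _) Φ (fun i f => ?_) ξ
  rw [hΦ, hE']

end pts

section cl

open Vale.Agent.P092.H370.Po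
open Vale.Agent.P092.H370.Fo (Wf)
open Vale.Agent.P092.H416.CL

variable {nS n : Type} [Fintype nS] [DecidableEq nS] [Fintype n] [DecidableEq n]
  {kS k : Type} [NontriviallyNormedField kS] [NontriviallyNormedField k] [ProperSpace k]
  {N r r' : ℕ} {τ : kS →+* k} {σ : kS →+* kS} {ε : kS} {J : Matrix nS nS kS}
  {σ' : k →+* k} {ε' : k} {J' : Matrix n n k}
  {K : Type} [NormedAddCommGroup K] [InnerProductSpace ℂ K] [CompleteSpace K]
  {E : SGr σ J 1 → (C(SGr σ' J' 1, ℂ) →⋆ₐ[ℂ] (K →L[ℂ] K))}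

theorem wi2_wf (hF : Wf σ ε J r) (hr : 2 ≤ r) : H325.Wi2 σ J := by
  change ∀ x : nS → kS, x ≠ 0 → hf σ J x x = 0 →
    ∃ w, hf σ J w w = 0 ∧ hf σ J x w = 0 ∧ w ∉ Submodule.span kS {x}
  intro x hx0 hx
  obtain ⟨⟨Y, hY, hdY⟩, -⟩ := hF.wi
  have hs : Sing σ J (Submodule.span kS {x}) := by
    unfold Sing
    rw [ort_span_left]
    intro y hy
    obtain ⟨a, rfl⟩ := Submodule.mem_span_singleton.1 hy
    rw [hf_smul_right, hx, mul_zero]
  have hd1 : finrank kS (Submodule.span kS {x}) = 1 := finrank_span_singleton hx0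
  obtain ⟨Z, h1, h2, h3⟩ := H370.Fo.exists_above hF.fo hs hY (j := 2) (by omega) (by omega)
  have h4 : ¬ Z ≤ Submodule.span kS {x} := fun h' => by
    have := Submodule.finrank_mono h'
    omega
  obtain ⟨w, hw, hwx⟩ := SetLike.not_le_iff_exists.1 h4
  exact ⟨w, h2.zero hw, h2 x (h1 (Submodule.mem_span_singleton_self x)) w hw, hwx⟩

theorem je_fm {k : Type} [Field k] {σ : k →+* k} {ε : k} {J : Matrix n n k}
    (e : n ≃ Fin (N + 1)) (hF : Fm σ ε J) : Fm σ ε (Je e J) :=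
  H325.CL.fm_re e hF

theorem pt_rep_iso {k : Type} [NontriviallyNormedField k] {σ : k →+* k} {J : Matrix n n k}
    (e : n ≃ Fin (N + 1)) (X : SGr σ J 1) :
    hf σ (Je e J) (pt e X).rep (pt e X).rep = 0 :=
  (range_pt e (pt e X).rep_nonzero).1 ⟨X, ((pt e X).mk_rep).symm⟩

/-- **[P3-SEM] in classical letters**: the field `sem` of `SemLeg` -/
theorem sem_cl [Fact (Continuous σ')] [MeasurableSpace (SGr σ' J' 1)] [BorelSpace (SGr σ' J' 1)]
    (eS : nS ≃ Fin (N + 1)) (e : n ≃ Fin (N + 1)) (hS : Wf σ ε J r) (hr : 2 ≤ r)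
    (hT : Fm σ' ε' J') (com : ∀ a b f g, Commute (E a f) (E b g))
    (col : ∀ a b, ∀ Ψ : C(Fin 2 → SGr σ' J' 1, ℂ) →⋆ₐ[ℂ] (K →L[ℂ] K),
      (∀ i f, Ψ (co i f) = E (![a, b] i) f) → ∀ ξ, ∀ᵐ z ∂(ms Ψ ξ), (Col (z 0) (z 1) ↔ Col a b))
    (line : ∀ x y, LinearIndependent kS ![x, y] → hf σ (Je eS J) x x = 0 →
      hf σ (Je eS J) y y = 0 → hf σ (Je eS J) x y = 0 →
      ∀ s, Cr (pt eS : SGr σ J 1 → _) (EP e E) (qv x y s) (τ s))
    {κ : Type} [Fintype κ] (a : κ → SGr σ J 1)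
    (Φ : C(κ → ℙ k (Fin (N + 1) → k), ℂ) →⋆ₐ[ℂ] (K →L[ℂ] K))
    (hΦ : ∀ i f, Φ (co i f) = EP e E (a i) f) (ξ : K) :
    ∀ᵐ z ∂(ms Φ ξ), ∃ M : GL (Fin (N + 1)) k, ∀ i, z i = M • sgm τ (N + 1) (pt eS (a i)) := by
  have hcard : Fintype.card nS = N + 1 := by rw [Fintype.card_congr eS, Fintype.card_fin]
  refine sem_pt (pt := pt eS) (E := EP e E) (je_fm eS hS.fm)
    (H325.CL.wi2_re eS (wi2_wf hS hr)) (hS.thick.imp id fun h => by omega)
    (je_fm e hT) (pt_inj eS) (fun v hv h => ?_) (fun b => pt_rep_iso eS b)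
    (fun a b f g => com a b _ _) (fun a b Ψ hΨ ξ => ?_) line a Φ hΦ ξ
  · obtain ⟨b, hb⟩ := (range_pt eS hv).2 h
    exact ⟨b, hb⟩
  · obtain ⟨Ψ', hΨ'⟩ := exists_joint (fun i => E (![a, b] i)) fun i j f g => com _ _ f g
    refine (ae_EP e hΨ hΨ' ξ).2 ?_
    filter_upwards [col a b Ψ' hΨ' ξ] with y hy
    rw [← col_pt e, ← col_pt eS]
    exact hy

end cl

end Vale.Agent.P092.H714.Pc
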