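import Vale.Agent.P092.H714.Cl4
import Vale.Agent.P092.H259.Grp
import Vale.Agent.P092.PA.Fac

/-!
P092, block A-CLASS (helper714), part 5: open centralisers, recurrence, and the facts on the factor,
for the groups generated by the transvections of a hermitian form.
-/

set_option linter.all false

open Matrix Filter Topology

namespace Vale.Agent.P092.H714.Cl

open Vale.Agent.P092.H303 (FormGroup)
open Vale.Agent.P092.H259 (Cf PQ pq)

section rec

variable {E : Type} [Group E] [TopologicalSpace E] [IsTopologicalGroup E]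

/-- Recurrence from functions which are scaled by a conjugation. -/
theorem rec_pq (h : ∀ z : E, z ∉ Subgroup.center E → ∃ (f : E → ℝ) (D : E) (ρ : ℝ), Continuous f ∧
    1 < ρ ∧ (∀ g, f (D * g * D⁻¹) = ρ * f g) ∧ (∀ g, ∀ c ∈ Subgroup.center E, f (g * c) = f g) ∧
    0 < f z) : PA.Rec (PQ E) := by
  intro z' hz'
  obtain ⟨z, rfl⟩ := QuotientGroup.mk'_surjective (Subgroup.center E) z'
  have hz : z ∉ Subgroup.center E := by
    intro hc
    exact hz' ((QuotientGroup.eq_one_iff z).2 hc)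
  obtain ⟨f, D, ρ, hf, hρ, hD, hc, hfz⟩ := h z hz
  have hDi : ∀ (i : ℕ) g, f (D ^ i * g * (D ^ i)⁻¹) = ρ ^ i * f g := by
    intro i
    induction i with
    | zero => intro g; simp
    | succ i ih =>
      intro g
      have e : D ^ (i + 1) * g * (D ^ (i + 1))⁻¹ = D * (D ^ i * g * (D ^ i)⁻¹) * D⁻¹ := by
        rw [pow_succ']; group
      rw [e, hD, ih, pow_succ']
      ring
  set α : ℝ := 2 * f z / (1 + ρ) with hα
  have hα0 : 0 < α := by positivity
  have hzα : α < f z := by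
    rw [hα, div_lt_iff₀ (by linarith)]
    nlinarith
  have hzβ : f z < ρ * α := by
    rw [hα, ← mul_div_assoc, lt_div_iff₀ (by linarith)]
    nlinarith
  set W : Set E := f ⁻¹' Set.Ioo α (ρ * α) with hW
  have hWo : IsOpen W := isOpen_Ioo.preimage hf
  refine ⟨QuotientGroup.mk' (Subgroup.center E) '' W, ?_,
    fun i => QuotientGroup.mk' (Subgroup.center E) (D ^ i), ?_⟩
  · have ho : IsOpen (QuotientGroup.mk' (Subgroup.center E) '' W) :=
      QuotientGroup.isOpenMap_coe _ hWo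
    exact ho.mem_nhds ⟨z, ⟨hzα, hzβ⟩, rfl⟩
  · -- pairwise disjoint
    have key : ∀ i j : ℕ, i < j → ∀ w1 ∈ W, ∀ w2 ∈ W,
        QuotientGroup.mk' (Subgroup.center E) (D ^ i * w1 * (D ^ i)⁻¹) ≠
        QuotientGroup.mk' (Subgroup.center E) (D ^ j * w2 * (D ^ j)⁻¹) := by
      intro i j hij w1 hw1 w2 hw2 he
      have h1 : (D ^ i * w1 * (D ^ i)⁻¹)⁻¹ * (D ^ j * w2 * (D ^ j)⁻¹) ∈ Subgroup.center E :=
        QuotientGroup.eq.1 he
      have h2 := hc (D ^ i * w1 * (D ^ i)⁻¹) _ h1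
      rw [mul_inv_cancel_left, hDi, hDi] at h2
      have h3 : ρ ^ i * f w1 < ρ ^ i * (ρ * α) := mul_lt_mul_of_pos_left hw1.2 (by positivity)
      have h4 : ρ ^ j * α < ρ ^ j * f w2 := mul_lt_mul_of_pos_left hw2.1 (by positivity)
      have h5 : ρ ^ i * (ρ * α) ≤ ρ ^ j * α := by
        have : ρ ^ (i + 1) ≤ ρ ^ j := pow_le_pow_right₀ hρ.le hij
        calc ρ ^ i * (ρ * α) = ρ ^ (i + 1) * α := by ring
          _ ≤ ρ ^ j * α := mul_le_mul_of_nonneg_right this hα0.le
      linarith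
    intro i j hij
    rw [Set.disjoint_left]
    rintro y ⟨_, ⟨w1, hw1, rfl⟩, rfl⟩ ⟨_, ⟨w2, hw2, rfl⟩, he⟩
    have he' : QuotientGroup.mk' (Subgroup.center E) (D ^ j * w2 * (D ^ j)⁻¹) =
        QuotientGroup.mk' (Subgroup.center E) (D ^ i * w1 * (D ^ i)⁻¹) := he
    rcases lt_or_gt_of_ne hij with h | h
    · exact key i j h w1 hw1 w2 hw2 he'.symm
    · exact key j i h w2 hw2 w1 hw1 he'

end rec

variable {n : Type} [Fintype n] [DecidableEq n] {k : Type} [NontriviallyNormedField k]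
  {σ : k →+* k} {ε : k} {J : Matrix n n k} {G : Subgroup (SpecialLinearGroup n k)}

/-- An element which commutes with a neighbourhood of `1` is central. -/
theorem cent (hσ : ∀ x, ‖σ x‖ = ‖x‖) (hF : Frm σ ε J) (hG : GT σ ε J ≤ G)
    (hGF : G ≤ FormGroup σ J) (g : G)
    (h : ((Subgroup.centralizer {g} : Subgroup G) : Set G) ∈ 𝓝 1) : g ∈ Subgroup.center G := by
  refine mem_center_of_lines hF fun u hu => ?_
  obtain ⟨r, hr, hr1⟩ := exists_fix hF hσ
  obtain ⟨s, hs0, hs⟩ := hF.cc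
  have hr0 : r ≠ 0 := by
    rintro rfl
    rw [norm_zero] at hr1
    linarith
  have hc : ∀ N : ℕ, (r ^ N)⁻¹ * s + ε * σ ((r ^ N)⁻¹ * s) = 0 := fun N =>
    cc_fix (by rw [map_inv₀, map_pow, hr]) hs
  have t0 : Tendsto (fun N : ℕ => (r ^ N)⁻¹ * s) atTop (𝓝 0) := by
    have h1 : Tendsto (fun N : ℕ => (r⁻¹) ^ N) atTop (𝓝 0) := by
      apply tendsto_pow_atTop_nhds_zero_of_norm_lt_one
      rw [norm_inv]
      exact inv_lt_one_of_one_lt₀ hr1
    have := h1.mul_const s
    simpa only [inv_pow, zero_mul] using this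
  have h1 := (tendsto_tg_one (continuous_of_norm hσ) hG hu hc t0).eventually h
  obtain ⟨N, hN⟩ := h1.exists
  have h2 := Subgroup.mem_centralizer_iff.1 hN g rfl
  exact line_of_comm hF (hGF g.2) hu (mul_ne_zero (inv_ne_zero (pow_ne_zero N hr0)) hs0)
    (congrArg Subtype.val h2)

/-- The central elements are scalars of norm one. -/
theorem center_smul (hF : Frm σ ε J) (hG : GT σ ε J ≤ G) (hGF : G ≤ FormGroup σ J) {z : G}
    (hz : z ∈ Subgroup.center G) : ∃ a : k, ‖a‖ = 1 ∧ ∀ x, x ᵥ* z.1.1 = a • x := by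
  have hn : Nonempty n := by
    obtain ⟨u, hu0, -⟩ := hF.iso
    by_contra hcon
    rw [not_nonempty_iff] at hcon
    exact hu0 (Subsingleton.elim _ _)
  have hz' : ∀ g : G, g * z = z * g := Subgroup.mem_center_iff.mp hz
  obtain ⟨c, hc0, hc⟩ := hF.cc
  obtain ⟨a, ha⟩ := scalar_of_lines hF z.1 fun u hu =>
    line_of_comm hF (hGF z.2) hu hc0 (congrArg Subtype.val (hz' (tg hG hu hc))).symm
  refine ⟨a, ?_, ha⟩
  have hza : z.1.1 = Matrix.scalar n a := by
    rw [ext_iff_vecMul]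
    intro x
    rw [ha]
    ext i
    simp [Matrix.scalar_apply, vecMul_diagonal, mul_comm]
  have hdet : z.1.1.det = 1 := z.1.2
  rw [hza, Matrix.scalar_apply, det_diagonal, Finset.prod_const, Finset.card_univ] at hdet
  have h1 : ‖a‖ ^ Fintype.card n = 1 := by rw [← norm_pow, hdet, norm_one]
  exact (pow_eq_one_iff_of_nonneg (norm_nonneg a) Fintype.card_ne_zero).1 h1

theorem continuous_act (u : n → k) : Continuous fun g : G => u ᵥ* g.1.1 := by
  have h : Continuous fun x : G => x.1.1 := continuous_subtype_val.comp continuous_subtype_val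
  exact Continuous.matrix_vecMul continuous_const h

theorem continuous_coef (hσ : ∀ x, ‖σ x‖ = ‖x‖) (u y : n → k) :
    Continuous fun g : G => ‖hf σ J (u ᵥ* g.1.1) y‖ := by
  have h1 := continuous_hf (J := J) (continuous_of_norm hσ)
  have h2 : Continuous fun g : G => (u ᵥ* g.1.1, y) := (continuous_act u).prodMk continuous_const
  have h3 := h1.comp h2
  exact h3.norm

/-- Recurrence. -/
theorem rec_G (hσ : ∀ x, ‖σ x‖ = ‖x‖) (hF : Frm σ ε J) (hG : GT σ ε J ≤ G)
    (hGF : G ≤ FormGroup σ J) : PA.Rec (PQ G) := by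
  refine rec_pq fun z hz => ?_
  obtain ⟨u, hu, hline⟩ : ∃ u, hf σ J u u = 0 ∧ ∀ a : k, u ᵥ* z.1.1 ≠ a • u := by
    by_contra hcon
    push Not at hcon
    exact hz (mem_center_of_lines hF hcon)
  have hu0 : u ≠ 0 := by
    rintro rfl
    exact hline 0 (by rw [zero_vecMul, smul_zero])
  obtain ⟨w, hw, huw⟩ := hF.exists_hyp hu0 hu
  obtain ⟨r, hr, hr1⟩ := exists_fix hF hσ
  obtain ⟨s, hs0, hs⟩ := hF.cc
  have hr0 : r ≠ 0 := by
    rintro rfl
    rw [norm_zero] at hr1
    linarith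
  set D : G := dg hG hF hu hw hs0 hs hr0 hr with hD
  have hDu : u ᵥ* D.1.1 = r⁻¹ • u := u_dv hF hu hw huw hs0 hr0
  have hDi : u ᵥ* ((D⁻¹ : G).1).1 = r • u := by
    have h1 : u ᵥ* (((D.1 : SpecialLinearGroup n k))⁻¹).1 = (r⁻¹)⁻¹ • u :=
      inv_of_smul (inv_ne_zero hr0) hDu
    rw [inv_inv] at h1
    exact h1
  have hcen : ∀ (x y : n → k) (g : G), ∀ c ∈ Subgroup.center G,
      ‖hf σ J (x ᵥ* (g * c).1.1) y‖ = ‖hf σ J (x ᵥ* g.1.1) y‖ := by
    intro x y g c hc
    obtain ⟨a, ha1, ha⟩ := center_smul hF hG hGF hc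
    have e : x ᵥ* (g * c).1.1 = a • (x ᵥ* g.1.1) := by
      change x ᵥ* (g.1 * c.1).1 = _
      rw [vecMul_mul', ha]
    rw [e, hf_smul_left, norm_mul, ha1, one_mul]
  -- the general scaling
  have hscale : ∀ (y : n → k) (b : k), y ᵥ* (D⁻¹ : G).1.1 = b • y → ∀ g : G,
      ‖hf σ J (u ᵥ* ((D⁻¹ * g * (D⁻¹)⁻¹ : G)).1.1) y‖ = ‖r‖ * ‖b‖ * ‖hf σ J (u ᵥ* g.1.1) y‖ := by
    intro y b hb g
    have e : u ᵥ* ((D⁻¹ * g * (D⁻¹)⁻¹ : G)).1.1 = r • ((u ᵥ* g.1.1) ᵥ* D.1.1) := by
      rw [inv_inv]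
      change u ᵥ* ((D⁻¹ : G).1 * g.1 * D.1).1 = _
      rw [vecMul_mul', vecMul_mul', hDi, smul_vecMul, smul_vecMul]
    rw [e, hf_smul_left, norm_mul, mul_assoc]
    congr 1
    -- move `D` to the other side
    have h1 := mem_formGroup.mp (hGF (D⁻¹ : G).2) ((u ᵥ* g.1.1) ᵥ* D.1.1) y
    have h2 : ((u ᵥ* g.1.1) ᵥ* D.1.1) ᵥ* (D⁻¹ : G).1.1 = u ᵥ* g.1.1 :=
      vecMul_cancel_inv (u ᵥ* g.1.1) D.1
    rw [h2, hb, hf_smul_right] at h1
    rw [← h1, norm_mul, hσ]
  by_cases h0 : hf σ J (u ᵥ* z.1.1) u = 0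
  · -- the second function
    set v : n → k := u ᵥ* z.1.1 with hv
    set v' : n → k := v - hf σ J v w • u with hv'
    have h1 : hf σ J v' w = 0 := by
      rw [hv', sub_eq_add_neg, ← neg_smul, hf_add_left, hf_smul_left, huw]
      ring
    have h2 : hf σ J v' u = 0 := by
      rw [hv', sub_eq_add_neg, ← neg_smul, hf_add_left, hf_smul_left, hu, h0]
      ring
    have h3 : v' ≠ 0 := by
      intro h
      exact hline (hf σ J v w) (sub_eq_zero.mp h)
    obtain ⟨x, hx⟩ := hF.nondeg v' h3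
    have he := hF.eps
    have hwu : hf σ J w u = ε := hF.swap huw
    set y : n → k := x + (-hf σ J x w) • u + (-(ε * hf σ J x u)) • w with hy
    have hyu : hf σ J y u = 0 := by
      rw [hy, hf_add_left, hf_add_left, hf_smul_left, hf_smul_left, hu, hwu]
      linear_combination -hf σ J x u * he
    have hyw : hf σ J y w = 0 := by
      rw [hy, hf_add_left, hf_add_left, hf_smul_left, hf_smul_left, huw, hw]
      ring
    have hv'y : hf σ J v' y ≠ 0 := by
      rw [hy, hf_add_right, hf_add_right, hf_smul_right, hf_smul_right, h1, h2, mul_zero,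
        mul_zero, add_zero, add_zero]
      exact hx
    have hvy : hf σ J v y ≠ 0 := by
      have e : v = v' + hf σ J v w • u := by rw [hv']; abel
      rw [e, hf_add_left, hf_smul_left, hF.symm_zero hyu, mul_zero, add_zero]
      exact hv'y
    have hyD : y ᵥ* (D⁻¹ : G).1.1 = (1 : k) • y := by
      have h4 : y ᵥ* D.1.1 = (1 : k) • y := by
        rw [one_smul]
        exact y_dv hu hw hyu hyw
      have h5 : y ᵥ* (((D.1 : SpecialLinearGroup n k))⁻¹).1 = (1 : k)⁻¹ • y :=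
        inv_of_smul one_ne_zero h4
      rw [inv_one] at h5
      exact h5
    refine ⟨fun g => ‖hf σ J (u ᵥ* g.1.1) y‖, D⁻¹, ‖r‖, continuous_coef hσ u y, hr1,
      fun g => ?_, hcen u y, ?_⟩
    · have := hscale y 1 hyD g
      rwa [norm_one, mul_one] at this
    · exact norm_pos_iff.2 hvy
  · refine ⟨fun g => ‖hf σ J (u ᵥ* g.1.1) u‖, D⁻¹, ‖r‖ * ‖r‖, continuous_coef hσ u u, ?_,
      fun g => hscale u r hDi g, hcen u u, norm_pos_iff.2 h0⟩
    nlinarith

/-- The group is not compact. -/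
theorem nc_G (hσ : ∀ x, ‖σ x‖ = ‖x‖) (hF : Frm σ ε J) (hG : GT σ ε J ≤ G) :
    ¬ CompactSpace G := by
  intro hcomp
  obtain ⟨u, hu0, hu⟩ := hF.iso
  obtain ⟨w, hw, huw⟩ := hF.exists_hyp hu0 hu
  obtain ⟨r, hr, hr1⟩ := exists_fix hF hσ
  obtain ⟨s, hs0, hs⟩ := hF.cc
  obtain ⟨C, hC⟩ := (isCompact_range (continuous_coef (G := G) (J := J) hσ w w)).bddAbove
  have hs' : 0 < ‖s‖ := norm_pos_iff.2 hs0
  have hε0 : 0 < ‖ε‖ := norm_pos_iff.2 hF.eps_ne
  obtain ⟨N, hN⟩ := pow_unbounded_of_one_lt (C / (‖s‖ * ‖ε‖)) hr1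
  have hc : r ^ N * s + ε * σ (r ^ N * s) = 0 := cc_fix (by rw [map_pow, hr]) hs
  have h1 := hC ⟨tg hG hu hc, rfl⟩
  have e : hf σ J (w ᵥ* (tg hG hu hc).1.1) w = r ^ N * s * ε := by
    change hf σ J (w ᵥ* (tv σ J u (r ^ N * s)).1) w = _
    rw [vecMul_tv hu, hf_add_left, hf_smul_left, hw, huw, hF.swap huw]
    ring
  simp only [e] at h1
  rw [norm_mul, norm_mul, norm_pow, mul_assoc] at h1
  rw [div_lt_iff₀ (by positivity)] at hN
  linarith

theorem isClosedEmbedding_SLn :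
    IsClosedEmbedding (Subtype.val : SpecialLinearGroup n k → Matrix n n k) := by
  refine ⟨⟨isInducing_val, Subtype.val_injective⟩, ?_⟩
  have h : Set.range (Subtype.val : SpecialLinearGroup n k → Matrix n n k) =
      {A : Matrix n n k | A.det = 1} := Subtype.range_coe
  rw [h]
  exact isClosed_eq (continuous_id.matrix_det) continuous_const

theorem t2_G : T2Space G := by
  haveI : T2Space (SpecialLinearGroup n k) :=
    (isClosedEmbedding_SLn (n := n) (k := k)).isEmbedding.t2Space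
  infer_instance

theorem lc_G [ProperSpace k] (hc : IsClosed (G : Set (SpecialLinearGroup n k))) :
    LocallyCompactSpace G := by
  haveI : LocallyCompactSpace (Matrix n n k) := inferInstanceAs (LocallyCompactSpace (n → n → k))
  haveI : LocallyCompactSpace (SpecialLinearGroup n k) :=
    (isClosedEmbedding_SLn (n := n) (k := k)).locallyCompactSpace
  exact hc.isClosedEmbedding_subtypeVal.locallyCompactSpace

theorem sc_G [ProperSpace k] : SecondCountableTopology G := by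
  haveI : SecondCountableTopology (Matrix n n k) :=
    inferInstanceAs (SecondCountableTopology (n → n → k))
  haveI : SecondCountableTopology (SpecialLinearGroup n k) :=
    (isClosedEmbedding_SLn (n := n) (k := k)).isEmbedding.secondCountableTopology
  exact (IsEmbedding.subtypeVal (p := fun x => x ∈ G)).secondCountableTopology

/-- The facts needed for the lattices. -/
theorem cf_G (hσ : ∀ x, ‖σ x‖ = ‖x‖) (hF : Frm σ ε J) (hG : GT σ ε J ≤ G)
    (hGF : G ≤ FormGroup σ J) : Cf G where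
  fin := finite_center hF hG hGF
  cen g hg := cent hσ hF hG hGF g (hg.mem_nhds (Subgroup.one_mem _))

/-- **The facts on the factor** `G / Z(G)`, for `G` closed and generated by transvections. -/
theorem facS_G [ProperSpace k] (hσ : ∀ x, ‖σ x‖ = ‖x‖) (hF : Frm σ ε J) (hG : G = GT σ ε J)
    (hc : IsClosed (G : Set (SpecialLinearGroup n k))) (hm : PA.HM G) : PA.FacS (PQ G) := by
  have hG1 : GT σ ε J ≤ G := hG.ge
  have hGF : G ≤ FormGroup σ J := hG.le.trans (GT_le hF)
  have hfin := finite_center hF hG1 hGF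
  have hf : ((Subgroup.center G : Subgroup G) : Set G).Finite := Set.toFinite _
  haveI := t2_G (G := G)
  haveI := lc_G hc
  haveI := sc_G (G := G)
  haveI hcl : IsClosed ((Subgroup.center G : Subgroup G) : Set G) := hf.isClosed
  obtain ⟨r, hr, hr1⟩ := exists_fix hF hσ
  have hr0 : r ≠ 0 := by
    rintro rfl
    rw [norm_zero] at hr1
    linarith
  have hri : ‖r⁻¹ * r⁻¹‖ < 1 := by
    rw [norm_mul, norm_inv]
    have := inv_lt_one_of_one_lt₀ hr1
    have h0 : 0 < ‖r‖⁻¹ := by positivity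
    nlinarith
  have hr4 : r * r ≠ r⁻¹ * r⁻¹ := by
    intro h
    have h1 : ‖r * r‖ < 1 := by rw [h]; exact hri
    rw [norm_mul] at h1
    nlinarith
  have hr2 : r⁻¹ * r⁻¹ ≠ 1 := by
    intro h
    rw [h, norm_one] at hri
    exact lt_irrefl _ hri
  have hsimple : ∀ N : Subgroup G, N.Normal → N ≤ Subgroup.center G ∨ N = ⊤ := by
    intro N hN
    by_cases h : N ≤ Subgroup.center G
    · exact Or.inl h
    · obtain ⟨z, hz, hzc⟩ := SetLike.not_le_iff_exists.1 h
      refine Or.inr (eq_top_iff.2 fun x _ => ?_)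
      have hx : x.1 ∈ GT σ ε J := hG ▸ x.2
      exact normal_main hF hG1 hGF hr hr0 hr4 N hN hz hzc x.1 hx
  have hhom : ∀ (A : Type) [CommGroup A] (f : G →* A), f = 1 := by
    intro A _ f
    refine MonoidHom.ext fun x => ?_
    have hx : x.1 ∈ GT σ ε J := hG ▸ x.2
    exact hom_GT hF hG1 hGF f hr hr0 hr2 x.1 hx
  exact
  { top := inferInstance
    lc := inferInstance
    sc := inferInstance
    t2 := inferInstance
    nc := PA.nc_quot _ hf.isCompact (nc_G hσ hF hG1)
    simple := PA.simple_quot hsimple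
    cent := PA.cent_quot hf fun g hg => cent hσ hF hG1 hGF g hg
    hom := PA.hom_quot hhom _
    recu := rec_G hσ hF hG1 hGF
    hm := hm.quot _ }

end Vale.Agent.P092.H714.Cl
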