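import Vale.Agent.P092.H714.Cl8
import Vale.Agent.P092.H714.Cl6

/-!
P092, block A-CLASS (helper714), part 9: every isometry is a product of quasi-reflections and
transvections (`σ ≠ id`), and the special unitary group is generated by its transvections.
-/

set_option linter.all false

open Matrix

namespace Vale.Agent.P092.H714.Cl

open Vale.Agent.P092.H303 (FormGroup hyp Idx)
open Vale.Agent.P092.H933 (LocK)

section alg

variable {n : Type} [Fintype n] [DecidableEq n] {k : Type} [Field k]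
  {σ : k →+* k} {ε : k} {J : Matrix n n k}

/-- The fixed vectors. -/
def Fx (g : GL n k) : Submodule k (n → k) where
  carrier := {x | x ᵥ* g.1 = x}
  add_mem' {a b} ha hb := by
    change (a + b) ᵥ* g.1 = a + b
    rw [add_vecMul, show a ᵥ* g.1 = a from ha, show b ᵥ* g.1 = b from hb]
  zero_mem' := by
    change (0 : n → k) ᵥ* g.1 = 0
    rw [zero_vecMul]
  smul_mem' c a ha := by
    change (c • a) ᵥ* g.1 = c • a
    rw [smul_vecMul, show a ᵥ* g.1 = a from ha]

theorem mem_Fx {g : GL n k} {x : n → k} : x ∈ Fx g ↔ x ᵥ* g.1 = x := Iff.rfl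

/-- An isometry `≠ 1` moves a vector in a direction not orthogonal to it. -/
theorem exists_move (hF : Frm σ ε J) (hne : ∃ c : k, σ c ≠ c) {g : GL n k} (hg : g ≠ 1) :
    ∃ x, hf σ J x (x ᵥ* g.1 + (-1 : k) • x) ≠ 0 := by
  by_contra hcon
  push Not at hcon
  apply hg
  obtain ⟨c, hc⟩ := hne
  have key : ∀ x y, hf σ J x (y ᵥ* g.1 + (-1 : k) • y) = 0 := by
    intro x y
    have h0 : ∀ d : k, σ d * hf σ J x (y ᵥ* g.1 + (-1 : k) • y) +
        d * hf σ J y (x ᵥ* g.1 + (-1 : k) • x) = 0 := by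
      intro d
      have h1 := hcon (x + d • y)
      have h2 := hcon x
      have h3 := hcon y
      rw [add_vecMul, smul_vecMul] at h1
      simp only [hf_add_left, hf_add_right, hf_smul_left, hf_smul_right, smul_add, map_neg,
        map_one] at h1 h2 h3 ⊢
      linear_combination h1 - h2 - (d * σ d) * h3
    have h1 := h0 1
    have h2 := h0 c
    rw [map_one, one_mul, one_mul] at h1
    have h3 : (σ c - c) * hf σ J x (y ᵥ* g.1 + (-1 : k) • y) = 0 := by
      linear_combination h2 - c * h1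
    exact (mul_eq_zero.1 h3).resolve_left (sub_ne_zero.2 hc)
  refine ext_vm fun y => ?_
  rw [vm_one]
  by_contra hy
  have h1 : y ᵥ* g.1 + (-1 : k) • y ≠ 0 := by
    intro h
    apply hy
    have e : y ᵥ* g.1 = (y ᵥ* g.1 + (-1 : k) • y) + y := by module
    rw [e, h, zero_add]
  obtain ⟨z, hz⟩ := hF.nondeg _ h1
  exact hF.symm_ne hz (key z y)

/-- The element of `GL` with matrix `x ↦ x + a h(x, v) v`. -/
theorem exists_R (hF : Frm σ ε J) {v : n → k} {a : k} (ha : a ≠ 0) (h : QR σ ε J v a) :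
    ∃ R : GL n k, ∀ x, x ᵥ* R.1 = x + (a * hf σ J x v) • v := by
  have hd : (rk σ J v v a).det ≠ 0 := by
    rw [det_rk]
    intro h0
    apply ha
    unfold QR at h
    linear_combination h - ε * σ a * h0
  refine ⟨GeneralLinearGroup.mkOfDetNeZero (rk σ J v v a) hd, fun x => ?_⟩
  exact vecMul_rk x v v a

/-- **Every isometry is a product of an element of the transvection group and a torus element.** -/
theorem iso_NN (hF : Frm σ ε J) (hne : ∃ c : k, σ c ≠ c) {r : k} (hr : σ r = r) (hr0 : r ≠ 0)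
    (hr1 : r ≠ 1) {u₀ w₀ : n → k} (hu₀ : hf σ J u₀ u₀ = 0) (hw₀ : hf σ J w₀ w₀ = 0)
    (huw₀ : hf σ J u₀ w₀ = 1) : ∀ (d : ℕ) (g : GL n k), g ∈ IG σ J →
      Module.finrank k (n → k) ≤ Module.finrank k (Fx g) + d → g ∈ NN σ ε J u₀ w₀ := by
  intro d
  induction d with
  | zero =>
    intro g hg hd
    have h1 : Fx g = ⊤ := by
      apply Submodule.eq_top_of_finrank_eq
      exact le_antisymm (Submodule.finrank_le _) (by simpa using hd)
    have h2 : g = 1 := by
      refine ext_vm fun x => ?_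
      rw [vm_one]
      have : x ∈ Fx g := by rw [h1]; trivial
      exact this
    rw [h2]
    exact TG_NN hF hu₀ hw₀ huw₀ (one_mem _)
  | succ d ih =>
    intro g hg hd
    by_cases hg1 : g = 1
    · rw [hg1]
      exact TG_NN hF hu₀ hw₀ huw₀ (one_mem _)
    obtain ⟨x, hx⟩ := exists_move hF hne hg1
    obtain ⟨v, hv⟩ : ∃ v, v = x ᵥ* g.1 + (-1 : k) • x := ⟨_, rfl⟩
    rw [← hv] at hx
    have hxg : x ᵥ* g.1 = x + v := by rw [hv]; module
    obtain ⟨s, hs⟩ : ∃ s, s = hf σ J x v := ⟨_, rfl⟩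
    rw [← hs] at hx
    have hσs : σ s ≠ 0 := by rwa [Ne, map_eq_zero]
    -- the relation
    have hrel : hf σ J v v + s + ε * σ s = 0 := by
      have h1 := mem_IG.1 hg x x
      rw [hxg] at h1
      simp only [hf_add_left, hf_add_right] at h1
      have h2 : hf σ J v x = ε * σ s := by rw [hs]; exact hF.herm x v
      rw [h2, ← hs] at h1
      linear_combination h1
    have hQR : QR σ ε J v s⁻¹ := by
      unfold QR
      have h3 : hf σ J v v = -s - ε * σ s := by linear_combination hrel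
      rw [h3, map_inv₀]
      have he := hF.eps
      field_simp
      linear_combination (-(σ s)) * he
    obtain ⟨R, hR⟩ := exists_R hF (inv_ne_zero hx) hQR
    have hRI := iso_QR hF hQR hR
    have hxR : x ᵥ* R.1 = x ᵥ* g.1 := by
      rw [hR, hxg, ← hs, inv_mul_cancel₀ hx, one_smul]
    -- the rest
    have hg' : g * R⁻¹ ∈ IG σ J := mul_mem hg (inv_mem hRI)
    have hle : Fx g ≤ Fx (g * R⁻¹) := by
      intro z hz
      rw [mem_Fx] at hz ⊢
      have h1 : hf σ J z v = 0 := by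
        have h2 := mem_IG.1 hg z x
        rw [hz] at h2
        rw [hv, hf_add_right, hf_smul_right, h2, map_neg, map_one]
        ring
      have h3 : z ᵥ* R.1 = z := by rw [hR, h1, mul_zero, zero_smul, add_zero]
      have h4 := vm_cancel_inv z R
      rw [h3] at h4
      rw [vm_mul, hz, h4]
    have hlt : Fx g < Fx (g * R⁻¹) := by
      refine lt_of_le_of_ne hle fun he => ?_
      have h1 : x ∈ Fx (g * R⁻¹) := by
        rw [mem_Fx, vm_mul, ← hxR, vm_cancel_inv]
      rw [← he, mem_Fx, hxg] at h1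
      have h2 : v = 0 := by
        have h3 : x + v = x + 0 := by rw [h1, add_zero]
        exact add_left_cancel h3
      rw [hs, h2, hf_zero_right] at hx
      exact hx rfl
    have hfr := Submodule.finrank_lt_finrank_of_lt hlt
    have h1 := ih (g * R⁻¹) hg' (by omega)
    have h2 : R ∈ NN σ ε J u₀ w₀ := by
      by_cases hvv : hf σ J v v = 0
      · have hc : s⁻¹ + ε * σ s⁻¹ = 0 := by
          have := hQR
          unfold QR at this
          rw [hvv, mul_zero, add_zero] at this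
          exact this
        have e : R = gl (tv σ J v s⁻¹) := by
          refine ext_vm fun y => ?_
          rw [hR, gl_val, vecMul_tv hvv]
        rw [e]
        exact TG_NN hF hu₀ hw₀ huw₀ (gl_mem_TG (tv_mem_GT hvv hc))
      · exact QR_NN hF hu₀ hw₀ huw₀ hr hr0 hr1 hvv (inv_ne_zero hx) hQR hR
    have e : g = g * R⁻¹ * R := by group
    rw [e]
    exact NN_mul hF hu₀ hw₀ huw₀ h1 h2

/-- **The special unitary group is generated by its transvections.** -/
theorem formGroup_eq_GT (hF : Frm σ ε J) (hne : ∃ c : k, σ c ≠ c) {r : k} (hr : σ r = r)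
    (hr0 : r ≠ 0) (hr1 : r ≠ 1) : FormGroup σ J = GT σ ε J := by
  refine le_antisymm (fun g hg => ?_) (GT_le hF)
  obtain ⟨u₀, hu₀0, hu₀⟩ := hF.iso
  obtain ⟨w₀, hw₀, huw₀⟩ := hF.exists_hyp hu₀0 hu₀
  obtain ⟨t, ⟨τ, hτ, rfl⟩, b, hb, h1⟩ := iso_NN hF hne hr hr0 hr1 hu₀ hw₀ huw₀
    (Module.finrank k (n → k)) (gl g) (gl_mem.2 hg) (by omega)
  have hσb : σ b ≠ 0 := by rwa [Ne, map_eq_zero]
  -- the determinant
  have h2 : (gl g).1.det = (gl τ).1.det * (tb σ ε J u₀ w₀ b).1.det := by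
    rw [h1, ← det_mul]
    rfl
  rw [gl_val, gl_val, g.2, τ.2, one_mul, tb_val hF huw₀ hb, det_tbm hF huw₀] at h2
  have h3 : σ b = b := by
    field_simp at h2
    exact h2
  obtain ⟨τ', hτ', h4⟩ := tb_mem_TG hF hu₀ hw₀ huw₀ hb h3
  have h5 : gl g = gl (τ * τ') := by rw [h1, map_mul, h4]
  rw [gl_injective h5]
  exact mul_mem hτ hτ'

end alg

section top

variable {ι : Type} [Fintype ι] [DecidableEq ι] {k : Type} [NontriviallyNormedField k]
  {σ : k →+* k} {ε : k} {J₀ : Matrix ι ι k} {q : ℕ}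

/-- The constants for an involution which is not the identity. -/
theorem cc_of_ne (hinv : ∀ x, σ (σ x) = x) (heps : ε * ε = 1) (hseps : σ ε = ε)
    (hne : ∃ c : k, σ c ≠ c) : ∃ c : k, c ≠ 0 ∧ c + ε * σ c = 0 := by
  obtain ⟨c, hc⟩ := hne
  by_cases h : c - ε * σ c = 0
  · -- then `c = ε σ c`
    have he : ε ≠ 1 := by
      rintro rfl
      apply hc
      linear_combination -h
    refine ⟨1 - ε, sub_ne_zero.2 (Ne.symm he), ?_⟩
    rw [map_sub, map_one, hseps]
    linear_combination -heps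
  · refine ⟨c - ε * σ c, h, ?_⟩
    rw [map_sub, map_mul, hinv, hseps]
    linear_combination (-c) * heps

/-- Traces, for an involution which is not the identity. -/
theorem exists_trace (hinv : ∀ x, σ (σ x) = x) (hne : ∃ c : k, σ c ≠ c) :
    ∃ t : k, t + σ t = 1 := by
  obtain ⟨c, hc⟩ := hne
  obtain ⟨x, hx⟩ : ∃ x : k, x + σ x ≠ 0 := by
    by_contra hcon
    push Not at hcon
    have h1 := hcon 1
    rw [map_one] at h1
    have h2 := hcon c
    apply hc
    linear_combination h2 - c * h1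
  refine ⟨x / (x + σ x), ?_⟩
  have h1 : σ (x + σ x) = x + σ x := by rw [map_add, hinv, add_comm]
  rw [map_div₀, h1, ← add_div, div_self hx]

theorem frm0_of_aniso (hinv : ∀ x, σ (σ x) = x) (heps : ε * ε = 1)
    (hne : ∃ c : k, σ c ≠ c) (hherm : ∀ i j, J₀ j i = ε * σ (J₀ i j)) (hseps : σ ε = ε)
    (hJ : ∀ v : ι → k, v ≠ 0 → v ⬝ᵥ (J₀ *ᵥ fun l => σ (v l)) ≠ 0) : Frm0 σ ε J₀ := by
  have hherm' : ∀ x y, hf σ J₀ y x = ε * σ (hf σ J₀ x y) := by
    intro x y
    unfold hf
    simp only [dotProduct, mulVec, map_sum, map_mul, hinv, Finset.mul_sum]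
    rw [Finset.sum_comm]
    refine Finset.sum_congr rfl fun i _ => Finset.sum_congr rfl fun j _ => ?_
    rw [hherm i j]
    ring
  refine ⟨hherm', fun x hx => ⟨x, hJ x hx⟩, fun y => ?_⟩
  obtain ⟨t, ht⟩ := exists_trace hinv hne
  refine ⟨t * hf σ J₀ y y, ?_⟩
  have h1 := hherm' y y
  rw [map_mul]
  have h2 : ε * (σ t * σ (hf σ J₀ y y)) = σ t * hf σ J₀ y y := by
    rw [mul_left_comm, ← h1]
  rw [h2, ← add_mul, ht, one_mul]

/-- **The special unitary group `SU(J)`**, `J = hyp q ε J₀` of Witt index `q ≥ 2` over a local field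
with an involution `σ ≠ id`, is in the class of factors, if it has the Howe–Moore property. -/
theorem fct_SU [ProperSpace k] (hk : LocK k) (hσ : ∀ x, ‖σ x‖ = ‖x‖)
    (hinv : ∀ x, σ (σ x) = x) (hne : ∃ c : k, σ c ≠ c) (heps : ε * ε = 1) (hseps : σ ε = ε)
    (hherm : ∀ i j, J₀ j i = ε * σ (J₀ i j)) (hq : 2 ≤ q)
    (hJ : ∀ v : ι → k, v ≠ 0 → v ⬝ᵥ (J₀ *ᵥ fun l => σ (v l)) ≠ 0)
    (hm : H933.HoweMoore (FormGroup σ (hyp q ε J₀))) :
    TF.Fct (FormGroup σ (hyp q ε J₀)) q := by
  have h0 := frm0_of_aniso hinv heps hne hherm hseps hJ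
  have hcc := cc_of_ne hinv heps hseps hne
  have hF : Frm σ ε (hyp q ε J₀) := frm_hyp hinv heps hseps h0 hcc (by omega)
  obtain ⟨r, hr, hr1⟩ := exists_fix hF hσ
  have hr0 : r ≠ 0 := by
    rintro rfl
    rw [norm_zero] at hr1
    linarith
  have hr1' : r ≠ 1 := by
    rintro rfl
    rw [norm_one] at hr1
    linarith
  exact fct_form hk hσ hinv heps hseps h0 hcc hq hJ (formGroup_eq_GT hF hne hr hr0 hr1') hm

end top

end Vale.Agent.P092.H714.Cl
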