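import Vale.Agent.P092.H714.SpM3

/-!
P092, Team P, block P-HM (helper714): unbounded subsets of the symplectic groups. The same list as in
`SpM3`, with the conclusion that the entries are unbounded; transport to `FormGroup`.
-/

set_option linter.all false

open Matrix Filter Topology

namespace Vale.Agent.P092.H714.Sp

open Vale.Agent.P092.RC (Moore)
open Vale.Agent.P092.H15 (HMG Alt)
open Vale.Agent.P092.H303 (FormGroup)

section top

variable {n : Type} [Fintype n] [DecidableEq n] {k : Type} [NontriviallyNormedField k] [ProperSpace k]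
  {K : Matrix n n k}

/-- The entries of the elements of `S` are unbounded. -/
def Ub (S : Set (SpG K)) : Prop := ∀ C : ℝ, ∃ g ∈ S, ∃ i j, C < ‖g.1.1 i j‖

theorem Ub.mono {S S' : Set (SpG K)} (h : Ub S) (hS : S ⊆ S') : Ub S' := fun C => by
  obtain ⟨g, hg, i, j, h1⟩ := h C
  exact ⟨g, hS hg, i, j, h1⟩

theorem ub_of_vec {ι : Type*} {l : Filter ι} [l.NeBot] {b : ι → SpG K} (x : n → k) (i : n)
    (hb : Tendsto (fun j => ‖((b j).1.1 *ᵥ x) i‖) l atTop) {S : Set (SpG K)}
    (hS : ∀ᶠ j in l, b j ∈ S) : Ub S := by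
  intro C
  by_contra hcon
  push Not at hcon
  obtain ⟨m, hm, hmS⟩ := ((hb.eventually_gt_atTop (∑ j, C * ‖x j‖)).and hS).exists
  apply absurd hm
  rw [not_lt]
  calc ‖((b m).1.1 *ᵥ x) i‖ = ‖∑ j, (b m).1.1 i j * x j‖ := rfl
    _ ≤ ∑ j, ‖(b m).1.1 i j * x j‖ := norm_sum_le _ _
    _ ≤ ∑ j, C * ‖x j‖ := by
      refine Finset.sum_le_sum fun j _ => ?_
      rw [norm_mul]
      exact mul_le_mul_of_nonneg_right (hcon _ hmS i j) (norm_nonneg _)

theorem ub_of_root (hK : Alt K) {u : n → k} (hu : u ≠ 0) {S : Set (SpG K)}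
    (hS : ∀ s, tr hK u s ∈ S) : Ub S := by
  obtain ⟨x, hx⟩ := exists_om hK hu
  obtain ⟨i, hi⟩ := Function.ne_iff.1 hu
  refine ub_of_vec (l := Bornology.cobounded k) (b := tr hK u) x i ?_ (Eventually.of_forall hS)
  have h1 : ∀ s, ((tr hK u s).1.1 *ᵥ x) i = x i + s * (om K u x * u i) := fun s => by
    rw [tr_mulVec, Pi.add_apply, Pi.smul_apply, smul_eq_mul, mul_assoc]
  have hc : om K u x * u i ≠ 0 := mul_ne_zero hx hi
  have h2 : Tendsto (fun s : k => ‖s‖ * ‖om K u x * u i‖ - ‖x i‖) (Bornology.cobounded k) atTop := by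
    refine tendsto_atTop_add_const_right _ _ ?_
    exact tendsto_norm_cobounded_atTop.atTop_mul_const (norm_pos_iff.2 hc)
  refine tendsto_atTop_mono (fun s => ?_) h2
  rw [h1]
  have := norm_sub_norm_le (s * (om K u x * u i)) (-x i)
  rw [norm_mul, norm_neg, sub_neg_eq_add, add_comm (s * _)] at this
  exact this

theorem ub_pow (hK : Alt K) {g : SpG K} {x : n → k} (hx : x ≠ 0) {c : k}
    (hg : g.1.1 *ᵥ x = c • x) (hc : 1 < ‖c‖) {S : Set (SpG K)} (hS : ∀ N : ℕ, g ^ N ∈ S) :
    Ub S := by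
  obtain ⟨i, hi⟩ := Function.ne_iff.1 hx
  have h1 : ∀ N : ℕ, (g ^ N).1.1 *ᵥ x = c ^ N • x := by
    intro N
    induction N with
    | zero => rw [pow_zero, pow_zero, one_smul]; exact one_mulVec x
    | succ N ih => rw [pow_succ', mul_mulVec, ih, mulVec_smul, hg, smul_smul, pow_succ]
  refine ub_of_vec (l := atTop) (b := fun N : ℕ => g ^ N) x i ?_ (Eventually.of_forall hS)
  have h2 : ∀ N : ℕ, ‖((g ^ N).1.1 *ᵥ x) i‖ = ‖c‖ ^ N * ‖x i‖ := fun N => by
    rw [h1, Pi.smul_apply, smul_eq_mul, norm_mul, norm_pow]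
  simp only [h2]
  exact (tendsto_pow_atTop_atTop_of_one_lt hc).atTop_mul_const (norm_pos_iff.2 hi)

/-- **Unbounded sets are Moore sets.** -/
theorem moore_of_ub [Nonempty n] (hK : Alt K) {S : Set (SpG K)} (hS : Ub S) :
    Moore S := by
  choose g hg i j hgt using hS
  have c0 : Continuous fun g : SpG K => g.1.1 := continuous_subtype_val.comp continuous_subtype_val
  have hf : Continuous fun g : SpG K => ∑ i, ∑ j, ‖g.1.1 i j‖ := by
    refine continuous_finsetSum _ fun i _ => continuous_finsetSum _ fun j _ => ?_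
    exact ((continuous_apply j).comp ((continuous_apply i).comp c0)).norm
  refine moore_of_tendsto (l := atTop) (b := fun N : ℕ => g N) (hmg hK)
    (tendsto_cocompact_of hf ?_) (Eventually.of_forall fun N => hg N)
  refine tendsto_atTop_mono (fun N => ?_) tendsto_natCast_atTop_atTop
  refine (hgt N).le.trans ?_
  refine le_trans ?_ (Finset.single_le_sum (f := fun i' => ∑ j', ‖(g N).1.1 i' j'‖)
    (fun a _ => Finset.sum_nonneg fun b _ => norm_nonneg _) (Finset.mem_univ (i N)))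
  exact Finset.single_le_sum (f := fun j' => ‖(g N).1.1 (i N) j'‖) (fun b _ => norm_nonneg _)
    (Finset.mem_univ (j N))

/-- The pointwise stabiliser of a proper subspace is unbounded. -/
theorem ub_fix (hK : Alt K) {L : Submodule k (n → k)} (hL : L ≠ ⊤) :
    Ub {g : SpG K | ∀ x ∈ L, g.1.1 *ᵥ x = x} := by
  obtain ⟨u, hu0, hu⟩ := exists_perp hK hL
  exact ub_of_root hK hu0 fun s x hx => tr_fix hK (by rw [om_skew hK x u, hu x hx, neg_zero]) s

theorem pow_eig {g : SpG K} {x : n → k} {a : k} (hx : g.1.1 *ᵥ x = a • x) (N : ℕ) :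
    (g ^ N).1.1 *ᵥ x = a ^ N • x := by
  induction N with
  | zero => rw [pow_zero, pow_zero, one_smul]; exact one_mulVec' x
  | succ N ih => rw [pow_succ', mul_mulVec, ih, mulVec_smul, hx, smul_smul, pow_succ]

/-- The torus of a hyperbolic pair is unbounded. -/
theorem ub_pair (hK : Alt K) {e f : n → k} (hef : om K e f = 1) :
    Ub {g : SpG K | (∃ a : k, g.1.1 *ᵥ e = a • e) ∧ (∃ a : k, g.1.1 *ᵥ f = a • f) ∧
      ∀ x, om K e x = 0 → om K f x = 0 → g.1.1 *ᵥ x = x} := by
  obtain ⟨w, hw0, hw⟩ := exists_big k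
  have he : e ≠ 0 := by
    rintro rfl
    rw [om_zero_left] at hef
    exact zero_ne_one hef
  set g : SpG K := sqr hK (dilM K e f w) (dilM_iso hK hef hw0) with hg
  have hfe : om K f e = -1 := by rw [om_skew hK, hef]
  have e1 : dilM K e f w *ᵥ e = w • e := by
    rw [dilM_mulVec hK, hef, om_self hK, mul_zero, zero_smul, add_zero]
    module
  have e2 : dilM K e f w *ᵥ f = w⁻¹ • f := by
    rw [dilM_mulVec hK, om_self hK, hef, mul_zero, zero_smul, add_zero]
    module
  have e3 : ∀ x, om K e x = 0 → om K f x = 0 → dilM K e f w *ᵥ x = x := fun x h1 h2 => by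
    rw [dilM_mulVec hK, h1, om_skew hK f x, h2, neg_zero, mul_zero, mul_zero, zero_smul, zero_smul,
      add_zero, add_zero]
  have g1 : g.1.1 *ᵥ e = (w * w) • e := by
    rw [hg, sqr_mulVec, e1, mulVec_smul, e1, smul_smul]
  have g2 : g.1.1 *ᵥ f = (w⁻¹ * w⁻¹) • f := by
    rw [hg, sqr_mulVec, e2, mulVec_smul, e2, smul_smul]
  refine ub_pow hK he g1 (by rw [norm_mul]; nlinarith) fun N => ?_
  refine ⟨⟨_, pow_eig g1 N⟩, ⟨_, pow_eig g2 N⟩, fun x h1 h2 => ?_⟩
  have := pow_eig (g := g) (x := x) (a := 1) (by rw [one_smul, hg, sqr_mulVec, e3 x h1 h2,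
    e3 x h1 h2]) N
  rwa [one_pow, one_smul] at this

/-- **The elements which preserve all subspaces of two isotropic subspaces are unbounded.** -/
theorem ub_two [Nonempty n] (hK : Alt K) {X Y : Submodule k (n → k)} (hX : Iso K X)
    (hY : Iso K Y) : Ub {g : SpG K | (∀ Z ≤ X, Prs Z g) ∧ ∀ Z ≤ Y, Prs Z g} := by
  by_cases hT : X ⊔ Y = ⊤
  · -- transversal Lagrangian subspaces
    have hi : X ⊓ Y = ⊥ := by
      rw [eq_bot_iff]
      intro x hx
      rw [Submodule.mem_bot]
      by_contra h0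
      obtain ⟨y, hy⟩ := exists_om hK h0
      have hy' : y ∈ X ⊔ Y := by rw [hT]; trivial
      obtain ⟨a, ha, b, hb, rfl⟩ := Submodule.mem_sup.1 hy'
      apply hy
      rw [om_add_right, hX x hx.1 a ha, hY x hx.2 b hb, add_zero]
    obtain ⟨P, hPX, hPY⟩ := exists_proj hi hT
    obtain ⟨w, hw0, hw⟩ := exists_big k
    set M : Matrix n n k := w • P + w⁻¹ • (1 - P) with hM
    have m1 : ∀ x ∈ X, M *ᵥ x = w • x := fun x hx => by
      rw [hM, add_mulVec, smul_mulVec, smul_mulVec, sub_mulVec, one_mulVec, hPX x hx, sub_self,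
        smul_zero, add_zero]
    have m2 : ∀ y ∈ Y, M *ᵥ y = w⁻¹ • y := fun y hy => by
      rw [hM, add_mulVec, smul_mulVec, smul_mulVec, sub_mulVec, one_mulVec, hPY y hy, sub_zero,
        smul_zero, zero_add]
    have hiso : Mᵀ * K * M = K := by
      refine iso_of_om fun x y => ?_
      have hx : x ∈ X ⊔ Y := by rw [hT]; trivial
      have hy : y ∈ X ⊔ Y := by rw [hT]; trivial
      obtain ⟨a, ha, b, hb, rfl⟩ := Submodule.mem_sup.1 hx
      obtain ⟨c, hc, d, hd, rfl⟩ := Submodule.mem_sup.1 hy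
      rw [mulVec_add, mulVec_add, m1 a ha, m2 b hb, m1 c hc, m2 d hd]
      simp only [om_add_left, om_add_right, om_smul_left, om_smul_right, hX a ha c hc,
        hY b hb d hd, mul_zero, zero_add, add_zero]
      field_simp
    set g : SpG K := sqr hK M hiso with hg
    have g1 : ∀ x ∈ X, g.1.1 *ᵥ x = (w * w) • x := fun x hx => by
      rw [hg, sqr_mulVec, m1 x hx, mulVec_smul, m1 x hx, smul_smul]
    have g2 : ∀ x ∈ Y, g.1.1 *ᵥ x = (w⁻¹ * w⁻¹) • x := fun x hx => by
      rw [hg, sqr_mulVec, m2 x hx, mulVec_smul, m2 x hx, smul_smul]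
    have hX0 : X ≠ ⊥ := by
      rintro rfl
      rw [bot_sup_eq] at hT
      obtain ⟨i⟩ := ‹Nonempty n›
      have h0 : (Pi.single i 1 : n → k) ≠ 0 := by
        intro h
        have := congrFun h i
        simp at this
      obtain ⟨y, hy⟩ := exists_om hK h0
      exact hy (hY _ (by rw [hT]; trivial) _ (by rw [hT]; trivial))
    obtain ⟨x₀, hx₀, hx0⟩ := Submodule.exists_mem_ne_zero_of_ne_bot hX0
    refine ub_pow hK hx0 (g1 x₀ hx₀) (by rw [norm_mul]; nlinarith) fun N => ?_
    refine ⟨fun Z hZ => prs_of_le fun x hx => ?_, fun Z hZ => prs_of_le fun x hx => ?_⟩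
    · rw [pow_eig (g1 x (hZ hx))]
      exact Z.smul_mem _ hx
    · rw [pow_eig (g2 x (hZ hx))]
      exact Z.smul_mem _ hx
  · obtain ⟨u, hu0, hu⟩ := exists_perp hK hT
    refine ub_of_root hK hu0 fun s => ⟨fun Z hZ => prs_of_le fun x hx => ?_,
      fun Z hZ => prs_of_le fun x hx => ?_⟩
    · rwa [tr_fix hK (by rw [om_skew hK x u, hu x (le_sup_left (a := X) (hZ hx)), neg_zero])]
    · rwa [tr_fix hK (by rw [om_skew hK x u, hu x (le_sup_right (b := Y) (hZ hx)), neg_zero])]

/-! ### Transport to `FormGroup` -/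

/-- For `K² = -1` both conventions give the same group. -/
theorem SpG_eq_formGroup (hK2 : K * K = -1) : SpG K = FormGroup (RingHom.id k) K := by
  have hu : IsUnit K.det := by
    rw [isUnit_iff_ne_zero]
    intro h0
    have h1 := congrArg Matrix.det hK2
    rw [det_mul, h0, mul_zero, det_neg, det_one, mul_one] at h1
    exact (pow_ne_zero _ (neg_ne_zero.2 one_ne_zero)) h1.symm
  have hi : K⁻¹ = -K := by
    refine Matrix.inv_eq_right_inv ?_
    rw [Matrix.mul_neg, hK2, neg_neg]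
  rw [SpG_eq hu, hi]
  ext g
  rw [H303.mem_formGroup, H303.mem_formGroup, Matrix.mul_neg, Matrix.neg_mul, neg_inj]

theorem alt_of_sq (hd : ∀ i, K i i = 0) (hs : ∀ i j, K j i = -K i j) (hK2 : K * K = -1) : Alt K := by
  refine ⟨hd, hs, fun h0 => ?_⟩
  have h1 := congrArg Matrix.det hK2
  rw [det_mul, h0, mul_zero, det_neg, det_one, mul_one] at h1
  exact (pow_ne_zero _ (neg_ne_zero.2 one_ne_zero)) h1.symm

/-- **Unbounded subsets are Moore sets**, for any group equal to `SpG K`. -/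
theorem moore_of_unb [Nonempty n] (hK : Alt K)
    {P : Subgroup (SpecialLinearGroup n k)} (hP : SpG K = P) {S : Set P}
    (hS : ∀ C : ℝ, ∃ g ∈ S, ∃ i j, C < ‖g.1.1 i j‖) : Moore S := by
  subst hP
  exact moore_of_ub hK hS

/-- The image of a Moore set under a surjective homomorphism. -/
theorem moore_image {G E : Type} [Group G] [TopologicalSpace G] [Group E] [TopologicalSpace E]
    (ι : G →* E) (hc : Continuous ι) (hs : Function.Surjective ι) {S : Set G} (h : Moore S) :
    Moore (ι '' S) := by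
  intro 𝓗 _ _ _ u h1 h2 ξ hξ e
  obtain ⟨g, rfl⟩ := hs e
  exact h 𝓗 (u.comp ι) (fun g ξ => h1 (ι g) ξ) (fun ξ => (h2 ξ).comp hc) ξ
    (fun g hg => hξ _ ⟨g, hg, rfl⟩) g

/-- Transport of a property of elements. -/
theorem unb_of_ub {P : Subgroup (SpecialLinearGroup n k)} (hP : SpG K = P)
    {p : SpecialLinearGroup n k → Prop} (h : Ub {g : SpG K | p g.1}) (C : ℝ) :
    ∃ g : P, p g.1 ∧ ∃ i j, C < ‖g.1.1 i j‖ := by
  subst hP
  obtain ⟨g, hg, i, j, h1⟩ := h C
  exact ⟨g, hg, i, j, h1⟩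

end top

end Vale.Agent.P092.H714.Sp
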