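import Vale.Agent.P092.H714.SgM
import Vale.Agent.P092.H899.O17

/-!
P092, Team P, stage 3, block P3-HM (helper714): the orthogonal groups have the dilations of all
hyperbolic pairs.
-/

set_option linter.all false

open Matrix Module Set Filter Topology
open scoped commutatorElement

namespace Vale.Agent.P092.H714.Sg

open Vale.Agent.P092.H303 (FormGroup hyp Idx)
open Vale.Agent.P092.H714.Cl
open Vale.Agent.P092.H370.Po (Sing Ort act mem_act finrank_act)
open Vale.Agent.P092.RC (Moore)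
open Vale.Agent.P092.H15 (HMG)
open Vale.Agent.P092.H899.Ort (Om bf bf_apply sysOf Dim Aniso)

section om

variable {n : Type} [Fintype n] [DecidableEq n] {k : Type} [NontriviallyNormedField k]
  {K K' : Matrix n n k}

theorem bf_inv (hKK : K * K' = 1) (hs : Kᵀ = K) (x y : n → k) :
    bf K' (K *ᵥ x) (K *ᵥ y) = hf (RingHom.id k) K x y := by
  have h1 : K' * K = 1 := mul_eq_one_comm.1 hKK
  rw [bf_apply, mulVec_mulVec, h1, one_mulVec]
  unfold hf
  rw [dotProduct_mulVec x, ← mulVec_transpose, hs]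
  rfl

theorem bf_left (hKK : K * K' = 1) (y x : n → k) : bf K' y (K *ᵥ x) = y ⬝ᵥ x := by
  have h1 : K' * K = 1 := mul_eq_one_comm.1 hKK
  rw [bf_apply, mulVec_mulVec, h1, one_mulVec]

theorem hasTor_om (hKK : K * K' = 1) (hs : Kᵀ = K) (h : H899.Ort.Good K') :
    HasTor (RingHom.id k) 1 K (Om K') := by
  intro e f he hf' hef
  obtain ⟨s, hs1⟩ := NormedField.exists_one_lt_norm k
  have hs0 : s ≠ 0 := by
    rintro rfl
    rw [norm_zero] at hs1
    linarith
  have hH : (sysOf h).Hyp (K *ᵥ f) (K *ᵥ e) :=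
    { ee := by
        show bf K' _ _ = 0
        rw [bf_inv hKK hs, hf']
      ff := by
        show bf K' _ _ = 0
        rw [bf_inv hKK hs, he]
      ef := by
        show bf K' _ _ = 1
        rw [H899.Ort.bf_sym h.sym, bf_inv hKK hs, hef] }
  obtain ⟨w, d, -, -, -, -, hd⟩ := (sysOf h).exists_tor hH hs0
  refine ⟨d, s ^ 2, by rw [norm_pow]; nlinarith, fun x => ?_⟩
  have hd' : ∀ y : n → k, d.1.1 *ᵥ y = y + ((s ^ 2 - 1) * (y ⬝ᵥ e)) • (K *ᵥ f) +
      (((s ^ 2)⁻¹ - 1) * (y ⬝ᵥ f)) • (K *ᵥ e) := by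
    intro y
    have := hd y
    rw [← bf_left hKK y e, ← bf_left hKK y f]
    exact this
  have key : ∀ y : n → k, (x ᵥ* d.1.1) ⬝ᵥ y =
      (x + ((s ^ 2 - 1) * hf (RingHom.id k) K x f) • e +
        (((s ^ 2)⁻¹ - 1) * 1 * hf (RingHom.id k) K x e) • f) ⬝ᵥ y := by
    intro y
    rw [← dotProduct_mulVec, hd']
    simp only [dotProduct_add, add_dotProduct, smul_dotProduct, dotProduct_smul, smul_eq_mul]
    have e1 : x ⬝ᵥ (K *ᵥ f) = hf (RingHom.id k) K x f := rfl
    have e2 : x ⬝ᵥ (K *ᵥ e) = hf (RingHom.id k) K x e := rfl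
    rw [e1, e2, dotProduct_comm y e, dotProduct_comm y f]
    ring
  funext i
  have := key (Pi.single i 1)
  rwa [dotProduct_single_one, dotProduct_single_one] at this

theorem fm_om (hKK : K * K' = 1) (hs : Kᵀ = K) (h : H899.Ort.Good K') :
    Fm (RingHom.id k) 1 K where
  inv _ := rfl
  eps := one_mul 1
  seps := rfl
  herm x y := by
    show hf (RingHom.id k) K y x = 1 * hf (RingHom.id k) K x y
    rw [one_mul, ← bf_inv hKK hs, ← bf_inv hKK hs, H899.Ort.bf_sym h.sym]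
  nondeg x hx := by
    by_contra hcon
    push Not at hcon
    have h1 : x ᵥ* K = 0 := by
      funext i
      have := hcon (Pi.single i 1)
      unfold hf at this
      have e : (fun j => (RingHom.id k) ((Pi.single i (1 : k) : n → k) j)) = Pi.single i 1 := rfl
      rw [e, dotProduct_mulVec, dotProduct_single_one] at this
      exact this
    apply hx
    have h2 : (x ᵥ* K) ᵥ* K' = x := by rw [vecMul_vecMul, hKK, vecMul_one]
    rw [← h2, h1, zero_vecMul]
  tv y := by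
    refine ⟨hf (RingHom.id k) K y y / 2, ?_⟩
    have h2 := h.two
    show _ = hf (RingHom.id k) K y y / 2 + 1 * (hf (RingHom.id k) K y y / 2)
    field_simp
    ring
  iso := by
    obtain ⟨e, he0, he⟩ := h.ex
    have h1 : K *ᵥ (K' *ᵥ e) = e := by rw [mulVec_mulVec, hKK, one_mulVec]
    refine ⟨K' *ᵥ e, fun h0 => he0 (by rw [← h1, h0, mulVec_zero]), ?_⟩
    rw [← bf_inv hKK hs, h1, he]

end om

section hyp

variable {ι : Type} [Fintype ι] [DecidableEq ι] {k : Type} [NontriviallyNormedField k]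
  [ProperSpace k]

/-- **The orthogonal groups `⁅SO(J), SO(J)⁆`.** -/
theorem orth_data {q : ℕ} (hq : Dim q ι) (h2 : (2 : k) ≠ 0) {J₀ : Matrix ι ι k} (hJs : J₀ᵀ = J₀)
    (hJ : Aniso J₀) (G : Subgroup (SpecialLinearGroup (Idx q ι) k))
    (hG : ∀ g, g ∈ G ↔ g.1 * hyp q 1 J₀ * g.1ᵀ = hyp q 1 J₀) :
    Fm (RingHom.id k) 1 (hyp q 1 J₀) ∧ HasTor (RingHom.id k) 1 (hyp q 1 J₀) ⁅G, G⁆ ∧
      HMG (⁅G, G⁆ : Subgroup (SpecialLinearGroup (Idx q ι) k)) := by
  have hg : H899.Ort.Good (hyp q 1 J₀⁻¹) :=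
    H899.Ort.good_hyp hq h2 (H899.Ort.inv_sym hJs) (Aniso.inv hJ)
  have hKK := H899.Ort.hyp_mul_inv q hJ
  rw [H899.Ort.commutator_eq_om hq h2 hJs hJ G hG]
  exact ⟨fm_om hKK (H899.Ort.hyp_transpose q hJs) hg, hasTor_om hKK (H899.Ort.hyp_transpose q hJs) hg, H899.Ort.hmg_om hg⟩

end hyp

end Vale.Agent.P092.H714.Sg
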