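import Vale.Agent.P092.H714.TSep
import Vale.Agent.P092.H859.TEsc

/-!
P092 (helper714): Theorem N for induced representations: the separation estimate over a
probability space.
-/

set_option linter.all false

open scoped InnerProductSpace ENNReal
open Filter Topology ContinuousLinearMap MeasureTheory

namespace Vale.Agent.P092.H714

open Vale.Agent.P092.H160 Vale.Agent.P092.H553 Vale.Agent.P092.H432
open Vale.Agent.P092.H132 (Base TRep massX)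
open Vale.Agent.P092.H790 (CData Ri baseL ept ept_ae ind_ae ri_ae fld_comp ae_comp lxt_ind_ept
  const_ae MEData)

section cs

variable {X : Type} [MeasurableSpace X] (μ : Measure X) [IsProbabilityMeasure μ]

/-- Cauchy-Schwarz against the constant function. -/
theorem cs_sqrt {f : X → ℝ} (hf : Integrable f μ) (hf2 : Integrable (fun x => f x ^ 2) μ) :
    ∫ x, f x ∂μ ≤ Real.sqrt (∫ x, f x ^ 2 ∂μ) := by
  refine Real.le_sqrt_of_sq_le ?_
  obtain ⟨m, hm⟩ : ∃ m, m = ∫ x, f x ∂μ := ⟨_, rfl⟩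
  have h0 : 0 ≤ ∫ x, (f x - m) ^ 2 ∂μ := integral_nonneg fun x => sq_nonneg _
  have h1 : ∫ x, (f x - m) ^ 2 ∂μ = ∫ x, f x ^ 2 ∂μ - m ^ 2 := by
    have e1 : (fun x => (f x - m) ^ 2) = fun x => f x ^ 2 + (m ^ 2 - 2 * m * f x) := by
      funext x; ring
    have i2 : Integrable (fun x => 2 * m * f x) μ := hf.const_mul _
    have i1 : Integrable (fun x => m ^ 2 - 2 * m * f x) μ := (integrable_const _).sub i2
    rw [e1, integral_add hf2 i1, integral_sub (integrable_const _) i2, integral_const_mul, ← hm]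
    simp
    ring
  rw [← hm]
  linarith

variable {Γ ι : Type} [Group Γ] [Countable Γ] [Fintype ι]

/-- Fields of vectors of norm at most one. -/
def BdL (Γ ι : Type) [Group Γ] [Countable Γ] [Fintype ι] : Set (Lp (Ell2 (Γ × ι)) 2 μ) :=
  {ξ | ∀ᵐ x ∂μ, ‖(ξ x : Ell2 (Γ × ι))‖ ≤ 1}

variable {μ}

theorem bdl_norm {ξ : Lp (Ell2 (Γ × ι)) 2 μ} (h : ξ ∈ BdL μ Γ ι) : ‖ξ‖ ≤ 1 := by
  have h1 := Lp.norm_le_of_ae_bound (p := 2) zero_le_one h
  simpa [measureUnivNNReal] using h1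

theorem bdl_ep (s : Γ) (a : Lp (Ell2 (Γ × ι)) 2 μ →L[ℂ] Lp (Ell2 (Γ × ι)) 2 μ)
    (ha : a ∈ (baseL μ Γ ι).sc) (i : ι) :
    (baseL μ Γ ι).lx s (a ((baseL μ Γ ι).ep i)) ∈ BdL μ Γ ι := by
  obtain ⟨S, hS, rfl⟩ := ha
  have e : (baseL μ Γ ι).lx s (H790.ind μ _ S ((baseL μ Γ ι).ep i)) =
      H790.ind μ _ S (Lp.constL 2 μ ℂ (dl (s, i) : Ell2 (Γ × ι))) := lxt_ind_ept s hS i
  rw [e]
  change ∀ᵐ x ∂μ, _
  filter_upwards [ind_ae hS (Lp.constL 2 μ ℂ (dl (s, i) : Ell2 (Γ × ι))),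
    const_ae (μ := μ) (dl (s, i) : Ell2 (Γ × ι))] with x h1 h2
  rw [h1]
  by_cases hx : x ∈ S
  · rw [Set.indicator_of_mem hx, h2, norm_dl]
  · rw [Set.indicator_of_notMem hx, norm_zero]
    exact zero_le_one

theorem bdl_mp {F : Γ → ℝ} (hF : ∀ g, |F g| ≤ 1) {ξ : Lp (Ell2 (Γ × ι)) 2 μ}
    (h : ξ ∈ BdL μ Γ ι) : (baseL μ Γ ι).mp F ξ ∈ BdL μ Γ ι := by
  change ∀ᵐ x ∂μ, _
  have h0 : ∀ᵐ x ∂μ, ‖(ξ x : Ell2 (Γ × ι))‖ ≤ 1 := h
  filter_upwards [fld_comp (μ := μ) (mp ι F : Ell2 (Γ × ι) →L[ℂ] Ell2 (Γ × ι)) ξ, h0] with x h1 h2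
  change ‖((mp ι F : Ell2 (Γ × ι) →L[ℂ] Ell2 (Γ × ι)).compLpL 2 μ ξ) x‖ ≤ 1
  rw [h1]
  have h3 := norm_mp_le (ι := ι) hF (ξ x : Ell2 (Γ × ι))
  linarith

end cs

section sep

variable {D Λ Γ ι : Type} [Group D] [Group Λ] [Countable Λ] [Group Γ] [Countable Γ] [Fintype ι]
  {t : ℝ} {R : Λ → (Ell2 (Γ × ι) →L[ℂ] Ell2 (Γ × ι))} (d : CData D Λ)

theorem bdl_map (hR : ARep t R) (v : D) {ξ : Lp (Ell2 (Γ × ι)) 2 d.μ} (h : ξ ∈ BdL d.μ Γ ι) :
    Ri d R v ξ ∈ BdL d.μ Γ ι := by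
  change ∀ᵐ x ∂d.μ, _
  have h0 : ∀ᵐ x ∂d.μ, ‖(ξ x : Ell2 (Γ × ι))‖ ≤ 1 := h
  filter_upwards [ri_ae d hR.opNorm_le v ξ, ae_comp (d.mp v⁻¹) h0] with x h1 h2
  rw [h1]
  exact (hR.norm_le _ _).trans h2

theorem massA_sq (P : Γ → Prop) (v : Λ) :
    massA R P v ^ 2 = ∑ i, ‖mp ι (ind P) (R v (ep i))‖ ^ 2 :=
  Real.sq_sqrt (Finset.sum_nonneg fun i _ => by positivity)

theorem massA_nonneg (P : Γ → Prop) (v : Λ) : 0 ≤ massA R P v := Real.sqrt_nonneg _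

theorem massA_le (hR : ARep t R) (P : Γ → Prop) (v : Λ) :
    massA R P v ≤ Real.sqrt (Fintype.card ι) := by
  refine Real.sqrt_le_sqrt ?_
  have h := H859.massR_le hR P v
  rw [H859.massR_ind hR] at h
  exact h

/-- The pointwise separation estimate. -/
theorem sep_ptw (hR : ARep t R) (u : Λ) (η ζ : Ell2 (Γ × ι)) (hη : ‖η‖ ≤ 1) (hζ : ‖ζ‖ ≤ 1)
    (F G : Γ → ℝ) (P : Γ → Prop) (T : Finset Γ)
    (hF : ∀ g, |F g| ≤ 1) (hG : ∀ g, |G g| ≤ 1)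
    (h1 : ∀ x y, F x ≠ 0 → G y ≠ 0 → P (x⁻¹ * y))
    (h2 : ∀ x₁ y₁ x₂ y₂, F x₁ ≠ 0 → G y₁ ≠ 0 → F x₂ ≠ 0 → G y₂ ≠ 0 →
      x₁⁻¹ * y₁ = x₂⁻¹ * y₂ → x₂ * x₁⁻¹ ∈ T) :
    ‖⟪mp ι G ζ, R u (mp ι F η)⟫_ℂ‖ ≤ Real.sqrt T.card * massA R P u := by
  have hap : ∀ (F : Γ → ℝ), (∀ g, |F g| ≤ 1) → ∀ (ξ : Ell2 (Γ × ι)) (x : Γ × ι),
      (mp ι F ξ : Ell2 (Γ × ι)) x ≠ 0 → F x.1 ≠ 0 := by
    intro F hF ξ x hx h0
    refine hx ?_
    rw [mp, mo_apply (F := fun x : Γ × ι => F x.1) (fun x => hF _), h0]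
    simp
  have h := sep_massA hR u (mp ι F η) (mp ι G ζ) P T
    (fun x y hx hy => h1 _ _ (hap F hF _ _ hx) (hap G hG _ _ hy))
    (fun x₁ y₁ x₂ y₂ a1 a2 a3 a4 he => h2 _ _ _ _ (hap F hF _ _ a1) (hap G hG _ _ a2)
      (hap F hF _ _ a3) (hap G hG _ _ a4) he)
  refine h.trans ?_
  have b1 : ‖mp ι F η‖ ≤ 1 := by
    have := norm_mp_le (ι := ι) hF η
    linarith
  have b2 : ‖mp ι G ζ‖ ≤ 1 := by
    have := norm_mp_le (ι := ι) hG ζ
    linarith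
  have b3 := massA_nonneg (R := R) P u
  have b4 := Real.sqrt_nonneg (T.card : ℝ)
  calc Real.sqrt T.card * ‖mp ι F η‖ * ‖mp ι G ζ‖ * massA R P u ≤
      Real.sqrt T.card * 1 * 1 * massA R P u := by gcongr
    _ = _ := by ring

/-- The separation estimate for the induced representation. -/
theorem sepT_ind (hR : ARep t R) : SepT (baseL d.μ Γ ι) (Ri d R) (BdL d.μ Γ ι) where
  ep := fun s a ha i => bdl_ep s a ha i
  map := fun v ξ h => bdl_map d hR v h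
  mp := fun F hF ξ h => bdl_mp hF h
  norm := fun ξ h => bdl_norm h
  sep := by
    intro u η hη ζ hζ F G P T hF hG h1 h2
    have hη' : ∀ᵐ x ∂d.μ, ‖(η x : Ell2 (Γ × ι))‖ ≤ 1 := hη
    have hζ' : ∀ᵐ x ∂d.μ, ‖(ζ x : Ell2 (Γ × ι))‖ ≤ 1 := hζ
    obtain ⟨f, hf⟩ : ∃ f : d.X → ℝ, f = fun x => massA R P (d.c u x) := ⟨_, rfl⟩
    have hfm : Measurable f := by
      rw [hf]; exact H859.meas_c d u (fun v => massA R P v)
    have hf0 : ∀ x, 0 ≤ f x := fun x => by rw [hf]; exact massA_nonneg P _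
    have hfC : ∀ x, f x ≤ Real.sqrt (Fintype.card ι) := fun x => by rw [hf]; exact massA_le hR P _
    have hfi : Integrable f d.μ :=
      Integrable.of_bound (C := Real.sqrt (Fintype.card ι)) hfm.aestronglyMeasurable
        (Eventually.of_forall fun x => by
          rw [Real.norm_eq_abs, abs_of_nonneg (hf0 x)]; exact hfC x)
    have hfi2 : Integrable (fun x => f x ^ 2) d.μ :=
      Integrable.of_bound (C := Real.sqrt (Fintype.card ι) ^ 2)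
        (hfm.pow_const 2).aestronglyMeasurable
        (Eventually.of_forall fun x => by
          rw [Real.norm_eq_abs, abs_of_nonneg (sq_nonneg _)]
          exact pow_le_pow_left₀ (hf0 x) (hfC x) 2)
    -- the integral of the square of `f` is the mass
    have hmass : ∫ x, f x ^ 2 ∂d.μ = massX (baseL d.μ Γ ι) (Ri d R) u (ind P) := by
      have e1 := H156.mass_int d hR u (ind P) (fun i => ept d.μ i) (fun i => ept_ae i)
      have e2 : massX (baseL d.μ Γ ι) (Ri d R) u (ind P) =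
          ∑ i, (⟪Ri d R u (ept d.μ i), (mp ι (ind P)).compLpL 2 d.μ
            (Ri d R u (ept d.μ i))⟫_ℂ).re := rfl
      rw [e2, e1]
      refine integral_congr_ae (Eventually.of_forall fun x => ?_)
      change f x ^ 2 = _
      rw [hf]
      change massA R P (d.c u x) ^ 2 = _
      rw [massA_sq]
      exact (H859.massR_ind hR P (d.c u x)).symm
    -- the pointwise estimate
    have hin : ⟪(baseL d.μ Γ ι).mp G ζ, Ri d R u ((baseL d.μ Γ ι).mp F η)⟫_ℂ =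
        ∫ x, ⟪mp ι G (ζ x : Ell2 (Γ × ι)), R (d.c u (d.act u⁻¹ x))
          (mp ι F (η (d.act u⁻¹ x) : Ell2 (Γ × ι)))⟫_ℂ ∂d.μ := by
      rw [L2.inner_def]
      refine integral_congr_ae ?_
      filter_upwards [fld_comp (μ := d.μ) (mp ι G : Ell2 (Γ × ι) →L[ℂ] Ell2 (Γ × ι)) ζ,
        ri_ae d hR.opNorm_le u ((baseL d.μ Γ ι).mp F η),
        ae_comp (d.mp u⁻¹) (fld_comp (μ := d.μ)
          (mp ι F : Ell2 (Γ × ι) →L[ℂ] Ell2 (Γ × ι)) η)] with x a1 a2 a3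
      change ⟪((mp ι G : Ell2 (Γ × ι) →L[ℂ] Ell2 (Γ × ι)).compLpL 2 d.μ ζ) x, _⟫_ℂ = _
      rw [a1, a2]
      change ⟪_, R (d.c u (d.act u⁻¹ x)) (((mp ι F : Ell2 (Γ × ι) →L[ℂ] Ell2 (Γ × ι)).compLpL 2
        d.μ η) (d.act u⁻¹ x))⟫_ℂ = _
      rw [a3]
    have hb : ‖⟪(baseL d.μ Γ ι).mp G ζ, Ri d R u ((baseL d.μ Γ ι).mp F η)⟫_ℂ‖ ≤
        ∫ x, Real.sqrt T.card * f (d.act u⁻¹ x) ∂d.μ := by
      rw [hin]
      refine norm_integral_le_of_norm_le ?_ ?_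
      · exact ((d.mp u⁻¹).integrable_comp_of_integrable hfi).const_mul _
      · filter_upwards [hζ', ae_comp (d.mp u⁻¹) hη'] with x a1 a2
        rw [hf]
        exact sep_ptw hR _ _ _ a2 a1 F G P T hF hG h1 h2
    have hch : ∫ x, f (d.act u⁻¹ x) ∂d.μ = ∫ x, f x ∂d.μ := by
      have h3 := (d.mp u⁻¹).map_eq
      have hm : AEStronglyMeasurable f (d.μ.map (d.act u⁻¹)) := hfm.aestronglyMeasurable
      rw [← integral_map (d.mp u⁻¹).measurable.aemeasurable hm, h3]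
    rw [integral_const_mul, hch] at hb
    refine hb.trans ?_
    have hcs := cs_sqrt d.μ hfi hfi2
    rw [hmass] at hcs
    exact mul_le_mul_of_nonneg_left hcs (Real.sqrt_nonneg _)

/-- The induced representation of a measure equivalence datum escapes. -/
theorem escT_ind (m : MEData D Λ) (hR : ARep t R) :
    EscT (baseL m.toC.μ Γ ι) (Ri m.toC R) := fun i g => H859.t_hesc m hR i g

end sep

end Vale.Agent.P092.H714
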