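import Vale.Agent.P092.H714.FinC
import Vale.Agent.P092.QC.Sl
import Vale.Agent.P092.H971.Conn
import Vale.Agent.P092.H183.BCl

/-!
P092, project Q for classes of factors (helper714): the groups of the class `Cls` are in the class
`QF`.
-/

set_option linter.all false

open Matrix Filter Topology

namespace Vale.Agent.P092.H714.Cl

open Vale.Agent.P092.H303 (FormGroup hyp Idx)
open Vale.Agent.P092.PC.St
open Vale.Agent.P092.H933 (LocK)
open Vale.Agent.P092.H15 (HMG)

theorem qf_of_fct {E : Type} [Group E] [TopologicalSpace E] {r : ℕ} (h : TF.Fct E r) (hm : HMG E)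
    (he : PreconnectedSpace E ∨ QC.Td E) : QC.QF E r :=
  ⟨h.top, h.lc, h.sc, h.t2, h.cf.fin, h.fac, hm, h.chn, h.tgt, h.pos, he⟩

section form

variable {n : Type} [Fintype n] [DecidableEq n] {k : Type} [NontriviallyNormedField k]
  {σ : k →+* k} {ε : k} {J : Matrix n n k}

theorem hmg_form [ProperSpace k] (hσ : ∀ x, ‖σ x‖ = ‖x‖) (hF : Frm σ ε J)
    (hG : FormGroup σ J = GT σ ε J) : HMG (FormGroup σ J) := by
  have hcl : IsClosed (FormGroup σ J : Set (SpecialLinearGroup n k)) :=
    H303.isClosed_formGroup (continuous_of_norm hσ) _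
  refine H15.hmg_cl hσ hF hG.ge le_rfl hcl ?_
  rw [hG]
  exact Subgroup.le_topologicalClosure _

theorem erg_form [ProperSpace k] (hk : LocK k) (hσ : ∀ x, ‖σ x‖ = ‖x‖)
    (hF : Frm σ ε J) (hG : FormGroup σ J = GT σ ε J) :
    PreconnectedSpace (FormGroup σ J) ∨ QC.Td (FormGroup σ J) := by
  rcases H971.real_or_ultra hk with ⟨ι, hι⟩ | hu
  · left
    rw [hG]
    exact H971.preconnected_GT hσ hι
  · right
    exact H183.td_form hσ hF hG

end form

/-- **Every group of the class is in the class `QF`**. -/
theorem cls_qf {G : Type} [hG : Group G] [hT : TopologicalSpace G] (h : Cls G) :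
    ∃ r, QC.QF G r := by
  cases h with
  | sl k hk n hn =>
    obtain ⟨m, rfl⟩ := Nat.exists_eq_add_of_le' (show 1 ≤ n by omega)
    exact ⟨m, QC.qf_sl (H515.locK hk) (by omega)⟩
  | isom k hk σ hσ hn ε hε hσε ι J₀ hH hJ hu q hq G hG =>
    obtain rfl : G = FormGroup σ (hyp q ε J₀) := by
      ext g
      rw [hG]
      rfl
    by_cases hne : ∃ c, σ c ≠ c
    · -- unitary
      have h0 := frm0_of_aniso hσ hε hne hH hσε hJ
      have hcc := cc_of_ne hσ hε hσε hne
      have hF : Frm σ ε (hyp q ε J₀) := frm_hyp hσ hε hσε h0 hcc (by omega)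
      obtain ⟨r, hr, hr1⟩ := exists_fix hF hn
      have hr0 : r ≠ 0 := by
        rintro rfl
        rw [norm_zero] at hr1
        linarith
      have hr1' : r ≠ 1 := by
        rintro rfl
        rw [norm_one] at hr1
        linarith
      have hGT := formGroup_eq_GT hF hne hr hr0 hr1'
      have hm := hmg_form hn hF hGT
      exact ⟨q, qf_of_fct (fct_form (H515.locK hk) hn hσ hε hσε h0 hcc hq hJ hGT hm.howeMoore) hm
        (erg_form (H515.locK hk) hn hF hGT)⟩
    · -- symplectic
      obtain ⟨rfl, hι⟩ := hu.resolve_left hne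
      push Not at hne
      obtain rfl : σ = RingHom.id k := RingHom.ext hne
      have hcc : ∃ c : k, c ≠ 0 ∧ c + -1 * (RingHom.id k) c = 0 :=
        ⟨1, one_ne_zero, by simp⟩
      have h0 : Frm0 (RingHom.id k) (-1) J₀ := frm0_empty
      have hF : Frm (RingHom.id k) (-1) (hyp q (-1) J₀) :=
        frm_hyp hσ hε hσε h0 hcc (by omega)
      have hGT : FormGroup (RingHom.id k) (hyp q (-1) J₀) =
          GT (RingHom.id k) (-1) (hyp q (-1) J₀) := by
        refine H15.formGroup_eq_GT ⟨?_, ?_, ?_⟩
        · intro i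
          rcases i with (i | i) | i
          · simp [hyp]
          · simp [hyp]
          · exact (hι.false i).elim
        · intro i j
          rcases i with (i | i) | i <;> rcases j with (j | j) | j <;>
            first
              | exact (hι.false i).elim
              | exact (hι.false j).elim
              | simp [hyp, Matrix.one_apply, eq_comm]
        · intro h
          obtain ⟨v, hv0, hv⟩ := Matrix.exists_vecMul_eq_zero_iff.2 h
          obtain ⟨y, hy⟩ := hF.nondeg v hv0
          apply hy
          unfold hf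
          rw [dotProduct_mulVec, hv, zero_dotProduct]
      have hm := hmg_form hn hF hGT
      exact ⟨q, qf_of_fct (fct_form (H515.locK hk) hn hσ hε hσε h0 hcc hq hJ hGT hm.howeMoore) hm
        (erg_form (H515.locK hk) hn hF hGT)⟩

end Vale.Agent.P092.H714.Cl
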