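import Vale.Agent.P092.H899.O10
import Vale.Agent.P092.H387.Qt5

/-!
P092, block CLASS-G (helper714): chains of the central quotients of the orthogonal groups.
-/

set_option linter.all false

open Set Topology Filter Matrix

namespace Vale.Agent.P092.H714.QtO

open Vale.Agent.P092.H701
open Vale.Agent.P092.H899.Ort
open Vale.Agent.P092.H264 (Chn)
open Vale.Agent.P092.H303 (FormGroup Idx hyp torF torF_mem torF_comm torF_pow_row torF_root2 formRow
  dg_eq dg_ra dg_rb dg_ratio dgF lam ra rb ra' rb' ra_ne_rb ra'_ne_rb' sg)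

variable {ι : Type} [Fintype ι] [DecidableEq ι] {k : Type} [NontriviallyNormedField k]
  {J₀ : Matrix ι ι k}

/-- The central quotients of the orthogonal groups of Witt index at least two have chains. -/
theorem chn_om_quo [ProperSpace k] (q : ℕ) (h : Good (hyp (q + 2) 1 J₀))
    (Z : Subgroup (Om (hyp (q + 2) 1 J₀))) [Z.Normal]
    (hfin : (Z : Set (Om (hyp (q + 2) 1 J₀))).Finite)
    (hZ : ∀ z ∈ Z, ∃ a : k, ∀ x : Idx (q + 2) ι → k, x ᵥ* z.1.1 = a • x) :
    Chn (Om (hyp (q + 2) 1 J₀) ⧸ Z) (q + 2) := by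
  obtain ⟨s, hs1', hs, -, -⟩ := TSys.exists_big (k := k)
  obtain ⟨w, hwd⟩ : ∃ w : k, w = s ^ 2 := ⟨_, rfl⟩
  have hw1 : 1 < ‖w‖ := by rw [hwd, norm_pow]; nlinarith
  have hw : w ≠ 0 := norm_pos_iff.mp (lt_trans one_pos hw1)
  have htm : ∀ l, torF (q + 2) ι hw l ∈ Om (hyp (q + 2) 1 J₀) := by
    subst hwd
    exact fun l => torF_mem_om h hs l
  have hratio := fun j : Fin (q + 2) => dg_ratio (ι := ι) q w j
  choose e e1 e2 he using hratio
  refine H387.Qt.chn_quo (π := QuotientGroup.mk' Z)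
    (R := fun j : Fin (q + 2) => omRow h j)
    (b := fun j N => (⟨torF (q + 2) ι hw (lam q j), htm _⟩ : Om (hyp (q + 2) 1 J₀)) ^ N)
    (α := fun j N => w ^ N) (β := fun j N => (w ^ (-e j)) ^ N) (fun j N x => ?_)
    (fun j N x => ?_) (fun j N => pow_ne_zero _ hw) ?_ ?_ ?_ ?_
    (QuotientGroup.isQuotientMap_mk (N := Z)) ?_
  · have := torF_pow_row (q + 2) hw (lam q j) (ra q ι j) N x.1
    rw [e1] at this
    exact this
  · have := torF_pow_row (q + 2) hw (lam q j) (rb q ι j) N x.1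
    rw [e2] at this
    exact this
  · intro j C
    obtain ⟨N₀, hN₀⟩ := pow_unbounded_of_one_lt C hw1
    refine ⟨N₀, fun N hN => ?_⟩
    show C * ‖(w ^ (-e j)) ^ N‖ ≤ ‖w ^ N‖
    rw [norm_pow, norm_pow, norm_zpow]
    have h1 : C ≤ ‖w‖ ^ N := hN₀.le.trans (pow_le_pow_right₀ hw1.le hN)
    have h2 : (‖w‖ ^ (-e j)) ^ N ≤ 1 :=
      pow_le_one₀ (by positivity) (zpow_le_one_of_nonpos₀ hw1.le (by have := he j; omega))
    have h4 : (0 : ℝ) ≤ (‖w‖ ^ (-e j)) ^ N := by positivity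
    have h5 : (0 : ℝ) ≤ ‖w‖ ^ N := by positivity
    calc C * (‖w‖ ^ (-e j)) ^ N ≤ ‖w‖ ^ N * (‖w‖ ^ (-e j)) ^ N := mul_le_mul_of_nonneg_right h1 h4
      _ ≤ ‖w‖ ^ N * 1 := mul_le_mul_of_nonneg_left h2 h5
      _ = _ := mul_one _
  · intro i j _ N M
    apply Subtype.ext
    exact (torF_comm (q + 2) hw (lam q i) (lam q j)).pow_pow N M
  · intro i j hij N x hx
    have e := dg_eq (ι := ι) q w hij
    have e' : dgF (q + 2) ι w (lam q i) (ra' q ι j) = dgF (q + 2) ι w (lam q i) (rb' q ι j) := by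
      rw [dg_ra q hw, dg_rb q hw, e]
    rcases hx with ⟨t, -, rfl⟩ | ⟨t, -, rfl⟩
    · have h : Commute (⟨torF (q + 2) ι hw (lam q i), htm _⟩ : Om (hyp (q + 2) 1 J₀))
          ((omRow h j).up t) := by
        apply Subtype.ext
        exact torF_root2 (q + 2) hw (lam q i) (ra_ne_rb q j) (ra'_ne_rb' q j).symm e e'.symm
          t (-t)
      exact h.pow_left N
    · have h : Commute (⟨torF (q + 2) ι hw (lam q i), htm _⟩ : Om (hyp (q + 2) 1 J₀))
          ((omRow h j).lo t) := by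
        apply Subtype.ext
        exact torF_root2 (q + 2) hw (lam q i) (ra_ne_rb q j).symm (ra'_ne_rb' q j) e.symm e'
          t (-t)
      exact h.pow_left N
  · intro j z hz
    obtain ⟨a, ha⟩ := hZ z ((QuotientGroup.eq_one_iff z).1 hz)
    have ha0 : a ≠ 0 := by
      rintro rfl
      have h1 := ha (Pi.single (ra q ι j) 1)
      rw [zero_smul] at h1
      have h2 : (z.1.1) (ra q ι j) = 0 := by
        rw [← h1]
        exact (Matrix.single_one_vecMul _ _).symm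
      have h3 := H303.frow_pos z.1 (ra q ι j)
      rw [h2, norm_zero] at h3
      exact lt_irrefl _ h3
    have key : ∀ (i : Idx (q + 2) ι) (x : Om (hyp (q + 2) 1 J₀)),
        (x * z).1.1 i = a • x.1.1 i := fun i x => by
      rw [← ha (x.1.1 i)]
      rfl
    exact ⟨a, ha0, fun x => key _ x, fun x => key _ x⟩
  · intro hr
    refine H387.Qt.tendsto_quo Z hfin.isCompact ?_
    have hc : Continuous fun x : Om (hyp (q + 2) 1 J₀) =>
        ‖x.1.1 (H303.ra q ι ⟨0, hr⟩) (H303.ra q ι ⟨0, hr⟩)‖ :=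
      ((continuous_apply _).comp (H303.continuous_frow _)).norm
    refine tendsto_cocompact_of hc hw1 fun N => ?_
    have h1 := torF_pow_row (q + 2) hw (lam q ⟨0, hr⟩) (ra q ι ⟨0, hr⟩) N 1
    rw [mul_one, e1] at h1
    have h2 := congrFun h1 (ra q ι ⟨0, hr⟩)
    have h3 : ((((⟨torF (q + 2) ι hw (lam q ⟨0, hr⟩), htm _⟩ : Om (hyp (q + 2) 1 J₀)) ^ N).1.1
        (ra q ι ⟨0, hr⟩)) (ra q ι ⟨0, hr⟩)) = (torF (q + 2) ι hw (lam q ⟨0, hr⟩) ^ N).1
        (ra q ι ⟨0, hr⟩) (ra q ι ⟨0, hr⟩) := rfl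
    show ‖_‖ = _
    rw [h3, h2]
    show ‖w ^ N • (1 : Matrix _ _ k) (ra q ι ⟨0, hr⟩) (ra q ι ⟨0, hr⟩)‖ = _
    rw [Matrix.one_apply_eq, smul_eq_mul, mul_one, norm_pow]

end Vale.Agent.P092.H714.QtO
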