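import Vale.Agent.P092.H714.StF
import Vale.Agent.P092.H714.ClsQ
import Vale.Agent.P092.H714.QtO
import Vale.Agent.P092.H899.O17
import Vale.Agent.P092.H899.U2
import Vale.Agent.P092.H899.U3
import Vale.Agent.P092.H387.Qt4
import Vale.Agent.P092.H465.QfC
import Vale.Agent.P092.H465.DAG
import Vale.Agent.P092.H103.QF
import Vale.Agent.P092.H289.QFG5

/-!
P092, block CLASS-G (helper714): the groups of the class of the final statements about products are in
the class `QF`.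
-/

set_option linter.all false

open Matrix Filter Topology
open scoped commutatorElement

namespace Vale.Agent.P092.H714.ClF

open Vale.Agent.P092.H303 (FormGroup hyp Idx)
open Vale.Agent.P092.H899.Ort
open Vale.Agent.P092.H714.Cl (qf_of_fct center_smul)
open Vale.Agent.P092.H933 (LocK)
open Vale.Agent.P092.H15 (HMG)
open Vale.Agent.P092.QC (QF Td)

/-- A factor all of whose central quotients are factors. -/
def QFZ (G : Type) [Group G] [TopologicalSpace G] (r : ℕ) : Prop :=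
  QF G r ∧ ∀ (Z : Subgroup G) [Z.Normal], Z ≤ Subgroup.center G → QF (G ⧸ Z) r

section om

variable {n : Type} [Fintype n] [DecidableEq n] {k : Type} [NontriviallyNormedField k]
  [ProperSpace k] {K : Matrix n n k}

theorem scal_om (h : Good K) {z : Om K} (hz : z ∈ Subgroup.center (Om K)) :
    ∃ a : k, ∀ x : n → k, x ᵥ* z.1.1 = a • x := by
  obtain ⟨c, -, hc⟩ := (tsysOf h).of_mem_center hz
  have h1 : z.1.1 = Matrix.scalar n c := by
    ext i j
    have := congrFun (hc (Pi.single j 1)) i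
    have h2 : (z.1.1 *ᵥ Pi.single j 1) i = (c • (Pi.single j 1 : n → k)) i := this
    rw [Matrix.mulVec_single_one] at h2
    have h3 : z.1.1 i j = c * (Pi.single j (1 : k) : n → k) i := h2
    rw [h3, Matrix.scalar_apply, Matrix.diagonal_apply]
    by_cases hij : i = j
    · subst hij
      simp
    · rw [if_neg hij, Pi.single_eq_of_ne hij, mul_zero]
  refine ⟨c, fun x => ?_⟩
  rw [h1]
  ext i
  simp [Matrix.scalar_apply, vecMul_diagonal, mul_comm]

end om

section hyp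

variable {ι : Type} [Fintype ι] [DecidableEq ι] {k : Type} [NontriviallyNormedField k]
  [ProperSpace k]

theorem qfz_om {q : ℕ} (hk : LocK k) (hq : Dim q ι)
    {J₀ : Matrix ι ι k} (h2 : (2 : k) ≠ 0)
    (hJs : J₀ᵀ = J₀) (hJ : Aniso J₀) : QFZ (Om (hyp q 1 J₀)) q := by
  have h := qf_om hk hq h2 hJs hJ
  have hg := good_hyp hq h2 hJs hJ
  refine ⟨h, fun Z _ hZ => H387.Qt.qf_quo h Z hZ ?_⟩
  rcases hq with ⟨rfl, hι⟩ | ⟨hq, -⟩
  · exact chn_hyp_quo_one hι h2 hJs hJ Z hZ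
  obtain ⟨q, rfl⟩ : ∃ q', q = q' + 2 := ⟨q - 2, by omega⟩
  exact QtO.chn_om_quo q hg Z ((finite_center_om hg).subset hZ) fun z hz => scal_om hg (hZ hz)

end hyp

theorem qfz_sl (k : Type) [NontriviallyNormedField k] [ProperSpace k] (hk : LocK k) (m : ℕ)
    (hm : 0 < m) : QFZ (SpecialLinearGroup (Fin (m + 1)) k) m := by
  have h := QC.qf_sl hk hm
  exact ⟨h, fun Z _ hZ => H387.Qt.qf_quo h Z hZ (H387.Qt.chn_sl_quo k m Z hZ)⟩

section form

open Vale.Agent.P092.H714.Cl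

variable {ι : Type} [Fintype ι] [DecidableEq ι] {k : Type} [NontriviallyNormedField k]
  [ProperSpace k] {σ : k →+* k} {ε : k} {J₀ : Matrix ι ι k}

/-- The group of a form of Witt index `q ≥ 1` is in the class `Fct`. -/
theorem fct_form' {q : ℕ} (hk : LocK k) (hq : 1 ≤ q) (hinv : ∀ x, σ (σ x) = x)
    (hσ : ∀ x, ‖σ x‖ = ‖x‖) (heps : ε * ε = 1) (hseps : σ ε = ε) (hF : Frm σ ε (hyp q ε J₀))
    (hJ : ∀ v : ι → k, v ≠ 0 → v ⬝ᵥ (J₀ *ᵥ fun l => σ (v l)) ≠ 0)
    (hG : FormGroup σ (hyp q ε J₀) = GT σ ε (hyp q ε J₀))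
    (hm : H933.HoweMoore (FormGroup σ (hyp q ε J₀))) :
    TF.Fct (FormGroup σ (hyp q ε J₀)) q := by
  have hc : IsClosed (FormGroup σ (hyp q ε J₀) : Set (SpecialLinearGroup (Idx q ι) k)) :=
    H303.isClosed_formGroup (continuous_of_norm hσ) _
  exact
  { top := inferInstance
    lc := lc_G hc
    sc := sc_G
    t2 := t2_G
    cf := cf_G hσ hF hG.ge le_rfl
    fac := facS_G hσ hF hG hc (PA.hm_of_howeMoore hm)
    hm := hm
    chn := by
      rcases Nat.lt_or_ge q 2 with h2 | h2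
      · obtain rfl : q = 1 := by omega
        exact H899.Un.chn_form_one hσ hF hJ
      · obtain ⟨q, rfl⟩ := Nat.exists_eq_add_of_le' h2
        exact chn_form hσ hinv heps hseps
    tgt := H515.tgt_formGroup hk hσ hinv hF.eps_ne hJ
    pos := by omega }

theorem qfz_form {q : ℕ} (hq : 1 ≤ q) (hσ : ∀ x, σ (σ x) = x) (hn : ∀ x, ‖σ x‖ = ‖x‖)
    (hε : ε * ε = 1) (hσε : σ ε = ε) (hF : Frm σ ε (hyp q ε J₀))
    (hJ : ∀ v : ι → k, v ≠ 0 → v ⬝ᵥ (J₀ *ᵥ fun l => σ (v l)) ≠ 0)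
    (hGT : FormGroup σ (hyp q ε J₀) = GT σ ε (hyp q ε J₀))
    (h : QF (FormGroup σ (hyp q ε J₀)) q) : QFZ (FormGroup σ (hyp q ε J₀)) q := by
  refine ⟨h, fun Z _ hZ => H387.Qt.qf_quo h Z hZ ?_⟩
  haveI := h.fin
  rcases Nat.lt_or_ge q 2 with h2 | h2
  · obtain rfl : q = 1 := by omega
    exact H899.Un.chn_form_quo_one hn hF hJ Z hZ
  obtain ⟨q, rfl⟩ : ∃ q', q = q' + 2 := ⟨q - 2, by omega⟩
  refine H387.Qt.chn_form_quo q hσ hn hε hσε Z ?_ fun z hz => ?_
  · exact (Set.toFinite (Subgroup.center (FormGroup σ (hyp (q + 2) ε J₀)) : Set _)).subset hZ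
  · obtain ⟨a, -, ha⟩ := center_smul hF hGT.ge le_rfl (hZ hz)
    exact ⟨a, ha⟩

end form

/-- A continuous involution of a normed field is isometric. -/
theorem norm_of_continuous {k : Type} [NontriviallyNormedField k] {σ : k →+* k} (hc : Continuous σ)
    (hσ : ∀ x, σ (σ x) = x) (x : k) : ‖σ x‖ = ‖x‖ := by
  have key : ∀ x : k, ¬ ‖x‖ < ‖σ x‖ := by
    intro x hx
    have hσx : σ x ≠ 0 := norm_pos_iff.1 (lt_of_le_of_lt (norm_nonneg x) hx)
    have hx0 : x ≠ 0 := by
      rintro rfl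
      rw [map_zero] at hσx
      exact hσx rfl
    have h1 : ‖x / σ x‖ < 1 := by
      rw [norm_div]
      exact (div_lt_one (norm_pos_iff.2 hσx)).2 hx
    have h2 := tendsto_pow_atTop_nhds_zero_of_norm_lt_one h1
    have h3 := ((hc.tendsto 0).comp h2).norm
    rw [map_zero, norm_zero] at h3
    have h4 : ∀ m : ℕ, 1 ≤ ‖σ ((x / σ x) ^ m)‖ := by
      intro m
      rw [map_pow, map_div₀, hσ, norm_pow, norm_div]
      exact one_le_pow₀ ((one_le_div (norm_pos_iff.2 hx0)).2 hx.le)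
    have h5 := ge_of_tendsto' h3 h4
    exact absurd h5 (by norm_num)
  refine le_antisymm (not_lt.1 (key x)) ?_
  have := key (σ x)
  rw [hσ] at this
  exact not_lt.1 this

theorem mem_of_isom {q : ℕ} {ι : Type} [Fintype ι] [DecidableEq ι] {k : Type} [Field k]
    {σ : k →+* k} {ε : k} {J₀ : Matrix ι ι k} {G : Subgroup (SpecialLinearGroup (Idx q ι) k)}
    (hG : ∀ g, g ∈ G ↔ PC.StF.IsIsom σ ε J₀ q g.1) (g : SpecialLinearGroup (Idx q ι) k) :
    g ∈ G ↔ g.1 * hyp q ε J₀ * (g.1.map σ).transpose = hyp q ε J₀ := hG g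

open Vale.Agent.P092.H714.Cl in
/-- The unitary and symplectic groups. -/
theorem isu_qfz {k : Type} [NontriviallyNormedField k] [ProperSpace k] (hk : LocK k) {σ : k →+* k}
    {ε : k} {ι : Type} [Fintype ι] [DecidableEq ι] {J₀ : Matrix ι ι k} {q : ℕ}
    (hσ : ∀ x, σ (σ x) = x) (hn : ∀ x, ‖σ x‖ = ‖x‖) (hε : ε * ε = 1) (hσε : σ ε = ε)
    (hH : ∀ i j, J₀ j i = ε * σ (J₀ i j))
    (hJ : ∀ v : ι → k, v ≠ 0 → v ⬝ᵥ (J₀ *ᵥ fun l => σ (v l)) ≠ 0) (hq : 1 ≤ q)
    (hu : (∃ c, σ c ≠ c) ∨ ε = -1 ∧ IsEmpty ι) : QFZ (FormGroup σ (hyp q ε J₀)) q := by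
  by_cases hne : ∃ c, σ c ≠ c
  · -- unitary
    have h0 := frm0_of_aniso hσ hε hne hH hσε hJ
    have hcc := cc_of_ne hσ hε hσε hne
    have hF : Frm σ ε (hyp q ε J₀) := frm_hyp hσ hε hσε h0 hcc (by omega)
    obtain ⟨r, hr, hr1⟩ := exists_fix hF hn
    have hr0 : r ≠ 0 := by
      rintro rfl
      rw [norm_zero] at hr1
      linarith
    have hr1' : r ≠ 1 := by
      rintro rfl
      rw [norm_one] at hr1
      linarith
    have hGT := formGroup_eq_GT hF hne hr hr0 hr1'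
    have hm := hmg_form hn hF hGT
    exact qfz_form hq hσ hn hε hσε hF hJ hGT
      (qf_of_fct (fct_form' hk hq hσ hn hε hσε hF hJ hGT hm.howeMoore) hm
        (erg_form hk hn hF hGT))
  · -- symplectic
    obtain ⟨rfl, hι⟩ := hu.resolve_left hne
    push Not at hne
    obtain rfl : σ = RingHom.id k := RingHom.ext hne
    have hcc : ∃ c : k, c ≠ 0 ∧ c + -1 * (RingHom.id k) c = 0 :=
      ⟨1, one_ne_zero, by simp⟩
    have h0 : Frm0 (RingHom.id k) (-1) J₀ := frm0_empty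
    have hF : Frm (RingHom.id k) (-1) (hyp q (-1) J₀) :=
      frm_hyp hσ hε hσε h0 hcc (by omega)
    have hGT : FormGroup (RingHom.id k) (hyp q (-1) J₀) =
        GT (RingHom.id k) (-1) (hyp q (-1) J₀) := by
      refine H15.formGroup_eq_GT ⟨?_, ?_, ?_⟩
      · intro i
        rcases i with (i | i) | i
        · simp [hyp]
        · simp [hyp]
        · exact (hι.false i).elim
      · intro i j
        rcases i with (i | i) | i <;> rcases j with (j | j) | j <;>
          first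
            | exact (hι.false i).elim
            | exact (hι.false j).elim
            | simp [hyp, Matrix.one_apply, eq_comm]
      · intro h
        obtain ⟨v, hv0, hv⟩ := Matrix.exists_vecMul_eq_zero_iff.2 h
        obtain ⟨y, hy⟩ := hF.nondeg v hv0
        apply hy
        unfold hf
        rw [dotProduct_mulVec, hv, zero_dotProduct]
    have hm := hmg_form hn hF hGT
    exact qfz_form hq hσ hn hε hσε hF hJ hGT
      (qf_of_fct (fct_form' hk hq hσ hn hε hσε hF hJ hGT hm.howeMoore) hm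
        (erg_form hk hn hF hGT))

/-- The classical groups of forms over fields are in the class `QF`. -/
theorem isCl_qf {k G : Type} [NontriviallyNormedField k] [ProperSpace k] (hk : LocK k) [Group G]
    [TopologicalSpace G] (h : PC.StF.IsCl k G) : ∃ r, QF G r := by
  obtain ⟨σ, ε, ι, _, _, J₀, q, S, hc, hσ, hε, hσε, ⟨hH, hJ⟩, hq, hS, h⟩ := h
  rcases h with ⟨hu, f, hf, hker⟩ | ⟨hid, rfl, h2, hd, f, hf, hker⟩
  · obtain rfl : S = FormGroup σ (hyp q ε J₀) := by
      ext g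
      exact hS g
    exact ⟨q, H465.qf_of_quo (isu_qfz hk hσ (norm_of_continuous hc hσ) hε hσε hH hJ hq hu).2 f hf
      hker⟩
  · obtain rfl : σ = RingHom.id k := RingHom.ext hid
    have hJs : J₀.transpose = J₀ := by
      ext i j
      rw [transpose_apply, hH i j, one_mul]
      rfl
    have h1 := commutator_eq_om hd h2 hJs hJ S (fun g => by
      rw [mem_of_isom hS g]
      rfl)
    have h3 : ∀ (Z : Subgroup (⁅S, S⁆ : Subgroup _)) [Z.Normal],
        Z ≤ Subgroup.center (⁅S, S⁆ : Subgroup _) → QF ((⁅S, S⁆ : Subgroup _) ⧸ Z) q := by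
      rw [h1]
      exact (qfz_om hk hd h2 (inv_sym hJs) (Aniso.inv hJ)).2
    exact ⟨q, H465.qf_of_quo h3 f hf hker⟩

/-- `SL_n(D)` modulo central subgroups. -/
theorem isSL_qf {k : Type} [NontriviallyNormedField k] [ProperSpace k] (hk : LocK k) {D G : Type}
    [NormedDivisionRing D] [NormedAlgebra k D] (h : PC.StF.IsFC k D) [Group G]
    [TopologicalSpace G] (hG : PC.StF.IsSL D G) : ∃ r, QF G r := by
  obtain ⟨h1, h2⟩ := h
  obtain ⟨n, hn, f, hf, hker⟩ := hG
  obtain ⟨m, rfl⟩ := Nat.exists_eq_add_of_le' (show 1 ≤ n by omega)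
  have h3 : ∀ (Z : Subgroup (commutator (Matrix (Fin (m + 1)) (Fin (m + 1)) D)ˣ)) [Z.Normal],
      Z ≤ Subgroup.center (commutator (Matrix (Fin (m + 1)) (Fin (m + 1)) D)ˣ) →
        QF (commutator (Matrix (Fin (m + 1)) (Fin (m + 1)) D)ˣ ⧸ Z) m := by
    have e : commutator (Matrix (Fin (m + 1)) (Fin (m + 1)) D)ˣ = H465.DA.SLD (Fin (m + 1)) D :=
      (H465.DA.SLD_eq_commutator (H465.DA.two_le hn) k (H465.DA.exists_sq_ne k)).symm
    rw [e]
    exact fun Z _ hZ => H465.DA.qf_sld_quo k D hk (by omega) Z hZ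
  exact ⟨m, H465.qf_of_quo h3 f hf hker⟩

open Vale.Agent.P092.H103.QH in
open Vale.Agent.P092.H899.Qu in
/-- Quaternionic groups modulo central subgroups. -/
theorem isQuat_qf {k : Type} [NontriviallyNormedField k] [ProperSpace k] (hk : LocK k) {D G : Type}
    [NormedDivisionRing D] [NormedAlgebra k D] (h : PC.StF.IsFC k D) [Group G]
    [TopologicalSpace G] (hG : PC.StF.IsQuat k D G) : ∃ r, QF G r := by
  obtain ⟨hfd, -⟩ := h
  obtain ⟨h2, hnc, _, ht, ε, ι, _, _, J₀, q, S, hd, ⟨hH, hJ⟩, hq, hS, f, hf, hker⟩ := hG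
  have hε : ε = 1 ∨ ε = -1 := hd.imp_right And.left
  have hQ : Qn D := qn_of' ht h2 hnc
  have hd' : ε = -1 → 3 ≤ 2 * q + Fintype.card ι := by
    intro he
    rcases hd with h1 | h1
    · exfalso
      have h4 : (1 : D) = -1 := h1.symm.trans he
      have h5 : (2 : D) = 0 := by
        rw [← one_add_one_eq_two]
        nth_rewrite 2 [h4]
        exact add_neg_cancel 1
      exact hQ.two h5
    · exact h1.2
  have hF : H103.QH.Frm ε (hypD q ε J₀) := frm_quat ht h2 hnc hε hH hJ hq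
  have h3 : Dm3 ε (hypD q ε J₀) := dm3_hypD hQ.toQt hJ hq hd'
  obtain ⟨r, hr, hr1⟩ := hQ.big
  have hr0 : r ≠ 0 := by
    rintro rfl
    rw [norm_zero] at hr1
    linarith
  have hr2 : r * r ≠ 1 := by
    intro h5
    have h6 := congrArg (fun x : D => ‖x‖) h5
    simp only [norm_mul, norm_one] at h6
    nlinarith
  have hc := H289.QF.GT_eq_comm hQ.toQt hF h3 hr hr0 hr2
  obtain rfl : S = FG (hypD q ε J₀) := by
    ext g
    exact hS g
  have h7 : ∀ (Z : Subgroup (⁅FG (hypD q ε J₀), FG (hypD q ε J₀)⁆ : Subgroup _)) [Z.Normal],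
      Z ≤ Subgroup.center (⁅FG (hypD q ε J₀), FG (hypD q ε J₀)⁆ : Subgroup _) →
        QF ((⁅FG (hypD q ε J₀), FG (hypD q ε J₀)⁆ : Subgroup _) ⧸ Z) q := by
    rw [← hc]
    exact fun Z _ hZ => qf_quat_quo ht h2 hnc hε hH hJ hq hd'
      (qf_quat hk ht h2 hnc hε hH hJ hq hd') Z hZ
  exact ⟨q, H465.qf_of_quo h7 f hf hker⟩

/-- **Every group of the class is in the class `QF`**. -/
theorem clsF_qf {G : Type} [hG : Group G] [hT : TopologicalSpace G] (h : PC.StF.Cls G) :
    ∃ r, QF G r := by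
  obtain ⟨k, _, hp, hk, h | ⟨D, _, _, hfc, h⟩⟩ := h
  · exact isCl_qf (H515.locK hk) h
  · rcases h with h | h
    · exact isSL_qf (H515.locK hk) hfc h
    · exact isQuat_qf (H515.locK hk) hfc h

end Vale.Agent.P092.H714.ClF
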