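import Vale.Agent.P092.H714.Cl3

/-!
P092, block A-CLASS (helper714), part 4: normal subgroups, the centre and homomorphisms to abelian
groups, for the groups generated by the transvections of a hermitian form.
-/

set_option linter.all false

open Matrix Filter Topology

namespace Vale.Agent.P092.H714.Cl

open Vale.Agent.P092.H303 (FormGroup)

variable {n : Type} [Fintype n] [DecidableEq n] {k : Type} [Field k]
  {σ : k →+* k} {ε : k} {J : Matrix n n k} {G : Subgroup (SpecialLinearGroup n k)}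

/-- A linear map which fixes every isotropic line is a scalar. -/
theorem scalar_of_lines (hF : Frm σ ε J) (z : SpecialLinearGroup n k)
    (h : ∀ u, hf σ J u u = 0 → ∃ a : k, u ᵥ* z.1 = a • u) : ∃ a : k, ∀ x, x ᵥ* z.1 = a • x := by
  classical
  -- the same scalar for two vectors which are not orthogonal
  have key : ∀ u v, hf σ J u u = 0 → hf σ J v v = 0 → hf σ J u v ≠ 0 → ∀ a b : k,
      u ᵥ* z.1 = a • u → v ᵥ* z.1 = b • v → a = b := by
    intro u v hu hv huv a b ha hb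
    obtain ⟨c, hc0, hc⟩ := hF.cc
    have hvu : hf σ J v u ≠ 0 := hF.symm_ne huv
    set t : k := c / hf σ J v u with ht
    have ht0 : t ≠ 0 := div_ne_zero hc0 hvu
    have htc : t * hf σ J v u = c := div_mul_cancel₀ c hvu
    have hiso : hf σ J (u + t • v) (u + t • v) = 0 := by
      rw [hf_add_left, hf_add_right, hf_add_right, hf_smul_left, hf_smul_left, hf_smul_right,
        hf_smul_right, hu, hv, hF.herm v u]
      have h1 : σ t * σ (hf σ J v u) = σ c := by rw [← map_mul, htc]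
      linear_combination htc + ε * h1 + hc
    obtain ⟨e, he⟩ := h _ hiso
    rw [add_vecMul, smul_vecMul, ha, hb] at he
    have h1 : hf σ J (a • u + t • b • v) u = hf σ J (e • (u + t • v)) u := by rw [he]
    have h2 : hf σ J (a • u + t • b • v) v = hf σ J (e • (u + t • v)) v := by rw [he]
    simp only [hf_add_left, hf_smul_left, hu, hv, mul_zero, add_zero, zero_add] at h1 h2
    have h3 : b = e := by
      have h4 : (t * hf σ J v u) * b = (t * hf σ J v u) * e := by linear_combination h1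
      exact mul_left_cancel₀ (mul_ne_zero ht0 hvu) h4
    have h5 : a = e := by
      have h4 : hf σ J u v * a = hf σ J u v * e := by linear_combination h2
      exact mul_left_cancel₀ huv h4
    rw [h3, h5]
  obtain ⟨u₀, hu₀0, hu₀⟩ := hF.iso
  obtain ⟨a, ha⟩ := h u₀ hu₀
  have hall : ∀ w, hf σ J w w = 0 → w ᵥ* z.1 = a • w := by
    intro w hw
    by_cases hw0 : w = 0
    · subst hw0
      rw [zero_vecMul, smul_zero]
    · obtain ⟨y, hy, h1, h2⟩ := hF.exists_conn hu₀0 hu₀ hw0 hw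
      obtain ⟨b, hb⟩ := h y hy
      obtain ⟨c, hc⟩ := h w hw
      have e1 := key u₀ y hu₀ hy h1 a b ha hb
      have e2 := key y w hy hw h2 b c hb hc
      rw [hc, ← e2, ← e1]
  refine ⟨a, fun x => ?_⟩
  obtain ⟨x1, x2, x3, h1, h2, h3, rfl⟩ := hF.iso_decomp x
  rw [add_vecMul, add_vecMul, hall x1 h1, hall x2 h2, hall x3 h3, smul_add, smul_add]

/-- An isometry which commutes with a transvection fixes its line. -/
theorem line_of_comm (hF : Frm σ ε J) {g : SpecialLinearGroup n k} (hg : g ∈ FormGroup σ J)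
    {u : n → k} (hu : hf σ J u u = 0) {c : k} (hc0 : c ≠ 0)
    (h : g * tv σ J u c = tv σ J u c * g) : ∃ a : k, u ᵥ* g.1 = a • u := by
  by_cases hu0 : u = 0
  · exact ⟨0, by rw [hu0, zero_vecMul, smul_zero]⟩
  have h1 : tv σ J (u ᵥ* g.1) c = tv σ J u c := by
    rw [← conj_tv hg hu c, mul_assoc, ← h, inv_mul_cancel_left]
  obtain ⟨y, hy⟩ := hF.nondeg u hu0
  have hy' := hF.symm_ne hy
  have h2 : ∀ x, hf σ J x (u ᵥ* g.1) • (u ᵥ* g.1) = hf σ J x u • u := by
    intro x
    have h3 : x ᵥ* (tv σ J (u ᵥ* g.1) c).1 = x ᵥ* (tv σ J u c).1 := by rw [h1]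
    rw [vecMul_tv (iso_vecMul hg hu), vecMul_tv hu] at h3
    have h4 := add_left_cancel h3
    rw [mul_smul, mul_smul] at h4
    have h5 : c⁻¹ • c • hf σ J x (u ᵥ* g.1) • (u ᵥ* g.1) = c⁻¹ • c • hf σ J x u • u := by
      rw [h4]
    rwa [inv_smul_smul₀ hc0, inv_smul_smul₀ hc0] at h5
  have h6 := h2 y
  have hne : hf σ J y (u ᵥ* g.1) ≠ 0 := by
    intro h0
    rw [h0, zero_smul] at h6
    exact (smul_ne_zero hy' hu0) h6.symm
  refine ⟨(hf σ J y (u ᵥ* g.1))⁻¹ * hf σ J y u, ?_⟩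
  rw [mul_smul, ← h6, smul_smul, inv_mul_cancel₀ hne, one_smul]

/-- Scalars are central. -/
theorem comm_of_scalar {z : SpecialLinearGroup n k} {a : k} (h : ∀ x, x ᵥ* z.1 = a • x)
    (g : SpecialLinearGroup n k) : g * z = z * g := by
  refine ext_vecMul fun x => ?_
  rw [vecMul_mul', vecMul_mul', h, h, smul_vecMul]

theorem mem_center_of_lines (hF : Frm σ ε J) {z : G}
    (h : ∀ u, hf σ J u u = 0 → ∃ a : k, u ᵥ* z.1.1 = a • u) : z ∈ Subgroup.center G := by
  obtain ⟨a, ha⟩ := scalar_of_lines hF z.1 h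
  rw [Subgroup.mem_center_iff]
  intro g
  exact Subtype.ext (comm_of_scalar ha g.1)

section normal

variable (hF : Frm σ ε J) (hG : GT σ ε J ≤ G) (hGF : G ≤ FormGroup σ J)

include hGF in
theorem conj_tg {u : n → k} (hu : hf σ J u u = 0) {c : k} (hc : c + ε * σ c = 0) (g : G) :
    g⁻¹ * tg hG hu hc * g = tg hG (iso_vecMul (hGF g.2) hu) hc :=
  Subtype.ext (conj_tv (hGF g.2) hu c)

include hF hG hGF in
/-- The trick with the hyperbolic element. -/
theorem normal_A {r : k} (hr : σ r = r) (hr0 : r ≠ 0) (hr4 : r * r ≠ r⁻¹ * r⁻¹)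
    (N : Subgroup G) (hN : N.Normal) {u w : n → k} (hu : hf σ J u u = 0) (hw : hf σ J w w = 0)
    (huw : hf σ J u w ≠ 0)
    (h : ∀ c (hc : c + ε * σ c = 0) (hc' : -c + ε * σ (-c) = 0),
      tg hG hu hc' * tg hG hw hc ∈ N) :
    ∀ c (hc : c + ε * σ c = 0), tg hG hu hc ∈ N := by
  intro d hd
  have hri : σ r⁻¹ = r⁻¹ := by rw [map_inv₀, hr]
  -- the coefficient
  set q : k := (r * r - r⁻¹ * r⁻¹)⁻¹ with hq
  have hq0 : r * r - r⁻¹ * r⁻¹ ≠ 0 := sub_ne_zero.mpr hr4
  have hqs : σ q = q := by rw [hq, map_inv₀, map_sub, map_mul, map_mul, hr, hri]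
  have hc : q * d + ε * σ (q * d) = 0 := cc_fix hqs hd
  have hc1 : r * r * (q * d) + ε * σ (r * r * (q * d)) = 0 :=
    cc_fix (by rw [map_mul, hr]) hc
  have neg : ∀ {x : k}, x + ε * σ x = 0 → -x + ε * σ (-x) = 0 := fun {x} hx => by
    rw [map_neg]; linear_combination -hx
  -- the hyperbolic pair
  set a : k := σ (hf σ J u w)⁻¹ with ha
  have ha0 : a ≠ 0 := by
    rw [ha, Ne, map_eq_zero]
    exact inv_ne_zero huw
  have h1 : hf σ J u (a • w) = 1 := by
    rw [hf_smul_right, ha, hF.inv, inv_mul_cancel₀ huw]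
  obtain ⟨s, hs0, hs⟩ := hF.cc
  set D : G := dg hG hF hu (iso_smul hw a) hs0 hs hr0 hr with hD
  have hDu : u ᵥ* D.1.1 = r⁻¹ • u := u_dv hF hu (iso_smul hw a) h1 hs0 hr0
  have hDw : w ᵥ* D.1.1 = r • w := by
    have h2 : (a • w) ᵥ* D.1.1 = r • a • w := w_dv hF hu (iso_smul hw a) h1 hs0 hr0
    rw [smul_vecMul] at h2
    have h3 : a⁻¹ • a • (w ᵥ* D.1.1) = a⁻¹ • r • a • w := by rw [h2]
    rw [smul_smul, inv_mul_cancel₀ ha0, one_smul] at h3
    rw [h3, smul_smul, smul_smul]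
    congr 1
    field_simp
  have m1 : D⁻¹ * (tg hG hu (neg hc) * tg hG hw hc) * D ∈ N := by
    have := hN.conj_mem _ (h _ hc (neg hc)) D⁻¹
    rwa [inv_inv] at this
  have m2 := h _ hc1 (neg hc1)
  have m3 := N.mul_mem m1 (N.inv_mem m2)
  have e : tg hG hu hd = D⁻¹ * (tg hG hu (neg hc) * tg hG hw hc) * D *
      (tg hG hu (neg hc1) * tg hG hw hc1)⁻¹ := by
    have e1 : D⁻¹ * (tg hG hu (neg hc) * tg hG hw hc) * D =
        (D⁻¹ * tg hG hu (neg hc) * D) * (D⁻¹ * tg hG hw hc * D) := by group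
    rw [e1, conj_tg hG hGF hu (neg hc) D, conj_tg hG hGF hw hc D]
    refine Subtype.ext ?_
    change tv σ J u d = tv σ J (u ᵥ* D.1.1) (-(q * d)) * tv σ J (w ᵥ* D.1.1) (q * d) *
      (tv σ J u (-(r * r * (q * d))) * tv σ J w (r * r * (q * d)))⁻¹
    rw [hDu, hDw, tv_smul hu, tv_smul hw, hr, hri]
    have e2 : r * (q * d) * r = r * r * (q * d) := by ring
    rw [e2, _root_.mul_inv_rev, mul_assoc, mul_inv_cancel_left, ← tv_neg hu, ← tv_add hu]
    congr 1
    have h5 : (r * r - r⁻¹ * r⁻¹) * q = 1 := by rw [hq, mul_inv_cancel₀ hq0]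
    linear_combination -d * h5
  rw [e]
  exact m3

include hF hG hGF in
/-- Transport to another isotropic vector. -/
theorem normal_B_step (N : Subgroup G) (hN : N.Normal) {u w : n → k} (hu : hf σ J u u = 0)
    (hw : hf σ J w w = 0) (huw : hf σ J u w ≠ 0)
    (h : ∀ c (hc : c + ε * σ c = 0), tg hG hu hc ∈ N) :
    ∀ c (hc : c + ε * σ c = 0), tg hG hw hc ∈ N := by
  obtain ⟨d, hd0, hd⟩ := hF.cc
  have hwu := hF.symm_ne huw
  set ν : k := hf σ J u w * σ (hf σ J u w) with hν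
  have hν0 : ν ≠ 0 := mul_ne_zero huw (by rwa [Ne, map_eq_zero])
  have hνs : σ ν = ν := by rw [hν, map_mul, hF.inv, mul_comm]
  have he : ν⁻¹ * (-ε * d⁻¹) + ε * σ (ν⁻¹ * (-ε * d⁻¹)) = 0 :=
    cc_fix (by rw [map_inv₀, hνs]) (cc_inv hF.eps hF.seps hd hd0)
  set g : G := tg hG hw hd * tg hG hu he with hg
  have hug : u ᵥ* g.1.1 = (d * hf σ J u w) • w := by
    change u ᵥ* (tv σ J w d * tv σ J u (ν⁻¹ * (-ε * d⁻¹))).1 = _
    rw [vecMul_mul', vecMul_tv hw, vecMul_tv hu, hf_add_left, hf_smul_left, hu, zero_add]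
    have e1 : ν⁻¹ * (-ε * d⁻¹) * (d * hf σ J u w * hf σ J w u) = -1 := by
      rw [hF.herm u w]
      have e2 : ν⁻¹ * (-ε * d⁻¹) * (d * hf σ J u w * (ε * σ (hf σ J u w))) =
          -(ε * ε) * (d⁻¹ * d) * (ν⁻¹ * ν) := by
        rw [hν]; ring
      rw [e2, hF.eps, inv_mul_cancel₀ hd0, inv_mul_cancel₀ hν0]
      ring
    rw [e1]
    module
  intro c hc
  set a : k := d * hf σ J u w with ha
  have ha0 : a ≠ 0 := mul_ne_zero hd0 huw
  have hc' : a⁻¹ * c * σ a⁻¹ + ε * σ (a⁻¹ * c * σ a⁻¹) = 0 := cc_smul hF.inv hc a⁻¹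
  have m := hN.conj_mem _ (h _ hc') g⁻¹
  rw [inv_inv, conj_tg hG hGF hu hc' g] at m
  have e : tg hG (iso_vecMul (hGF g.2) hu) hc' = tg hG hw hc := by
    refine Subtype.ext ?_
    change tv σ J (u ᵥ* g.1.1) _ = tv σ J w c
    rw [hug, tv_smul hw]
    congr 1
    have h3 : σ a⁻¹ * σ a = 1 := by rw [← map_mul, inv_mul_cancel₀ ha0, map_one]
    linear_combination (a * a⁻¹ * c) * h3 + c * (mul_inv_cancel₀ ha0)
  rwa [e] at m

include hF hG hGF in
theorem normal_B (N : Subgroup G) (hN : N.Normal) {u : n → k} (hu0 : u ≠ 0)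
    (hu : hf σ J u u = 0) (h : ∀ c (hc : c + ε * σ c = 0), tg hG hu hc ∈ N) {w : n → k}
    (hw : hf σ J w w = 0) : ∀ c (hc : c + ε * σ c = 0), tg hG hw hc ∈ N := by
  by_cases hw0 : w = 0
  · subst hw0
    intro c hc
    have e : tg hG hw hc = 1 := by
      refine Subtype.ext ?_
      rw [tg_val]
      refine ext_vecMul fun x => ?_
      rw [vecMul_tv hw, smul_zero, add_zero]
      exact (vecMul_one' x).symm
    rw [e]
    exact N.one_mem
  · obtain ⟨z, hz, h1, h2⟩ := hF.exists_conn hu0 hu hw0 hw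
    exact normal_B_step hF hG hGF N hN hz hw h2 (normal_B_step hF hG hGF N hN hu hz h1 h)

include hF hG hGF in
/-- **A normal subgroup which is not central contains all the transvections.** -/
theorem normal_main {r : k} (hr : σ r = r) (hr0 : r ≠ 0) (hr4 : r * r ≠ r⁻¹ * r⁻¹)
    (N : Subgroup G) (hN : N.Normal) {z : G} (hz : z ∈ N) (hzc : z ∉ Subgroup.center G) :
    ∀ x (hx : x ∈ GT σ ε J), (⟨x, hG hx⟩ : G) ∈ N := by
  obtain ⟨u, hu, hline⟩ : ∃ u, hf σ J u u = 0 ∧ ∀ a : k, u ᵥ* z.1.1 ≠ a • u := by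
    by_contra hcon
    push Not at hcon
    exact hzc (mem_center_of_lines hF hcon)
  have hu0 : u ≠ 0 := by
    rintro rfl
    exact hline 0 (by rw [zero_vecMul, smul_zero])
  have neg : ∀ {x : k}, x + ε * σ x = 0 → -x + ε * σ (-x) = 0 := fun {x} hx => by
    rw [map_neg]; linear_combination -hx
  set v : n → k := u ᵥ* z.1.1 with hv
  have hvi : hf σ J v v = 0 := iso_vecMul (hGF z.2) hu
  have inv_tg : ∀ {x : n → k} (hx : hf σ J x x = 0) {c : k} (hc : c + ε * σ c = 0),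
      (tg hG hx hc)⁻¹ = tg hG hx (neg hc) := fun {x} hx {c} hc =>
    Subtype.ext (tv_neg hx c).symm
  -- the commutators
  have m1 : ∀ c (hc : c + ε * σ c = 0), tg hG hvi hc * tg hG hu (neg hc) ∈ N := by
    intro c hc
    have h1 : z⁻¹ * (tg hG hu hc * z * (tg hG hu hc)⁻¹) ∈ N :=
      N.mul_mem (N.inv_mem hz) (hN.conj_mem z hz _)
    have e : z⁻¹ * (tg hG hu hc * z * (tg hG hu hc)⁻¹) =
        (z⁻¹ * tg hG hu hc * z) * (tg hG hu hc)⁻¹ := by group
    rw [e, conj_tg hG hGF hu hc z, inv_tg] at h1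
    exact h1
  -- a transvection group in the normal subgroup
  have m2 : ∃ u', u' ≠ 0 ∧ ∃ hu' : hf σ J u' u' = 0,
      ∀ c (hc : c + ε * σ c = 0), tg hG hu' hc ∈ N := by
    by_cases huv : hf σ J u v = 0
    · -- independent
      have hind : ∀ a b : k, a • u + b • v = 0 → a = 0 ∧ b = 0 := by
        intro a b hab
        have hb : b = 0 := by
          by_contra hb
          refine hline (-(b⁻¹ * a)) ?_
          have h1 : b⁻¹ • (a • u + b • v) = 0 := by rw [hab, smul_zero]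
          rw [smul_add, smul_smul, smul_smul, inv_mul_cancel₀ hb, one_smul] at h1
          rw [neg_smul]
          exact eq_neg_of_add_eq_zero_right h1
        subst hb
        rw [zero_smul, add_zero] at hab
        exact ⟨(smul_eq_zero.mp hab).resolve_right hu0, rfl⟩
      obtain ⟨w, hw, huw, hvw⟩ := hF.exists_hyp' hu (hF.symm_zero huv) hind
      obtain ⟨d, hd0, hd⟩ := hF.cc
      set g : G := tg hG hw hd with hg
      have hvg : v ᵥ* g.1.1 = v := by
        change v ᵥ* (tv σ J w d).1 = v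
        rw [vecMul_tv hw, hvw, mul_zero, zero_smul, add_zero]
      have hug : u ᵥ* g.1.1 = u + d • w := by
        change u ᵥ* (tv σ J w d).1 = _
        rw [vecMul_tv hw, huw, mul_one]
      set u' : n → k := u ᵥ* g.1.1 with hu'
      have hui' : hf σ J u' u' = 0 := iso_vecMul (hGF g.2) hu
      have huu' : hf σ J u u' ≠ 0 := by
        rw [hug, hf_add_right, hf_smul_right, hu, huw, zero_add, mul_one, Ne, map_eq_zero]
        exact hd0
      refine ⟨u, hu0, hu, normal_A hF hG hGF hr hr0 hr4 N hN hu hui' huu' fun c hc hc' => ?_⟩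
      have h1 := m1 (-c) (neg hc)
      have h2 := hN.conj_mem _ h1 g⁻¹
      have e : g⁻¹ * (tg hG hvi (neg hc) * tg hG hu (neg (neg hc))) * g⁻¹⁻¹ =
          (g⁻¹ * tg hG hvi (neg hc) * g) * (g⁻¹ * tg hG hu (neg (neg hc)) * g) := by group
      rw [e, conj_tg hG hGF hvi _ g, conj_tg hG hGF hu _ g] at h2
      have e2 : tg hG (iso_vecMul (hGF g.2) hvi) (neg hc) = tg hG hvi (neg hc) := by
        refine Subtype.ext ?_
        change tv σ J (v ᵥ* g.1.1) _ = tv σ J v _
        rw [hvg]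
      rw [e2] at h2
      have h3 := N.mul_mem (N.inv_mem h1) h2
      rw [_root_.mul_inv_rev, mul_assoc, inv_mul_cancel_left, inv_tg] at h3
      have e3 : tg hG hu (neg (neg (neg hc))) = tg hG hu hc' :=
        Subtype.ext (by rw [tg_val, tg_val, neg_neg])
      have e4 : tg hG (iso_vecMul (hGF g.2) hu) (neg (neg hc)) = tg hG hui' hc := by
        refine Subtype.ext ?_
        change tv σ J u' (- -c) = tv σ J u' c
        rw [neg_neg]
      rwa [e3, e4] at h3
    · refine ⟨u, hu0, hu, normal_A hF hG hGF hr hr0 hr4 N hN hu hvi huv fun c hc hc' => ?_⟩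
      have h1 := N.inv_mem (m1 (-c) (neg hc))
      rw [_root_.mul_inv_rev, inv_tg, inv_tg] at h1
      have e3 : tg hG hu (neg (neg (neg hc))) = tg hG hu hc' :=
        Subtype.ext (by rw [tg_val, tg_val, neg_neg])
      have e4 : tg hG hvi (neg (neg hc)) = tg hG hvi hc :=
        Subtype.ext (by rw [tg_val, tg_val, neg_neg])
      rwa [e3, e4] at h1
  obtain ⟨u', hu'0, hu', m3⟩ := m2
  intro x hx
  have h2 : GT σ ε J ≤ N.map G.subtype := by
    rw [GT, Subgroup.closure_le]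
    rintro _ ⟨w, c, hw, hc, rfl⟩
    exact ⟨tg hG hw hc, normal_B hF hG hGF N hN hu'0 hu' m3 hw c hc, rfl⟩
  obtain ⟨y, hy, hyx⟩ := h2 hx
  have : y = ⟨x, hG hx⟩ := Subtype.ext hyx
  rw [← this]
  exact hy

include hF hG hGF in
/-- Homomorphisms to abelian groups vanish on the transvections. -/
theorem hom_GT {A : Type*} [CommGroup A] (φ : G →* A) {r : k} (hr : σ r = r) (hr0 : r ≠ 0)
    (hr2 : r⁻¹ * r⁻¹ ≠ 1) : ∀ x (hx : x ∈ GT σ ε J), φ ⟨x, hG hx⟩ = 1 := by
  have hri : σ r⁻¹ = r⁻¹ := by rw [map_inv₀, hr]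
  have neg : ∀ {x : k}, x + ε * σ x = 0 → -x + ε * σ (-x) = 0 := fun {x} hx => by
    rw [map_neg]; linear_combination -hx
  have h1 : ∀ u (hu : hf σ J u u = 0) d (hd : d + ε * σ d = 0), φ (tg hG hu hd) = 1 := by
    intro u hu d hd
    by_cases hu0 : u = 0
    · subst hu0
      have e : tg hG hu hd = 1 := by
        refine Subtype.ext ?_
        rw [tg_val]
        refine ext_vecMul fun x => ?_
        rw [vecMul_tv hu, smul_zero, add_zero]
        exact (vecMul_one' x).symm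
      rw [e, map_one]
    obtain ⟨w, hw, huw⟩ := hF.exists_hyp hu0 hu
    obtain ⟨s, hs0, hs⟩ := hF.cc
    set D : G := dg hG hF hu hw hs0 hs hr0 hr with hD
    have hDu : u ᵥ* D.1.1 = r⁻¹ • u := u_dv hF hu hw huw hs0 hr0
    have hq0 : r⁻¹ * r⁻¹ - 1 ≠ 0 := sub_ne_zero.mpr hr2
    set q : k := (r⁻¹ * r⁻¹ - 1)⁻¹ with hq
    have hqs : σ q = q := by rw [hq, map_inv₀, map_sub, map_mul, hri, map_one]
    have hc : q * d + ε * σ (q * d) = 0 := cc_fix hqs hd
    have e : tg hG hu hd = D⁻¹ * tg hG hu hc * D * (tg hG hu hc)⁻¹ := by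
      rw [conj_tg hG hGF hu hc D]
      refine Subtype.ext ?_
      change tv σ J u d = tv σ J (u ᵥ* D.1.1) (q * d) * (tv σ J u (q * d))⁻¹
      rw [hDu, tv_smul hu, hri, ← tv_neg hu, ← tv_add hu]
      congr 1
      have h5 : (r⁻¹ * r⁻¹ - 1) * q = 1 := by rw [hq, mul_inv_cancel₀ hq0]
      linear_combination -d * h5
    rw [e, map_mul, map_mul, map_mul, map_inv, map_inv]
    rw [mul_comm (φ D)⁻¹, inv_mul_cancel_right, mul_inv_cancel]
  intro x hx
  have h2 : GT σ ε J ≤ (φ.ker).map G.subtype := by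
    rw [GT, Subgroup.closure_le]
    rintro _ ⟨v, c, hv, hc, rfl⟩
    exact ⟨tg hG hv hc, h1 v hv c hc, rfl⟩
  obtain ⟨y, hy, hyx⟩ := h2 hx
  have : y = ⟨x, hG hx⟩ := Subtype.ext hyx
  rw [← this]
  exact hy

end normal

/-- The centre is finite. -/
theorem finite_center (hF : Frm σ ε J) (hG : GT σ ε J ≤ G) (hGF : G ≤ FormGroup σ J) :
    Finite (Subgroup.center G) := by
  have hn : Nonempty n := by
    obtain ⟨u, hu0, -⟩ := hF.iso
    by_contra hcon
    rw [not_nonempty_iff] at hcon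
    exact hu0 (Subsingleton.elim _ _)
  have h1 : (Polynomial.nthRootsFinset (Fintype.card n) (1 : k) : Set k).Finite :=
    Finset.finite_toSet _
  refine Set.Finite.to_subtype (Set.Finite.of_finite_image
    (f := fun g : G => g.1.1) ((h1.image (Matrix.scalar n)).subset ?_)
    (fun a _ b _ h => Subtype.ext (Subtype.ext h)))
  rintro _ ⟨z, hz, rfl⟩
  have hz' : ∀ g : G, g * z = z * g := Subgroup.mem_center_iff.mp hz
  obtain ⟨c, hc0, hc⟩ := hF.cc
  obtain ⟨a, ha⟩ := scalar_of_lines hF z.1 fun u hu =>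
    line_of_comm hF (hGF z.2) hu hc0 (congrArg Subtype.val (hz' (tg hG hu hc))).symm
  have hza : z.1.1 = Matrix.scalar n a := by
    rw [ext_iff_vecMul]
    intro x
    rw [ha]
    ext i
    simp [Matrix.scalar_apply, vecMul_diagonal, mul_comm]
  refine ⟨a, ?_, hza.symm⟩
  have hdet : z.1.1.det = 1 := z.1.2
  rw [hza, Matrix.scalar_apply, det_diagonal, Finset.prod_const, Finset.card_univ] at hdet
  exact (Polynomial.mem_nthRootsFinset Fintype.card_pos 1).2 hdet

end Vale.Agent.P092.H714.Cl
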