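import Vale.Agent.P092.H714.SpM4
import Vale.Agent.P092.H370.Sp4

/-!
P092, Team P, block P-HM (helper714), in the letters of `H370/Sp4.lean`: Moore sets of `Sp_4(k)`,
unbounded stabilisers, generation by two stabilisers.
-/

set_option linter.all false

open Matrix Filter Topology
open scoped LinearAlgebra.Projectivization

namespace Vale.Agent.P092.H714.S4M

open Vale.Agent.P092.RC (Moore GG YY)
open Vale.Agent.P092.H15 (HMG Alt)
open Vale.Agent.P092.H714.Sp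
open Vale.Agent.P092.SP4 (J4 S4 LL on prp J4_sq J4_tr)

/-! ### General groups equal to `SpG K` -/

section gen

variable {n : Type} [Fintype n] [DecidableEq n] {k : Type} [NontriviallyNormedField k]
  [ProperSpace k] {K : Matrix n n k}

/-- **Generation by two stabilisers.** -/
theorem gen_two' (hK : Alt K) {P : Subgroup (SpecialLinearGroup n k)} (hP : SpG K = P)
    {X Y : Submodule k (n → k)} (hX : Iso K X) (hY : Iso K Y) (hne : X ≠ Y) {H : Subgroup P}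
    (h1 : ∀ g : P, (∀ v, v ∈ X ↔ g.1.1 *ᵥ v ∈ X) → g ∈ H)
    (h2 : ∀ g : P, (∀ v, v ∈ Y ↔ g.1.1 *ᵥ v ∈ Y) → g ∈ H) : H = ⊤ := by
  subst hP
  exact gen_two hK (alt_inv hK) hX hY hne h1 h2

end gen

section s4

variable {k : Type} [NontriviallyNormedField k] [ProperSpace k]

theorem alt4 : Alt (J4 k) := by
  refine alt_of_sq (fun i => ?_) (fun i j => ?_) J4_sq
  · fin_cases i <;> simp [J4]
  · have h := congrFun (congrFun (J4_tr (k := k)) i) j
    rwa [transpose_apply, Matrix.neg_apply] at h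

theorem eq4 : SpG (J4 k) = S4 k := SpG_eq_formGroup J4_sq

theorem iso_line (l : LL k) : Iso (J4 k) l.1.1 := fun x hx y hy => l.2 x hx y hy

theorem iso_pt (x : YY k 3) : Iso (J4 k) x.submodule := by
  intro v hv w hw
  rw [Projectivization.submodule_eq, Submodule.mem_span_singleton] at hv hw
  obtain ⟨a, rfl⟩ := hv
  obtain ⟨b, rfl⟩ := hw
  rw [Sp.om_smul_left, Sp.om_smul_right, Sp.om_self alt4, mul_zero, mul_zero]

/-! ### Fixed points and lines -/

theorem smul_pt {g : S4 k} {x : YY k 3} (h : ∀ v ∈ x.submodule, g.1.1 *ᵥ v ∈ x.submodule) :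
    g • x = x := by
  induction x using Projectivization.ind with
  | h v hv =>
    rw [Projectivization.submodule_mk] at h
    have h1 := h v (Submodule.mem_span_singleton_self v)
    obtain ⟨a, ha⟩ := Submodule.mem_span_singleton.1 h1
    rw [SP4.smul_YY, Projectivization.smul_mk]
    rw [Projectivization.mk_eq_mk_iff']
    exact ⟨a, ha⟩

theorem pt_of_smul {g : S4 k} {x : YY k 3} (h : g • x = x) (v : Fin 4 → k) :
    v ∈ x.submodule ↔ g.1.1 *ᵥ v ∈ x.submodule := by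
  have key : ∀ {g : S4 k} {x : YY k 3}, g • x = x → ∀ v ∈ x.submodule, g.1.1 *ᵥ v ∈ x.submodule := by
    intro g x h v hv
    induction x using Projectivization.ind with
    | h w hw =>
      rw [SP4.smul_YY, Projectivization.smul_mk, Projectivization.mk_eq_mk_iff'] at h
      obtain ⟨a, ha⟩ := h
      rw [Projectivization.submodule_mk] at hv ⊢
      obtain ⟨b, rfl⟩ := Submodule.mem_span_singleton.1 hv
      rw [mulVec_smul]
      have e : g.1.1 *ᵥ w = a • w := ha.symm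
      rw [e]
      exact Submodule.smul_mem _ _ (Submodule.smul_mem _ _ (Submodule.mem_span_singleton_self w))
  refine ⟨key h v, fun hv => ?_⟩
  have h' : g⁻¹ • x = x := by rw [inv_smul_eq_iff, h]
  have h2 := key h' _ hv
  have e : (g⁻¹).1.1 *ᵥ (g.1.1 *ᵥ v) = v := by
    rw [mulVec_mulVec]
    have : (g⁻¹).1.1 * g.1.1 = 1 := congrArg (fun z : S4 k => z.1.1) (inv_mul_cancel g)
    rw [this, one_mulVec]
  rwa [e] at h2

theorem mem_smul_ln {g : S4 k} {l : LL k} {v : Fin 4 → k} (hv : v ∈ l.1.1) :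
    g.1.1 *ᵥ v ∈ (g • l).1.1 := ⟨v, hv, rfl⟩

theorem smul_ln {g : S4 k} {l : LL k} (h : ∀ v ∈ l.1.1, g.1.1 *ᵥ v ∈ l.1.1) : g • l = l := by
  refine Subtype.ext (Subtype.ext ?_)
  have hle : (g • l).1.1 ≤ l.1.1 := by
    rintro _ ⟨v, hv, rfl⟩
    exact h v hv
  refine Submodule.eq_of_le_of_finrank_eq hle ?_
  rw [(g • l).1.2, l.1.2]

theorem ln_of_smul {g : S4 k} {l : LL k} (h : g • l = l) (v : Fin 4 → k) :
    v ∈ l.1.1 ↔ g.1.1 *ᵥ v ∈ l.1.1 := by
  refine ⟨fun hv => ?_, fun hv => ?_⟩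
  · have := mem_smul_ln (g := g) hv
    rwa [h] at this
  · have h' : g⁻¹ • l = l := by rw [inv_smul_eq_iff, h]
    have h2 := mem_smul_ln (g := g⁻¹) hv
    rw [h'] at h2
    have e : (g⁻¹).1.1 *ᵥ (g.1.1 *ᵥ v) = v := by
      rw [mulVec_mulVec]
      have : (g⁻¹).1.1 * g.1.1 = 1 := congrArg (fun z : S4 k => z.1.1) (inv_mul_cancel g)
      rw [this, one_mulVec]
    rwa [e] at h2

/-- The maximum of the norms of the entries (`SN.nm`). -/
theorem exists_entry {g : SpecialLinearGroup (Fin 4) k} {C : ℝ} (hC : 0 ≤ C)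
    (h : C < ‖(fun i j => g.1 i j : Fin 4 → Fin 4 → k)‖) : ∃ i j, C < ‖g.1 i j‖ := by
  by_contra hcon
  push Not at hcon
  apply absurd h
  rw [not_lt, pi_norm_le_iff_of_nonneg hC]
  intro i
  rw [pi_norm_le_iff_of_nonneg hC]
  exact fun j => hcon i j

theorem entry_le (g : SpecialLinearGroup (Fin 4) k) (i j : Fin 4) :
    ‖g.1 i j‖ ≤ ‖(fun i j => g.1 i j : Fin 4 → Fin 4 → k)‖ :=
  (norm_le_pi_norm (fun j => g.1 i j) j).trans
    (norm_le_pi_norm (fun i j => g.1 i j : Fin 4 → Fin 4 → k) i)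

/-- Howe–Moore. -/
theorem hmg4 : HMG (S4 k) := H15.hmg_alt alt4

/-- **Unbounded subsets of `Sp_4(k)` are Moore sets.** -/
theorem moore4 {S : Set (S4 k)}
    (hS : ∀ C : ℝ, ∃ g ∈ S, C < ‖(fun i j => g.1.1 i j : Fin 4 → Fin 4 → k)‖) : Moore S := by
  refine moore_of_unb alt4 eq4 fun C => ?_
  obtain ⟨g, hg, h⟩ := hS (max C 0)
  obtain ⟨i, j, h1⟩ := exists_entry (le_max_right C 0) h
  exact ⟨g, hg, i, j, (le_max_left C 0).trans_lt h1⟩

/-- **The same for the image under a continuous surjection** (`PSp_4`). -/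
theorem moore4_image {E : Type} [Group E] [TopologicalSpace E] (ι : S4 k →* E) (hc : Continuous ι)
    (hs : Function.Surjective ι) {S : Set (S4 k)}
    (hS : ∀ C : ℝ, ∃ g ∈ S, C < ‖(fun i j => g.1.1 i j : Fin 4 → Fin 4 → k)‖) : Moore (ι '' S) :=
  moore_image ι hc hs (moore4 hS)

theorem exists_of_ub {p : SpecialLinearGroup (Fin 4) k → Prop}
    (h : Ub {g : SpG (J4 k) | p g.1}) (C : ℝ) :
    ∃ g : S4 k, p g.1 ∧ C < ‖(fun i j => g.1.1 i j : Fin 4 → Fin 4 → k)‖ := by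
  obtain ⟨g, hg, i, j, h1⟩ := unb_of_ub eq4 h C
  exact ⟨g, hg, h1.trans_le (entry_le g.1 i j)⟩

/-- **Two flags**: the elements which fix the points and the lines of two flags are unbounded. -/
theorem unb_flags {x y : YY k 3} {l m : LL k} (hx : on x l) (hy : on y m) (C : ℝ) :
    ∃ g : S4 k, (g • x = x ∧ g • l = l ∧ g • y = y ∧ g • m = m) ∧
      C < ‖(fun i j => g.1.1 i j : Fin 4 → Fin 4 → k)‖ := by
  have h := ub_two (alt4 (k := k)) (iso_line l) (iso_line m)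
  obtain ⟨g, ⟨h1, h2⟩, h3⟩ := exists_of_ub (p := fun g =>
    (∀ Z ≤ l.1.1, ∀ v, v ∈ Z ↔ g.1 *ᵥ v ∈ Z) ∧ ∀ Z ≤ m.1.1, ∀ v, v ∈ Z ↔ g.1 *ᵥ v ∈ Z) h C
  refine ⟨g, ⟨smul_pt fun v hv => (h1 _ hx v).1 hv, smul_ln fun v hv => (h1 _ le_rfl v).1 hv,
    smul_pt fun v hv => (h2 _ hy v).1 hv, smul_ln fun v hv => (h2 _ le_rfl v).1 hv⟩, h3⟩

theorem moore_flags {x y : YY k 3} {l m : LL k} (hx : on x l) (hy : on y m) :
    Moore {g : S4 k | g • x = x ∧ g • l = l ∧ g • y = y ∧ g • m = m} :=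
  moore4 fun C => unb_flags hx hy C

/-- Two points. -/
theorem unb_pp (x y : YY k 3) (C : ℝ) : ∃ g : S4 k, (g • x = x ∧ g • y = y) ∧
      C < ‖(fun i j => g.1.1 i j : Fin 4 → Fin 4 → k)‖ := by
  have h := ub_two (alt4 (k := k)) (iso_pt x) (iso_pt y)
  obtain ⟨g, ⟨h1, h2⟩, h3⟩ := exists_of_ub (p := fun g =>
    (∀ Z ≤ x.submodule, ∀ v, v ∈ Z ↔ g.1 *ᵥ v ∈ Z) ∧
      ∀ Z ≤ y.submodule, ∀ v, v ∈ Z ↔ g.1 *ᵥ v ∈ Z) h C
  exact ⟨g, ⟨smul_pt fun v hv => (h1 _ le_rfl v).1 hv, smul_pt fun v hv => (h2 _ le_rfl v).1 hv⟩, h3⟩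

/-- A point and a line. -/
theorem unb_pl (x : YY k 3) (l : LL k) (C : ℝ) : ∃ g : S4 k, (g • x = x ∧ g • l = l) ∧
      C < ‖(fun i j => g.1.1 i j : Fin 4 → Fin 4 → k)‖ := by
  have h := ub_two (alt4 (k := k)) (iso_pt x) (iso_line l)
  obtain ⟨g, ⟨h1, h2⟩, h3⟩ := exists_of_ub (p := fun g =>
    (∀ Z ≤ x.submodule, ∀ v, v ∈ Z ↔ g.1 *ᵥ v ∈ Z) ∧
      ∀ Z ≤ l.1.1, ∀ v, v ∈ Z ↔ g.1 *ᵥ v ∈ Z) h C
  exact ⟨g, ⟨smul_pt fun v hv => (h1 _ le_rfl v).1 hv, smul_ln fun v hv => (h2 _ le_rfl v).1 hv⟩, h3⟩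

/-- Two lines. -/
theorem unb_ll (l m : LL k) (C : ℝ) : ∃ g : S4 k, (g • l = l ∧ g • m = m) ∧
      C < ‖(fun i j => g.1.1 i j : Fin 4 → Fin 4 → k)‖ := by
  have h := ub_two (alt4 (k := k)) (iso_line l) (iso_line m)
  obtain ⟨g, ⟨h1, h2⟩, h3⟩ := exists_of_ub (p := fun g =>
    (∀ Z ≤ l.1.1, ∀ v, v ∈ Z ↔ g.1 *ᵥ v ∈ Z) ∧ ∀ Z ≤ m.1.1, ∀ v, v ∈ Z ↔ g.1 *ᵥ v ∈ Z) h C
  exact ⟨g, ⟨smul_ln fun v hv => (h1 _ le_rfl v).1 hv, smul_ln fun v hv => (h2 _ le_rfl v).1 hv⟩, h3⟩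

theorem moore_pp (x y : YY k 3) : Moore {g : S4 k | g • x = x ∧ g • y = y} :=
  moore4 fun C => unb_pp x y C

theorem moore_pl (x : YY k 3) (l : LL k) : Moore {g : S4 k | g • x = x ∧ g • l = l} :=
  moore4 fun C => unb_pl x l C

theorem moore_ll (l m : LL k) : Moore {g : S4 k | g • l = l ∧ g • m = m} :=
  moore4 fun C => unb_ll l m C

/-- **A proper subspace**: the elements which fix it pointwise. -/
theorem unb_fix {L : Submodule k (Fin 4 → k)} (hL : L ≠ ⊤) (C : ℝ) :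
    ∃ g : S4 k, (∀ v ∈ L, g.1.1 *ᵥ v = v) ∧
      C < ‖(fun i j => g.1.1 i j : Fin 4 → Fin 4 → k)‖ :=
  exists_of_ub (p := fun g => ∀ v ∈ L, g.1 *ᵥ v = v) (ub_fix alt4 hL) C

theorem moore_fixL {L : Submodule k (Fin 4 → k)} (hL : L ≠ ⊤) :
    Moore {g : S4 k | (∀ v ∈ L, g.1.1 *ᵥ v = v) ∧ (∀ x : YY k 3, x.submodule ≤ L → g • x = x) ∧
      ∀ l : LL k, l.1.1 ≤ L → g • l = l} := by
  refine moore4 fun C => ?_
  obtain ⟨g, hg, h⟩ := unb_fix hL C
  exact ⟨g, ⟨hg, fun x hx => smul_pt fun v hv => by rwa [hg v (hx hv)],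
    fun l hl => smul_ln fun v hv => by rwa [hg v (hl hv)]⟩, h⟩

/-- Three points. -/
theorem moore_ppp (x y z : YY k 3) : Moore {g : S4 k | g • x = x ∧ g • y = y ∧ g • z = z} := by
  set r : Fin 3 → (Fin 4 → k) := ![x.rep, y.rep, z.rep] with hr
  set L : Submodule k (Fin 4 → k) := Submodule.span k (Set.range r) with hL
  have hne : L ≠ ⊤ := by
    intro h
    have h1 : Module.finrank k L ≤ Fintype.card (Fin 3) := finrank_range_le_card r
    rw [h, finrank_top, Module.finrank_fin_fun, Fintype.card_fin] at h1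
    omega
  have hmem : ∀ w : YY k 3, w.rep ∈ L → w.submodule ≤ L := fun w hw => by
    rwa [Projectivization.submodule_eq, Submodule.span_singleton_le_iff_mem]
  have e1 : x.submodule ≤ L := hmem x (Submodule.subset_span ⟨0, rfl⟩)
  have e2 : y.submodule ≤ L := hmem y (Submodule.subset_span ⟨1, rfl⟩)
  have e3 : z.submodule ≤ L := hmem z (Submodule.subset_span ⟨2, rfl⟩)
  exact H455.moore_mono (moore_fixL hne) fun g hg => ⟨hg.2.1 x e1, hg.2.1 y e2, hg.2.1 z e3⟩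

/-- **The torus of a hyperbolic pair**: it fixes every point and every line of every apartment
through `[e]`, `[f]`. -/
theorem moore_torus {e f : Fin 4 → k} (hef : SP4.om e f = 1) :
    Moore {g : S4 k | (∃ a : k, g.1.1 *ᵥ e = a • e) ∧ (∃ a : k, g.1.1 *ᵥ f = a • f) ∧
      ∀ v, SP4.om e v = 0 → SP4.om f v = 0 → g.1.1 *ᵥ v = v} :=
  moore4 fun C => exists_of_ub (p := fun g => (∃ a : k, g.1 *ᵥ e = a • e) ∧
    (∃ a : k, g.1 *ᵥ f = a • f) ∧ ∀ v, SP4.om e v = 0 → SP4.om f v = 0 → g.1 *ᵥ v = v)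
    (ub_pair alt4 hef) C

/-! ### Generation -/

/-- **Two different points.** -/
theorem gen_pp {x y : YY k 3} (hne : x ≠ y) {H : Subgroup (S4 k)}
    (h1 : ∀ g : S4 k, g • x = x → g ∈ H) (h2 : ∀ g : S4 k, g • y = y → g ∈ H) : H = ⊤ :=
  gen_two' alt4 eq4 (iso_pt x) (iso_pt y) (fun h => hne (Projectivization.submodule_injective h))
    (fun g hg => h1 g (smul_pt fun v hv => (hg v).1 hv))
    fun g hg => h2 g (smul_pt fun v hv => (hg v).1 hv)

/-- **Two different lines.** -/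
theorem gen_ll {l m : LL k} (hne : l ≠ m) {H : Subgroup (S4 k)}
    (h1 : ∀ g : S4 k, g • l = l → g ∈ H) (h2 : ∀ g : S4 k, g • m = m → g ∈ H) : H = ⊤ :=
  gen_two' alt4 eq4 (iso_line l) (iso_line m) (fun h => hne (Subtype.ext (Subtype.ext h)))
    (fun g hg => h1 g (smul_ln fun v hv => (hg v).1 hv))
    fun g hg => h2 g (smul_ln fun v hv => (hg v).1 hv)

/-- **A point and a line**, incident or not. -/
theorem gen_pl {x : YY k 3} {l : LL k} {H : Subgroup (S4 k)}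
    (h1 : ∀ g : S4 k, g • x = x → g ∈ H) (h2 : ∀ g : S4 k, g • l = l → g ∈ H) : H = ⊤ := by
  refine gen_two' alt4 eq4 (iso_pt x) (iso_line l) (fun h => ?_)
    (fun g hg => h1 g (smul_pt fun v hv => (hg v).1 hv))
    fun g hg => h2 g (smul_ln fun v hv => (hg v).1 hv)
  have h3 := congrArg (fun L : Submodule k (Fin 4 → k) => Module.finrank k L) h
  simp only [Projectivization.finrank_submodule, l.1.2] at h3
  omega

end s4

end Vale.Agent.P092.H714.S4M
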