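import Vale.Agent.P092.H714.SpM2
import Vale.Agent.P092.H15.SpGT

/-!
P092, Team P, block P-HM (helper714): the list of Moore sets and generation of the symplectic groups
by two stabilisers.
-/

set_option linter.all false

open Matrix Filter Topology

namespace Vale.Agent.P092.H714.Sp

open Vale.Agent.P092.RC (Moore)
open Vale.Agent.P092.H15 (HMG Alt)

section alg

variable {n : Type} [Fintype n] [DecidableEq n] {k : Type} [Field k] {K : Matrix n n k}

theorem om_neg_left (x y : n → k) : om K (-x) y = -om K x y := by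
  unfold om; rw [neg_dotProduct]

theorem om_neg_right (x y : n → k) : om K x (-y) = -om K x y := by
  unfold om; rw [mulVec_neg, dotProduct_neg]

theorem om_sub_left (x y z : n → k) : om K (x - y) z = om K x z - om K y z := by
  rw [sub_eq_add_neg, om_add_left, om_neg_left, sub_eq_add_neg]

theorem om_sub_right (x y z : n → k) : om K x (y - z) = om K x y - om K x z := by
  rw [sub_eq_add_neg, om_add_right, om_neg_right, sub_eq_add_neg]

theorem le_perp {X : Submodule k (n → k)} (hX : Iso K X) : X ≤ perp K X :=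
  fun y hy x hx => hX x hx y hy

/-- The action as a linear map. -/
theorem mulVec_inj {g : SpG K} {x y : n → k} (h : g.1.1 *ᵥ x = g.1.1 *ᵥ y) : x = y := by
  have := congrArg (fun z => (g⁻¹).1.1 *ᵥ z) h
  simp only [← mul_mulVec, inv_mul_cancel, one_mulVec'] at this
  exact this

/-- An element which maps `X` into itself preserves `X`. -/
theorem prs_of_le {X : Submodule k (n → k)} {g : SpG K} (h : ∀ x ∈ X, g.1.1 *ᵥ x ∈ X) : Prs X g := by
  intro x
  refine ⟨h x, fun hx => ?_⟩
  let f : X →ₗ[k] X :=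
    { toFun := fun y => ⟨g.1.1 *ᵥ y.1, h y.1 y.2⟩
      map_add' := fun a b => Subtype.ext (mulVec_add _ _ _)
      map_smul' := fun a b => Subtype.ext (mulVec_smul _ _ _) }
  have hf : Function.Injective f := fun a b hab =>
    Subtype.ext (mulVec_inj (congrArg Subtype.val hab))
  obtain ⟨y, hy⟩ := (LinearMap.injective_iff_surjective.1 hf) ⟨_, hx⟩
  have h1 : g.1.1 *ᵥ y.1 = g.1.1 *ᵥ x := congrArg Subtype.val hy
  rw [← mulVec_inj h1]
  exact y.2

theorem prs_one (X : Submodule k (n → k)) : Prs X (1 : SpG K) := fun x => by rw [one_mulVec']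

theorem prs_mul {X : Submodule k (n → k)} {g h : SpG K} (hg : Prs X g) (hh : Prs X h) :
    Prs X (g * h) := fun x => by rw [mul_mulVec, ← hg, ← hh]

theorem prs_inv {X : Submodule k (n → k)} {g : SpG K} (hg : Prs X g) : Prs X g⁻¹ := fun x => by
  rw [hg ((g⁻¹).1.1 *ᵥ x), ← mul_mulVec, mul_inv_cancel, one_mulVec']

/-- The stabiliser of a subspace. -/
def St (K : Matrix n n k) (X : Submodule k (n → k)) : Subgroup (SpG K) where
  carrier := {g | Prs X g}
  one_mem' := prs_one X
  mul_mem' := prs_mul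
  inv_mem' := prs_inv

theorem mem_St {X : Submodule k (n → k)} {g : SpG K} : g ∈ St K X ↔ Prs X g := Iff.rfl

theorem prs_perp {X : Submodule k (n → k)} {g : SpG K} (hg : Prs X g) : Prs (perp K X) g := by
  refine prs_of_le fun y hy x hx => ?_
  have h1 : (g⁻¹).1.1 *ᵥ x ∈ X := (prs_inv hg x).1 hx
  have h2 : g.1.1 *ᵥ ((g⁻¹).1.1 *ᵥ x) = x := by
    rw [← mul_mulVec, mul_inv_cancel, one_mulVec']
  rw [← h2, om_smul g.2]
  exact hy _ h1

/-! ### Root elements -/

/-- The short root element `x ↦ x + s (ω(c, x) d + ω(d, x) c)`, for `ω(c, d) = 0`. -/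
def ed (hK : Alt K) (c d : n → k) (s : k) : SpG K :=
  tr hK (c + d) s * tr hK c (-s) * tr hK d (-s)

theorem ed_mulVec (hK : Alt K) {c d : n → k} (h : om K c d = 0) (s : k) (x : n → k) :
    (ed hK c d s).1.1 *ᵥ x = x + (s * om K c x) • d + (s * om K d x) • c := by
  have h' : om K d c = 0 := by rw [om_skew hK, h, neg_zero]
  rw [ed, mul_mulVec, mul_mulVec, tr_mulVec, tr_mulVec, tr_mulVec]
  simp only [om_add_left, om_add_right, om_smul_right, om_self hK, h, h', mul_zero, add_zero,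
    zero_add]
  module

theorem conj_tr (hK : Alt K) (g : SpG K) (u : n → k) (s : k) :
    g * tr hK u s * g⁻¹ = tr hK (g.1.1 *ᵥ u) s := by
  refine Subtype.ext (Subtype.ext ?_)
  refine Matrix.ext_of_mulVec_single fun j => ?_
  show (g * tr hK u s * g⁻¹).1.1 *ᵥ _ = (tr hK (g.1.1 *ᵥ u) s).1.1 *ᵥ _
  rw [mul_mulVec, mul_mulVec, tr_mulVec, tr_mulVec, mulVec_add, mulVec_smul, ← mul_mulVec,
    mul_inv_cancel, one_mulVec']
  congr 2
  have h2 : g.1.1 *ᵥ ((g⁻¹).1.1 *ᵥ (Pi.single j 1 : n → k)) = Pi.single j 1 := by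
    rw [← mul_mulVec, mul_inv_cancel, one_mulVec']
  conv_rhs => rw [← h2, om_smul g.2]

theorem tr_smul (hK : Alt K) (a : k) (u : n → k) (s : k) :
    tr hK (a • u) s = tr hK u (a * a * s) := by
  refine Subtype.ext (Subtype.ext ?_)
  refine Matrix.ext_of_mulVec_single fun j => ?_
  show (tr hK (a • u) s).1.1 *ᵥ _ = (tr hK u (a * a * s)).1.1 *ᵥ _
  rw [tr_mulVec, tr_mulVec, om_smul_left, smul_smul]
  congr 2
  ring

/-- **The symplectic group is generated by the transvections.** -/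
theorem closure_tr (hK : Alt K) (hKi : Alt K⁻¹) :
    Subgroup.closure {g : SpG K | ∃ u s, g = tr hK u s} = ⊤ := by
  have hKu : IsUnit K.det := isUnit_iff_ne_zero.2 hK.det
  have h1 : K * K⁻¹ = 1 := mul_nonsing_inv K hKu
  have h2 : K⁻¹ * K = 1 := nonsing_inv_mul K hKu
  rw [eq_top_iff]
  rintro ⟨g, hg⟩ -
  have hg' : g ∈ Vale.Agent.P092.H714.Cl.GT (RingHom.id k) (-1) K⁻¹ := by
    rw [← H15.formGroup_eq_GT hKi, ← SpG_eq hKu]
    exact hg
  have key : Vale.Agent.P092.H714.Cl.GT (RingHom.id k) (-1) K⁻¹ ≤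
      (Subgroup.closure {g : SpG K | ∃ u s, g = tr hK u s}).map (SpG K).subtype := by
    rw [Vale.Agent.P092.H714.Cl.GT, Subgroup.closure_le]
    rintro _ ⟨u, c, hu, -, rfl⟩
    refine ⟨tr hK (K⁻¹ *ᵥ u) (-c), Subgroup.subset_closure ⟨_, _, rfl⟩, Subtype.ext ?_⟩
    show trM K (K⁻¹ *ᵥ u) (-c) = (Vale.Agent.P092.H714.Cl.tv (RingHom.id k) K⁻¹ u c).1
    rw [Vale.Agent.P092.H714.Cl.tv_val hu]
    unfold Vale.Agent.P092.H714.Cl.tvm trM
    have e1 : (K⁻¹ *ᵥ u) ᵥ* K = -u := by
      rw [vecMul_skew hK, mulVec_mulVec, h1, one_mulVec]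
    rw [e1]
    congr 1
    ext i j
    simp only [vecMulVec_apply, Pi.smul_apply, Pi.neg_apply, smul_eq_mul, neg_mul_neg]
    rfl
  obtain ⟨g', hg'', e⟩ := key hg'
  have e' : g' = ⟨g, hg⟩ := Subtype.ext e
  rw [← e']
  exact hg''

/-! ### Generation by two stabilisers -/

/-- The vectors whose transvections belong to `H`. -/
def TT (hK : Alt K) (H : Subgroup (SpG K)) : Set (n → k) := {u | ∀ s, tr hK u s ∈ H}

theorem TT_smul (hK : Alt K) {H : Subgroup (SpG K)} {u : n → k} (hu : u ∈ TT hK H) (a : k) :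
    a • u ∈ TT hK H := fun s => by
  rw [tr_smul]; exact hu _

theorem TT_act (hK : Alt K) {H : Subgroup (SpG K)} {u : n → k} (hu : u ∈ TT hK H) {g : SpG K}
    (hg : g ∈ H) : g.1.1 *ᵥ u ∈ TT hK H := fun s => by
  rw [← conj_tr]; exact mul_mem (mul_mem hg (hu s)) (inv_mem hg)

theorem TT_perp (hK : Alt K) {H : Subgroup (SpG K)} {X : Submodule k (n → k)} (h : St K X ≤ H)
    {u : n → k} (hu : u ∈ perp K X) : u ∈ TT hK H := fun s => h (prs_tr_perp hK hu s)

/-- Vectors in the same class modulo `X^⊥`. -/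
theorem TT_add (hK : Alt K) {H : Subgroup (SpG K)} {X : Submodule k (n → k)} (h : St K X ≤ H)
    {u v : n → k} (hu : u ∈ TT hK H) (hX : Iso K X) (hu0 : u ∉ perp K X) (hv : v ∈ perp K X) :
    u + v ∈ TT hK H := by
  -- one step
  have step : ∀ u v : n → k, u ∈ TT hK H → v ∈ perp K X → om K v u ≠ 0 → u + v ∈ TT hK H := by
    intro u v hu hv h0
    have := TT_act hK hu (TT_perp hK h hv (om K v u)⁻¹)
    rwa [tr_mulVec, inv_mul_cancel₀ h0, one_smul] at this
  obtain ⟨w, hw, hwu⟩ : ∃ w ∈ X, om K w u ≠ 0 := by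
    by_contra hcon
    push Not at hcon
    exact hu0 fun x hx => hcon x hx
  have hw' : w ∈ perp K X := le_perp hX hw
  by_cases h0 : om K v u = 0
  · have h1 : u + (v + w) ∈ TT hK H := step u (v + w) hu ((perp K X).add_mem hv hw') (by
      rw [om_add_left, h0, zero_add]; exact hwu)
    have h2 : u + (v + w) + (-w) ∈ TT hK H := step _ (-w) h1 ((perp K X).neg_mem hw') (by
      rw [om_neg_left, om_add_right, om_add_right, om_self hK, hv w hw, add_zero, add_zero]
      exact neg_ne_zero.2 hwu)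
    have e : u + (v + w) + (-w) = u + v := by abel
    rwa [e] at h2
  · exact step u v hu hv h0

/-- Vectors which are different modulo `X^⊥`. -/
theorem TT_ed (hK : Alt K) {H : Subgroup (SpG K)} {X : Submodule k (n → k)} (h : St K X ≤ H)
    {u v c : n → k} (hu : u ∈ TT hK H) (hX : Iso K X) (hc : c ∈ X) (hcu : om K c u ≠ 0)
    (hcv : om K c v = om K c u) (hv0 : v ∉ perp K X) : v ∈ TT hK H := by
  set d := v - u with hd
  have hcd : om K c d = 0 := by rw [hd, om_sub_right, hcv, sub_self]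
  have hmem : ed hK c d (om K c u)⁻¹ ∈ H := by
    refine h (prs_of_le fun x hx => ?_)
    rw [ed_mulVec hK hcd, hX c hc x hx, mul_zero, zero_smul, add_zero]
    exact X.add_mem hx (X.smul_mem _ hc)
  have h1 := TT_act hK hu hmem
  rw [ed_mulVec hK hcd, inv_mul_cancel₀ hcu, one_smul] at h1
  have e1 : u + d = v := by rw [hd]; abel
  rw [e1] at h1
  set a := (om K c u)⁻¹ * om K d u with ha
  have h2 : v + a • c ∉ perp K X := by
    intro h3
    apply hv0
    have := (perp K X).sub_mem h3 ((perp K X).smul_mem a (le_perp hX hc))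
    rwa [add_sub_cancel_right] at this
  have h3 := TT_add hK h h1 hX h2 ((perp K X).smul_mem (-a) (le_perp hX hc))
  have e2 : v + a • c + (-a) • c = v := by module
  rwa [e2] at h3

/-- If `T` meets the complement of `X^⊥`, it is everything. -/
theorem TT_univ (hK : Alt K) {H : Subgroup (SpG K)} {X : Submodule k (n → k)} (h : St K X ≤ H)
    {u : n → k} (hu : u ∈ TT hK H) (hX : Iso K X) (hu0 : u ∉ perp K X) (v : n → k) :
    v ∈ TT hK H := by
  by_cases hv : v ∈ perp K X
  · exact TT_perp hK h hv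
  obtain ⟨x, hx, hxu⟩ : ∃ x ∈ X, om K x u ≠ 0 := by
    by_contra hcon
    push Not at hcon
    exact hu0 fun x hx => hcon x hx
  obtain ⟨y, hy, hyv⟩ : ∃ y ∈ X, om K y v ≠ 0 := by
    by_contra hcon
    push Not at hcon
    exact hv fun x hx => hcon x hx
  -- a common vector
  obtain ⟨c, hc, hcu, hcv⟩ : ∃ c ∈ X, om K c u ≠ 0 ∧ om K c v ≠ 0 := by
    by_cases h1 : om K x v = 0
    · by_cases h2 : om K y u = 0
      · refine ⟨x + y, X.add_mem hx hy, ?_, ?_⟩
        · rw [om_add_left, h2, add_zero]; exact hxu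
        · rw [om_add_left, h1, zero_add]; exact hyv
      · exact ⟨y, hy, h2, hyv⟩
    · exact ⟨x, hx, hxu, h1⟩
  -- scale
  have h3 : (om K c u / om K c v) • v ∈ TT hK H := by
    refine TT_ed hK h hu hX hc hcu ?_ ?_
    · rw [om_smul_right, div_mul_cancel₀ _ hcv]
    · intro h4
      have := (perp K X).smul_mem (om K c v / om K c u) h4
      rw [smul_smul, div_mul_div_comm, mul_comm (om K c v), div_self (mul_ne_zero hcu hcv),
        one_smul] at this
      exact hv this
  have h5 := TT_smul hK h3 (om K c v / om K c u)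
  rwa [smul_smul, div_mul_div_comm, mul_comm (om K c v), div_self (mul_ne_zero hcu hcv),
    one_smul] at h5

theorem perp_perp_le (hK : Alt K) {X Y : Submodule k (n → k)} (h : perp K Y ≤ perp K X) : X ≤ Y := by
  intro x hx
  by_contra hcon
  obtain ⟨f, hf, hp⟩ := Submodule.exists_le_ker_of_notMem hcon
  -- the vector of the form `f`
  have hKt : IsUnit K.det := isUnit_iff_ne_zero.2 hK.det
  have h1 : K * K⁻¹ = 1 := mul_nonsing_inv K hKt
  set φ : n → k := fun i => f (Pi.single i 1) with hφ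
  have h2 : ∀ y : n → k, om K y (K⁻¹ *ᵥ φ) = f y := by
    intro y
    unfold om
    rw [mulVec_mulVec, h1, one_mulVec]
    conv_rhs => rw [pi_eq_sum_univ' y]
    rw [map_sum]
    refine Finset.sum_congr rfl fun i _ => ?_
    rw [map_smul, smul_eq_mul]
  have h3 : K⁻¹ *ᵥ φ ∈ perp K Y := fun y hy => by
    rw [h2]; exact LinearMap.mem_ker.1 (hp hy)
  have h4 := h h3 x hx
  rw [h2] at h4
  exact hf h4

/-- **Two different isotropic subspaces: their stabilisers generate the group.** -/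
theorem gen_two (hK : Alt K) (hKi : Alt K⁻¹) {X Y : Submodule k (n → k)} (hX : Iso K X)
    (hY : Iso K Y) (hne : X ≠ Y) {H : Subgroup (SpG K)} (h1 : St K X ≤ H) (h2 : St K Y ≤ H) :
    H = ⊤ := by
  have key : ∀ v, v ∈ TT hK H := by
    by_cases h : perp K Y ≤ perp K X
    · have h' : ¬ perp K X ≤ perp K Y := fun h'' =>
        hne (le_antisymm (perp_perp_le hK h) (perp_perp_le hK h''))
      obtain ⟨u, hu, hu0⟩ := SetLike.not_le_iff_exists.1 h'
      exact TT_univ hK h2 (TT_perp hK h1 hu) hY hu0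
    · obtain ⟨u, hu, hu0⟩ := SetLike.not_le_iff_exists.1 h
      exact TT_univ hK h1 (TT_perp hK h2 hu) hX hu0
  rw [eq_top_iff, ← closure_tr hK hKi, Subgroup.closure_le]
  rintro _ ⟨u, s, rfl⟩
  exact key u s

/-- The same as a closure. -/
theorem sup_St (hK : Alt K) (hKi : Alt K⁻¹) {X Y : Submodule k (n → k)} (hX : Iso K X)
    (hY : Iso K Y) (hne : X ≠ Y) : St K X ⊔ St K Y = ⊤ :=
  gen_two hK hKi hX hY hne le_sup_left le_sup_right

end alg

section top

variable {n : Type} [Fintype n] [DecidableEq n] {k : Type} [NontriviallyNormedField k]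
  [ProperSpace k] {K : Matrix n n k}

theorem exists_big (k : Type) [NontriviallyNormedField k] : ∃ w : k, w ≠ 0 ∧ 1 < ‖w‖ := by
  obtain ⟨w, hw⟩ := NormedField.exists_one_lt_norm k
  exact ⟨w, norm_pos_iff.1 (by linarith), hw⟩

/-- A proper subspace has an orthogonal vector. -/
theorem exists_perp (hK : Alt K) {L : Submodule k (n → k)} (hL : L ≠ ⊤) :
    ∃ u, u ≠ 0 ∧ u ∈ perp K L := by
  by_contra hcon
  push Not at hcon
  apply hL
  rw [eq_top_iff]
  refine perp_perp_le hK fun u hu => ?_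
  by_cases h0 : u = 0
  · rw [h0]; exact zero_mem _
  · exact absurd hu (hcon u h0)

/-- **The pointwise stabiliser of a proper subspace is a Moore set.** -/
theorem moore_fix' [Nonempty n] (hK : Alt K) {L : Submodule k (n → k)} (hL : L ≠ ⊤) :
    Moore {g : SpG K | ∀ x ∈ L, g.1.1 *ᵥ x = x} := by
  obtain ⟨u, hu0, hu⟩ := exists_perp hK hL
  exact moore_fix hK hu0 hu

/-- **The torus of a hyperbolic pair is a Moore set.** -/
theorem moore_pair [Nonempty n] (hK : Alt K) {e f : n → k} (hef : om K e f = 1) :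
    Moore {g : SpG K | (∃ a : k, g.1.1 *ᵥ e = a • e) ∧ (∃ a : k, g.1.1 *ᵥ f = a • f) ∧
      ∀ x, om K e x = 0 → om K f x = 0 → g.1.1 *ᵥ x = x} := by
  obtain ⟨w, hw0, hw⟩ := exists_big k
  have he : e ≠ 0 := by
    rintro rfl
    rw [om_zero_left] at hef
    exact zero_ne_one hef
  set g : SpG K := sqr hK (dilM K e f w) (dilM_iso hK hef hw0) with hg
  have hfe : om K f e = -1 := by rw [om_skew hK, hef]
  have e1 : dilM K e f w *ᵥ e = w • e := by
    rw [dilM_mulVec hK, hef, om_self hK, mul_zero, zero_smul, add_zero]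
    module
  have e2 : dilM K e f w *ᵥ f = w⁻¹ • f := by
    rw [dilM_mulVec hK, om_self hK, hef, mul_zero, zero_smul, add_zero]
    module
  have e3 : ∀ x, om K e x = 0 → om K f x = 0 → dilM K e f w *ᵥ x = x := fun x h1 h2 => by
    rw [dilM_mulVec hK, h1, om_skew hK f x, h2, neg_zero, mul_zero, mul_zero, zero_smul, zero_smul,
      add_zero, add_zero]
  have g1 : g.1.1 *ᵥ e = (w * w) • e := by
    rw [hg, sqr_mulVec, e1, mulVec_smul, e1, smul_smul]
  have g2 : g.1.1 *ᵥ f = (w⁻¹ * w⁻¹) • f := by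
    rw [hg, sqr_mulVec, e2, mulVec_smul, e2, smul_smul]
  refine moore_pow hK he g1 (by rw [norm_mul]; nlinarith) fun N => ?_
  have p1 : ∀ (x : n → k) (a : k), g.1.1 *ᵥ x = a • x → (g ^ N).1.1 *ᵥ x = a ^ N • x := by
    intro x a hx
    induction N with
    | zero => rw [pow_zero, pow_zero, one_smul]; exact one_mulVec' x
    | succ N ih => rw [pow_succ', mul_mulVec, ih, mulVec_smul, hx, smul_smul, pow_succ]
  refine ⟨⟨_, p1 e _ g1⟩, ⟨_, p1 f _ g2⟩, fun x h1 h2 => ?_⟩
  have := p1 x 1 (by rw [one_smul, hg, sqr_mulVec, e3 x h1 h2, e3 x h1 h2])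
  rwa [one_pow, one_smul] at this

/-- The projection onto `X` along `Y`, as a matrix. -/
theorem exists_proj {X Y : Submodule k (n → k)} (hi : X ⊓ Y = ⊥) (hs : X ⊔ Y = ⊤) :
    ∃ P : Matrix n n k, (∀ x ∈ X, P *ᵥ x = x) ∧ ∀ y ∈ Y, P *ᵥ y = 0 := by
  have hc : IsCompl X Y := IsCompl.of_eq hi hs
  have q1 := Submodule.linearProjOfIsCompl_apply_left hc
  have q2 := Submodule.linearProjOfIsCompl_apply_right hc
  refine ⟨LinearMap.toMatrix' (X.subtype ∘ₗ (Submodule.projectionOnto X Y hc)), fun x hx => ?_,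
    fun y hy => ?_⟩
  · rw [LinearMap.toMatrix'_mulVec]
    have := q1 ⟨x, hx⟩
    exact congrArg Subtype.val this
  · rw [LinearMap.toMatrix'_mulVec]
    have := q2 ⟨y, hy⟩
    exact congrArg Subtype.val this

/-- **The elements which preserve all subspaces of two isotropic subspaces are a Moore set.** -/
theorem moore_two [Nonempty n] (hK : Alt K) {X Y : Submodule k (n → k)} (hX : Iso K X)
    (hY : Iso K Y) : Moore {g : SpG K | (∀ Z ≤ X, Prs Z g) ∧ ∀ Z ≤ Y, Prs Z g} := by
  by_cases hT : X ⊔ Y = ⊤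
  · -- transversal Lagrangian subspaces
    have hi : X ⊓ Y = ⊥ := by
      rw [eq_bot_iff]
      intro x hx
      rw [Submodule.mem_bot]
      by_contra h0
      obtain ⟨y, hy⟩ := exists_om hK h0
      have hy' : y ∈ X ⊔ Y := by rw [hT]; trivial
      obtain ⟨a, ha, b, hb, rfl⟩ := Submodule.mem_sup.1 hy'
      apply hy
      rw [om_add_right, hX x hx.1 a ha, hY x hx.2 b hb, add_zero]
    obtain ⟨P, hPX, hPY⟩ := exists_proj hi hT
    obtain ⟨w, hw0, hw⟩ := exists_big k
    set M : Matrix n n k := w • P + w⁻¹ • (1 - P) with hM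
    have m1 : ∀ x ∈ X, M *ᵥ x = w • x := fun x hx => by
      rw [hM, add_mulVec, smul_mulVec, smul_mulVec, sub_mulVec, one_mulVec, hPX x hx, sub_self,
        smul_zero, add_zero]
    have m2 : ∀ y ∈ Y, M *ᵥ y = w⁻¹ • y := fun y hy => by
      rw [hM, add_mulVec, smul_mulVec, smul_mulVec, sub_mulVec, one_mulVec, hPY y hy, sub_zero,
        smul_zero, zero_add]
    have hiso : Mᵀ * K * M = K := by
      refine iso_of_om fun x y => ?_
      have hx : x ∈ X ⊔ Y := by rw [hT]; trivial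
      have hy : y ∈ X ⊔ Y := by rw [hT]; trivial
      obtain ⟨a, ha, b, hb, rfl⟩ := Submodule.mem_sup.1 hx
      obtain ⟨c, hc, d, hd, rfl⟩ := Submodule.mem_sup.1 hy
      rw [mulVec_add, mulVec_add, m1 a ha, m2 b hb, m1 c hc, m2 d hd]
      simp only [om_add_left, om_add_right, om_smul_left, om_smul_right, hX a ha c hc,
        hY b hb d hd, mul_zero, zero_add, add_zero]
      field_simp
    set g : SpG K := sqr hK M hiso with hg
    have g1 : ∀ x ∈ X, g.1.1 *ᵥ x = (w * w) • x := fun x hx => by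
      rw [hg, sqr_mulVec, m1 x hx, mulVec_smul, m1 x hx, smul_smul]
    have g2 : ∀ x ∈ Y, g.1.1 *ᵥ x = (w⁻¹ * w⁻¹) • x := fun x hx => by
      rw [hg, sqr_mulVec, m2 x hx, mulVec_smul, m2 x hx, smul_smul]
    have hX0 : X ≠ ⊥ := by
      rintro rfl
      rw [bot_sup_eq] at hT
      obtain ⟨i⟩ := ‹Nonempty n›
      have h0 : (Pi.single i 1 : n → k) ≠ 0 := by
        intro h
        have := congrFun h i
        simp at this
      obtain ⟨y, hy⟩ := exists_om hK h0
      exact hy (hY _ (by rw [hT]; trivial) _ (by rw [hT]; trivial))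
    obtain ⟨x₀, hx₀, hx0⟩ := Submodule.exists_mem_ne_zero_of_ne_bot hX0
    refine moore_pow hK hx0 (g1 x₀ hx₀) (by rw [norm_mul]; nlinarith) fun N => ?_
    have p1 : ∀ (x : n → k) (a : k), g.1.1 *ᵥ x = a • x → (g ^ N).1.1 *ᵥ x = a ^ N • x := by
      intro x a hx
      induction N with
      | zero => rw [pow_zero, pow_zero, one_smul]; exact one_mulVec' x
      | succ N ih => rw [pow_succ', mul_mulVec, ih, mulVec_smul, hx, smul_smul, pow_succ]
    refine ⟨fun Z hZ => prs_of_le fun x hx => ?_, fun Z hZ => prs_of_le fun x hx => ?_⟩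
    · rw [p1 x _ (g1 x (hZ hx))]
      exact Z.smul_mem _ hx
    · rw [p1 x _ (g2 x (hZ hx))]
      exact Z.smul_mem _ hx
  · obtain ⟨u, hu0, hu⟩ := exists_perp hK hT
    refine moore_of_root hK hu0 fun s => ⟨fun Z hZ => prs_of_le fun x hx => ?_,
      fun Z hZ => prs_of_le fun x hx => ?_⟩
    · rwa [tr_fix hK (by rw [om_skew hK x u, hu x (le_sup_left (a := X) (hZ hx)), neg_zero])]
    · rwa [tr_fix hK (by rw [om_skew hK x u, hu x (le_sup_right (b := Y) (hZ hx)), neg_zero])]

/-- **The stabiliser of two isotropic subspaces is a Moore set.** -/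
theorem moore_stb [Nonempty n] (hK : Alt K) {X Y : Submodule k (n → k)} (hX : Iso K X)
    (hY : Iso K Y) : Moore {g : SpG K | Prs X g ∧ Prs Y g} := by
  intro 𝓗 _ _ _ u h1 h2 ξ hξ g
  exact moore_two hK hX hY 𝓗 u h1 h2 ξ (fun g hg => hξ g ⟨hg.1 X le_rfl, hg.2 Y le_rfl⟩) g

end top

end Vale.Agent.P092.H714.Sp
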