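import Vale.Agent.P092.H714.Cl4

/-!
P092, block A-CLASS (helper714), part 7: transitivity of the group generated by the transvections on
isotropic lines and on hyperbolic pairs.
-/

set_option linter.all false

open Matrix

namespace Vale.Agent.P092.H714.Cl

open Vale.Agent.P092.H303 (FormGroup)

variable {n : Type} [Fintype n] [DecidableEq n] {k : Type} [Field k]
  {σ : k →+* k} {ε : k} {J : Matrix n n k}

/-- Transport of an isotropic line, inside the plane. -/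
theorem trans_step (hF : Frm σ ε J) {u w : n → k} (hu : hf σ J u u = 0) (hw : hf σ J w w = 0)
    (huw : hf σ J u w ≠ 0) : ∃ g ∈ GT σ ε J, ∃ a : k, a ≠ 0 ∧ u ᵥ* g.1 = a • w ∧
      ∀ y, hf σ J y u = 0 → hf σ J y w = 0 → y ᵥ* g.1 = y := by
  obtain ⟨d, hd0, hd⟩ := hF.cc
  set ν : k := hf σ J u w * σ (hf σ J u w) with hν
  have hν0 : ν ≠ 0 := mul_ne_zero huw (by rwa [Ne, map_eq_zero])
  have hνs : σ ν = ν := by rw [hν, map_mul, hF.inv, mul_comm]
  have he : ν⁻¹ * (-ε * d⁻¹) + ε * σ (ν⁻¹ * (-ε * d⁻¹)) = 0 :=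
    cc_fix (by rw [map_inv₀, hνs]) (cc_inv hF.eps hF.seps hd hd0)
  refine ⟨tv σ J w d * tv σ J u (ν⁻¹ * (-ε * d⁻¹)),
    mul_mem (tv_mem_GT hw hd) (tv_mem_GT hu he), d * hf σ J u w, mul_ne_zero hd0 huw, ?_, ?_⟩
  · rw [vecMul_mul', vecMul_tv hw, vecMul_tv hu, hf_add_left, hf_smul_left, hu, zero_add]
    have e1 : ν⁻¹ * (-ε * d⁻¹) * (d * hf σ J u w * hf σ J w u) = -1 := by
      rw [hF.herm u w]
      have e2 : ν⁻¹ * (-ε * d⁻¹) * (d * hf σ J u w * (ε * σ (hf σ J u w))) =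
          -(ε * ε) * (d⁻¹ * d) * (ν⁻¹ * ν) := by
        rw [hν]; ring
      rw [e2, hF.eps, inv_mul_cancel₀ hd0, inv_mul_cancel₀ hν0]
      ring
    rw [e1]
    module
  · intro y h1 h2
    rw [vecMul_mul', vecMul_tv hw, h2, mul_zero, zero_smul, add_zero, vecMul_tv hu, h1, mul_zero,
      zero_smul, add_zero]

/-- Transitivity on isotropic lines. -/
theorem trans_line (hF : Frm σ ε J) {u w : n → k} (hu0 : u ≠ 0) (hu : hf σ J u u = 0)
    (hw0 : w ≠ 0) (hw : hf σ J w w = 0) :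
    ∃ g ∈ GT σ ε J, ∃ a : k, a ≠ 0 ∧ u ᵥ* g.1 = a • w := by
  obtain ⟨z, hz, h1, h2⟩ := hF.exists_conn hu0 hu hw0 hw
  obtain ⟨g, hg, a, ha, hga, -⟩ := trans_step hF hu hz h1
  obtain ⟨g', hg', a', ha', hga', -⟩ := trans_step hF hz hw h2
  refine ⟨g * g', mul_mem hg hg', a * a', mul_ne_zero ha ha', ?_⟩
  rw [vecMul_mul', hga, smul_vecMul, hga', smul_smul]

/-- The hyperbolic element, on any vector. -/
theorem vecMul_dv (hF : Frm σ ε J) {u w : n → k} (hu : hf σ J u u = 0) (hw : hf σ J w w = 0)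
    (huw : hf σ J u w = 1) {s r : k} (hs0 : s ≠ 0) (hr0 : r ≠ 0) (x : n → k) :
    x ᵥ* (dv σ ε J u w s r).1 =
      x + ((r⁻¹ - 1) * hf σ J x w) • u + ((r - 1) * (ε * hf σ J x u)) • w := by
  have hwu := hF.swap huw
  set y : n → k := x + (-hf σ J x w) • u + (-(ε * hf σ J x u)) • w with hy
  have hyu : hf σ J y u = 0 := by
    rw [hy, hf_add_left, hf_add_left, hf_smul_left, hf_smul_left, hu, hwu]
    linear_combination -hf σ J x u * hF.eps
  have hyw : hf σ J y w = 0 := by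
    rw [hy, hf_add_left, hf_add_left, hf_smul_left, hf_smul_left, huw, hw]
    ring
  have e : x = y + hf σ J x w • u + (ε * hf σ J x u) • w := by
    rw [hy]; module
  have h1 : x ᵥ* (dv σ ε J u w s r).1 = y + hf σ J x w • r⁻¹ • u + (ε * hf σ J x u) • r • w := by
    conv_lhs => rw [e]
    rw [add_vecMul, add_vecMul, smul_vecMul, smul_vecMul, y_dv hu hw hyu hyw,
      u_dv hF hu hw huw hs0 hr0, w_dv hF hu hw huw hs0 hr0]
  rw [h1, hy]
  module

/-- **Transitivity on hyperbolic pairs with a common first vector.** -/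
theorem pair_trans (hF : Frm σ ε J) {r : k} (hr : σ r = r) (hr0 : r ≠ 0) (hr1 : r ≠ 1)
    {u w w' : n → k} (hu : hf σ J u u = 0) (hw : hf σ J w w = 0) (hw' : hf σ J w' w' = 0)
    (huw : hf σ J u w = 1) (huw' : hf σ J u w' = 1) :
    ∃ g ∈ GT σ ε J, u ᵥ* g.1 = u ∧ w ᵥ* g.1 = w' := by
  have hwu := hF.swap huw
  have hwu' := hF.swap huw'
  have hr1' : r - 1 ≠ 0 := sub_ne_zero.mpr hr1
  set q : k := (r - 1)⁻¹ with hq
  -- the auxiliary vector
  have h1 : hf σ J u (w + q • (w' + (-1 : k) • w)) = 1 := by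
    rw [hf_add_right, hf_smul_right, hf_add_right, hf_smul_right, huw, huw', map_neg, map_one]
    ring
  obtain ⟨γ, hγ⟩ := hF.exists_corr hu (y := w + q • (w' + (-1 : k) • w))
    (by rw [h1]; exact one_ne_zero)
  set w₁ : n → k := w + q • (w' + (-1 : k) • w) + γ • u with hw₁
  have huw₁ : hf σ J u w₁ = 1 := by
    rw [hw₁, hf_add_right, hf_smul_right, hu, mul_zero, add_zero, h1]
  have hwu₁ := hF.swap huw₁
  obtain ⟨s, hs0, hs⟩ := hF.cc
  set D₁ := dv σ ε J u w₁ s r with hD₁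
  set D := dv σ ε J u w s r with hD
  have m₁ : D₁ ∈ GT σ ε J := dv_mem hF hu hγ hs0 hs hr0 hr
  have m : D ∈ GT σ ε J := dv_mem hF hu hw hs0 hs hr0 hr
  have hDi : ∀ x, x ᵥ* (D⁻¹).1 =
      x + ((r - 1) * hf σ J x w) • u + ((r⁻¹ - 1) * (ε * hf σ J x u)) • w := by
    intro x
    have e : D * dv σ ε J u w s r⁻¹ = 1 := by
      refine ext_vecMul fun y => ?_
      rw [vecMul_mul', vecMul_dv hF hu hw huw hs0 hr0,
        vecMul_dv hF hu hw huw hs0 (inv_ne_zero hr0), vecMul_one', inv_inv]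
      rw [hf_add_left, hf_add_left, hf_smul_left, hf_smul_left, hf_add_left, hf_add_left,
        hf_smul_left, hf_smul_left, hu, hw, hwu, huw]
      have e1 : (r⁻¹ - 1) * hf σ J y w + (r - 1) * (hf σ J y w + (r⁻¹ - 1) * hf σ J y w * 1 +
          (r - 1) * (ε * hf σ J y u) * 0) = 0 := by
        have : r * r⁻¹ = 1 := mul_inv_cancel₀ hr0
        linear_combination hf σ J y w * this
      have e2 : (r - 1) * (ε * hf σ J y u) + (r⁻¹ - 1) * (ε * (hf σ J y u +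
          (r⁻¹ - 1) * hf σ J y w * 0 + (r - 1) * (ε * hf σ J y u) * ε)) = 0 := by
        have h3 : r * r⁻¹ = 1 := mul_inv_cancel₀ hr0
        have h4 := hF.eps
        linear_combination (ε * hf σ J y u) * h3 +
          ((r⁻¹ - 1) * (r - 1) * ε * hf σ J y u) * h4
      have e3 : y + ((r⁻¹ - 1) * hf σ J y w) • u + ((r - 1) * (ε * hf σ J y u)) • w +
          ((r - 1) * (hf σ J y w + (r⁻¹ - 1) * hf σ J y w * 1 +
          (r - 1) * (ε * hf σ J y u) * 0)) • u +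
          ((r⁻¹ - 1) * (ε * (hf σ J y u +
          (r⁻¹ - 1) * hf σ J y w * 0 + (r - 1) * (ε * hf σ J y u) * ε))) • w =
          y + ((r⁻¹ - 1) * hf σ J y w + (r - 1) * (hf σ J y w + (r⁻¹ - 1) * hf σ J y w * 1 +
          (r - 1) * (ε * hf σ J y u) * 0)) • u +
          ((r - 1) * (ε * hf σ J y u) + (r⁻¹ - 1) * (ε * (hf σ J y u +
          (r⁻¹ - 1) * hf σ J y w * 0 + (r - 1) * (ε * hf σ J y u) * ε))) • w := by
        module
      rw [e3, e1, e2, zero_smul, zero_smul, add_zero, add_zero]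
    have e' : D⁻¹ = dv σ ε J u w s r⁻¹ := inv_eq_of_mul_eq_one_right e
    rw [e', vecMul_dv hF hu hw huw hs0 (inv_ne_zero hr0), inv_inv]
  -- the image of `w`
  obtain ⟨δ, hδ⟩ : ∃ δ : k, w ᵥ* (D₁ * D⁻¹).1 = w' + δ • u := by
    refine ⟨(r - 1) * γ + ((r⁻¹ - 1) * hf σ J w w₁) +
      (r - 1) * ((r⁻¹ - 1) * hf σ J w w₁ + (r - 1) * hf σ J w₁ w), ?_⟩
    rw [vecMul_mul', vecMul_dv hF hu hγ huw₁ hs0 hr0, hDi]
    simp only [hf_add_left, hf_smul_left, hu, hw, hwu, huw, hwu₁, mul_zero, add_zero, zero_add,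
      mul_one]
    have h4 := hF.eps
    have hq1 : (r - 1) * q = 1 := mul_inv_cancel₀ hr1'
    have h3 : r * r⁻¹ = 1 := mul_inv_cancel₀ hr0
    have e1 : (r - 1) * (ε * ε) = r - 1 := by rw [h4, mul_one]
    have e2 : (r⁻¹ - 1) * (ε * (ε + (r - 1) * (ε * ε) * ε)) = 1 - r := by
      linear_combination ((r⁻¹ - 1) * (1 + (r - 1) * (1 + ε * ε))) * h4 + h3
    rw [e1] at e2 ⊢
    rw [e2]
    have e5 : (r - 1) • w₁ = (r - 1) • w + (w' + (-1 : k) • w) + ((r - 1) * γ) • u := by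
      rw [hw₁, smul_add, smul_add, smul_smul, smul_smul, hq1, one_smul]
    have e6 : w + ((r⁻¹ - 1) * hf σ J w w₁) • u + (r - 1) • w₁ +
        ((r - 1) * ((r⁻¹ - 1) * hf σ J w w₁ + (r - 1) * hf σ J w₁ w)) • u + (1 - r) • w =
        w + ((r⁻¹ - 1) * hf σ J w w₁) • u +
        ((r - 1) • w + (w' + (-1 : k) • w) + ((r - 1) * γ) • u) +
        ((r - 1) * ((r⁻¹ - 1) * hf σ J w w₁ + (r - 1) * hf σ J w₁ w)) • u + (1 - r) • w := by
      rw [e5]
    rw [e6]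
    module
  have hu1 : u ᵥ* (D₁ * D⁻¹).1 = u := by
    rw [vecMul_mul', vecMul_dv hF hu hγ huw₁ hs0 hr0, hDi]
    simp only [hf_add_left, hf_smul_left, hu, huw₁, huw, mul_zero, zero_smul, add_zero, mul_one]
    have h3 : r * r⁻¹ = 1 := mul_inv_cancel₀ hr0
    have e : (r⁻¹ - 1) + (r - 1) * (1 + (r⁻¹ - 1)) = 0 := by linear_combination h3
    have e2 : u + (r⁻¹ - 1) • u + ((r - 1) * (1 + (r⁻¹ - 1))) • u =
        u + ((r⁻¹ - 1) + (r - 1) * (1 + (r⁻¹ - 1))) • u := by module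
    rw [e2, e, zero_smul, add_zero]
  have hiso : hf σ J (w' + δ • u) (w' + δ • u) = 0 := by
    rw [← hδ]
    exact iso_vecMul (GT_le hF (mul_mem m₁ (inv_mem m))) hw
  rw [hf_add_left, hf_add_right, hf_add_right, hf_smul_left, hf_smul_left, hf_smul_right,
    hf_smul_right, hu, hw', hwu', huw'] at hiso
  have hc : -(ε * δ) + ε * σ (-(ε * δ)) = 0 := by
    rw [map_neg, map_mul, hF.seps]
    linear_combination (-ε) * hiso
  refine ⟨D₁ * D⁻¹ * tv σ J u (-(ε * δ)), mul_mem (mul_mem m₁ (inv_mem m)) (tv_mem_GT hu hc),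
    ?_, ?_⟩
  · rw [vecMul_mul' u (D₁ * D⁻¹), hu1, vecMul_tv hu, hu, mul_zero, zero_smul, add_zero]
  · rw [vecMul_mul' w (D₁ * D⁻¹), hδ, vecMul_tv hu, hf_add_left, hf_smul_left, hwu', hu]
    have h4 := hF.eps
    have e : -(ε * δ) * (ε + δ * 0) = -δ := by linear_combination (-δ) * h4
    rw [e]
    module

/-- Transitivity on hyperbolic pairs, up to the scalars. -/
theorem pair_trans' (hF : Frm σ ε J) {r : k} (hr : σ r = r) (hr0 : r ≠ 0) (hr1 : r ≠ 1)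
    {u w u' w' : n → k} (hu : hf σ J u u = 0) (hw : hf σ J w w = 0) (hu' : hf σ J u' u' = 0)
    (hw' : hf σ J w' w' = 0) (huw : hf σ J u w = 1) (huw' : hf σ J u' w' = 1) :
    ∃ g ∈ GT σ ε J, ∃ a : k, a ≠ 0 ∧ u ᵥ* g.1 = a • u' ∧ w ᵥ* g.1 = (σ a)⁻¹ • w' := by
  have hu0 : u ≠ 0 := (hF.ne_zero_of_pair (by rw [huw]; exact one_ne_zero)).1
  have hu0' : u' ≠ 0 := (hF.ne_zero_of_pair (by rw [huw']; exact one_ne_zero)).1
  obtain ⟨g, hg, a, ha, hga⟩ := trans_line hF hu0 hu hu0' hu'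
  have hgF := GT_le hF hg
  have hσa : σ a ≠ 0 := by rwa [Ne, map_eq_zero]
  have h1 : hf σ J (a • u') (w ᵥ* g.1) = 1 := by
    rw [← hga, mem_formGroup.mp hgF, huw]
  have h2 : hf σ J (a • u') ((σ a)⁻¹ • w') = 1 := by
    rw [hf_smul_left, hf_smul_right, huw', map_inv₀, hF.inv, mul_one, mul_inv_cancel₀ ha]
  obtain ⟨g', hg', h3, h4⟩ := pair_trans hF hr hr0 hr1 (iso_smul hu' a) (iso_vecMul hgF hw)
    (iso_smul hw' (σ a)⁻¹) h1 h2
  exact ⟨g * g', mul_mem hg hg', a, ha, by rw [vecMul_mul', hga, h3], by rw [vecMul_mul', h4]⟩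

end Vale.Agent.P092.H714.Cl
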