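import Vale.Agent.P092.H714.FarOfA

/-!
P092 (helper714), block [S9], second part: the limit attached to a vertex depends on the component
only (row model, abstract geometric input), averaging over cosets, and the contradiction.
-/

set_option linter.all false

open scoped InnerProductSpace
open Filter Topology ContinuousLinearMap

namespace Vale.Agent.P092.H714

open Vale.Agent.P092.H160 Vale.Agent.P092.H553 Vale.Agent.P092.H432 Vale.Agent.P092.H200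

/-- The ultrafilter. -/
noncomputable abbrev Ufl : Ultrafilter ℕ := hyperfilter ℕ

section seq

variable {Λ : Type} [Group Λ]

/-- An escaping sequence in `A`. -/
def SeqInA (A : Subgroup Λ) (z : ℕ → Λ) : Prop := (∀ k, z k ∈ A) ∧ ∀ v : Λ, ∀ᶠ k in Ufl, z k ≠ v

theorem exists_seqInA {A : Subgroup Λ} (hA : Infinite A) : ∃ z, SeqInA A z := by
  let e := Infinite.natEmbedding A
  refine ⟨fun k => (e k : Λ), fun k => (e k).2, fun v => ?_⟩
  refine hyperfilter_le_cofinite ?_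
  rw [mem_cofinite]
  refine Set.Finite.subset (Set.Subsingleton.finite (s := {k | (e k : Λ) = v}) ?_) ?_
  · intro k hk l hl
    exact e.injective (Subtype.ext ((show (e k : Λ) = v from hk).trans
      (show (e l : Λ) = v from hl).symm))
  · intro k hk
    simpa using hk

theorem SeqInA.inv {A : Subgroup Λ} {z : ℕ → Λ} (h : SeqInA A z) :
    ∀ v : Λ, ∀ᶠ k in Ufl, (z k)⁻¹ ≠ v := escape_inv h.2

theorem SeqInA.cj {A : Subgroup Λ} {z : ℕ → Λ} (h : SeqInA A z) (v : Λ) :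
    SeqInA (H200.cj v A) (fun k => v * z k * v⁻¹) := by
  refine ⟨fun k => ?_, fun w => ?_⟩
  · rw [mem_cj]
    have : v⁻¹ * (v * z k * v⁻¹) * v = z k := by group
    rw [this]; exact h.1 k
  · filter_upwards [h.2 (v⁻¹ * w * v)] with k hk he
    exact hk (by rw [← he]; group)

end seq

section

variable {Γ Λ ι : Type} [Group Γ] [Group Λ] [Fintype ι] [DecidableEq ι] {t : ℝ}
  {R : Λ → (Ell2 (Γ × ι) →L[ℂ] Ell2 (Γ × ι))} {G12 G23 q : Γ → ℝ} {FF : Set (Γ → ℝ)}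

theorem abs_mul_le_oneA {a b : ℝ} (ha : |a| ≤ 1) (hb : |b| ≤ 1) : |a * b| ≤ 1 := by
  rw [abs_mul]; exact mul_le_one₀ ha (abs_nonneg _) hb

theorem GeoA.abs_q (hg : GeoA G12 G23 q FF) (g : Γ) : |q g| ≤ 1 := by
  rw [abs_of_nonneg (hg.q_mem g).1]; exact (hg.q_mem g).2

theorem GeoA.abs_H (hg : GeoA G12 G23 q FF) {H : Γ → ℝ} (hH : H ∈ FF) (g : Γ) : |H g| ≤ 1 := by
  rw [abs_of_nonneg (hg.mem H hH g).1]; exact (hg.mem H hH g).2

theorem GeoA.qh_tendsto (hg : GeoA G12 G23 q FF) {H : Γ → ℝ} (hH : H ∈ FF) (t : Γ) :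
    Tendsto (fun g : Γ => q (g * t) * H (g * t) - q g * H g) cofinite (𝓝 0) := by
  have h1 := hg.q_tr 1 t
  have h2 := hg.right H hH t
  have h3 := h1.abs.add h2
  rw [abs_zero, add_zero] at h3
  refine squeeze_zero_norm (fun g => ?_) h3
  rw [Real.norm_eq_abs, one_mul]
  have e : q (g * t) * H (g * t) - q g * H g =
      (q (g * t) - q g) * H (g * t) + q g * (H (g * t) - H g) := by ring
  rw [e]
  refine (abs_add_le _ _).trans (add_le_add ?_ ?_)
  · rw [abs_mul]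
    exact mul_le_of_le_one_right (abs_nonneg _) (hg.abs_H hH _)
  · rw [abs_mul, abs_of_nonneg (hg.q_mem g).1]

theorem pi2_totalA (hR : ARep t R) (hg : GeoA G12 G23 q FF) {A : Subgroup Λ} (hA : Vertex A)
    {z : ℕ → Λ} (hz : SeqInA A z) : Pi2A Ufl R z q (fun _ => 1) = R 1 := by
  have h := H967.pa_total hR Ufl z A hz.1 (fun k v hv => hA.2 _ (hz.1 k) _ hv) hz.2 q hg.q_mem
    hg.q_inv hg.q_tr
  unfold Pi2A
  simp only [mul_one]
  exact h

theorem small_qhA (hR : ARep t R) (hg : GeoA G12 G23 q FF) {H : Γ → ℝ} (hH : H ∈ FF) {z : ℕ → Λ}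
    (hz : ∀ v : Λ, ∀ᶠ k in Ufl, z k ≠ v) (t : Γ) :
    SmallA Ufl R z (fun _ g => q (g * t) * H (g * t) - q g * H g) := by
  refine H967.smallA_of_tendsto hR hz (C := 1 + 1) (fun g => ?_) (hg.qh_tendsto hH t)
  exact (abs_sub _ _).trans (add_le_add (abs_mul_le_oneA (hg.abs_q _) (hg.abs_H hH _))
    (abs_mul_le_oneA (hg.abs_q _) (hg.abs_H hH _)))

/-- linked vertices have the same limit -/
theorem link_eqA (hR : ARep t R) (hg : GeoA G12 G23 q FF)
    (hconf : ∀ K : Subgroup Λ, NoMean K → ConfA R G12 G23 K)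
    {A B : Subgroup Λ} (h : Link A B) {z z' : ℕ → Λ} (hz : SeqInA A z) (hz' : SeqInA B z')
    {H : Γ → ℝ} (hH : H ∈ FF) : Pi2A Ufl R z q H = Pi2A Ufl R z' q H := by
  apply op_ext
  intro a
  refine ext_inner_dl fun b => ?_
  rw [← inner_dl, ← inner_dl]
  refine balanceA hR Ufl z z' hg.q_mem (hg.mem H hH) (pi2_totalA hR hg h.1 hz)
    (pi2_totalA hR hg h.2.1 hz') a b ?_
  have hK := hconf _ h.2.2
  refine far_of_confA hR hg hK (fun k v hv => ?_) (fun k v hv => ?_) hz.2 hz'.2 hH a b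
  · exact Subgroup.mem_centralizer_iff.mp (Subgroup.mem_inf.mp hv).1 _ (hz.1 k)
  · exact Subgroup.mem_centralizer_iff.mp (Subgroup.mem_inf.mp hv).2 _ (hz'.1 k)

theorem joined_eqA (hR : ARep t R) (hg : GeoA G12 G23 q FF)
    (hconf : ∀ K : Subgroup Λ, NoMean K → ConfA R G12 G23 K)
    {A B : Subgroup Λ} (hA : Link A A) (h : Joined A B) {z z' : ℕ → Λ} (hz : SeqInA A z)
    (hz' : SeqInA B z') {H : Γ → ℝ} (hH : H ∈ FF) : Pi2A Ufl R z q H = Pi2A Ufl R z' q H := by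
  induction h generalizing z' with
  | refl => exact link_eqA hR hg hconf hA hz hz' hH
  | tail _ h2 ih =>
    obtain ⟨y, hy⟩ := exists_seqInA h2.1.1
    rw [ih hy, link_eqA hR hg hconf h2 hy hz' hH]

theorem pi2_mul_one (hR : ARep t R) {U : Ultrafilter ℕ} {z : ℕ → Λ} {q F : Γ → ℝ} {C : ℝ}
    (hF : ∀ g, |q g * F g| ≤ C) : Pi2A U R z q F * R 1 = Pi2A U R z q F := by
  unfold Pi2A
  rw [add_mul, pa_mul_one hR (F := fun _ g => q g * F g) (fun _ => hF),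
    pa_mul_one hR (F := fun _ g => q g * F g) (fun _ => hF)]

theorem pi2_one_mul (hR : ARep t R) {U : Ultrafilter ℕ} {z : ℕ → Λ} {q F : Γ → ℝ} {C : ℝ}
    (hF : ∀ g, |q g * F g| ≤ C) : R 1 * Pi2A U R z q F = Pi2A U R z q F := by
  unfold Pi2A
  rw [mul_add, pa_one_mul hR (F := fun _ g => q g * F g) (fun _ => hF),
    pa_one_mul hR (F := fun _ g => q g * F g) (fun _ => hF)]

theorem stab_commA (hR : ARep t R) (hg : GeoA G12 G23 q FF)
    (hconf : ∀ K : Subgroup Λ, NoMean K → ConfA R G12 G23 K)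
    {A : Subgroup Λ} (hA : Link A A) {z : ℕ → Λ} (hz : SeqInA A z) {H : Γ → ℝ} (hH : H ∈ FF)
    {v : Λ} (hv : v ∈ stab A) :
    Pi2A Ufl R z q H * R v = R v * Pi2A Ufl R z q H := by
  have h1 := joined_eqA hR hg hconf hA (mem_stab.mp hv) hz (hz.cj v) hH
  have hb : ∀ (k : ℕ) (g : Γ), |q g * H g| ≤ 1 := fun _ g =>
    abs_mul_le_oneA (hg.abs_q g) (hg.abs_H hH g)
  have e1 := pa_conj (U := Ufl) hR (z := z) (F := fun _ g => q g * H g) hb v
    (fun t => small_qhA hR hg hH hz.2 t)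
  have e2 := pa_conj (U := Ufl) hR (z := fun k => (z k)⁻¹) (F := fun _ g => q g * H g) hb v
    (fun t => small_qhA hR hg hH hz.inv t)
  have e3 : (fun k => (v * z k * v⁻¹)⁻¹) = fun k => v * (z k)⁻¹ * v⁻¹ := by
    funext k; group
  have e4 : R v * Pi2A Ufl R z q H * R v⁻¹ = Pi2A Ufl R z q H := by
    conv_rhs => rw [h1]
    unfold Pi2A
    rw [e3, mul_add, add_mul, e1, e2]
  have e5 : Pi2A Ufl R z q H * R v = R v * (Pi2A Ufl R z q H * R 1) := by
    conv_lhs => rw [← e4]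
    rw [mul_assoc, mul_assoc, hR.inv_mul]
  rw [e5, pi2_mul_one hR (hb 0)]

end

/-! ### Averaging over cosets -/

section avg

variable {Γ Λ ι : Type} [Group Γ] [Group Λ] [Fintype ι] {t : ℝ}
  {R : Λ → (Ell2 (Γ × ι) →L[ℂ] Ell2 (Γ × ι))}

/-- The average (not normalised) of the conjugates of `T` by coset representatives. -/
noncomputable def avA (R : Λ → (Ell2 (Γ × ι) →L[ℂ] Ell2 (Γ × ι))) (L : Subgroup Λ)
    [Fintype (Λ ⧸ L)] (T : Ell2 (Γ × ι) →L[ℂ] Ell2 (Γ × ι)) : Ell2 (Γ × ι) →L[ℂ] Ell2 (Γ × ι) :=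
  ∑ c : Λ ⧸ L, R c.out * T * R c.out⁻¹

theorem avA_one_mul (hR : ARep t R) (L : Subgroup Λ) [Fintype (Λ ⧸ L)]
    (T : Ell2 (Γ × ι) →L[ℂ] Ell2 (Γ × ι)) : R 1 * avA R L T = avA R L T := by
  unfold avA
  rw [Finset.mul_sum]
  refine Finset.sum_congr rfl fun c _ => ?_
  rw [← mul_assoc, ← mul_assoc, hR.one_mul]

theorem avA_mul_one (hR : ARep t R) (L : Subgroup Λ) [Fintype (Λ ⧸ L)]
    (T : Ell2 (Γ × ι) →L[ℂ] Ell2 (Γ × ι)) : avA R L T * R 1 = avA R L T := by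
  unfold avA
  rw [Finset.sum_mul]
  refine Finset.sum_congr rfl fun c _ => ?_
  rw [mul_assoc, hR.mul_one]

theorem avA_comm (hR : ARep t R) (L : Subgroup Λ) [Fintype (Λ ⧸ L)]
    {T : Ell2 (Γ × ι) →L[ℂ] Ell2 (Γ × ι)} (hT1 : T * R 1 = T)
    (hT : ∀ v ∈ L, T * R v = R v * T) (u : Λ) : R u * avA R L T = avA R L T * R u := by
  have hconj : ∀ v ∈ L, R v * T * R v⁻¹ = T := by
    intro v hv
    rw [← hT v hv, mul_assoc, hR.mul_inv, hT1]
  have h1 : R u * avA R L T * R u⁻¹ = avA R L T := by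
    unfold avA
    rw [Finset.mul_sum, Finset.sum_mul]
    refine Fintype.sum_equiv (MulAction.toPerm u : Equiv.Perm (Λ ⧸ L)) _ _ fun c => ?_
    have h2 : ((u * c.out : Λ) : Λ ⧸ L) = u • c := by
      conv_rhs => rw [← QuotientGroup.out_eq' c]
      rfl
    have h3 : ((u • c : Λ ⧸ L).out)⁻¹ * (u * c.out) ∈ L := by
      rw [← QuotientGroup.eq, QuotientGroup.out_eq', h2]
    obtain ⟨v, hv⟩ : ∃ v, v = ((u • c : Λ ⧸ L).out)⁻¹ * (u * c.out) := ⟨_, rfl⟩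
    rw [← hv] at h3
    have h4 : u * c.out = (u • c : Λ ⧸ L).out * v := by rw [hv]; group
    have h5 := hconj v h3
    change R u * (R c.out * T * R c.out⁻¹) * R u⁻¹ =
      R (u • c : Λ ⧸ L).out * T * R (u • c : Λ ⧸ L).out⁻¹
    calc R u * (R c.out * T * R c.out⁻¹) * R u⁻¹ =
        R (u * c.out) * T * R (u * c.out)⁻¹ := by
          rw [hR.mul, mul_inv_rev, hR.mul]
          simp only [mul_assoc]
      _ = R (u • c : Λ ⧸ L).out * (R v * T * R v⁻¹) *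
          R (u • c : Λ ⧸ L).out⁻¹ := by
          rw [h4, hR.mul, mul_inv_rev, hR.mul]
          simp only [mul_assoc]
      _ = _ := by rw [h5]
  calc R u * avA R L T = R u * (avA R L T * R 1) := by rw [avA_mul_one hR]
    _ = R u * avA R L T * (R u⁻¹ * R u) := by rw [hR.inv_mul]; simp only [mul_assoc]
    _ = R u * avA R L T * R u⁻¹ * R u := by simp only [mul_assoc]
    _ = _ := by rw [h1]

theorem avA_add (L : Subgroup Λ) [Fintype (Λ ⧸ L)] (S T : Ell2 (Γ × ι) →L[ℂ] Ell2 (Γ × ι)) :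
    avA R L (S + T) = avA R L S + avA R L T := by
  unfold avA
  rw [← Finset.sum_add_distrib]
  refine Finset.sum_congr rfl fun c _ => ?_
  rw [mul_add, add_mul]

theorem avA_smul (L : Subgroup Λ) [Fintype (Λ ⧸ L)] (a : ℂ)
    (T : Ell2 (Γ × ι) →L[ℂ] Ell2 (Γ × ι)) : avA R L (a • T) = a • avA R L T := by
  unfold avA
  rw [Finset.smul_sum]
  refine Finset.sum_congr rfl fun c _ => ?_
  rw [mul_smul_comm, smul_mul_assoc]

theorem avA_pos (hR : ARep t R) (L : Subgroup Λ) [Fintype (Λ ⧸ L)]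
    {T : Ell2 (Γ × ι) →L[ℂ] Ell2 (Γ × ι)} (hT : ∀ ξ, 0 ≤ (⟪ξ, T ξ⟫_ℂ).re) (ξ : Ell2 (Γ × ι)) :
    0 ≤ (⟪ξ, avA R L T ξ⟫_ℂ).re := by
  unfold avA
  rw [ContinuousLinearMap.sum_apply, inner_sum, Complex.re_sum]
  refine Finset.sum_nonneg fun c _ => ?_
  rw [mul_ap, mul_ap, hR.inner_right]
  exact hT _

theorem avA_nonneg (hR : ARep t R) (L : Subgroup Λ) [Fintype (Λ ⧸ L)]
    {T : Ell2 (Γ × ι) →L[ℂ] Ell2 (Γ × ι)} (hT : 0 ≤ T) : 0 ≤ avA R L T := by
  unfold avA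
  refine Finset.sum_nonneg fun c _ => ?_
  rw [← hR.adj, ← star_eq_adjoint]
  exact star_right_conjugate_nonneg hT _

theorem avA_one (hR : ARep t R) (L : Subgroup Λ) [Fintype (Λ ⧸ L)] :
    avA R L (R 1) = (Fintype.card (Λ ⧸ L) : ℂ) • R 1 := by
  unfold avA
  have h : ∀ c : Λ ⧸ L, R c.out * R 1 * R c.out⁻¹ = R 1 := fun c => by
    rw [hR.mul_one, hR.mul_inv]
  rw [Finset.sum_congr rfl fun c _ => h c, Finset.sum_const, Finset.card_univ, ← Nat.cast_smul_eq_nsmul ℂ]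

theorem avA_lx (hR : ARep t R) (L : Subgroup Λ) [Fintype (Λ ⧸ L)] (s : Γ)
    (T : Ell2 (Γ × ι) →L[ℂ] Ell2 (Γ × ι)) :
    avA R L (lx s⁻¹ * T * lx s) = lx s⁻¹ * avA R L T * lx s := by
  unfold avA
  rw [Finset.mul_sum, Finset.sum_mul]
  refine Finset.sum_congr rfl fun c _ => ?_
  ext1 ξ
  simp only [mul_ap]
  rw [hR.lx c.out⁻¹ s, hR.lx]

end avg

/-! ### The final contradiction -/

/-- An invariant trace on the operators commuting with the representation. -/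
def InvTr {Γ Λ ι : Type} [Group Γ] [Group Λ] [Fintype ι]
    (R : Λ → (Ell2 (Γ × ι) →L[ℂ] Ell2 (Γ × ι))) : Prop :=
  ∃ ν : (Ell2 (Γ × ι) →L[ℂ] Ell2 (Γ × ι)) → ℝ,
    (∀ S T, ν (S + T) = ν S + ν T) ∧ (∀ (c : ℝ) T, ν ((c : ℂ) • T) = c * ν T) ∧
    (∀ T, 0 ≤ T → 0 ≤ ν T) ∧ 0 < ν (R 1) ∧
    ∀ (s : Γ) T, R 1 * T = T → T * R 1 = T → (∀ v, R v * T = T * R v) →
      ν (lx s⁻¹ * T * lx s) = ν T

/-- There is no positive functional on bounded functions with `ℓ 1 > 0`, invariant on `FF`. -/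
def NoInvA {Γ : Type} [Group Γ] (FF : Set (Γ → ℝ)) : Prop :=
  ∀ ℓ : (Γ → ℝ) → ℝ,
    (∀ F G : Γ → ℝ, (∃ C, ∀ g, |F g| ≤ C) → (∃ C, ∀ g, |G g| ≤ C) →
      ℓ (fun g => F g + G g) = ℓ F + ℓ G) →
    (∀ (c : ℝ) (F : Γ → ℝ), (∃ C, ∀ g, |F g| ≤ C) → ℓ (fun g => c * F g) = c * ℓ F) →
    (∀ F : Γ → ℝ, (∃ C, ∀ g, |F g| ≤ C) → (∀ g, 0 ≤ F g) → 0 ≤ ℓ F) →
    0 < ℓ (fun _ => 1) → (∀ F ∈ FF, ∀ s : Γ, ℓ (fun g => F (s * g)) = ℓ F) → False

/-- The contradiction, row model. -/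
theorem contraA {Γ Λ ι : Type} [Group Γ] [Group Λ] [Fintype ι] [DecidableEq ι] {t : ℝ}
    {R : Λ → (Ell2 (Γ × ι) →L[ℂ] Ell2 (Γ × ι))} (hR : ARep t R) {G12 G23 q : Γ → ℝ}
    {FF : Set (Γ → ℝ)} (hg : GeoA G12 G23 q FF)
    (hconf : ∀ K : Subgroup Λ, NoMean K → ConfA R G12 G23 K) (hν : InvTr R) (hno : NoInvA FF)
    (hΛ : Clustered Λ) : False := by
  obtain ⟨A, hA, hfi⟩ := hΛ
  obtain ⟨z, hz⟩ := exists_seqInA hA.1.1
  haveI : Fintype (Λ ⧸ stab A) := Subgroup.fintypeQuotientOfFiniteIndex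
  obtain ⟨ν, ν1, ν2, ν3, ν4, ν5⟩ := hν
  have hone := pi2_totalA hR hg hA.1 hz
  have hq0 : ∀ g, 0 ≤ q g := fun g => (hg.q_mem g).1
  have hb : ∀ {F : Γ → ℝ} {C : ℝ}, (∀ g, |F g| ≤ C) → ∀ (k : ℕ) (g : Γ), |q g * F g| ≤ C := by
    intro F C hF k g
    rw [abs_mul]
    exact (mul_le_of_le_one_left (abs_nonneg _) (hg.abs_q g)).trans (hF g)
  refine hno (fun F => ν (avA R (stab A) (Pi2A Ufl R z q F))) ?_ ?_ ?_ ?_ ?_
  · rintro F G ⟨C, hC⟩ ⟨D, hD⟩
    change ν (avA R (stab A) (Pi2A Ufl R z q (fun g => F g + G g))) =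
      ν (avA R (stab A) (Pi2A Ufl R z q F)) + ν (avA R (stab A) (Pi2A Ufl R z q G))
    rw [← ν1, ← avA_add]
    congr 2
    unfold Pi2A
    have e : (fun (_ : ℕ) g => q g * (F g + G g)) = fun _ g => q g * F g + q g * G g := by
      funext _ g; ring
    rw [e, pa_add hR (hb hC) (hb hD), pa_add hR (hb hC) (hb hD)]
    abel
  · rintro c F ⟨C, hC⟩
    change ν (avA R (stab A) (Pi2A Ufl R z q (fun g => c * F g))) =
      c * ν (avA R (stab A) (Pi2A Ufl R z q F))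
    rw [← ν2, ← avA_smul]
    congr 2
    unfold Pi2A
    have e : (fun (_ : ℕ) g => q g * (c * F g)) = fun _ g => c * (q g * F g) := by
      funext _ g; ring
    rw [e, pa_smul hR c (hb hC), pa_smul hR c (hb hC), smul_add]
  · rintro F ⟨C, hC⟩ hF0
    refine ν3 _ (avA_nonneg hR _ ?_)
    unfold Pi2A
    have h1 := pa_nonneg (U := Ufl) (z := z) hR (F := fun _ g => q g * F g) (hb hC)
      (fun _ g => mul_nonneg (hq0 g) (hF0 g))
    have h2 := pa_nonneg (U := Ufl) (z := fun k => (z k)⁻¹) hR (F := fun _ g => q g * F g) (hb hC)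
      (fun _ g => mul_nonneg (hq0 g) (hF0 g))
    exact add_nonneg h1 h2
  · change 0 < ν (avA R (stab A) (Pi2A Ufl R z q (fun _ => 1)))
    rw [hone, avA_one hR]
    have e := ν2 (Fintype.card (Λ ⧸ stab A) : ℝ) (R 1)
    rw [Complex.ofReal_natCast] at e
    rw [e]
    have hpos : (0 : ℝ) < Fintype.card (Λ ⧸ stab A) := by
      exact_mod_cast Fintype.card_pos
    positivity
  · intro F hF s
    change ν (avA R (stab A) (Pi2A Ufl R z q (fun g => F (s * g)))) =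
      ν (avA R (stab A) (Pi2A Ufl R z q F))
    have hFb := hg.abs_H hF
    have hb1 := hb hFb
    have hbs : ∀ (k : ℕ) (g : Γ), |q g * F (s * g)| ≤ 1 := fun _ g =>
      abs_mul_le_oneA (hg.abs_q g) (hFb _)
    have hD : Tendsto (fun g : Γ => q (s⁻¹ * g) * F g - q g * F g) cofinite (𝓝 0) := by
      have h1 := (hg.q_tr s⁻¹ 1).abs
      rw [abs_zero] at h1
      refine squeeze_zero_norm (fun g => ?_) h1
      rw [Real.norm_eq_abs, ← sub_mul, abs_mul, mul_one]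
      exact mul_le_of_le_one_right (abs_nonneg _) (hFb g)
    have hDb : ∀ g : Γ, |q (s⁻¹ * g) * F g - q g * F g| ≤ 1 + 1 := fun g =>
      (abs_sub _ _).trans (add_le_add (abs_mul_le_oneA (hg.abs_q _) (hFb _))
        (abs_mul_le_oneA (hg.abs_q _) (hFb _)))
    have hs1 := H967.smallA_of_tendsto hR hz.2 hDb hD
    have hs2 := H967.smallA_of_tendsto hR hz.inv hDb hD
    have e1 : Pi2A Ufl R z q (fun g => F (s * g)) = lx s⁻¹ * Pi2A Ufl R z q F * lx s := by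
      ext1 ξ
      rw [mul_ap, mul_ap]
      have h3 : lx s (Pi2A Ufl R z q (fun g => F (s * g)) ξ) = Pi2A Ufl R z q F (lx s ξ) := by
        unfold Pi2A
        rw [add_apply, add_apply, map_add,
          pa_lx hR (F' := fun _ g => q g * F g) hbs hb1 s
            (by simpa only [mul_inv_cancel_left] using hs1),
          pa_lx hR (F' := fun _ g => q g * F g) hbs hb1 s
            (by simpa only [mul_inv_cancel_left] using hs2)]
      rw [← h3, ← mul_ap (lx s⁻¹), ← lx_mul, inv_mul_cancel, lx_one]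
      rfl
    rw [e1, avA_lx hR]
    exact ν5 s _ (avA_one_mul hR _ _) (avA_mul_one hR _ _)
      (avA_comm hR _ (pi2_mul_one hR (hb1 0)) fun v hv => stab_commA hR hg hconf hA hz hF hv)

end Vale.Agent.P092.H714
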