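import Vale.Agent.P092.SP.Defs
import Vale.Agent.P092.H714.SpM5
import Vale.Agent.P092.H684.Psp3

/-!
P092, Team P (helper714): the groups `Sp_4(k)` and `Sp_4(k)` modulo a central subgroup are admissible
source groups.
-/

set_option linter.all false

open Filter Topology
open scoped LinearAlgebra.Projectivization

namespace Vale.Agent.P092.H714.AdmS4

open Vale.Agent.P092.SP4
open Vale.Agent.P092.SP (Adm)
open Vale.Agent.P092.RC (Moore PG YY)
open Vale.Agent.P092.H35 (sp)
open Vale.Agent.P092.H684.Psp (Sc spq spq_cont)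

variable {k : Type} [NontriviallyNormedField k] [ProperSpace k]

theorem unb_lt {S : Set (S4 k)} (h : ∀ C : ℝ, ∃ g ∈ S, C ≤ SP.nm g) (C : ℝ) :
    ∃ g ∈ S, C < ‖(fun i j => g.1.1 i j : Fin 4 → Fin 4 → k)‖ := by
  obtain ⟨g, hg, h1⟩ := h (C + 1)
  exact ⟨g, hg, lt_of_lt_of_le (by linarith) h1⟩

/-- **`Sp_4(k)` is admissible.** -/
theorem adm_id : Adm (MonoidHom.id (S4 k)) ((sp k 4).comp (S4 k).subtype) where
  tg := inferInstance
  cι := continuous_id
  sur := Function.surjective_id
  ca := H35.sp_cont.comp continuous_subtype_val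
  comp _ _ := rfl
  moore S hS := S4M.moore4_image _ continuous_id Function.surjective_id (unb_lt hS)

/-- **`Sp_4(k)` modulo a subgroup of scalars is admissible.** -/
theorem adm_quo (Z : Subgroup (S4 k)) [Z.Normal] (hZ : Sc Z) :
    Adm (QuotientGroup.mk' Z) (spq Z hZ) where
  tg := inferInstance
  cι := continuous_quotient_mk'
  sur := QuotientGroup.mk'_surjective Z
  ca := spq_cont hZ
  comp _ _ := rfl
  moore S hS := S4M.moore4_image _ continuous_quotient_mk' (QuotientGroup.mk'_surjective Z)
    (unb_lt hS)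

end Vale.Agent.P092.H714.AdmS4
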