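import Mathlib.Algebra.Central.Defs
import Mathlib.GroupTheory.Abelianization.Defs
import Vale.Agent.P092.SR.StR

/-!
P092, block CLASS-G (helper714, helper465, helper971): the class of groups in the final statements about
products.  Only definitions.
-/

open Matrix
open Vale.Agent.P092.H515.St Vale.Agent.P092.SR.St
open scoped commutatorElement

namespace Vale.Agent.P092.PC.StF

/-- `G` is the quotient of the topological group `S` by a central subgroup of `S`. -/
def Quo {E : Type} [Group E] [TopologicalSpace E] (S : Subgroup E) (G : Type) [Group G]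
    [TopologicalSpace G] : Prop :=
  ∃ f : S →* G, Topology.IsQuotientMap f ∧ f.ker ≤ Subgroup.center S

/-- `J₀` is an anisotropic `(ε, s)`-hermitian form. -/
def IsAn {D ι : Type} [DivisionRing D] [Fintype ι] (s : D → D) (ε : D) (J₀ : Matrix ι ι D) : Prop :=
  (∀ i j, J₀ j i = ε * s (J₀ i j)) ∧ ∀ v : ι → D, v ≠ 0 → v ⬝ᵥ (J₀ *ᵥ fun l => s (v l)) ≠ 0

/-- `g` is an isometry of the sum of `q` hyperbolic planes (of sign `ε`) and the form `J₀`. -/
def IsIsom {D ι : Type} [DivisionRing D] [Fintype ι] [DecidableEq ι] (s : D → D) (ε : D)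
    (J₀ : Matrix ι ι D) (q : ℕ) (g : Matrix ((Fin q ⊕ Fin q) ⊕ ι) ((Fin q ⊕ Fin q) ⊕ ι) D) : Prop :=
  g * fromBlocks (fromBlocks 0 1 (ε • (1 : Matrix (Fin q) (Fin q) D)) 0) 0 0 J₀ * (g.map s)ᵀ =
    fromBlocks (fromBlocks 0 1 (ε • (1 : Matrix (Fin q) (Fin q) D)) 0) 0 0 J₀

/-- `G` is the group `SL_n(D) = [GL_n(D), GL_n(D)]`, `n ≥ 2`, modulo a central subgroup. -/
def IsSL (D G : Type) [DivisionRing D] [TopologicalSpace D] [Group G] [TopologicalSpace G] : Prop :=
  ∃ n, 2 ≤ n ∧ Quo (commutator (Matrix (Fin n) (Fin n) D)ˣ) G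

/-- `G` is, modulo a central subgroup, a group `SU(J)` or `Sp(J)`, or a group `Ω(J) = [SO(J), SO(J)]`
(in characteristic not two, of Witt index one and dimension at least three, or of Witt index at least
two and dimension at least five), where `J` is the sum of `q ≥ 1` hyperbolic planes and an
anisotropic form `J₀`. -/
def IsCl (k G : Type) [Field k] [TopologicalSpace k] [Group G] [TopologicalSpace G] : Prop :=
  ∃ (σ : k →+* k) (ε : k) (ι : Type) (_ : Fintype ι) (_ : DecidableEq ι) (J₀ : Matrix ι ι k) (q : ℕ)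
    (S : Subgroup (SpecialLinearGroup ((Fin q ⊕ Fin q) ⊕ ι) k)),
    Continuous σ ∧ (∀ x, σ (σ x) = x) ∧ ε * ε = 1 ∧ σ ε = ε ∧ IsAn σ ε J₀ ∧ 1 ≤ q ∧
    (∀ g, g ∈ S ↔ IsIsom σ ε J₀ q g.1) ∧
    (((∃ c, σ c ≠ c) ∨ ε = -1 ∧ IsEmpty ι) ∧ Quo S G ∨
      (∀ c, σ c = c) ∧ ε = 1 ∧ (2 : k) ≠ 0 ∧
        (q = 1 ∧ 1 ≤ Fintype.card ι ∨ 2 ≤ q ∧ 5 ≤ 2 * q + Fintype.card ι) ∧
        Quo (E := SpecialLinearGroup ((Fin q ⊕ Fin q) ⊕ ι) k) ⁅S, S⁆ G)

/-- `G` is, modulo a central subgroup, the commutator subgroup of the isometry group `U(J)` of a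
hermitian, or skew-hermitian of dimension at least three, form `J` over the quaternion algebra `D` over
`k` (in characteristic not two), `J` the sum of `q ≥ 1` hyperbolic planes and an anisotropic form. -/
def IsQuat (k D G : Type) [Field k] [DivisionRing D] [Algebra k D] [TopologicalSpace D] [Group G]
    [TopologicalSpace G] : Prop :=
  (2 : k) ≠ 0 ∧ (∃ x y : D, x * y ≠ y * x) ∧ ∃ (_ : StarRing D),
    (∀ x : D, ∃ t : k, x + star x = algebraMap k D t) ∧
    ∃ (ε : D) (ι : Type) (_ : Fintype ι) (_ : DecidableEq ι) (J₀ : Matrix ι ι D) (q : ℕ)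
      (S : Subgroup (Matrix ((Fin q ⊕ Fin q) ⊕ ι) ((Fin q ⊕ Fin q) ⊕ ι) D)ˣ),
      (ε = 1 ∨ ε = -1 ∧ 3 ≤ 2 * q + Fintype.card ι) ∧ IsAn star ε J₀ ∧ 1 ≤ q ∧
      (∀ g, g ∈ S ↔ IsIsom star ε J₀ q g.1) ∧
      Quo (E := (Matrix ((Fin q ⊕ Fin q) ⊕ ι) ((Fin q ⊕ Fin q) ⊕ ι) D)ˣ) ⁅S, S⁆ G

/-- `D` is finite-dimensional and central over `k`. -/
def IsFC (k D : Type) [Field k] [Ring D] [Algebra k D] : Prop :=
  FiniteDimensional k D ∧ Algebra.IsCentral k D

/-- The class: classical groups over local fields `k`, modulo central subgroups. -/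
def Cls (G : Type) [Group G] [TopologicalSpace G] : Prop :=
  ∃ (k : Type) (_ : NontriviallyNormedField k), ProperSpace k ∧ LocK k ∧
    (IsCl k G ∨ ∃ (D : Type) (_ : NormedDivisionRing D) (_ : NormedAlgebra k D),
      IsFC k D ∧ (IsSL D G ∨ IsQuat k D G))

/-- `Γ` is an ICC lattice in a product of finitely many groups of the class `Cls`, whose projection to
every factor is dense. -/
def ClassLattice (Γ : Type) [Group Γ] : Prop :=
  ICC Γ ∧ ∃ (I : Type) (_ : Fintype I) (G : I → Type) (_ : ∀ j, Group (G j))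
    (_ : ∀ j, TopologicalSpace (G j)) (i : Γ →* ∀ j, G j), (∀ j, Cls (G j)) ∧ DenseLattice i

end Vale.Agent.P092.PC.StF
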