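import Vale.Agent.P092.H714.StC
import Vale.Agent.P092.H714.StG
import Vale.Agent.P092.H465.DCh
import Vale.Agent.P092.H465.DAE

/-!
P092, block CLASS-G (helper714, helper465): basic facts on the class of groups in the final statements
about products (`StG`): it contains `SL_n(k)` and its central quotients.
-/

set_option linter.all false

open Matrix Topology
open Vale.Agent.P092.H515.St Vale.Agent.P092.SR.St

namespace Vale.Agent.P092.PC.StF

theorem quo_of {E F G : Type} [Group E] [TopologicalSpace E] [Group F] [TopologicalSpace F] [Group G]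
    [TopologicalSpace G] {S : Subgroup E} (e : F ≃ₜ* S) (f : F →* G) (hf : IsQuotientMap f)
    (hk : f.ker ≤ Subgroup.center F) : Quo S G := by
  have hs : ∀ x : S, e (e.symm x) = x := e.apply_symm_apply
  have hs' : ∀ x : F, e.symm (e x) = x := e.symm_apply_apply
  refine ⟨f.comp e.symm.toMulEquiv.toMonoidHom, ?_, fun x hx => ?_⟩
  · exact hf.comp e.toHomeomorph.symm.isQuotientMap
  · have h1 : e.symm x ∈ Subgroup.center F := hk hx
    refine Subgroup.mem_center_iff.2 fun y => ?_
    have h2 := Subgroup.mem_center_iff.1 h1 (e.symm y)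
    have h3 := congrArg e h2
    rwa [map_mul, map_mul, hs, hs] at h3

/-- All quotients of `S` by central subgroups are in the class. -/
def ClsH (S : Type) [Group S] [TopologicalSpace S] : Prop :=
  ∀ (G : Type) [Group G] [TopologicalSpace G] (f : S →* G), IsQuotientMap f →
    f.ker ≤ Subgroup.center S → Cls G

theorem Cls.of (G : Type) [Group G] [TopologicalSpace G] (h : ClsH G) : Cls G :=
  h G (MonoidHom.id G) IsQuotientMap.id fun x hx => by
    have : x = 1 := hx
    rw [this]
    exact Subgroup.one_mem _

theorem Cls.quo (G : Type) [Group G] [TopologicalSpace G] (h : ClsH G) (Z : Subgroup G) [Z.Normal]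
    (hZ : Z ≤ Subgroup.center G) : Cls (G ⧸ Z) :=
  h (G ⧸ Z) (QuotientGroup.mk' Z) (QuotientGroup.isQuotientMap_mk (N := Z)) (by
    rwa [QuotientGroup.ker_mk'])

section sl

variable {k : Type} [NontriviallyNormedField k] [ProperSpace k]

open Vale.Agent.P092.H465.DA

/-- `SL_n(k)` and `[GL_n(k), GL_n(k)]` are isomorphic. -/
theorem exists_iso {n : ℕ} (hn : 2 ≤ n) :
    Nonempty (SpecialLinearGroup (Fin n) k ≃ₜ* H465.DA.SLD (Fin n) k) := by
  have hdet : ∀ x : H465.DA.SLD (Fin n) k, x.1.1.det = 1 := by
    intro x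
    have h1 := hom_eq_one (n := Fin n) (D := k) (two_le hn) k (H465.DA.exists_sq_ne k)
      ((Units.map (Matrix.detMonoidHom : Matrix (Fin n) (Fin n) k →* k)).comp
        (H465.DA.SLD (Fin n) k).subtype)
    exact congrArg Units.val (DFunLike.congr_fun h1 x)
  have hval : ∀ g : SpecialLinearGroup (Fin n) k, (dE k k hn g).1.1 = g.1 := by
    intro g
    rw [dE_val]
    ext i j
    rfl
  refine ⟨{ toFun := dE k k hn, invFun := fun x => ⟨x.1.1, hdet x⟩, left_inv := ?_,
            right_inv := ?_, map_mul' := map_mul _, continuous_toFun := continuous_dE k k hn,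
            continuous_invFun := ?_ }⟩
  · intro g
    exact Subtype.ext (hval g)
  · intro x
    exact Subtype.ext (Units.ext (hval _))
  · exact Continuous.subtype_mk (continuous_coe k (two_le hn)) _

theorem ClsH.sl (k : Type) [NontriviallyNormedField k] [ProperSpace k] (hk : LocK k) (n : ℕ)
    (hn : 2 ≤ n) : ClsH (SpecialLinearGroup (Fin n) k) := by
  intro G _ _ f hf hker
  obtain ⟨e⟩ := exists_iso (k := k) hn
  refine ⟨k, inferInstance, inferInstance, hk, Or.inr ⟨k, inferInstance, inferInstance,
    ⟨inferInstance, inferInstance⟩, Or.inl ⟨n, hn, ?_⟩⟩⟩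
  have h1 := SLD_eq_commutator (n := Fin n) (D := k) (two_le hn) k (H465.DA.exists_sq_ne k)
  have h2 : Quo (H465.DA.SLD (Fin n) k) G := quo_of e f hf hker
  rw [h1] at h2
  exact h2

end sl

end Vale.Agent.P092.PC.StF
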