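import Vale.Agent.P092.H714.FinF
import Vale.Agent.P092.QCT.Final
import Vale.Agent.P092.H333.BlkT

/-!
P092, block CLASS-G (helper714): all isomorphisms between the amplifications of the group von Neumann
algebra of an ICC lattice, with dense projections, in a product of groups of the class, and a group
von Neumann algebra are canonical.
-/

set_option linter.all false

namespace Vale.Agent.P092.H714.ClF

open Vale.Agent.P092.SR.St (SuperAll)

/-- **The final theorem for the class.** -/
theorem superAll_classF (Γ : Type) [Group Γ] (h : PC.StF.ClassLattice Γ) : SuperAll Γ := by
  obtain ⟨hicc, I, _, G, _, _, i, hG, hi⟩ := h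
  choose r hr using fun j => clsF_qf (hG j)
  exact QCT.superAll_emb H333.Amp.blkT hr i hi hicc

end Vale.Agent.P092.H714.ClF
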