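import Vale.Agent.P092.H432.PiA
import Vale.Agent.P092.H553.Balance
import Vale.Agent.P092.H956.S4

/-!
P092 (helper714), stage (S), block [S5]: the balance argument `Π_z(H) = Π_z'(H)` in the row model
(all amplifications).
-/

set_option linter.all false

open scoped InnerProductSpace
open Filter Topology ContinuousLinearMap

namespace Vale.Agent.P092.H714

open Vale.Agent.P092.H160 Vale.Agent.P092.H553 Vale.Agent.P092.H432

section near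

/-- The elementary double sum estimate, for a contraction. -/
theorem double_sumA {H : Type} [NormedAddCommGroup H] [InnerProductSpace ℂ H] (N : ℕ) (hN : 0 < N)
    (X X' Y Y' : ℕ → H) (x y : ℕ → ℝ) (W : H →L[ℂ] H) (hW : ∀ v, ‖W v‖ ≤ ‖v‖) {ε : ℝ}
    (hx : ∑ i ∈ Finset.range (N + 1), x i ^ 2 ≤ 1) (hy : ∑ i ∈ Finset.range (N + 1), y i ^ 2 ≤ 1)
    (hX : ∀ i, ‖X i‖ ≤ x i) (hY : ∀ i, ‖Y i‖ ≤ y i)
    (hX' : ∀ i, ‖X' i - ((i / N : ℝ) : ℂ) • X i‖ ≤ 1 / N * x i)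
    (hY' : ∀ i, ‖Y' i - ((i / N : ℝ) : ℂ) • Y i‖ ≤ 1 / N * y i)
    (hfar : ∀ i j : ℕ, ¬ (i ≤ j + 1 ∧ j ≤ i + 1) → ‖⟪Y j, W (X' i)⟫_ℂ‖ ≤ ε ∧
      ‖⟪Y' j, W (X i)⟫_ℂ‖ ≤ ε) :
    ‖⟪∑ j ∈ Finset.range (N + 1), Y j, W (∑ i ∈ Finset.range (N + 1), X' i)⟫_ℂ -
      ⟪∑ j ∈ Finset.range (N + 1), Y' j, W (∑ i ∈ Finset.range (N + 1), X i)⟫_ℂ‖ ≤
      9 / N + 2 * (N + 1) ^ 2 * ε := by
  have hε : 0 ≤ ε := (norm_nonneg _).trans (hfar 0 2 (by omega)).1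
  have hN' : (0 : ℝ) < N := by exact_mod_cast hN
  have hx0 : ∀ i, 0 ≤ x i := fun i => (norm_nonneg _).trans (hX i)
  have hy0 : ∀ i, 0 ≤ y i := fun i => (norm_nonneg _).trans (hY i)
  have e1 : ⟪∑ j ∈ Finset.range (N + 1), Y j, W (∑ i ∈ Finset.range (N + 1), X' i)⟫_ℂ -
      ⟪∑ j ∈ Finset.range (N + 1), Y' j, W (∑ i ∈ Finset.range (N + 1), X i)⟫_ℂ =
      ∑ i ∈ Finset.range (N + 1), ∑ j ∈ Finset.range (N + 1),
        (⟪Y j, W (X' i)⟫_ℂ - ⟪Y' j, W (X i)⟫_ℂ) := by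
    simp only [map_sum, sum_inner, inner_sum, Finset.sum_sub_distrib]
  rw [e1]
  have hterm : ∀ i j : ℕ, ‖⟪Y j, W (X' i)⟫_ℂ - ⟪Y' j, W (X i)⟫_ℂ‖ ≤
      (if i ≤ j + 1 ∧ j ≤ i + 1 then 3 / N * ((x i ^ 2 + y j ^ 2) / 2) else 0) + 2 * ε := by
    intro i j
    split_ifs with h
    · have e2 : ⟪Y j, W (X' i)⟫_ℂ - ⟪Y' j, W (X i)⟫_ℂ =
          ⟪Y j, W (X' i - ((i / N : ℝ) : ℂ) • X i)⟫_ℂ -
          ⟪Y' j - ((j / N : ℝ) : ℂ) • Y j, W (X i)⟫_ℂ +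
          (((i / N : ℝ) - (j / N : ℝ) : ℝ) : ℂ) * ⟪Y j, W (X i)⟫_ℂ := by
        simp only [map_sub, map_smul, inner_sub_right, inner_sub_left, inner_smul_left,
          inner_smul_right, Complex.conj_ofReal]
        push_cast
        ring
      rw [e2]
      have b1 : ‖⟪Y j, W (X' i - ((i / N : ℝ) : ℂ) • X i)⟫_ℂ‖ ≤ 1 / N * (x i * y j) := by
        refine (norm_inner_le_norm _ _).trans ?_
        calc _ ≤ y j * (1 / N * x i) :=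
              mul_le_mul (hY j) ((hW _).trans (hX' i)) (norm_nonneg _) (hy0 j)
          _ = _ := by ring
      have b2 : ‖⟪Y' j - ((j / N : ℝ) : ℂ) • Y j, W (X i)⟫_ℂ‖ ≤ 1 / N * (x i * y j) := by
        refine (norm_inner_le_norm _ _).trans ?_
        have := hy0 j
        calc _ ≤ (1 / N * y j) * x i :=
              mul_le_mul (hY' j) ((hW _).trans (hX i)) (norm_nonneg _) (by positivity)
          _ = _ := by ring
      have b3 : ‖(((i / N : ℝ) - (j / N : ℝ) : ℝ) : ℂ) * ⟪Y j, W (X i)⟫_ℂ‖ ≤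
          1 / N * (x i * y j) := by
        rw [norm_mul, Complex.norm_real, Real.norm_eq_abs]
        have h1 : |(i / N : ℝ) - (j / N : ℝ)| ≤ 1 / N := by
          rw [← sub_div, abs_div, abs_of_pos hN']
          gcongr
          rw [abs_le]
          have h2 : (i : ℝ) ≤ j + 1 := by exact_mod_cast h.1
          have h3 : (j : ℝ) ≤ i + 1 := by exact_mod_cast h.2
          constructor <;> linarith
        have h2 : ‖⟪Y j, W (X i)⟫_ℂ‖ ≤ x i * y j := by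
          refine (norm_inner_le_norm _ _).trans ?_
          rw [mul_comm]
          exact mul_le_mul ((hW _).trans (hX i)) (hY j) (norm_nonneg _) (hx0 i)
        gcongr
      have b4 : x i * y j ≤ (x i ^ 2 + y j ^ 2) / 2 := by nlinarith [sq_nonneg (x i - y j)]
      calc _ ≤ 1 / N * (x i * y j) + 1 / N * (x i * y j) + 1 / N * (x i * y j) :=
            (norm_add_le _ _).trans (add_le_add ((norm_sub_le _ _).trans (add_le_add b1 b2)) b3)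
        _ = 3 / N * (x i * y j) := by ring
        _ ≤ 3 / N * ((x i ^ 2 + y j ^ 2) / 2) := by gcongr
        _ ≤ _ := by linarith
    · rw [zero_add]
      refine (norm_sub_le _ _).trans ?_
      have := hfar i j h
      linarith [this.1, this.2]
  have hcard : ∀ i : ℕ, (((Finset.range (N + 1)).filter fun j => i ≤ j + 1 ∧ j ≤ i + 1).card : ℝ) ≤ 3 := by
    intro i
    have : ((Finset.range (N + 1)).filter fun j => i ≤ j + 1 ∧ j ≤ i + 1) ⊆ {i - 1, i, i + 1} := by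
      intro j hj
      rw [Finset.mem_filter] at hj
      simp only [Finset.mem_insert, Finset.mem_singleton]
      omega
    exact_mod_cast (Finset.card_le_card this).trans Finset.card_le_three
  have hcard' : ∀ j : ℕ, (((Finset.range (N + 1)).filter fun i => i ≤ j + 1 ∧ j ≤ i + 1).card : ℝ) ≤ 3 := by
    intro i
    have : ((Finset.range (N + 1)).filter fun j => j ≤ i + 1 ∧ i ≤ j + 1) ⊆ {i - 1, i, i + 1} := by
      intro j hj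
      rw [Finset.mem_filter] at hj
      simp only [Finset.mem_insert, Finset.mem_singleton]
      omega
    exact_mod_cast (Finset.card_le_card this).trans Finset.card_le_three
  have hsum1 : ∑ i ∈ Finset.range (N + 1), ∑ j ∈ Finset.range (N + 1),
      (if i ≤ j + 1 ∧ j ≤ i + 1 then x i ^ 2 else 0) ≤ 3 := by
    calc _ ≤ ∑ i ∈ Finset.range (N + 1), 3 * x i ^ 2 := by
          refine Finset.sum_le_sum fun i _ => ?_
          rw [← Finset.sum_filter, Finset.sum_const, nsmul_eq_mul]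
          have := hcard i
          gcongr
      _ ≤ 3 := by rw [← Finset.mul_sum]; linarith
  have hsum2 : ∑ i ∈ Finset.range (N + 1), ∑ j ∈ Finset.range (N + 1),
      (if i ≤ j + 1 ∧ j ≤ i + 1 then y j ^ 2 else 0) ≤ 3 := by
    rw [Finset.sum_comm]
    calc _ ≤ ∑ i ∈ Finset.range (N + 1), 3 * y i ^ 2 := by
          refine Finset.sum_le_sum fun i _ => ?_
          rw [← Finset.sum_filter, Finset.sum_const, nsmul_eq_mul]
          have := hcard' i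
          gcongr
      _ ≤ 3 := by rw [← Finset.mul_sum]; linarith
  calc _ ≤ ∑ i ∈ Finset.range (N + 1), ∑ j ∈ Finset.range (N + 1),
        ((if i ≤ j + 1 ∧ j ≤ i + 1 then 3 / N * ((x i ^ 2 + y j ^ 2) / 2) else 0) + 2 * ε) :=
        (norm_sum_le _ _).trans (Finset.sum_le_sum fun i _ =>
          (norm_sum_le _ _).trans (Finset.sum_le_sum fun j _ => hterm i j))
    _ = 3 / N / 2 * (∑ i ∈ Finset.range (N + 1), ∑ j ∈ Finset.range (N + 1),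
          (if i ≤ j + 1 ∧ j ≤ i + 1 then x i ^ 2 else 0) +
          ∑ i ∈ Finset.range (N + 1), ∑ j ∈ Finset.range (N + 1),
          (if i ≤ j + 1 ∧ j ≤ i + 1 then y j ^ 2 else 0)) + 2 * (N + 1) ^ 2 * ε := by
        rw [← Finset.sum_add_distrib, Finset.mul_sum]
        have e3 : (2 * ((N : ℝ) + 1) ^ 2 * ε) = ∑ i ∈ Finset.range (N + 1),
            ∑ j ∈ Finset.range (N + 1), 2 * ε := by
          simp only [Finset.sum_const, Finset.card_range, nsmul_eq_mul]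
          push_cast
          ring
        rw [e3, ← Finset.sum_add_distrib]
        refine Finset.sum_congr rfl fun i _ => ?_
        rw [← Finset.sum_add_distrib, Finset.mul_sum, ← Finset.sum_add_distrib]
        refine Finset.sum_congr rfl fun j _ => ?_
        split_ifs <;> ring
    _ ≤ 3 / N / 2 * (3 + 3) + 2 * (N + 1) ^ 2 * ε := by gcongr
    _ = _ := by ring

/-- The balance estimate for one pair of vectors and a contraction. -/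
theorem pair_estimate_gen {X : Type} (W : Ell2 X →L[ℂ] Ell2 X) (hW : ∀ v, ‖W v‖ ≤ ‖v‖)
    {q H : X → ℝ} (hq : ∀ g, 0 ≤ q g ∧ q g ≤ 1)
    (hH : ∀ g, 0 ≤ H g ∧ H g ≤ 1) (N : ℕ) (hN : 0 < N) (η ζ : Ell2 X) (hη : ‖η‖ ≤ 1)
    (hζ : ‖ζ‖ ≤ 1) {ε : ℝ}
    (hfar : ∀ F G : X → ℝ, (∀ g, |F g| ≤ 1) → (∀ g, |G g| ≤ 1) →
      (∀ g h, F g ≠ 0 → G h ≠ 0 → 1 / (N : ℝ) ≤ |H g - H h|) →
      ‖⟪mo (fun g => q g * G g) ζ, W (mo (fun g => q g * F g) η)⟫_ℂ‖ ≤ ε) :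
    ‖⟪mo q ζ, W (mo (fun g => q g * H g) η)⟫_ℂ -
      ⟪mo (fun g => q g * H g) ζ, W (mo q η)⟫_ℂ‖ ≤ 9 / N + 2 * (N + 1) ^ 2 * ε := by
  have hq' : ∀ g, |q g| ≤ 1 := fun g => by rw [abs_of_nonneg (hq g).1]; exact (hq g).2
  have hH' : ∀ g, |H g| ≤ 1 := fun g => by rw [abs_of_nonneg (hH g).1]; exact (hH g).2
  have hm : ∀ {a b : ℝ}, |a| ≤ 1 → |b| ≤ 1 → |a * b| ≤ 1 := fun {a b} ha hb => by
    rw [abs_mul]
    exact mul_le_one₀ ha (abs_nonneg _) hb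
  have hqc : ∀ i g, |q g * cell N H i g| ≤ 1 := fun i g => hm (hq' g) (cell_abs N H i g)
  have hqHc : ∀ i g, |q g * (H g * cell N H i g)| ≤ 1 := fun i g =>
    hm (hq' g) (hm (hH' g) (cell_abs N H i g))
  have hsum : ∀ ξ : Ell2 X, mo q ξ =
      ∑ i ∈ Finset.range (N + 1), mo (fun g => q g * cell N H i g) ξ := by
    intro ξ
    rw [← mo_sum (Finset.range (N + 1)) (fun i g => q g * cell N H i g) hqc]
    congr 2
    funext g
    rw [← Finset.mul_sum, cell_sum N H hH, mul_one]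
  have hsum' : ∀ ξ : Ell2 X, mo (fun g => q g * H g) ξ =
      ∑ i ∈ Finset.range (N + 1), mo (fun g => q g * (H g * cell N H i g)) ξ := by
    intro ξ
    rw [← mo_sum (Finset.range (N + 1)) (fun i g => q g * (H g * cell N H i g)) hqHc]
    congr 2
    funext g
    rw [← Finset.mul_sum, ← Finset.mul_sum, cell_sum N H hH, mul_one]
  have hnorm : ∀ (ξ : Ell2 X) (i : ℕ), ‖mo (fun g => q g * cell N H i g) ξ‖ ≤
      ‖mo (cell N H i) ξ‖ := by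
    intro ξ i
    refine norm_mo_le_mo (hqc i) (cell_abs N H i) (fun g => ?_) ξ
    rw [abs_mul]
    exact mul_le_of_le_one_left (abs_nonneg _) (hq' g)
  have hdiff : ∀ (ξ : Ell2 X) (i : ℕ), ‖mo (fun g => q g * (H g * cell N H i g)) ξ -
      ((i / N : ℝ) : ℂ) • mo (fun g => q g * cell N H i g) ξ‖ ≤ 1 / N * ‖mo (cell N H i) ξ‖ := by
    intro ξ i
    have hb1 : ∀ g, |(i / N : ℝ) * (q g * cell N H i g)| ≤ (i / N : ℝ) := fun g => by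
      rw [abs_mul, abs_of_nonneg (by positivity)]
      exact mul_le_of_le_one_right (by positivity) (hqc i g)
    have hb2 : ∀ g, |(1 / N : ℝ) * cell N H i g| ≤ (1 / N : ℝ) := fun g => by
      rw [abs_mul, abs_of_nonneg (by positivity)]
      exact mul_le_of_le_one_right (by positivity) (cell_abs N H i g)
    have e1 : mo (fun g => q g * (H g * cell N H i g)) ξ -
        ((i / N : ℝ) : ℂ) • mo (fun g => q g * cell N H i g) ξ =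
        mo (fun g => q g * (H g * cell N H i g) - (i / N : ℝ) * (q g * cell N H i g)) ξ := by
      rw [mo_sub (hqHc i) hb1, mo_smul _ (hqc i)]
    have e2 : ((1 / N : ℝ) : ℝ) * ‖mo (cell N H i) ξ‖ =
        ‖mo (fun g => (1 / N : ℝ) * cell N H i g) ξ‖ := by
      rw [mo_smul _ (cell_abs N H i), norm_smul, Complex.norm_real,
        Real.norm_of_nonneg (by positivity)]
    rw [e1, e2]
    refine norm_mo_le_mo (C := 1 + i / N) (fun g => ?_) hb2 (fun g => ?_) ξ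
    · exact (abs_sub _ _).trans (add_le_add (hqHc i g) (hb1 g))
    · have e3 : q g * (H g * cell N H i g) - (i / N : ℝ) * (q g * cell N H i g) =
          q g * ((H g - i / N) * cell N H i g) := by ring
      rw [e3, abs_mul]
      exact (mul_le_of_le_one_left (abs_nonneg _) (hq' g)).trans (cell_near N H hN hH i g)
  have hsq : ∀ ξ : Ell2 X, ‖ξ‖ ≤ 1 →
      ∑ i ∈ Finset.range (N + 1), ‖mo (cell N H i) ξ‖ ^ 2 ≤ 1 := by
    intro ξ hξ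
    have h1 : ∀ i, ‖mo (cell N H i) ξ‖ ^ 2 = (⟪ξ, mo (cell N H i) ξ⟫_ℂ).re := by
      intro i
      rw [inner_mo (cell_abs N H i), Complex.ofReal_re, norm_mo_sq (cell_abs N H i)]
      refine tsum_congr fun g => ?_
      rw [cell_sq]
    rw [Finset.sum_congr rfl fun i _ => h1 i, ← Complex.re_sum, ← inner_sum,
      ← mo_sum (Finset.range (N + 1)) (fun i => cell N H i) (cell_abs N H)]
    have h2 : (fun g => ∑ i ∈ Finset.range (N + 1), cell N H i g) = fun _ => (1 : ℝ) := by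
      funext g
      exact cell_sum N H hH g
    rw [h2, mo_one, inner_self_eq_norm_sq_to_K]
    have h3 : ‖ξ‖ ^ 2 ≤ 1 := pow_le_one₀ (norm_nonneg _) hξ
    have h4 : (((‖ξ‖ : ℂ)) ^ 2).re = ‖ξ‖ ^ 2 := by
      rw [← Complex.ofReal_pow, Complex.ofReal_re]
    exact h4.le.trans h3
  rw [hsum ζ, hsum' η, hsum' ζ, hsum η]
  refine double_sumA N hN _ _ _ _ (fun i => ‖mo (cell N H i) η‖) (fun i => ‖mo (cell N H i) ζ‖)
    W hW (hsq η hη) (hsq ζ hζ) (hnorm η) (hnorm ζ) (hdiff η) (hdiff ζ) ?_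
  intro i j hij
  constructor
  · refine hfar (fun g => H g * cell N H i g) (cell N H j)
      (fun g => hm (hH' g) (cell_abs N H i g)) (cell_abs N H j) (fun g h hg hh => ?_)
    exact cell_far N H hN hH hij (fun h0 => hg (by rw [h0, mul_zero])) hh
  · refine hfar (cell N H i) (fun g => H g * cell N H j g) (cell_abs N H i)
      (fun g => hm (hH' g) (cell_abs N H j g)) (fun g h hg hh => ?_)
    exact cell_far N H hN hH hij hg (fun h0 => hh (by rw [h0, mul_zero]))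

end near

section balance

variable {Γ Λ ι : Type} [Group Γ] [Group Λ] [Fintype ι] {t : ℝ}
  {R : Λ → (Ell2 (Γ × ι) →L[ℂ] Ell2 (Γ × ι))}

/-- The two-sided limit `F ↦ lim_k R(z_k)* q F R(z_k) + R(z_k⁻¹)* q F R(z_k⁻¹)`. -/
noncomputable def Pi2A (U : Ultrafilter ℕ) (R : Λ → (Ell2 (Γ × ι) →L[ℂ] Ell2 (Γ × ι)))
    (z : ℕ → Λ) (q F : Γ → ℝ) : Ell2 (Γ × ι) →L[ℂ] Ell2 (Γ × ι) :=
  PiA U R z (fun _ g => q g * F g) + PiA U R (fun k => (z k)⁻¹) (fun _ g => q g * F g)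

/-- The mass of `R_w` on the set `P` (2-norm over the rows). -/
noncomputable def massA (R : Λ → (Ell2 (Γ × ι) →L[ℂ] Ell2 (Γ × ι))) (P : Γ → Prop) (w : Λ) : ℝ :=
  Real.sqrt (∑ i, ‖mp ι (ind P) (R w (ep i))‖ ^ 2)

/-- The hypotheses for far pairs. -/
def FarA (U : Ultrafilter ℕ) (R : Λ → (Ell2 (Γ × ι) →L[ℂ] Ell2 (Γ × ι))) (z z' : ℕ → Λ)
    (q H : Γ → ℝ) (a b : Γ × ι) : Prop :=
  ∀ δ : ℝ, 0 < δ → ∀ ε : ℝ, 0 < ε → ∃ (E P : Γ → Prop) (T : Finset Γ),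
    (∀ᶠ k in U, ∀ w, (w = z k ∨ w = (z k)⁻¹) →
      ‖mp ι (fun g => q g * ind (fun g => ¬ E g) g) (R w (dl a))‖ ≤ ε) ∧
    (∀ᶠ k in U, ∀ w, (w = z' k ∨ w = (z' k)⁻¹) →
      ‖mp ι (fun g => q g * ind (fun g => ¬ E g) g) (R w (dl b))‖ ≤ ε) ∧
    (∀ k h, E k → E h → δ ≤ |H k - H h| → P (k⁻¹ * h)) ∧
    (∀ k₁ h₁ k₂ h₂, E k₁ → E h₁ → E k₂ → E h₂ → δ ≤ |H k₁ - H h₁| → δ ≤ |H k₂ - H h₂| →
      k₁⁻¹ * h₁ = k₂⁻¹ * h₂ → k₂ * k₁⁻¹ ∈ T) ∧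
    (∀ k l w v, (w = z k ∨ w = (z k)⁻¹) → (v = z' l ∨ v = (z' l)⁻¹) →
      Real.sqrt T.card * massA R P (v * w⁻¹) ≤ ε)

theorem sep_massA (hR : ARep t R) (u : Λ) (η ζ : Ell2 (Γ × ι)) (P : Γ → Prop) (T : Finset Γ)
    (h1 : ∀ x y, η x ≠ 0 → ζ y ≠ 0 → P (x.1⁻¹ * y.1))
    (h2 : ∀ x₁ y₁ x₂ y₂, η x₁ ≠ 0 → ζ y₁ ≠ 0 → η x₂ ≠ 0 → ζ y₂ ≠ 0 →
      x₁.1⁻¹ * y₁.1 = x₂.1⁻¹ * y₂.1 → x₂.1 * x₁.1⁻¹ ∈ T) :
    ‖⟪ζ, R u η⟫_ℂ‖ ≤ Real.sqrt T.card * ‖η‖ * ‖ζ‖ * massA R P u := by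
  classical
  have h := H956.sep_estA hR u η ζ P T (fun k i h j a1 a2 => h1 (k, i) (h, j) a1 a2)
    (fun k₁ i₁ h₁ j₁ k₂ i₂ h₂ j₂ a1 a2 a3 a4 he =>
      h2 (k₁, i₁) (h₁, j₁) (k₂, i₂) (h₂, j₂) a1 a2 a3 a4 he)
  refine h.trans (le_of_eq ?_)
  congr 2

theorem far_estimateA (hR : ARep t R) {q H : Γ → ℝ}
    (hq : ∀ g, 0 ≤ q g ∧ q g ≤ 1) {E P : Γ → Prop} {T : Finset Γ} {δ ε : ℝ}
    (η ζ : Ell2 (Γ × ι)) (hη : ‖η‖ ≤ 1) (hζ : ‖ζ‖ ≤ 1) (u : Λ)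
    (hE1 : ‖mp ι (fun g => q g * ind (fun g => ¬ E g) g) η‖ ≤ ε)
    (hE2 : ‖mp ι (fun g => q g * ind (fun g => ¬ E g) g) ζ‖ ≤ ε)
    (hP : ∀ k h, E k → E h → δ ≤ |H k - H h| → P (k⁻¹ * h))
    (hT : ∀ k₁ h₁ k₂ h₂, E k₁ → E h₁ → E k₂ → E h₂ → δ ≤ |H k₁ - H h₁| → δ ≤ |H k₂ - H h₂| →
      k₁⁻¹ * h₁ = k₂⁻¹ * h₂ → k₂ * k₁⁻¹ ∈ T)
    (hu : Real.sqrt T.card * massA R P u ≤ ε)
    (F G : Γ × ι → ℝ) (hF : ∀ g, |F g| ≤ 1) (hG : ∀ g, |G g| ≤ 1)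
    (hFG : ∀ x y, F x ≠ 0 → G y ≠ 0 → δ ≤ |H x.1 - H y.1|) :
    ‖⟪mo (fun x => q x.1 * G x) ζ, R u (mo (fun x => q x.1 * F x) η)⟫_ℂ‖ ≤ 3 * ε := by
  have hq' : ∀ g, |q g| ≤ 1 := fun g => by rw [abs_of_nonneg (hq g).1]; exact (hq g).2
  have hm : ∀ {a b : ℝ}, |a| ≤ 1 → |b| ≤ 1 → |a * b| ≤ 1 := fun {a b} ha hb => by
    rw [abs_mul]
    exact mul_le_one₀ ha (abs_nonneg _) hb
  have hsplit : ∀ (F : Γ × ι → ℝ), (∀ g, |F g| ≤ 1) → ∀ ξ : Ell2 (Γ × ι),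
      mo (fun x => q x.1 * F x) ξ = mo (fun x => q x.1 * F x * ind E x.1) ξ +
        mo (fun x => q x.1 * F x * ind (fun g => ¬ E g) x.1) ξ := by
    intro F hF ξ
    rw [← mo_add (fun g => hm (hm (hq' g.1) (hF g)) (abs_ind_le _ _))
      (fun g => hm (hm (hq' g.1) (hF g)) (abs_ind_le _ _))]
    congr 2
    funext g
    by_cases h : E g.1
    · rw [ind_pos h, ind_neg (P := fun g => ¬ E g) (fun h1 => h1 h)]; ring
    · rw [ind_neg h, ind_pos (P := fun g => ¬ E g) h]; ring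
  have hcompl : ∀ (F : Γ × ι → ℝ), (∀ g, |F g| ≤ 1) → ∀ ξ : Ell2 (Γ × ι),
      ‖mo (fun x => q x.1 * F x * ind (fun g => ¬ E g) x.1) ξ‖ ≤
        ‖mp ι (fun g => q g * ind (fun g => ¬ E g) g) ξ‖ := by
    intro F hF ξ
    have hb1 : ∀ x : Γ × ι, |q x.1 * F x * ind (fun g => ¬ E g) x.1| ≤ 1 := fun x =>
      hm (hm (hq' x.1) (hF x)) (abs_ind_le _ _)
    have hb2 : ∀ x : Γ × ι, |q x.1 * ind (fun g => ¬ E g) x.1| ≤ 1 := fun x =>
      hm (hq' x.1) (abs_ind_le _ _)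
    have hle : ∀ x : Γ × ι, |q x.1 * F x * ind (fun g => ¬ E g) x.1| ≤
        |q x.1 * ind (fun g => ¬ E g) x.1| := fun x => by
      have e1 : q x.1 * F x * ind (fun g => ¬ E g) x.1 =
          F x * (q x.1 * ind (fun g => ¬ E g) x.1) := by ring
      rw [e1, abs_mul (F x)]
      exact mul_le_of_le_one_left (abs_nonneg _) (hF x)
    exact norm_mo_le_mo (F := fun x : Γ × ι => q x.1 * F x * ind (fun g => ¬ E g) x.1)
      (G := fun x : Γ × ι => q x.1 * ind (fun g => ¬ E g) x.1) hb1 hb2 hle ξ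
  have hmain : ∀ (F : Γ × ι → ℝ), (∀ g, |F g| ≤ 1) → ∀ ξ : Ell2 (Γ × ι), ‖ξ‖ ≤ 1 →
      ‖mo F ξ‖ ≤ 1 := fun F hF ξ hξ => (norm_mo_le hF ξ).trans (by rw [one_mul]; exact hξ)
  obtain ⟨X, hX⟩ : ∃ X, X = mo (fun x => q x.1 * F x * ind E x.1) η := ⟨_, rfl⟩
  obtain ⟨Xc, hXc⟩ : ∃ X, X = mo (fun x => q x.1 * F x * ind (fun g => ¬ E g) x.1) η := ⟨_, rfl⟩
  obtain ⟨Y, hY⟩ : ∃ X, X = mo (fun x => q x.1 * G x * ind E x.1) ζ := ⟨_, rfl⟩
  obtain ⟨Yc, hYc⟩ : ∃ X, X = mo (fun x => q x.1 * G x * ind (fun g => ¬ E g) x.1) ζ := ⟨_, rfl⟩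
  have hX1 : ‖X‖ ≤ 1 := by
    rw [hX]; exact hmain _ (fun g => hm (hm (hq' g.1) (hF g)) (abs_ind_le _ _)) _ hη
  have hY1 : ‖Y‖ ≤ 1 := by
    rw [hY]; exact hmain _ (fun g => hm (hm (hq' g.1) (hG g)) (abs_ind_le _ _)) _ hζ
  have hXc1 : ‖Xc‖ ≤ ε := by rw [hXc]; exact (hcompl F hF η).trans hE1
  have hYc1 : ‖Yc‖ ≤ ε := by rw [hYc]; exact (hcompl G hG ζ).trans hE2
  have hXX : ‖X + Xc‖ ≤ 1 := by
    rw [hX, hXc, ← hsplit F hF]; exact hmain _ (fun g => hm (hq' g.1) (hF g)) _ hη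
  have hsupp : ∀ (F : Γ × ι → ℝ), (∀ g, |F g| ≤ 1) → ∀ (ξ : Ell2 (Γ × ι)) (k : Γ × ι),
      mo (fun x => q x.1 * F x * ind E x.1) ξ k ≠ 0 → F k ≠ 0 ∧ E k.1 := by
    intro F hF ξ k hk
    rw [mo_apply (C := 1) (fun g => hm (hm (hq' g.1) (hF g)) (abs_ind_le _ _))] at hk
    constructor
    · intro h0
      exact hk (by rw [h0]; simp)
    · by_contra h0
      exact hk (by rw [ind_neg h0]; simp)
  have hs := sep_massA hR u X Y P T (by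
    intro k h hk hh
    rw [hX] at hk
    rw [hY] at hh
    have h1 := hsupp F hF η k hk
    have h2 := hsupp G hG ζ h hh
    exact hP k.1 h.1 h1.2 h2.2 (hFG k h h1.1 h2.1)) (by
    intro k₁ h₁ k₂ h₂ a1 a2 a3 a4 he
    rw [hX] at a1 a3
    rw [hY] at a2 a4
    have b1 := hsupp F hF η k₁ a1
    have b2 := hsupp G hG ζ h₁ a2
    have b3 := hsupp F hF η k₂ a3
    have b4 := hsupp G hG ζ h₂ a4
    exact hT k₁.1 h₁.1 k₂.1 h₂.1 b1.2 b2.2 b3.2 b4.2 (hFG _ _ b1.1 b2.1) (hFG _ _ b3.1 b4.1) he)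
  have hs' : ‖⟪Y, R u X⟫_ℂ‖ ≤ ε := by
    refine hs.trans (le_trans ?_ hu)
    have h0 : 0 ≤ massA R P u := Real.sqrt_nonneg _
    have h1 : Real.sqrt T.card * ‖X‖ * ‖Y‖ ≤ Real.sqrt T.card := by
      rw [mul_assoc]
      exact mul_le_of_le_one_right (Real.sqrt_nonneg _) (mul_le_one₀ hX1 (norm_nonneg _) hY1)
    gcongr
  rw [hsplit F hF η, hsplit G hG ζ, ← hX, ← hXc, ← hY, ← hYc]
  have e1 : ⟪Y + Yc, R u (X + Xc)⟫_ℂ = ⟪Y, R u X⟫_ℂ + ⟪Y, R u Xc⟫_ℂ +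
      ⟪Yc, R u (X + Xc)⟫_ℂ := by
    rw [inner_add_left, map_add, inner_add_right]
  rw [e1]
  have b1 : ‖⟪Y, R u Xc⟫_ℂ‖ ≤ ε := by
    refine (norm_inner_le_norm _ _).trans ?_
    calc ‖Y‖ * ‖R u Xc‖ ≤ 1 * ε :=
          mul_le_mul hY1 ((hR.norm_le _ _).trans hXc1) (norm_nonneg _) zero_le_one
      _ = ε := one_mul _
  have b2 : ‖⟪Yc, R u (X + Xc)⟫_ℂ‖ ≤ ε := by
    refine (norm_inner_le_norm _ _).trans ?_
    have hε : 0 ≤ ε := (norm_nonneg _).trans hYc1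
    calc ‖Yc‖ * ‖R u (X + Xc)‖ ≤ ε * 1 :=
          mul_le_mul hYc1 ((hR.norm_le _ _).trans hXX) (norm_nonneg _) hε
      _ = ε := mul_one _
  calc _ ≤ ‖⟪Y, R u X⟫_ℂ‖ + ‖⟪Y, R u Xc⟫_ℂ‖ + ‖⟪Yc, R u (X + Xc)⟫_ℂ‖ :=
        norm_add₃_le
    _ ≤ ε + ε + ε := add_le_add (add_le_add hs' b1) b2
    _ = 3 * ε := by ring

theorem pair_R (hR : ARep t R) (v w : Λ) (ξ η : Ell2 (Γ × ι)) (F G : Γ → ℝ) :
    ⟪R v⁻¹ (mp ι G (R v ξ)), R w⁻¹ (mp ι F (R w η))⟫_ℂ =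
      ⟪mp ι G (R v ξ), R (v * w⁻¹) (mp ι F (R w η))⟫_ℂ := by
  rw [hR.inner_left, inv_inv, hR.app]

/-- The balance theorem in the row model. -/
theorem balanceA (hR : ARep t R) (U : Ultrafilter ℕ) (z z' : ℕ → Λ)
    {q H : Γ → ℝ} (hq : ∀ g, 0 ≤ q g ∧ q g ≤ 1) (hH : ∀ g, 0 ≤ H g ∧ H g ≤ 1)
    (h1 : Pi2A U R z q (fun _ => 1) = R 1) (h1' : Pi2A U R z' q (fun _ => 1) = R 1)
    (a b : Γ × ι) (hfar : FarA U R z z' q H a b) :
    ⟪(dl b : Ell2 (Γ × ι)), Pi2A U R z q H (dl a)⟫_ℂ =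
      ⟪(dl b : Ell2 (Γ × ι)), Pi2A U R z' q H (dl a)⟫_ℂ := by
  have hq' : ∀ g, |q g| ≤ 1 := fun g => by rw [abs_of_nonneg (hq g).1]; exact (hq g).2
  have hH' : ∀ g, |H g| ≤ 1 := fun g => by rw [abs_of_nonneg (hH g).1]; exact (hH g).2
  have hqH : ∀ g, |q g * H g| ≤ 1 := fun g => by
    rw [abs_mul]
    exact mul_le_one₀ (hq' g) (abs_nonneg _) (hH' g)
  have hq1 : (fun g => q g * (1 : ℝ)) = q := by
    funext g; rw [mul_one]
  -- the approximants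
  obtain ⟨A, hA⟩ : ∃ A : (Γ → ℝ) → Λ → Γ × ι → Ell2 (Γ × ι), A = fun F w c =>
    R w⁻¹ (mp ι F (R w (dl c))) := ⟨_, rfl⟩
  have hA1 : ∀ F w c, R 1 (A F w c) = A F w c := by
    intro F w c
    rw [hA, hR.app, one_mul]
  have hAspec : ∀ (y : ℕ → Λ) (F : Γ → ℝ), (∀ g, |F g| ≤ 1) → ∀ (ξ : Ell2 (Γ × ι)) (c : Γ × ι),
      Tendsto (fun k => ⟪ξ, A F (y k) c⟫_ℂ) U (𝓝 ⟪ξ, PiA U R y (fun _ => F) (dl c)⟫_ℂ) := by
    intro y F hF ξ c
    refine (pa_spec (U := U) (z := y) (F := fun _ => F) hR (fun _ => hF) ξ (dl c)).congr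
      fun k => ?_
    rw [hA, hR.inner_left]
  have hAspec' : ∀ (y : ℕ → Λ) (F : Γ → ℝ), (∀ g, |F g| ≤ 1) → ∀ (ξ : Ell2 (Γ × ι)) (c : Γ × ι),
      Tendsto (fun k => ⟪A F (y k) c, ξ⟫_ℂ) U (𝓝 ⟪PiA U R y (fun _ => F) (dl c), ξ⟫_ℂ) := by
    intro y F hF ξ c
    have h2 := (Complex.continuous_conj.tendsto _).comp (hAspec y F hF ξ c)
    rw [inner_conj_symm] at h2
    refine h2.congr fun k => ?_
    rw [Function.comp_apply, inner_conj_symm]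
  obtain ⟨A2, hA2⟩ : ∃ A2 : (Γ → ℝ) → Λ → Γ × ι → Ell2 (Γ × ι), A2 = fun F w c =>
    A F w c + A F w⁻¹ c := ⟨_, rfl⟩
  have hA21 : ∀ F w c, R 1 (A2 F w c) = A2 F w c := by
    intro F w c
    simp only [hA2, map_add, hA1]
  have hA2spec : ∀ (y : ℕ → Λ) (F : Γ → ℝ), (∀ g, |q g * F g| ≤ 1) →
      ∀ (ξ : Ell2 (Γ × ι)) (c : Γ × ι),
      Tendsto (fun k => ⟪ξ, A2 (fun g => q g * F g) (y k) c⟫_ℂ) U
        (𝓝 ⟪ξ, Pi2A U R y q F (dl c)⟫_ℂ) := by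
    intro y F hF ξ c
    rw [Pi2A, add_apply, inner_add_right]
    refine ((hAspec y _ hF ξ c).add (hAspec (fun k => (y k)⁻¹) _ hF ξ c)).congr fun k => ?_
    rw [hA2, ← inner_add_right]
  have hA2spec' : ∀ (y : ℕ → Λ) (F : Γ → ℝ), (∀ g, |q g * F g| ≤ 1) →
      ∀ (ξ : Ell2 (Γ × ι)) (c : Γ × ι),
      Tendsto (fun k => ⟪A2 (fun g => q g * F g) (y k) c, ξ⟫_ℂ) U
        (𝓝 ⟪Pi2A U R y q F (dl c), ξ⟫_ℂ) := by
    intro y F hF ξ c
    rw [Pi2A, add_apply, inner_add_left]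
    refine ((hAspec' y _ hF ξ c).add (hAspec' (fun k => (y k)⁻¹) _ hF ξ c)).congr fun k => ?_
    rw [hA2, ← inner_add_left]
  have hsymm : ⟪(dl b : Ell2 (Γ × ι)), Pi2A U R z' q H (dl a)⟫_ℂ =
      ⟪Pi2A U R z' q H (dl b), (dl a : Ell2 (Γ × ι))⟫_ℂ := by
    rw [Pi2A, add_apply, add_apply, inner_add_left, inner_add_right,
      pa_sym hR (fun _ => hqH), pa_sym hR (fun _ => hqH)]
  have hP2 : R 1 (Pi2A U R z' q H (dl b)) = Pi2A U R z' q H (dl b) := by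
    have e1 := congrArg (fun T : Ell2 (Γ × ι) →L[ℂ] Ell2 (Γ × ι) => T (dl b))
      (pa_one_mul (U := U) (z := z') (F := fun _ g => q g * H g) hR (fun _ => hqH))
    have e2 := congrArg (fun T : Ell2 (Γ × ι) →L[ℂ] Ell2 (Γ × ι) => T (dl b))
      (pa_one_mul (U := U) (z := fun k => (z' k)⁻¹) (F := fun _ g => q g * H g) hR (fun _ => hqH))
    simp only [mul_ap] at e1 e2
    rw [Pi2A, add_apply, map_add, e1, e2]
  rw [hsymm]
  have hone : ∀ g, |q g * (fun _ => (1 : ℝ)) g| ≤ 1 := fun g => by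
    change |q g * 1| ≤ 1
    rw [mul_one]; exact hq' g
  have l1 := hA2spec z H hqH (dl b) a
  have l2 : Tendsto (fun k => ⟪Pi2A U R z' q H (dl b), A2 (fun g => q g * 1) (z k) a⟫_ℂ) U
      (𝓝 ⟪Pi2A U R z' q H (dl b), (dl a : Ell2 (Γ × ι))⟫_ℂ) := by
    have h2 := hA2spec z (fun _ => 1) hone (Pi2A U R z' q H (dl b)) a
    rw [h1, hR.inner_right, inv_one, hP2] at h2
    exact h2
  have hd := l1.sub l2
  suffices hz : Tendsto (fun k => ⟪(dl b : Ell2 (Γ × ι)), A2 (fun g => q g * H g) (z k) a⟫_ℂ -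
      ⟪Pi2A U R z' q H (dl b), A2 (fun g => q g * 1) (z k) a⟫_ℂ) U (𝓝 0) by
    exact sub_eq_zero.mp (tendsto_nhds_unique hd hz)
  rw [Metric.tendsto_nhds]
  intro ε₀ hε₀
  obtain ⟨N, hN⟩ := exists_nat_gt (72 / ε₀)
  have hNpos : 0 < N := by
    have : (0 : ℝ) < N := lt_trans (by positivity) hN
    exact_mod_cast this
  have hN' : (0 : ℝ) < N := by exact_mod_cast hNpos
  obtain ⟨ε, hε0, hε⟩ : ∃ ε : ℝ, 0 < ε ∧ 24 * ((N : ℝ) + 1) ^ 2 * ε ≤ ε₀ / 4 := by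
    refine ⟨ε₀ / (96 * ((N : ℝ) + 1) ^ 2), by positivity, ?_⟩
    rw [mul_div_assoc', div_le_iff₀ (by positivity)]
    nlinarith
  have hbound : 4 * (9 / N + 2 * ((N : ℝ) + 1) ^ 2 * (3 * ε)) ≤ 3 * ε₀ / 4 := by
    have h3 : 36 / (N : ℝ) ≤ ε₀ / 2 := by
      rw [div_le_div_iff₀ hN' (by norm_num)]
      rw [div_lt_iff₀ hε₀] at hN
      linarith
    calc 4 * (9 / N + 2 * ((N : ℝ) + 1) ^ 2 * (3 * ε)) =
          36 / N + 24 * ((N : ℝ) + 1) ^ 2 * ε := by ring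
      _ ≤ ε₀ / 2 + ε₀ / 4 := add_le_add h3 hε
      _ = 3 * ε₀ / 4 := by ring
  obtain ⟨E, P, T, f1, f2, f3, f4, f5⟩ := hfar (1 / N) (by positivity) ε hε0
  filter_upwards [f1] with k hk
  rw [dist_zero_right]
  -- the inner limit
  have m1 := hA2spec' z' (fun _ => 1) hone (A2 (fun g => q g * H g) (z k) a) b
  rw [h1', hR.inner_left, inv_one, hA21] at m1
  have m2 := hA2spec' z' H hqH (A2 (fun g => q g * 1) (z k) a) b
  have m3 := (m1.sub m2).norm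
  refine lt_of_le_of_lt (le_of_tendsto m3 ?_) (show 3 * ε₀ / 4 < ε₀ by linarith)
  filter_upwards [f2] with l hl
  have hpair : ∀ w v, (w = z k ∨ w = (z k)⁻¹) → (v = z' l ∨ v = (z' l)⁻¹) →
      ‖⟪A q v b, A (fun g => q g * H g) w a⟫_ℂ - ⟪A (fun g => q g * H g) v b, A q w a⟫_ℂ‖ ≤
        9 / N + 2 * ((N : ℝ) + 1) ^ 2 * (3 * ε) := by
    intro w v hw hv
    simp only [hA]
    rw [pair_R hR, pair_R hR]
    have hη : ‖R w (dl a : Ell2 (Γ × ι))‖ ≤ 1 := (hR.norm_le _ _).trans (norm_dl _).le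
    have hζ : ‖R v (dl b : Ell2 (Γ × ι))‖ ≤ 1 := (hR.norm_le _ _).trans (norm_dl _).le
    refine pair_estimate_gen (R (v * w⁻¹)) (hR.norm_le _) (q := fun x : Γ × ι => q x.1)
      (H := fun x : Γ × ι => H x.1) (fun x => hq x.1) (fun x => hH x.1) N hNpos _ _ hη hζ ?_
    intro F G hF hG hFG
    exact far_estimateA hR hq (H := H) _ _ hη hζ (v * w⁻¹) (hk w hw) (hl v hv) f3 f4
      (f5 k l w v hw hv) F G hF hG hFG
  have p1 := hpair (z k) (z' l) (Or.inl rfl) (Or.inl rfl)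
  have p2 := hpair (z k)⁻¹ (z' l) (Or.inr rfl) (Or.inl rfl)
  have p3 := hpair (z k) (z' l)⁻¹ (Or.inl rfl) (Or.inr rfl)
  have p4 := hpair (z k)⁻¹ (z' l)⁻¹ (Or.inr rfl) (Or.inr rfl)
  refine le_trans ?_ hbound
  rw [hq1]
  simp only [hA2]
  have e1 : ⟪A q (z' l) b + A q (z' l)⁻¹ b,
        A (fun g => q g * H g) (z k) a + A (fun g => q g * H g) (z k)⁻¹ a⟫_ℂ -
      ⟪A (fun g => q g * H g) (z' l) b + A (fun g => q g * H g) (z' l)⁻¹ b,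
        A q (z k) a + A q (z k)⁻¹ a⟫_ℂ =
      (⟪A q (z' l) b, A (fun g => q g * H g) (z k) a⟫_ℂ -
        ⟪A (fun g => q g * H g) (z' l) b, A q (z k) a⟫_ℂ) +
      (⟪A q (z' l) b, A (fun g => q g * H g) (z k)⁻¹ a⟫_ℂ -
        ⟪A (fun g => q g * H g) (z' l) b, A q (z k)⁻¹ a⟫_ℂ) +
      (⟪A q (z' l)⁻¹ b, A (fun g => q g * H g) (z k) a⟫_ℂ -
        ⟪A (fun g => q g * H g) (z' l)⁻¹ b, A q (z k) a⟫_ℂ) +
      (⟪A q (z' l)⁻¹ b, A (fun g => q g * H g) (z k)⁻¹ a⟫_ℂ -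
        ⟪A (fun g => q g * H g) (z' l)⁻¹ b, A q (z k)⁻¹ a⟫_ℂ) := by
    simp only [inner_add_left, inner_add_right]
    ring
  rw [e1]
  calc _ ≤ _ := (norm_add_le _ _).trans (add_le_add_left norm_add₃_le _)
    _ ≤ (9 / N + 2 * ((N : ℝ) + 1) ^ 2 * (3 * ε)) + (9 / N + 2 * ((N : ℝ) + 1) ^ 2 * (3 * ε)) +
        (9 / N + 2 * ((N : ℝ) + 1) ^ 2 * (3 * ε)) + (9 / N + 2 * ((N : ℝ) + 1) ^ 2 * (3 * ε)) :=
        add_le_add (add_le_add (add_le_add p1 p2) p3) p4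
    _ = _ := by ring

end balance

end Vale.Agent.P092.H714
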