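import Vale.Agent.P092.H303.Form
import Mathlib.LinearAlgebra.Matrix.SchurComplement

/-!
P092, block A-CLASS (helper714), part 1: transvections of a hermitian form, without coordinates.
Vectors are rows, and matrices act from the right.
-/

set_option linter.all false

open Matrix

namespace Vale.Agent.P092.H714.Cl

open Vale.Agent.P092.H303 (FormGroup)

variable {n : Type} [Fintype n] [DecidableEq n] {k : Type} [Field k]
  {σ : k →+* k} {ε : k} {J : Matrix n n k}

/-- The form `h(x, y) = x J σ(y)ᵀ`. -/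
def hf (σ : k →+* k) (J : Matrix n n k) (x y : n → k) : k := x ⬝ᵥ (J *ᵥ fun i => σ (y i))

/-- The algebraic properties of the form. -/
structure Frm (σ : k →+* k) (ε : k) (J : Matrix n n k) : Prop where
  inv : ∀ x, σ (σ x) = x
  eps : ε * ε = 1
  seps : σ ε = ε
  herm : ∀ x y, hf σ J y x = ε * σ (hf σ J x y)
  nondeg : ∀ x, x ≠ 0 → ∃ y, hf σ J x y ≠ 0
  tv : ∀ y, ∃ β, hf σ J y y = β + ε * σ β
  iso : ∃ u, u ≠ 0 ∧ hf σ J u u = 0
  cc : ∃ c, c ≠ 0 ∧ c + ε * σ c = 0

section basic

variable (σ J)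

theorem hf_add_left (x x' y : n → k) : hf σ J (x + x') y = hf σ J x y + hf σ J x' y := by
  unfold hf; rw [add_dotProduct]

theorem hf_smul_left (a : k) (x y : n → k) : hf σ J (a • x) y = a * hf σ J x y := by
  unfold hf; rw [smul_dotProduct, smul_eq_mul]

theorem hf_add_right (x y y' : n → k) : hf σ J x (y + y') = hf σ J x y + hf σ J x y' := by
  unfold hf
  have e : (fun i => σ ((y + y') i)) = (fun i => σ (y i)) + fun i => σ (y' i) := by
    funext i; simp
  rw [e, mulVec_add, dotProduct_add]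

theorem hf_smul_right (a : k) (x y : n → k) : hf σ J x (a • y) = σ a * hf σ J x y := by
  unfold hf
  have e : (fun i => σ ((a • y) i)) = σ a • fun i => σ (y i) := by
    funext i; simp
  rw [e, mulVec_smul, dotProduct_smul, smul_eq_mul]

theorem hf_zero_left (y : n → k) : hf σ J 0 y = 0 := by
  unfold hf; rw [zero_dotProduct]

theorem hf_zero_right (x : n → k) : hf σ J x 0 = 0 := by
  have := hf_smul_right σ J 0 x 0
  rwa [zero_smul, map_zero, zero_mul] at this

end basic

/-- The isometries in `SL`. -/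
theorem mem_formGroup {g : SpecialLinearGroup n k} :
    g ∈ FormGroup σ J ↔ ∀ x y, hf σ J (x ᵥ* g.1) (y ᵥ* g.1) = hf σ J x y := by
  have key : ∀ x y, hf σ J (x ᵥ* g.1) (y ᵥ* g.1) = x ⬝ᵥ ((g.1 * J * (g.1.map σ)ᵀ) *ᵥ
      fun i => σ (y i)) := by
    intro x y
    unfold hf
    have e : (fun i => σ ((y ᵥ* g.1) i)) = (g.1.map σ)ᵀ *ᵥ fun i => σ (y i) := by
      funext i
      simp only [vecMul, dotProduct, mulVec, transpose_apply, map_apply, map_sum, map_mul]
      exact Finset.sum_congr rfl fun j _ => mul_comm _ _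
    rw [e, mulVec_mulVec, ← dotProduct_mulVec, mulVec_mulVec, ← Matrix.mul_assoc]
  constructor
  · intro hg x y
    have hg' : g.1 * J * (g.1.map σ)ᵀ = J := hg
    rw [key, hg']
    rfl
  · intro h
    change g.1 * J * (g.1.map σ)ᵀ = J
    ext i j
    have h1 := h (Pi.single i 1) (Pi.single j 1)
    rw [key] at h1
    have e : (fun l => σ ((Pi.single j (1 : k) : n → k) l)) = Pi.single j 1 := by
      funext l
      by_cases hl : l = j
      · subst hl; simp
      · simp [Pi.single_eq_of_ne hl]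
    unfold hf at h1
    rw [e, mulVec_single_one, mulVec_single_one, single_one_dotProduct, single_one_dotProduct] at h1
    exact h1

/-- The matrix of the transvection `x ↦ x + c h(x, u) u`. -/
def tvm (σ : k →+* k) (J : Matrix n n k) (u : n → k) (c : k) : Matrix n n k :=
  1 + vecMulVec (J *ᵥ fun i => σ (u i)) (c • u)

theorem vecMul_tvm (x u : n → k) (c : k) :
    x ᵥ* tvm σ J u c = x + (c * hf σ J x u) • u := by
  unfold tvm hf
  rw [vecMul_add, vecMul_one, vecMul_vecMulVec, smul_smul, mul_comm]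

theorem det_tvm (u : n → k) (c : k) : (tvm σ J u c).det = 1 + c * hf σ J u u := by
  unfold tvm hf
  have h := det_one_add_replicateCol_mul_replicateRow (ι := Unit) (J *ᵥ fun i => σ (u i)) (c • u)
  rw [← vecMulVec_eq] at h
  rw [h, smul_dotProduct, smul_eq_mul]

/-- The element of `SL` with a given matrix. -/
def toSL (A : Matrix n n k) (h : A.det = 1) : SpecialLinearGroup n k := ⟨A, h⟩

theorem toSL_val (A : Matrix n n k) (h : A.det = 1) : (toSL A h).1 = A := rfl

open Classical in
/-- The transvection, if `u` is isotropic. -/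
noncomputable def tv (σ : k →+* k) (J : Matrix n n k) (u : n → k) (c : k) :
    SpecialLinearGroup n k :=
  if h : hf σ J u u = 0 then
    toSL (tvm σ J u c) (by rw [det_tvm, h, mul_zero, add_zero])
  else 1

theorem tv_val {u : n → k} (hu : hf σ J u u = 0) (c : k) : (tv σ J u c).1 = tvm σ J u c := by
  unfold tv
  rw [dif_pos hu, toSL_val]

theorem vecMul_tv {u : n → k} (hu : hf σ J u u = 0) (c : k) (x : n → k) :
    x ᵥ* (tv σ J u c).1 = x + (c * hf σ J x u) • u := by
  rw [tv_val hu, vecMul_tvm]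

theorem ext_vecMul {g g' : SpecialLinearGroup n k} (h : ∀ x, x ᵥ* g.1 = x ᵥ* g'.1) : g = g' :=
  Subtype.ext (ext_iff_vecMul.mpr h)

theorem vecMul_mul' (x : n → k) (g g' : SpecialLinearGroup n k) :
    x ᵥ* (g * g').1 = (x ᵥ* g.1) ᵥ* g'.1 := by
  rw [vecMul_vecMul]; rfl

theorem vecMul_one' (x : n → k) : x ᵥ* (1 : SpecialLinearGroup n k).1 = x := by
  change x ᵥ* (1 : Matrix n n k) = x
  rw [vecMul_one]

theorem vecMul_inv_cancel (x : n → k) (g : SpecialLinearGroup n k) :
    (x ᵥ* (g⁻¹).1) ᵥ* g.1 = x := by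
  rw [← vecMul_mul', inv_mul_cancel, vecMul_one']

theorem vecMul_cancel_inv (x : n → k) (g : SpecialLinearGroup n k) :
    (x ᵥ* g.1) ᵥ* (g⁻¹).1 = x := by
  rw [← vecMul_mul', mul_inv_cancel, vecMul_one']

theorem tv_add {u : n → k} (hu : hf σ J u u = 0) (c c' : k) :
    tv σ J u (c + c') = tv σ J u c * tv σ J u c' := by
  refine ext_vecMul fun x => ?_
  rw [vecMul_mul', vecMul_tv hu, vecMul_tv hu, vecMul_tv hu, hf_add_left, hf_smul_left, hu,
    mul_zero, add_zero, add_assoc, ← add_smul]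
  ring_nf

theorem tv_zero (u : n → k) : tv σ J u 0 = 1 := by
  by_cases hu : hf σ J u u = 0
  · refine ext_vecMul fun x => ?_
    rw [vecMul_tv hu, zero_mul, zero_smul, add_zero, vecMul_one']
  · unfold tv
    rw [dif_neg hu]

theorem tv_neg {u : n → k} (hu : hf σ J u u = 0) (c : k) : tv σ J u (-c) = (tv σ J u c)⁻¹ := by
  rw [eq_inv_iff_mul_eq_one, ← tv_add hu, neg_add_cancel, tv_zero]

theorem iso_smul {u : n → k} (hu : hf σ J u u = 0) (a : k) : hf σ J (a • u) (a • u) = 0 := by
  rw [hf_smul_left, hf_smul_right, hu, mul_zero, mul_zero]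

theorem tv_smul {u : n → k} (hu : hf σ J u u = 0) (a c : k) :
    tv σ J (a • u) c = tv σ J u (a * c * σ a) := by
  refine ext_vecMul fun x => ?_
  rw [vecMul_tv (iso_smul hu a), vecMul_tv hu, hf_smul_right, smul_smul]
  ring_nf

theorem iso_vecMul {g : SpecialLinearGroup n k} (hg : g ∈ FormGroup σ J) {u : n → k}
    (hu : hf σ J u u = 0) : hf σ J (u ᵥ* g.1) (u ᵥ* g.1) = 0 := by
  rw [mem_formGroup.mp hg, hu]

/-- Conjugation of transvections. -/
theorem conj_tv {g : SpecialLinearGroup n k} (hg : g ∈ FormGroup σ J) {u : n → k}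
    (hu : hf σ J u u = 0) (c : k) : g⁻¹ * tv σ J u c * g = tv σ J (u ᵥ* g.1) c := by
  refine ext_vecMul fun x => ?_
  rw [vecMul_mul', vecMul_mul', vecMul_tv hu, vecMul_tv (iso_vecMul hg hu), add_vecMul,
    vecMul_inv_cancel, smul_vecMul]
  have h := mem_formGroup.mp hg (x ᵥ* (g⁻¹).1) u
  rw [vecMul_inv_cancel] at h
  rw [h]

/-- Transvections with `c + ε σ(c) = 0` are isometries. -/
theorem tv_mem (hF : Frm σ ε J) {u : n → k} (hu : hf σ J u u = 0) {c : k}
    (hc : c + ε * σ c = 0) : tv σ J u c ∈ FormGroup σ J := by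
  rw [mem_formGroup]
  intro x y
  rw [vecMul_tv hu, vecMul_tv hu, hf_add_left, hf_add_right, hf_add_right, hf_smul_left,
    hf_smul_left, hf_smul_right, hf_smul_right, hu, mul_zero, mul_zero, add_zero, map_mul]
  have h1 : hf σ J u y = ε * σ (hf σ J y u) := hF.herm y u
  have h2 : σ (hf σ J y u) = ε * hf σ J u y := by
    rw [h1, ← mul_assoc, hF.eps, one_mul]
  rw [h2]
  have h3 : hf σ J x u * hf σ J u y * (c + ε * σ c) = 0 := by rw [hc, mul_zero]
  linear_combination h3

theorem cc_smul {c : k} (hinv : ∀ x : k, σ (σ x) = x) (hc : c + ε * σ c = 0) (a : k) :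
    a * c * σ a + ε * σ (a * c * σ a) = 0 := by
  rw [map_mul, map_mul, hinv]
  linear_combination (a * σ a) * hc

theorem cc_fix {c r : k} (hr : σ r = r) (hc : c + ε * σ c = 0) :
    r * c + ε * σ (r * c) = 0 := by
  rw [map_mul, hr]
  linear_combination r * hc

theorem cc_inv {c : k} (he : ε * ε = 1) (hse : σ ε = ε) (hc : c + ε * σ c = 0) (hc0 : c ≠ 0) :
    -ε * c⁻¹ + ε * σ (-ε * c⁻¹) = 0 := by
  have hs0 : σ c ≠ 0 := by rwa [Ne, map_eq_zero]
  have h1 : σ c = -ε * c := by
    linear_combination ε * hc - σ c * he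
  rw [map_mul, map_neg, hse, map_inv₀, h1]
  have he0 : ε ≠ 0 := by
    rintro rfl
    rw [mul_zero] at he
    exact zero_ne_one he
  field_simp
  ring

end Vale.Agent.P092.H714.Cl
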