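import Vale.Agent.P092.H714.Cl1

/-!
P092, block A-CLASS (helper714), part 2: isotropic vectors, and the hyperbolic elements generated by
transvections.
-/

set_option linter.all false

open Matrix

namespace Vale.Agent.P092.H714.Cl

open Vale.Agent.P092.H303 (FormGroup)

variable {n : Type} [Fintype n] [DecidableEq n] {k : Type} [Field k]
  {σ : k →+* k} {ε : k} {J : Matrix n n k}

namespace Frm

variable (hF : Frm σ ε J)

include hF

theorem eps_ne : ε ≠ 0 := by
  intro h
  have := hF.eps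
  rw [h, mul_zero] at this
  exact zero_ne_one this

theorem swap {x y : n → k} (h : hf σ J x y = 1) : hf σ J y x = ε := by
  rw [hF.herm, h, map_one, mul_one]

theorem symm_zero {x y : n → k} (h : hf σ J x y = 0) : hf σ J y x = 0 := by
  rw [hF.herm, h, map_zero, mul_zero]

theorem symm_ne {x y : n → k} (h : hf σ J x y ≠ 0) : hf σ J y x ≠ 0 := by
  intro h'
  exact h (hF.symm_zero h')

/-- Correction of a vector by a multiple of `u`. -/
theorem exists_corr {u y : n → k} (hu : hf σ J u u = 0) (hy : hf σ J u y ≠ 0) :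
    ∃ α : k, hf σ J (y + α • u) (y + α • u) = 0 := by
  obtain ⟨β, hβ⟩ := hF.tv y
  refine ⟨-β / hf σ J u y, ?_⟩
  rw [hf_add_left, hf_add_right, hf_add_right, hf_smul_left, hf_smul_left, hf_smul_right,
    hf_smul_right, hu, mul_zero, mul_zero, add_zero, hβ, hF.herm u y, map_div₀, map_neg]
  have hs : σ (hf σ J u y) ≠ 0 := by rwa [Ne, map_eq_zero]
  field_simp
  ring

/-- An isotropic vector is in a hyperbolic plane. -/
theorem exists_hyp {u : n → k} (h0 : u ≠ 0) (hu : hf σ J u u = 0) :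
    ∃ w, hf σ J w w = 0 ∧ hf σ J u w = 1 := by
  obtain ⟨y, hy⟩ := hF.nondeg u h0
  obtain ⟨y', hy'⟩ : ∃ y', hf σ J u y' = 1 := by
    refine ⟨σ (hf σ J u y)⁻¹ • y, ?_⟩
    rw [hf_smul_right, hF.inv, inv_mul_cancel₀ hy]
  obtain ⟨α, hα⟩ := hF.exists_corr hu (y := y') (by rw [hy']; exact one_ne_zero)
  refine ⟨y' + α • u, hα, ?_⟩
  rw [hf_add_right, hf_smul_right, hu, mul_zero, add_zero, hy']

theorem ne_zero_of_pair {x y : n → k} (h : hf σ J x y ≠ 0) : x ≠ 0 ∧ y ≠ 0 := by
  constructor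
  · rintro rfl
    exact h (hf_zero_left σ J y)
  · rintro rfl
    exact h (hf_zero_right σ J x)

/-- The same, orthogonal to a further vector. -/
theorem exists_hyp' {u u' : n → k} (hu : hf σ J u u = 0) (huu : hf σ J u' u = 0)
    (hind : ∀ a b : k, a • u + b • u' = 0 → a = 0 ∧ b = 0) :
    ∃ w, hf σ J w w = 0 ∧ hf σ J u w = 1 ∧ hf σ J u' w = 0 := by
  have h0 : u ≠ 0 := by
    rintro rfl
    have := (hind 1 0 (by simp)).1
    exact one_ne_zero this
  obtain ⟨y1, hy1⟩ := hF.nondeg u h0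
  -- a vector with the right products
  obtain ⟨y, hy, hy'⟩ : ∃ y, hf σ J u y = 1 ∧ hf σ J u' y = 0 := by
    have hv : hf σ J u' y1 • u + (-hf σ J u y1) • u' ≠ 0 := by
      intro h
      have := (hind _ _ h).2
      exact hy1 (neg_eq_zero.mp this)
    obtain ⟨y2, hy2⟩ := hF.nondeg _ hv
    rw [hf_add_left, hf_smul_left, hf_smul_left] at hy2
    set D : k := hf σ J u y1 * hf σ J u' y2 - hf σ J u' y1 * hf σ J u y2 with hD
    have hD0 : D ≠ 0 := by
      intro h
      apply hy2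
      linear_combination -h
    refine ⟨σ (hf σ J u' y2 / D) • y1 + σ (-hf σ J u' y1 / D) • y2, ?_, ?_⟩
    · rw [hf_add_right, hf_smul_right, hf_smul_right, hF.inv, hF.inv]
      field_simp
      rw [hD]
      ring
    · rw [hf_add_right, hf_smul_right, hf_smul_right, hF.inv, hF.inv]
      field_simp
      ring
  obtain ⟨α, hα⟩ := hF.exists_corr hu (y := y) (by rw [hy]; exact one_ne_zero)
  refine ⟨y + α • u, hα, ?_, ?_⟩
  · rw [hf_add_right, hf_smul_right, hu, mul_zero, add_zero, hy]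
  · rw [hf_add_right, hf_smul_right, huu, mul_zero, add_zero, hy']

/-- Two isotropic vectors are connected by a third one. -/
theorem exists_conn {u w : n → k} (hu0 : u ≠ 0) (hu : hf σ J u u = 0) (hw0 : w ≠ 0)
    (hw : hf σ J w w = 0) : ∃ z, hf σ J z z = 0 ∧ hf σ J u z ≠ 0 ∧ hf σ J z w ≠ 0 := by
  obtain ⟨z1, hz1, hu1⟩ := hF.exists_hyp hu0 hu
  obtain ⟨z2, hz2, hw2⟩ := hF.exists_hyp hw0 hw
  have hw2' : hf σ J z2 w ≠ 0 := hF.symm_ne (by rw [hw2]; exact one_ne_zero)
  by_cases h1 : hf σ J z1 w = 0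
  · by_cases h2 : hf σ J u z2 = 0
    · obtain ⟨c, hc0, hc⟩ := hF.cc
      obtain ⟨t, ht0, ht⟩ : ∃ t : k, t ≠ 0 ∧
          t * hf σ J z2 z1 + ε * σ (t * hf σ J z2 z1) = 0 := by
        by_cases h3 : hf σ J z2 z1 = 0
        · exact ⟨1, one_ne_zero, by rw [h3]; simp⟩
        · refine ⟨c / hf σ J z2 z1, div_ne_zero hc0 h3, ?_⟩
          rw [div_mul_cancel₀ c h3]
          exact hc
      refine ⟨z1 + t • z2, ?_, ?_, ?_⟩
      · rw [hf_add_left, hf_add_right, hf_add_right, hf_smul_left, hf_smul_left, hf_smul_right,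
          hf_smul_right, hz1, hz2, hF.herm z2 z1]
        rw [map_mul] at ht
        linear_combination ht
      · rw [hf_add_right, hf_smul_right, h2, mul_zero, add_zero, hu1]
        exact one_ne_zero
      · rw [hf_add_left, hf_smul_left, h1, zero_add]
        exact mul_ne_zero ht0 hw2'
    · exact ⟨z2, hz2, h2, hw2'⟩
  · exact ⟨z1, hz1, by rw [hu1]; exact one_ne_zero, h1⟩

/-- Every vector is a sum of three isotropic ones. -/
theorem iso_decomp (y : n → k) : ∃ a b c, hf σ J a a = 0 ∧ hf σ J b b = 0 ∧ hf σ J c c = 0 ∧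
    y = a + b + c := by
  obtain ⟨u, hu0, hu⟩ := hF.iso
  obtain ⟨z, hz, huz⟩ := hF.exists_hyp hu0 hu
  have h1 : ∃ t : k, hf σ J u (y + t • z) ≠ 0 := by
    by_cases h : hf σ J u y = 0
    · refine ⟨1, ?_⟩
      rw [hf_add_right, hf_smul_right, h, huz, map_one, zero_add, one_mul]
      exact one_ne_zero
    · refine ⟨0, ?_⟩
      rw [zero_smul, add_zero]
      exact h
  obtain ⟨t, ht⟩ := h1
  obtain ⟨α, hα⟩ := hF.exists_corr hu ht
  refine ⟨y + t • z + α • u, (-t) • z, (-α) • u, hα, iso_smul hz _, iso_smul hu _, ?_⟩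
  rw [neg_smul, neg_smul]
  abel

end Frm

/-- The group generated by the transvections. -/
def GT (σ : k →+* k) (ε : k) (J : Matrix n n k) : Subgroup (SpecialLinearGroup n k) :=
  Subgroup.closure {g | ∃ u c, hf σ J u u = 0 ∧ c + ε * σ c = 0 ∧ g = tv σ J u c}

theorem tv_mem_GT {u : n → k} (hu : hf σ J u u = 0) {c : k} (hc : c + ε * σ c = 0) :
    tv σ J u c ∈ GT σ ε J := Subgroup.subset_closure ⟨u, c, hu, hc, rfl⟩

theorem GT_le (hF : Frm σ ε J) : GT σ ε J ≤ FormGroup σ J := by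
  rw [GT, Subgroup.closure_le]
  rintro _ ⟨u, c, hu, hc, rfl⟩
  exact tv_mem hF hu hc

/-- The hyperbolic element of a hyperbolic pair. -/
noncomputable def dv (σ : k →+* k) (ε : k) (J : Matrix n n k) (u w : n → k) (s r : k) :
    SpecialLinearGroup n k :=
  tv σ J u (ε * ((r - 1) / s)) * tv σ J w s * tv σ J u (ε * (-((r - 1) / s) / r)) *
    tv σ J w (-(r * s))

section dv

variable (hF : Frm σ ε J) {u w : n → k} (hu : hf σ J u u = 0) (hw : hf σ J w w = 0)
  (huw : hf σ J u w = 1) {s r : k} (hs0 : s ≠ 0) (hs : s + ε * σ s = 0) (hr0 : r ≠ 0)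
  (hr : σ r = r)

include hF hs0 hs hr in
theorem cc_x : ε * ((r - 1) / s) + ε * σ (ε * ((r - 1) / s)) = 0 := by
  have h1 : σ s = -ε * s := by
    linear_combination ε * hs - σ s * hF.eps
  have he := hF.eps_ne
  rw [map_mul, map_div₀, map_sub, map_one, hr, hF.seps, h1]
  field_simp
  ring

include hF hs0 hs hr0 hr in
theorem cc_z : ε * (-((r - 1) / s) / r) + ε * σ (ε * (-((r - 1) / s) / r)) = 0 := by
  have h := cc_x hF hs0 hs hr
  have e : ε * (-((r - 1) / s) / r) = (-1 / r) * (ε * ((r - 1) / s)) := by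
    field_simp
  rw [e]
  exact cc_fix (by rw [map_div₀, map_neg, map_one, hr]) h

include hF hu hw hs0 hs hr0 hr in
theorem dv_mem : dv σ ε J u w s r ∈ GT σ ε J := by
  have h4 : -(r * s) + ε * σ (-(r * s)) = 0 := by
    have := cc_fix (r := -r) (by rw [map_neg, hr]) hs
    rwa [neg_mul] at this
  exact mul_mem (mul_mem (mul_mem (tv_mem_GT hu (cc_x hF hs0 hs hr)) (tv_mem_GT hw hs))
    (tv_mem_GT hu (cc_z hF hs0 hs hr0 hr))) (tv_mem_GT hw h4)

include hF hu hw huw hs0 hr0 in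
theorem u_dv : u ᵥ* (dv σ ε J u w s r).1 = r⁻¹ • u := by
  have hwu := hF.swap huw
  have he := hF.eps
  unfold dv
  have a1 : u ᵥ* (tv σ J u (ε * ((r - 1) / s))).1 = u := by
    rw [vecMul_tv hu, hu, mul_zero, zero_smul, add_zero]
  have a2 : u ᵥ* (tv σ J w s).1 = u + s • w := by
    rw [vecMul_tv hw, huw, mul_one]
  have a3 : (u + s • w) ᵥ* (tv σ J u (ε * (-((r - 1) / s) / r))).1 = r⁻¹ • u + s • w := by
    rw [vecMul_tv hu, hf_add_left, hf_smul_left, hu, hwu, zero_add]
    have e1 : ε * (-((r - 1) / s) / r) * (s * ε) = -(r - 1) / r := by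
      field_simp
      linear_combination -(r - 1) * he
    rw [e1]
    have e2 : -(r - 1) / r = r⁻¹ - 1 := by
      field_simp
      ring
    rw [e2]
    module
  have a4 : (r⁻¹ • u + s • w) ᵥ* (tv σ J w (-(r * s))).1 = r⁻¹ • u := by
    rw [vecMul_tv hw, hf_add_left, hf_smul_left, hf_smul_left, huw, hw]
    have e1 : -(r * s) * (r⁻¹ * 1 + s * 0) = -s := by
      field_simp
      ring
    rw [e1]
    module
  rw [vecMul_mul', vecMul_mul', vecMul_mul', a1, a2, a3, a4]

include hF hu hw huw hs0 hr0 in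
theorem w_dv : w ᵥ* (dv σ ε J u w s r).1 = r • w := by
  have hwu := hF.swap huw
  have he := hF.eps
  unfold dv
  have a1 : w ᵥ* (tv σ J u (ε * ((r - 1) / s))).1 = w + ((r - 1) / s) • u := by
    rw [vecMul_tv hu, hwu]
    have e0 : ε * ((r - 1) / s) * ε = (r - 1) / s := by
      linear_combination ((r - 1) / s) * he
    rw [e0]
  have a2 : (w + ((r - 1) / s) • u) ᵥ* (tv σ J w s).1 = r • w + ((r - 1) / s) • u := by
    rw [vecMul_tv hw, hf_add_left, hf_smul_left, hw, huw, zero_add, mul_one]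
    have : s * ((r - 1) / s) = r - 1 := by field_simp
    rw [this]
    module
  have a3 : (r • w + ((r - 1) / s) • u) ᵥ* (tv σ J u (ε * (-((r - 1) / s) / r))).1 = r • w := by
    rw [vecMul_tv hu, hf_add_left, hf_smul_left, hf_smul_left, hwu, hu, mul_zero, add_zero]
    have : ε * (-((r - 1) / s) / r) * (r * ε) = -((r - 1) / s) := by
      field_simp
      linear_combination -(r - 1) * he
    rw [this]
    module
  have a4 : (r • w) ᵥ* (tv σ J w (-(r * s))).1 = r • w := by
    rw [vecMul_tv hw, hf_smul_left, hw, mul_zero, mul_zero, zero_smul, add_zero]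
  rw [vecMul_mul', vecMul_mul', vecMul_mul', a1, a2, a3, a4]

include hu hw in
theorem y_dv {y : n → k} (h1 : hf σ J y u = 0) (h2 : hf σ J y w = 0) :
    y ᵥ* (dv σ ε J u w s r).1 = y := by
  unfold dv
  simp only [vecMul_mul', vecMul_tv hu, vecMul_tv hw, h1, h2, mul_zero, zero_smul, add_zero]

end dv

end Vale.Agent.P092.H714.Cl
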