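import Vale.Agent.P092.H714.Cl7

/-!
P092, block A-CLASS (helper714), part 8: for an involution `σ ≠ id` the special isometry group of a
hermitian form with isotropic vectors is generated by the transvections (Dieudonné).
-/

set_option linter.all false

open Matrix

namespace Vale.Agent.P092.H714.Cl

open Vale.Agent.P092.H303 (FormGroup)

variable {n : Type} [Fintype n] [DecidableEq n] {k : Type} [Field k]
  {σ : k →+* k} {ε : k} {J : Matrix n n k}

/-! ### Isometries in `GL` -/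

theorem vm_mul (x : n → k) (g g' : GL n k) : x ᵥ* (g * g').1 = (x ᵥ* g.1) ᵥ* g'.1 := by
  rw [vecMul_vecMul]; rfl

theorem vm_one (x : n → k) : x ᵥ* (1 : GL n k).1 = x := by
  change x ᵥ* (1 : Matrix n n k) = x
  rw [vecMul_one]

theorem vm_inv_cancel (x : n → k) (g : GL n k) : (x ᵥ* (g⁻¹).1) ᵥ* g.1 = x := by
  rw [← vm_mul, inv_mul_cancel, vm_one]

theorem vm_cancel_inv (x : n → k) (g : GL n k) : (x ᵥ* g.1) ᵥ* (g⁻¹).1 = x := by
  rw [← vm_mul, mul_inv_cancel, vm_one]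

theorem ext_vm {g g' : GL n k} (h : ∀ x, x ᵥ* g.1 = x ᵥ* g'.1) : g = g' :=
  Units.ext (ext_iff_vecMul.mpr h)

/-- The isometry group in `GL`. -/
def IG (σ : k →+* k) (J : Matrix n n k) : Subgroup (GL n k) where
  carrier := {g | ∀ x y, hf σ J (x ᵥ* g.1) (y ᵥ* g.1) = hf σ J x y}
  one_mem' x y := by rw [vm_one, vm_one]
  mul_mem' {g h} hg hh x y := by
    rw [vm_mul, vm_mul, hh, hg]
  inv_mem' {g} hg x y := by
    have := hg (x ᵥ* (g⁻¹).1) (y ᵥ* (g⁻¹).1)
    rw [vm_inv_cancel, vm_inv_cancel] at this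
    exact this.symm

theorem mem_IG {g : GL n k} : g ∈ IG σ J ↔
    ∀ x y, hf σ J (x ᵥ* g.1) (y ᵥ* g.1) = hf σ J x y := Iff.rfl

/-- The embedding of `SL`. -/
def gl : SpecialLinearGroup n k →* GL n k := SpecialLinearGroup.toGL

theorem gl_val (g : SpecialLinearGroup n k) : (gl g).1 = g.1 := rfl

theorem gl_injective : Function.Injective (gl : SpecialLinearGroup n k →* GL n k) := by
  intro g g' h
  refine Subtype.ext ?_
  have := congrArg Units.val h
  exact this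

theorem gl_mem {g : SpecialLinearGroup n k} : gl g ∈ IG σ J ↔ g ∈ FormGroup σ J := by
  rw [mem_formGroup]
  exact Iff.rfl

/-- The group generated by the transvections in `GL`. -/
def TG (σ : k →+* k) (ε : k) (J : Matrix n n k) : Subgroup (GL n k) := (GT σ ε J).map gl

theorem gl_mem_TG {g : SpecialLinearGroup n k} (h : g ∈ GT σ ε J) : gl g ∈ TG σ ε J :=
  ⟨g, h, rfl⟩

theorem TG_le (hF : Frm σ ε J) : TG σ ε J ≤ IG σ J := by
  rintro _ ⟨g, hg, rfl⟩
  exact gl_mem.2 (GT_le hF hg)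

/-- The group generated by the transvections is normalised by the isometries. -/
theorem conj_TG {g : GL n k} (hg : g ∈ IG σ J) {t : GL n k} (ht : t ∈ TG σ ε J) :
    g⁻¹ * t * g ∈ TG σ ε J := by
  obtain ⟨t, ht, rfl⟩ := ht
  refine Subgroup.closure_induction (p := fun t _ => g⁻¹ * gl t * g ∈ TG σ ε J) ?_ ?_ ?_ ?_ ht
  · rintro _ ⟨u, c, hu, hc, rfl⟩
    have hug : hf σ J (u ᵥ* g.1) (u ᵥ* g.1) = 0 := by rw [mem_IG.1 hg, hu]
    have e : g⁻¹ * gl (tv σ J u c) * g = gl (tv σ J (u ᵥ* g.1) c) := by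
      refine ext_vm fun x => ?_
      rw [vm_mul, vm_mul, gl_val, gl_val, vecMul_tv hu, vecMul_tv hug, add_vecMul,
        vm_inv_cancel, smul_vecMul]
      have h := mem_IG.1 hg (x ᵥ* (g⁻¹).1) u
      rw [vm_inv_cancel] at h
      rw [h]
    rw [e]
    exact gl_mem_TG (tv_mem_GT hug hc)
  · rw [map_one, mul_one, inv_mul_cancel]
    exact one_mem _
  · intro a b _ _ ha hb
    have e : g⁻¹ * gl (a * b) * g = (g⁻¹ * gl a * g) * (g⁻¹ * gl b * g) := by
      rw [map_mul]; group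
    rw [e]
    exact mul_mem ha hb
  · intro a _ ha
    have e : g⁻¹ * gl a⁻¹ * g = (g⁻¹ * gl a * g)⁻¹ := by
      rw [map_inv]; group
    rw [e]
    exact inv_mem ha

theorem conj_TG' {g : GL n k} (hg : g ∈ IG σ J) {t : GL n k} (ht : t ∈ TG σ ε J) :
    g * t * g⁻¹ ∈ TG σ ε J := by
  have := conj_TG (inv_mem hg) ht
  rwa [inv_inv] at this

/-! ### Rank one perturbations -/

/-- The matrix of `x ↦ x + c h(x, v) u`. -/
def rk (σ : k →+* k) (J : Matrix n n k) (v u : n → k) (c : k) : Matrix n n k :=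
  1 + vecMulVec (J *ᵥ fun i => σ (v i)) (c • u)

theorem vecMul_rk (x v u : n → k) (c : k) :
    x ᵥ* rk σ J v u c = x + (c * hf σ J x v) • u := by
  unfold rk hf
  rw [vecMul_add, vecMul_one, vecMul_vecMulVec, smul_smul, mul_comm]

theorem det_rk (v u : n → k) (c : k) : (rk σ J v u c).det = 1 + c * hf σ J u v := by
  unfold rk hf
  have h := det_one_add_replicateCol_mul_replicateRow (ι := Unit) (J *ᵥ fun i => σ (v i)) (c • u)
  rw [← vecMulVec_eq] at h
  rw [h, smul_dotProduct, smul_eq_mul]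

/-- The torus element of a hyperbolic pair, as a matrix. -/
def tbm (σ : k →+* k) (ε : k) (J : Matrix n n k) (u w : n → k) (b : k) : Matrix n n k :=
  rk σ J w u (b - 1) * rk σ J u w (((σ b)⁻¹ - 1) * ε)

section tb

variable (hF : Frm σ ε J) {u w : n → k} (hu : hf σ J u u = 0) (hw : hf σ J w w = 0)
  (huw : hf σ J u w = 1) {b : k}

include hu in
theorem vecMul_tbm (x : n → k) : x ᵥ* tbm σ ε J u w b =
    x + ((b - 1) * hf σ J x w) • u + (((σ b)⁻¹ - 1) * ε * hf σ J x u) • w := by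
  unfold tbm
  rw [← vecMul_vecMul, vecMul_rk, vecMul_rk, hf_add_left, hf_smul_left, hu, mul_zero, add_zero]

include hF huw in
theorem det_tbm : (tbm σ ε J u w b).det = b * (σ b)⁻¹ := by
  unfold tbm
  rw [det_mul, det_rk, det_rk, huw, hF.swap huw]
  have h := hF.eps
  linear_combination ((1 + (b - 1) * 1) * ((σ b)⁻¹ - 1)) * h

/-- The torus element of a hyperbolic pair (`1` if the data are not right). -/
noncomputable def tb (σ : k →+* k) (ε : k) (J : Matrix n n k) (u w : n → k) (b : k) : GL n k := by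
  classical
  exact if h : (tbm σ ε J u w b).det ≠ 0 then
    GeneralLinearGroup.mkOfDetNeZero (tbm σ ε J u w b) h else 1

include hF huw in
theorem tb_val (hb : b ≠ 0) : (tb σ ε J u w b).1 = tbm σ ε J u w b := by
  have h : (tbm σ ε J u w b).det ≠ 0 := by
    rw [det_tbm hF huw]
    exact mul_ne_zero hb (inv_ne_zero (by rwa [Ne, map_eq_zero]))
  unfold tb
  rw [dif_pos h]
  rfl

include hF hu huw in
theorem vm_tb (hb : b ≠ 0) (x : n → k) : x ᵥ* (tb σ ε J u w b).1 =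
    x + ((b - 1) * hf σ J x w) • u + (((σ b)⁻¹ - 1) * ε * hf σ J x u) • w := by
  rw [tb_val hF huw hb, vecMul_tbm hu]

include hF hu huw in
theorem u_tb (hb : b ≠ 0) : u ᵥ* (tb σ ε J u w b).1 = b • u := by
  rw [vm_tb hF hu huw hb, hu, huw]
  module

include hF hu hw huw in
theorem w_tb (hb : b ≠ 0) : w ᵥ* (tb σ ε J u w b).1 = (σ b)⁻¹ • w := by
  rw [vm_tb hF hu huw hb, hw, hF.swap huw]
  have e : ((σ b)⁻¹ - 1) * ε * ε = (σ b)⁻¹ - 1 := by
    linear_combination ((σ b)⁻¹ - 1) * hF.eps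
  rw [e]
  module

include hF hu huw in
theorem y_tb (hb : b ≠ 0) {y : n → k} (h1 : hf σ J y u = 0) (h2 : hf σ J y w = 0) :
    y ᵥ* (tb σ ε J u w b).1 = y := by
  rw [vm_tb hF hu huw hb, h1, h2]
  module

include hF hu hw huw in
theorem tb_mem (hb : b ≠ 0) : tb σ ε J u w b ∈ IG σ J := by
  rw [mem_IG]
  intro x y
  rw [vm_tb hF hu huw hb, vm_tb hF hu huw hb]
  have hσb : σ b ≠ 0 := by rwa [Ne, map_eq_zero]
  simp only [hf_add_left, hf_add_right, hf_smul_left, hf_smul_right, hu, hw, huw, hF.swap huw,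
    map_mul, map_sub, map_one, map_inv₀, hF.inv, hF.seps, mul_zero, add_zero, mul_one]
  have h1 : hf σ J u y = ε * σ (hf σ J y u) := hF.herm y u
  have h2 : hf σ J w y = ε * σ (hf σ J y w) := hF.herm y w
  rw [h1, h2]
  have he := hF.eps
  have hb1 : b * b⁻¹ = 1 := mul_inv_cancel₀ hb
  have hb2 : σ b * (σ b)⁻¹ = 1 := mul_inv_cancel₀ hσb
  linear_combination (ε * hf σ J x w * σ (hf σ J y u)) * hb1 +
    (hf σ J x u * σ (hf σ J y w)) * hb2 +
    (((σ b)⁻¹ - 1) * hf σ J x u * σ (hf σ J y w) +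
      ((σ b)⁻¹ - 1) * (σ b - 1) * hf σ J x u * σ (hf σ J y w)) * he

/-- Extensionality on a hyperbolic pair and its orthogonal. -/
theorem ext_pair (hF : Frm σ ε J) {u w : n → k} (hu : hf σ J u u = 0) (hw : hf σ J w w = 0)
    (huw : hf σ J u w = 1) {g g' : GL n k} (h1 : u ᵥ* g.1 = u ᵥ* g'.1)
    (h2 : w ᵥ* g.1 = w ᵥ* g'.1)
    (h3 : ∀ y, hf σ J y u = 0 → hf σ J y w = 0 → y ᵥ* g.1 = y ᵥ* g'.1) : g = g' := by
  have hwu := hF.swap huw
  refine ext_vm fun x => ?_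
  obtain ⟨y, hy⟩ : ∃ y, y = x + (-hf σ J x w) • u + (-(ε * hf σ J x u)) • w := ⟨_, rfl⟩
  have hyu : hf σ J y u = 0 := by
    rw [hy, hf_add_left, hf_add_left, hf_smul_left, hf_smul_left, hu, hwu]
    linear_combination -hf σ J x u * hF.eps
  have hyw : hf σ J y w = 0 := by
    rw [hy, hf_add_left, hf_add_left, hf_smul_left, hf_smul_left, huw, hw]
    ring
  have e : x = y + hf σ J x w • u + (ε * hf σ J x u) • w := by
    rw [hy]; module
  obtain ⟨p, hp⟩ : ∃ p, p = hf σ J x w := ⟨_, rfl⟩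
  obtain ⟨q, hq⟩ : ∃ q, q = ε * hf σ J x u := ⟨_, rfl⟩
  rw [← hp, ← hq] at e
  rw [e, add_vecMul, add_vecMul, add_vecMul, add_vecMul, smul_vecMul, smul_vecMul, smul_vecMul,
    smul_vecMul, h1, h2, h3 y hyu hyw]

include hF hu hw huw in
theorem tb_mul {b c : k} (hb : b ≠ 0) (hc : c ≠ 0) :
    tb σ ε J u w b * tb σ ε J u w c = tb σ ε J u w (b * c) := by
  refine ext_pair hF hu hw huw ?_ ?_ fun y h1 h2 => ?_
  · rw [vm_mul, u_tb hF hu huw hb, smul_vecMul, u_tb hF hu huw hc,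
      u_tb hF hu huw (mul_ne_zero hb hc), smul_smul]
  · rw [vm_mul, w_tb hF hu hw huw hb, smul_vecMul, w_tb hF hu hw huw hc,
      w_tb hF hu hw huw (mul_ne_zero hb hc), smul_smul, map_mul, _root_.mul_inv]
  · rw [vm_mul, y_tb hF hu huw hb h1 h2, y_tb hF hu huw hc h1 h2,
      y_tb hF hu huw (mul_ne_zero hb hc) h1 h2]

include hF hu hw huw in
/-- The torus elements over the fixed field are products of transvections. -/
theorem tb_mem_TG (hb : b ≠ 0) (hσb : σ b = b) : tb σ ε J u w b ∈ TG σ ε J := by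
  obtain ⟨s, hs0, hs⟩ := hF.cc
  have e : tb σ ε J u w b = gl (dv σ ε J u w s b⁻¹) := by
    refine ext_pair hF hu hw huw ?_ ?_ fun y h1 h2 => ?_
    · rw [u_tb hF hu huw hb, gl_val, u_dv hF hu hw huw hs0 (inv_ne_zero hb), inv_inv]
    · rw [w_tb hF hu hw huw hb, gl_val, w_dv hF hu hw huw hs0 (inv_ne_zero hb), hσb]
    · rw [y_tb hF hu huw hb h1 h2, gl_val, y_dv hu hw h1 h2]
  rw [e]
  exact gl_mem_TG (dv_mem hF hu hw hs0 hs (inv_ne_zero hb) (by rw [map_inv₀, hσb]))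

end tb

/-! ### The product of the transvection group and the torus -/

section NN

variable (hF : Frm σ ε J) {u₀ w₀ : n → k} (hu₀ : hf σ J u₀ u₀ = 0) (hw₀ : hf σ J w₀ w₀ = 0)
  (huw₀ : hf σ J u₀ w₀ = 1)

/-- Products of an element of the transvection group and of a torus element. -/
def NN (σ : k →+* k) (ε : k) (J : Matrix n n k) (u₀ w₀ : n → k) : Set (GL n k) :=
  {g | ∃ t ∈ TG σ ε J, ∃ b : k, b ≠ 0 ∧ g = t * tb σ ε J u₀ w₀ b}

include hF hu₀ hw₀ huw₀ in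
theorem NN_mul {g g' : GL n k} (hg : g ∈ NN σ ε J u₀ w₀) (hg' : g' ∈ NN σ ε J u₀ w₀) :
    g * g' ∈ NN σ ε J u₀ w₀ := by
  obtain ⟨t, ht, b, hb, rfl⟩ := hg
  obtain ⟨t', ht', b', hb', rfl⟩ := hg'
  refine ⟨t * (tb σ ε J u₀ w₀ b * t' * (tb σ ε J u₀ w₀ b)⁻¹),
    mul_mem ht (conj_TG' (tb_mem hF hu₀ hw₀ huw₀ hb) ht'), b * b', mul_ne_zero hb hb', ?_⟩
  rw [← tb_mul hF hu₀ hw₀ huw₀ hb hb']
  group

include hF hu₀ hw₀ huw₀ in
theorem tb_one : tb σ ε J u₀ w₀ 1 = 1 := by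
  refine ext_pair hF hu₀ hw₀ huw₀ ?_ ?_ fun y h1 h2 => ?_
  · rw [u_tb hF hu₀ huw₀ one_ne_zero, one_smul, vm_one]
  · rw [w_tb hF hu₀ hw₀ huw₀ one_ne_zero, map_one, inv_one, one_smul, vm_one]
  · rw [y_tb hF hu₀ huw₀ one_ne_zero h1 h2, vm_one]

include hF hu₀ hw₀ huw₀ in
theorem TG_NN {t : GL n k} (ht : t ∈ TG σ ε J) : t ∈ NN σ ε J u₀ w₀ :=
  ⟨t, ht, 1, one_ne_zero, by rw [tb_one hF hu₀ hw₀ huw₀, mul_one]⟩

include hF hu₀ hw₀ huw₀ in
/-- The torus elements of all hyperbolic pairs. -/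
theorem tb_NN {r : k} (hr : σ r = r) (hr0 : r ≠ 0) (hr1 : r ≠ 1) {u w : n → k}
    (hu : hf σ J u u = 0) (hw : hf σ J w w = 0) (huw : hf σ J u w = 1) {b : k} (hb : b ≠ 0) :
    tb σ ε J u w b ∈ NN σ ε J u₀ w₀ := by
  obtain ⟨g, hg, a, ha, h1, h2⟩ := pair_trans' hF hr hr0 hr1 hu₀ hw₀ hu hw huw₀ huw
  have hσa : σ a ≠ 0 := by rwa [Ne, map_eq_zero]
  have hgF := GT_le hF hg
  -- the conjugate
  have e : tb σ ε J u w b = (gl g)⁻¹ * tb σ ε J u₀ w₀ b * gl g := by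
    rw [eq_comm, mul_assoc, inv_mul_eq_iff_eq_mul]
    refine ext_pair hF hu₀ hw₀ huw₀ ?_ ?_ fun y h3 h4 => ?_
    · rw [vm_mul, vm_mul, u_tb hF hu₀ huw₀ hb, smul_vecMul, gl_val, h1, smul_vecMul,
        u_tb hF hu huw hb, smul_smul, smul_smul, mul_comm]
    · rw [vm_mul, vm_mul, w_tb hF hu₀ hw₀ huw₀ hb, smul_vecMul, gl_val, h2, smul_vecMul,
        w_tb hF hu hw huw hb, smul_smul, smul_smul, mul_comm]
    · rw [vm_mul, vm_mul, y_tb hF hu₀ huw₀ hb h3 h4, gl_val]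
      have h5 : hf σ J (y ᵥ* g.1) u = 0 := by
        have h6 := mem_formGroup.mp hgF y u₀
        rw [h1, hf_smul_right, h3] at h6
        exact (mul_eq_zero.1 h6).resolve_left hσa
      have h5' : hf σ J (y ᵥ* g.1) w = 0 := by
        have h6 := mem_formGroup.mp hgF y w₀
        rw [h2, hf_smul_right, h4] at h6
        refine (mul_eq_zero.1 h6).resolve_left ?_
        rw [map_inv₀, hF.inv]
        exact inv_ne_zero ha
      rw [y_tb hF hu huw hb h5 h5']
  have h7 : tb σ ε J u₀ w₀ b * gl g * (tb σ ε J u₀ w₀ b)⁻¹ ∈ TG σ ε J :=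
    conj_TG' (tb_mem hF hu₀ hw₀ huw₀ hb) (gl_mem_TG hg)
  refine ⟨(gl g)⁻¹ * (tb σ ε J u₀ w₀ b * gl g * (tb σ ε J u₀ w₀ b)⁻¹),
    mul_mem (inv_mem (gl_mem_TG hg)) h7, b, hb, ?_⟩
  rw [e]
  group

/-! ### Quasi-reflections -/

/-- The condition that `x ↦ x + a h(x, v) v` is an isometry. -/
def QR (σ : k →+* k) (ε : k) (J : Matrix n n k) (v : n → k) (a : k) : Prop :=
  a + ε * σ a + ε * (a * σ a) * hf σ J v v = 0

theorem iso_QR (hF : Frm σ ε J) {v : n → k} {a : k} (h : QR σ ε J v a) {R : GL n k}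
    (hR : ∀ x, x ᵥ* R.1 = x + (a * hf σ J x v) • v) : R ∈ IG σ J := by
  rw [mem_IG]
  intro x y
  rw [hR, hR]
  simp only [hf_add_left, hf_add_right, hf_smul_left, hf_smul_right, map_mul]
  have h1 : hf σ J v y = ε * σ (hf σ J y v) := hF.herm y v
  rw [h1]
  unfold QR at h
  have he := hF.eps
  linear_combination (ε * hf σ J x v * σ (hf σ J y v)) * h -
    (σ a * hf σ J x v * σ (hf σ J y v) + a * σ a * hf σ J v v * hf σ J x v * σ (hf σ J y v)) * he

include hF hu₀ hw₀ huw₀ in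
/-- **The quasi-reflections.** -/
theorem QR_NN {r : k} (hr : σ r = r) (hr0 : r ≠ 0) (hr1 : r ≠ 1) {v : n → k} {a : k}
    (hv : hf σ J v v ≠ 0) (ha : a ≠ 0) (h : QR σ ε J v a) {R : GL n k}
    (hR : ∀ x, x ᵥ* R.1 = x + (a * hf σ J x v) • v) : R ∈ NN σ ε J u₀ w₀ := by
  have hRI := iso_QR hF h hR
  -- an isotropic vector which is not orthogonal to `v`
  obtain ⟨u, hu, huv⟩ : ∃ u, hf σ J u u = 0 ∧ hf σ J u v ≠ 0 := by
    by_contra hcon
    push Not at hcon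
    obtain ⟨y, hy⟩ := hF.nondeg v (fun h0 => hv (by rw [h0, hf_zero_left]))
    obtain ⟨x1, x2, x3, h1, h2, h3, rfl⟩ := hF.iso_decomp y
    refine hF.symm_ne hy ?_
    rw [hf_add_left, hf_add_left, hcon x1 h1, hcon x2 h2, hcon x3 h3, add_zero, add_zero]
  obtain ⟨α, hα⟩ := hF.exists_corr hu huv
  have hσuv : σ (hf σ J u v) ≠ 0 := by rwa [Ne, map_eq_zero]
  set c₁ : k := σ (hf σ J u v)⁻¹ with hc₁
  have hc₁0 : c₁ ≠ 0 := by
    rw [hc₁, Ne, map_eq_zero]
    exact inv_ne_zero huv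
  obtain ⟨w, hw'⟩ : ∃ w, w = c₁ • (v + α • u) := ⟨_, rfl⟩
  have hw : hf σ J w w = 0 := by rw [hw']; exact iso_smul hα c₁
  have huw : hf σ J u w = 1 := by
    rw [hw', hf_smul_right, hf_add_right, hf_smul_right, hu, mul_zero, add_zero, hc₁, hF.inv,
      inv_mul_cancel₀ huv]
  have hvP : v = c₁⁻¹ • w + (-α) • u := by
    rw [hw', smul_smul, inv_mul_cancel₀ hc₁0]
    module
  -- the orthogonal vectors are fixed
  have hyv : ∀ y, hf σ J y u = 0 → hf σ J y w = 0 → hf σ J y v = 0 := by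
    intro y h1 h2
    rw [hvP, hf_add_right, hf_smul_right, hf_smul_right, h1, h2, mul_zero, mul_zero, add_zero]
  have hRy : ∀ y, hf σ J y u = 0 → hf σ J y w = 0 → y ᵥ* R.1 = y := by
    intro y h1 h2
    rw [hR, hyv y h1 h2, mul_zero, zero_smul, add_zero]
  -- the image of `u`
  obtain ⟨u', hu'⟩ : ∃ u', u' = u ᵥ* R.1 := ⟨_, rfl⟩
  have hu'i : hf σ J u' u' = 0 := by rw [hu', mem_IG.1 hRI, hu]
  have hu'v : u' = u + (a * hf σ J u v) • v := by rw [hu']; exact hR u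
  have huu' : hf σ J u u' ≠ 0 := by
    rw [hu'v, hf_add_right, hf_smul_right, hu, zero_add, map_mul]
    exact mul_ne_zero (mul_ne_zero (by rwa [Ne, map_eq_zero]) hσuv) huv
  obtain ⟨τ, hτ, e, he0, hτu, hτy⟩ := trans_step hF hu hu'i huu'
  have hτI : gl τ ∈ IG σ J := gl_mem.2 (GT_le hF hτ)
  -- the remaining element
  set m : GL n k := R * (gl τ)⁻¹ with hm
  have hmI : m ∈ IG σ J := mul_mem hRI (inv_mem hτI)
  have hmu : u ᵥ* m.1 = e⁻¹ • u := by
    rw [hm, vm_mul, ← hu']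
    have h1 : u' = e⁻¹ • (u ᵥ* (gl τ).1) := by
      rw [gl_val, hτu, smul_smul, inv_mul_cancel₀ he0, one_smul]
    rw [h1, smul_vecMul, vm_cancel_inv]
  have hmy : ∀ y, hf σ J y u = 0 → hf σ J y w = 0 → y ᵥ* m.1 = y := by
    intro y h1 h2
    have h3 : hf σ J y u' = 0 := by
      rw [hu'v, hf_add_right, hf_smul_right, h1, hyv y h1 h2, mul_zero, add_zero]
    have h4 := hτy y h1 h3
    rw [hm, vm_mul, hRy y h1 h2]
    have h5 := vm_cancel_inv y (gl τ)
    rw [gl_val, h4] at h5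
    exact h5
  set b : k := e⁻¹ with hb
  have hb0 : b ≠ 0 := inv_ne_zero he0
  have hσb : σ b ≠ 0 := by rwa [Ne, map_eq_zero]
  -- the image of `w`
  obtain ⟨w', hw''⟩ : ∃ w', w' = w ᵥ* m.1 := ⟨_, rfl⟩
  have hw'i : hf σ J w' w' = 0 := by rw [hw'', mem_IG.1 hmI, hw]
  have huw' : b * hf σ J u w' = 1 := by
    have h1 := mem_IG.1 hmI u w
    rw [hmu, hf_smul_left, huw, ← hw''] at h1
    exact h1
  have hwu := hF.swap huw
  have hyw' : ∀ y, hf σ J y u = 0 → hf σ J y w = 0 → hf σ J y w' = 0 := by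
    intro y h1 h2
    have h3 := mem_IG.1 hmI y w
    rwa [hmy y h1 h2, h2, ← hw''] at h3
  obtain ⟨β, hβ⟩ : ∃ β, β = hf σ J w' w := ⟨_, rfl⟩
  obtain ⟨γ, hγ⟩ : ∃ γ, γ = ε * hf σ J w' u := ⟨_, rfl⟩
  have hw'P : w' = β • u + γ • w := by
    -- the difference is orthogonal to everything
    by_contra hne
    have hne' : w' + (-β) • u + (-γ) • w ≠ 0 := by
      intro h0
      apply hne
      have h1 : w' = (w' + (-β) • u + (-γ) • w) + β • u + γ • w := by module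
      rw [h1, h0, zero_add]
    obtain ⟨x, hx⟩ := hF.nondeg _ hne'
    apply hx
    obtain ⟨z, hz⟩ : ∃ z, z = w' + (-β) • u + (-γ) • w := ⟨_, rfl⟩
    rw [← hz]
    have hzu : hf σ J z u = 0 := by
      rw [hz, hf_add_left, hf_add_left, hf_smul_left, hf_smul_left, hu, hwu, hγ]
      linear_combination -hf σ J w' u * hF.eps
    have hzw : hf σ J z w = 0 := by
      rw [hz, hf_add_left, hf_add_left, hf_smul_left, hf_smul_left, huw, hw, hβ]
      ring
    obtain ⟨y, hy⟩ : ∃ y, y = x + (-hf σ J x w) • u + (-(ε * hf σ J x u)) • w := ⟨_, rfl⟩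
    have hyu : hf σ J y u = 0 := by
      rw [hy, hf_add_left, hf_add_left, hf_smul_left, hf_smul_left, hu, hwu]
      linear_combination -hf σ J x u * hF.eps
    have hyw : hf σ J y w = 0 := by
      rw [hy, hf_add_left, hf_add_left, hf_smul_left, hf_smul_left, huw, hw]
      ring
    have hzy : hf σ J z y = 0 := by
      refine hF.symm_zero ?_
      rw [hz, hf_add_right, hf_add_right, hf_smul_right, hf_smul_right, hyu, hyw,
        hyw' y hyu hyw, mul_zero, mul_zero, add_zero, add_zero]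
    have e2 : x = y + hf σ J x w • u + (ε * hf σ J x u) • w := by
      rw [hy]; module
    obtain ⟨p, hp⟩ : ∃ p, p = hf σ J x w := ⟨_, rfl⟩
    obtain ⟨q, hq⟩ : ∃ q, q = ε * hf σ J x u := ⟨_, rfl⟩
    rw [← hp, ← hq] at e2
    rw [e2, hf_add_right, hf_add_right, hf_smul_right, hf_smul_right, hzy, hzu, hzw, mul_zero,
      mul_zero, add_zero, add_zero]
  have hγb : γ = (σ b)⁻¹ := by
    have h1 : hf σ J u w' = σ γ := by
      rw [hw'P, hf_add_right, hf_smul_right, hf_smul_right, hu, huw, mul_zero, zero_add, mul_one]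
    rw [h1] at huw'
    have h2 := congrArg σ huw'
    rw [map_mul, hF.inv, map_one] at h2
    exact (eq_inv_of_mul_eq_one_right h2)
  have hγ0 : γ ≠ 0 := by
    rw [hγb]
    exact inv_ne_zero hσb
  have hσγ : σ γ ≠ 0 := by rwa [Ne, map_eq_zero]
  have hrel : β * σ γ + ε * (γ * σ β) = 0 := by
    rw [hw'P] at hw'i
    simp only [hf_add_left, hf_add_right, hf_smul_left, hf_smul_right, hu, hw, huw, hwu,
      mul_zero, add_zero, zero_add, mul_one] at hw'i
    linear_combination hw'i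
  have hc : ε * β / γ + ε * σ (ε * β / γ) = 0 := by
    rw [map_div₀, map_mul, hF.seps]
    have h1 : ε * β / γ + ε * (ε * σ β / σ γ) =
        ε * (β * σ γ + ε * (γ * σ β)) / (γ * σ γ) := by
      field_simp
    rw [h1, hrel, mul_zero, zero_div]
  have hmT : m = tb σ ε J u w b * gl (tv σ J u (ε * β / γ)) := by
    refine ext_pair hF hu hw huw ?_ ?_ fun y h1 h2 => ?_
    · rw [hmu, vm_mul, u_tb hF hu huw hb0, smul_vecMul, gl_val, vecMul_tv hu, hu, mul_zero,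
        zero_smul, add_zero]
    · rw [← hw'', hw'P, vm_mul, w_tb hF hu hw huw hb0, smul_vecMul, gl_val, vecMul_tv hu, hwu,
        ← hγb, smul_add, smul_smul]
      have e3 : γ * (ε * β / γ * ε) = β := by
        field_simp
        linear_combination β * hF.eps
      rw [e3, add_comm]
    · rw [hmy y h1 h2, vm_mul, y_tb hF hu huw hb0 h1 h2, gl_val, vecMul_tv hu, h1, mul_zero,
        zero_smul, add_zero]
  have hRm : R = tb σ ε J u w b * gl (tv σ J u (ε * β / γ)) * gl τ := by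
    rw [← hmT, hm, inv_mul_cancel_right]
  rw [hRm]
  exact NN_mul hF hu₀ hw₀ huw₀ (NN_mul hF hu₀ hw₀ huw₀
    (tb_NN hF hu₀ hw₀ huw₀ hr hr0 hr1 hu hw huw hb0)
    (TG_NN hF hu₀ hw₀ huw₀ (gl_mem_TG (tv_mem_GT hu hc))))
    (TG_NN hF hu₀ hw₀ huw₀ (gl_mem_TG hτ))

end NN

end Vale.Agent.P092.H714.Cl
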