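import Vale.Agent.P092.H714.BalA
import Vale.Agent.P092.H967.S3
import Vale.Agent.P092.H200.Graph

/-!
P092 (helper714), block [S9], first part: abstract geometric input and far pairs in the row model.
-/

set_option linter.all false

open scoped InnerProductSpace
open Filter Topology ContinuousLinearMap

namespace Vale.Agent.P092.H714

open Vale.Agent.P092.H160 Vale.Agent.P092.H553 Vale.Agent.P092.H432 Vale.Agent.P092.H200

/-- The region where both gaps are large. -/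
def RegA {Γ : Type} (G12 G23 : Γ → ℝ) (r : ℝ) (g : Γ) : Prop := r ≤ G12 g ∧ r ≤ G23 g

/-- The geometric facts used by the argument: two gap functions, a weight `q` and a class `FF` of
functions with values in `[0, 1]`. -/
structure GeoA {Γ : Type} [Group Γ] (G12 G23 q : Γ → ℝ) (FF : Set (Γ → ℝ)) : Prop where
  q_mem : ∀ g, 0 ≤ q g ∧ q g ≤ 1
  q_inv : ∀ g, q g⁻¹ = 1 - q g
  q_tr : ∀ s t, Tendsto (fun g => q (s * g * t) - q g) cofinite (𝓝 0)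
  q_low : ∀ M : ℝ, Tendsto (fun g => q g * ind (fun g => G23 g < M) g) cofinite (𝓝 0)
  reg_shift : ∀ a : Γ, ∃ C : ℝ, 0 < C ∧ ∀ r, 0 < r → ∀ g, RegA G12 G23 (C * r) (a * g) →
    RegA G12 G23 r g
  mem : ∀ H ∈ FF, ∀ g, 0 ≤ H g ∧ H g ≤ 1
  right : ∀ H ∈ FF, ∀ t : Γ, Tendsto (fun g => q g * |H (g * t) - H g|) cofinite (𝓝 0)
  far : ∀ H ∈ FF, ∀ r δ : ℝ, 3 ≤ r → 0 < δ → ∃ κ : ℝ, 0 < κ ∧ ∃ T : Finset Γ,
    (∀ k h, G12 k ≤ r → G12 h ≤ r → δ ≤ |H k - H h| →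
      κ * G23 k ≤ G12 (k⁻¹ * h) ∧ κ * G23 h ≤ G23 (k⁻¹ * h)) ∧
    (∀ k₁ h₁ k₂ h₂, G12 k₁ ≤ r → G12 h₁ ≤ r → G12 k₂ ≤ r → G12 h₂ ≤ r → δ ≤ |H k₁ - H h₁| →
      δ ≤ |H k₂ - H h₂| → k₁⁻¹ * h₁ = k₂⁻¹ * h₂ → k₂ * k₁⁻¹ ∈ T)

section

variable {Γ Λ ι : Type} [Group Γ] [Group Λ] [Fintype ι] {t : ℝ}
  {R : Λ → (Ell2 (Γ × ι) →L[ℂ] Ell2 (Γ × ι))} {G12 G23 q : Γ → ℝ} {FF : Set (Γ → ℝ)}

/-- Confinement in the row model. -/
def ConfA (R : Λ → (Ell2 (Γ × ι) →L[ℂ] Ell2 (Γ × ι))) (G12 G23 : Γ → ℝ) (K : Subgroup Λ) : Prop :=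
  ∀ ε : ℝ, 0 < ε → ∃ r : ℝ, ∀ w : Λ, (∀ v ∈ K, w * v = v * w) →
    massA R (RegA G12 G23 r) w ≤ ε

theorem RegA.mono {r r' : ℝ} (h : r' ≤ r) {g : Γ} (hg : RegA G12 G23 r g) : RegA G12 G23 r' g :=
  ⟨h.trans hg.1, h.trans hg.2⟩

theorem mp_ind_ep_le (R : Λ → (Ell2 (Γ × ι) →L[ℂ] Ell2 (Γ × ι))) (P : Γ → Prop) (w : Λ) (i : ι) :
    ‖mp ι (ind P) (R w (ep i))‖ ≤ massA R P w := by
  unfold massA
  refine Real.le_sqrt_of_sq_le ?_
  exact Finset.single_le_sum (f := fun i => ‖mp ι (ind P) (R w (ep i))‖ ^ 2)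
    (fun i _ => by positivity) (Finset.mem_univ i)

theorem norm_mp_mono {F G : Γ → ℝ} {C D : ℝ} (hF : ∀ g, |F g| ≤ C) (hG : ∀ g, |G g| ≤ D)
    (h : ∀ g, |F g| ≤ |G g|) (ξ : Ell2 (Γ × ι)) : ‖mp ι F ξ‖ ≤ ‖mp ι G ξ‖ :=
  norm_mo_le_mo (F := fun x : Γ × ι => F x.1) (G := fun x : Γ × ι => G x.1) (fun x => hF x.1)
    (fun x => hG x.1) (fun x => h x.1) ξ

theorem norm_mp_ind_mono {P Q : Γ → Prop} (h : ∀ x, P x → Q x) (ξ : Ell2 (Γ × ι)) :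
    ‖mp ι (ind P) ξ‖ ≤ ‖mp ι (ind Q) ξ‖ := by
  refine norm_mp_mono (abs_ind_le P) (abs_ind_le Q) (fun x => ?_) ξ
  by_cases hx : P x
  · rw [ind_pos hx, ind_pos (h x hx)]
  · rw [ind_neg hx, abs_zero]; exact abs_nonneg _

theorem conf_shiftA (hR : ARep t R) (hg : GeoA G12 G23 q FF) {K : Subgroup Λ}
    (hc : ConfA R G12 G23 K) (a : Γ × ι) {ε : ℝ} (hε : 0 < ε) :
    ∃ r : ℝ, 3 ≤ r ∧ ∀ w : Λ, (∀ v ∈ K, w * v = v * w) →
      ‖mp ι (ind (RegA G12 G23 r)) (R w (dl a))‖ ≤ ε := by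
  obtain ⟨r, hr⟩ := hc ε hε
  obtain ⟨C, hC, hsh⟩ := hg.reg_shift a.1
  refine ⟨max 3 (C * max r 1), le_max_left _ _, fun w hw => ?_⟩
  have h0 : (dl a : Ell2 (Γ × ι)) = lx a.1 (ep a.2) := by rw [lx_ep]
  have h1 : lx a.1 (mp ι (fun g : Γ => ind (RegA G12 G23 (max 3 (C * max r 1))) (a.1 * g))
      (R w (ep a.2))) = mp ι (ind (RegA G12 G23 (max 3 (C * max r 1)))) (R w (dl a)) := by
    rw [lx_mp (C := 1) (fun g => abs_ind_le _ _), h0, hR.lx]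
    congr 2
    funext g
    rw [mul_inv_cancel_left]
  rw [← h1, norm_lx]
  refine le_trans ?_ ((mp_ind_ep_le R _ w a.2).trans (hr w hw))
  refine norm_mp_mono (C := 1) (D := 1) (fun g => abs_ind_le _ _) (abs_ind_le _) (fun g => ?_) _
  by_cases hx : RegA G12 G23 (max 3 (C * max r 1)) (a.1 * g)
  · have h2 : RegA G12 G23 r g := by
      refine RegA.mono (le_max_left r 1) (hsh (max r 1) (by positivity) _ ?_)
      exact RegA.mono (le_max_right _ _) hx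
    rw [ind_pos hx, ind_pos h2]
  · rw [ind_neg hx, abs_zero]
    exact abs_nonneg _

theorem comm_inv {K : Subgroup Λ} {y : ℕ → Λ} (hy : ∀ k, ∀ v ∈ K, y k * v = v * y k) :
    ∀ k w, (w = y k ∨ w = (y k)⁻¹) → (∀ v ∈ K, w * v = v * w) ∧ (∀ v ∈ K, w⁻¹ * v = v * w⁻¹) := by
  intro k w hw
  have key : ∀ v ∈ K, (y k)⁻¹ * v = v * (y k)⁻¹ := by
    intro v hv
    have := hy k v hv
    rw [inv_mul_eq_iff_eq_mul, ← mul_assoc, this, mul_assoc, mul_inv_cancel, mul_one]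
  rcases hw with rfl | rfl
  · exact ⟨hy k, key⟩
  · rw [inv_inv]; exact ⟨key, hy k⟩

theorem escape_inv {U : Ultrafilter ℕ} {y : ℕ → Λ} (hy : ∀ v : Λ, ∀ᶠ k in U, y k ≠ v) :
    ∀ v : Λ, ∀ᶠ k in U, (y k)⁻¹ ≠ v := by
  intro v
  filter_upwards [hy v⁻¹] with k hk h
  exact hk (by rw [← h, inv_inv])

/-- Mass outside of the wall region `{G12 ≤ r, M ≤ G23}`. -/
theorem mass_wall (hR : ARep t R) (hg : GeoA G12 G23 q FF) {U : Ultrafilter ℕ} {K : Subgroup Λ}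
    {r M ε : ℝ} (hε : 0 < ε) (hMr : r ≤ M) (y : ℕ → Λ) (hy : ∀ k, ∀ v ∈ K, y k * v = v * y k)
    (hyU : ∀ v : Λ, ∀ᶠ k in U, y k ≠ v) (a : Γ × ι) {ra : ℝ} (hra : ra ≤ r)
    (hmass : ∀ w : Λ, (∀ v ∈ K, w * v = v * w) →
      ‖mp ι (ind (RegA G12 G23 ra)) (R w (dl a))‖ ≤ ε / 2) :
    ∀ᶠ k in U, ∀ w, (w = y k ∨ w = (y k)⁻¹) →
      ‖mp ι (fun g : Γ => q g * ind (fun g : Γ => ¬ (G12 g ≤ r ∧ M ≤ G23 g)) g)
        (R w (dl a))‖ ≤ ε := by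
  have hlow := hg.q_low M
  have hq0 : ∀ g, 0 ≤ q g := fun g => (hg.q_mem g).1
  have hq1 : ∀ g, q g ≤ 1 := fun g => (hg.q_mem g).2
  have hlowb : ∀ g : Γ, |q g * ind (fun g : Γ => G23 g < M) g| ≤ 1 := by
    intro g
    rw [abs_mul, abs_of_nonneg (hq0 _)]
    exact mul_le_one₀ (hq1 _) (abs_nonneg _) (abs_ind_le _ _)
  have s1 := H967.smallA_of_tendsto hR hyU hlowb hlow (dl a)
  have s2 := H967.smallA_of_tendsto hR (escape_inv hyU) hlowb hlow (dl a)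
  filter_upwards [(Metric.tendsto_nhds.mp s1) (ε / 2) (by positivity),
    (Metric.tendsto_nhds.mp s2) (ε / 2) (by positivity)] with k hk1 hk2 w hw
  rw [dist_zero_right, norm_norm] at hk1 hk2
  have hlow2 : ‖mp ι (fun g : Γ => q g * ind (fun g : Γ => G23 g < M) g) (R w (dl a))‖ < ε / 2 := by
    rcases hw with rfl | rfl
    · exact hk1
    · exact hk2
  have hreg : ‖mp ι (ind (RegA G12 G23 r)) (R w (dl a))‖ ≤ ε / 2 :=
    le_trans (norm_mp_ind_mono (fun g hg => RegA.mono hra hg) _)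
      (hmass w (comm_inv hy k w hw).1)
  have hb1 : ∀ g : Γ, |q g * ind (fun g : Γ => ¬ (G12 g ≤ r ∧ M ≤ G23 g)) g| ≤ 1 := fun g => by
    rw [abs_mul, abs_of_nonneg (hq0 _)]
    exact mul_le_one₀ (hq1 _) (abs_nonneg _) (abs_ind_le _ _)
  have hb2 : ∀ g : Γ, |ind (RegA G12 G23 r) g + q g * ind (fun g : Γ => G23 g < M) g| ≤ 1 + 1 :=
    fun g => (abs_add_le _ _).trans (add_le_add (abs_ind_le _ _) (hlowb g))
  have hle : ∀ g : Γ, |q g * ind (fun g : Γ => ¬ (G12 g ≤ r ∧ M ≤ G23 g)) g| ≤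
      |ind (RegA G12 G23 r) g + q g * ind (fun g : Γ => G23 g < M) g| := by
    intro g
    have hpos : 0 ≤ ind (RegA G12 G23 r) g + q g * ind (fun g : Γ => G23 g < M) g :=
      add_nonneg (ind_nonneg _ _) (mul_nonneg (hq0 g) (ind_nonneg _ _))
    rw [abs_of_nonneg hpos, abs_of_nonneg (mul_nonneg (hq0 g) (ind_nonneg _ _))]
    by_cases hE : G12 g ≤ r ∧ M ≤ G23 g
    · rw [ind_neg (P := fun g : Γ => ¬ (G12 g ≤ r ∧ M ≤ G23 g)) (fun h => h hE), mul_zero]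
      exact hpos
    · rw [ind_pos (P := fun g : Γ => ¬ (G12 g ≤ r ∧ M ≤ G23 g)) hE, mul_one]
      by_cases h23 : G23 g < M
      · rw [ind_pos (P := fun g : Γ => G23 g < M) h23, mul_one]
        linarith [ind_nonneg (RegA G12 G23 r) g]
      · rw [not_lt] at h23
        have h12 : r < G12 g := by
          by_contra h
          exact hE ⟨not_lt.mp h, h23⟩
        have hReg : RegA G12 G23 r g := ⟨h12.le, hMr.trans h23⟩
        rw [ind_pos hReg]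
        have := mul_nonneg (hq0 g) (ind_nonneg (fun g : Γ => G23 g < M) g)
        linarith [hq1 g]
  have hsplit := norm_mp_mono (ι := ι) hb1 hb2 hle (R w (dl a))
  refine hsplit.trans ?_
  have hadd : mp ι (fun g : Γ => ind (RegA G12 G23 r) g + q g * ind (fun g : Γ => G23 g < M) g)
      (R w (dl a)) = mp ι (ind (RegA G12 G23 r)) (R w (dl a)) +
        mp ι (fun g : Γ => q g * ind (fun g : Γ => G23 g < M) g) (R w (dl a)) :=
    mo_add (F := fun x : Γ × ι => ind (RegA G12 G23 r) x.1)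
      (G := fun x : Γ × ι => q x.1 * ind (fun g : Γ => G23 g < M) x.1)
      (fun x => abs_ind_le _ x.1) (fun x => hlowb x.1) _
  rw [hadd]
  refine (norm_add_le _ _).trans ?_
  linarith

/-- Far pairs, from the confinement of the elements commuting with `K`. -/
theorem far_of_confA (hR : ARep t R) (hg : GeoA G12 G23 q FF) {U : Ultrafilter ℕ}
    {K : Subgroup Λ} (hc : ConfA R G12 G23 K) {z z' : ℕ → Λ}
    (hz : ∀ k, ∀ v ∈ K, z k * v = v * z k) (hz' : ∀ k, ∀ v ∈ K, z' k * v = v * z' k)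
    (hU : ∀ v : Λ, ∀ᶠ k in U, z k ≠ v) (hU' : ∀ v : Λ, ∀ᶠ k in U, z' k ≠ v) {H : Γ → ℝ}
    (hH : H ∈ FF) (a b : Γ × ι) : FarA U R z z' q H a b := by
  intro δ hδ ε hε
  obtain ⟨ra, hra3, hra⟩ := conf_shiftA hR hg hc a (show 0 < ε / 2 by positivity)
  obtain ⟨rb, hrb3, hrb⟩ := conf_shiftA hR hg hc b (show 0 < ε / 2 by positivity)
  obtain ⟨r, hr⟩ : ∃ r : ℝ, r = max ra rb := ⟨_, rfl⟩
  have hr3 : 3 ≤ r := by rw [hr]; exact hra3.trans (le_max_left _ _)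
  obtain ⟨κ, hκ0, T, hT1, hT2⟩ := hg.far H hH r δ hr3 hδ
  obtain ⟨R1, hR1⟩ := hc (ε / (Real.sqrt T.card + 1)) (by positivity)
  obtain ⟨M, hM⟩ : ∃ M : ℝ, M = max r (R1 / κ) := ⟨_, rfl⟩
  have hMr : r ≤ M := by rw [hM]; exact le_max_left _ _
  have hMκ : R1 ≤ κ * M := by
    have : R1 / κ ≤ M := by rw [hM]; exact le_max_right _ _
    rw [div_le_iff₀ hκ0] at this
    linarith
  refine ⟨fun g : Γ => G12 g ≤ r ∧ M ≤ G23 g, RegA G12 G23 R1, T,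
    mass_wall hR hg hε hMr z hz hU a (by rw [hr]; exact le_max_left _ _) hra,
    mass_wall hR hg hε hMr z' hz' hU' b (by rw [hr]; exact le_max_right _ _) hrb, ?_, ?_, ?_⟩
  · intro k h hk hh hd
    have h1 := hT1 k h hk.1 hh.1 hd
    refine ⟨hMκ.trans (le_trans ?_ h1.1), hMκ.trans (le_trans ?_ h1.2)⟩
    · exact mul_le_mul_of_nonneg_left hk.2 hκ0.le
    · exact mul_le_mul_of_nonneg_left hh.2 hκ0.le
  · intro k₁ h₁ k₂ h₂ e1 e2 e3 e4 d1 d2 he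
    exact hT2 _ _ _ _ e1.1 e2.1 e3.1 e4.1 d1 d2 he
  · intro k l w v hw hv
    have hwv : ∀ x ∈ K, (v * w⁻¹) * x = x * (v * w⁻¹) := by
      intro x hx
      have h1 := (comm_inv hz k w hw).2 x hx
      have h2 := (comm_inv hz' l v hv).1 x hx
      rw [mul_assoc, h1, ← mul_assoc, h2, mul_assoc]
    have h3 := hR1 _ hwv
    calc Real.sqrt T.card * _ ≤ Real.sqrt T.card * (ε / (Real.sqrt T.card + 1)) := by gcongr
      _ ≤ ε := by
        rw [mul_div_assoc', div_le_iff₀ (by positivity)]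
        nlinarith [Real.sqrt_nonneg (T.card : ℝ)]

end

end Vale.Agent.P092.H714
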