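import Vale.Agent.P092.H160.Bridge
import Vale.Agent.P092.H87.EndF

/-!
P092, block A-FIN: a `*`-isomorphism `θ : L(Γ) → L(Λ)` gives on `K = ℓ²(Λ)` two commuting unitary
representations with a common trace vector, `ρ g = θ(u_g)` of `Γ` and the right regular
representation `V` of `Λ`; and the conclusion of the block END for this pair is that `θ` is
canonical.
-/

set_option linter.all false

open scoped InnerProductSpace
open ContinuousLinearMap

namespace Vale.Agent.P092.H714.Fin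

open Vale.Agent.P092.H160

section gen

variable {G K : Type} [Group G] [NormedAddCommGroup K] [InnerProductSpace ℂ K] [CompleteSpace K]

/-- A representation whose adjoints are the inverses, with values in the unitary group. -/
noncomputable def toU (π : G →* (K →L[ℂ] K)) (h : ∀ g, adjoint (π g) = π g⁻¹) :
    G →* unitary (K →L[ℂ] K) where
  toFun g := ⟨π g, by
    rw [Unitary.mem_iff, star_eq_adjoint, h, ← map_mul, ← map_mul, inv_mul_cancel, mul_inv_cancel,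
      map_one]
    exact ⟨rfl, rfl⟩⟩
  map_one' := Subtype.ext (map_one π)
  map_mul' g g' := Subtype.ext (map_mul π g g')

theorem op_toU (π : G →* (K →L[ℂ] K)) (h : ∀ g, adjoint (π g) = π g⁻¹) (g : G) :
    H87.op (toU π h) g = π g := rfl

end gen

section pic

variable {Γ Λ K : Type} [Group Γ] [Group Λ] [NormedAddCommGroup K] [InnerProductSpace ℂ K]
  [CompleteSpace K]

/-- Two commuting unitary representations with a common trace vector, whose orbits of this vector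
are orthonormal bases. -/
structure Pr (ρ : Γ →* (K →L[ℂ] K)) (V : Λ →* (K →L[ℂ] K)) (ω : K) : Prop where
  rreg : RegRep ρ ω
  vreg : RegRep V ω
  comm : ∀ g v, ρ g * V v = V v * ρ g

/-- Commutation theorem: the commutant of `V` commutes with the commutant of `ρ`. -/
theorem Pr.commute {ρ : Γ →* (K →L[ℂ] K)} {V : Λ →* (K →L[ℂ] K)} {ω : K} (h : Pr ρ V ω)
    {A B : K →L[ℂ] K} (hA : Cmm V A) (hB : Cmm ρ B) : A * B = B * A :=
  h.rreg.commute h.vreg h.comm hA hB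

theorem Pr.symm {ρ : Γ →* (K →L[ℂ] K)} {V : Λ →* (K →L[ℂ] K)} {ω : K} (h : Pr ρ V ω) :
    Pr V ρ ω := ⟨h.vreg, h.rreg, fun v g => (h.comm g v).symm⟩

/-- The conclusion of the block END. -/
def EndC (ρ : Γ →* (K →L[ℂ] K)) (V : Λ →* (K →L[ℂ] K)) (ω : K) : Prop :=
  ∃ (w : K →L[ℂ] K) (δ : Γ ≃* Λ) (χ : Γ →* ℂ), adjoint w * w = 1 ∧ w * adjoint w = 1 ∧
    Cmm V w ∧ (∀ g, ‖χ g‖ = 1) ∧ ∀ g, ∀ A : K →L[ℂ] K, Cmm V A → A ω = V (δ g)⁻¹ ω →
      ρ g * w = χ g • (w * A)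

/-- If `ρ g = μ` is a scalar then `g = 1`. -/
theorem Pr.inj {ρ : Γ →* (K →L[ℂ] K)} {V : Λ →* (K →L[ℂ] K)} {ω : K} (h : Pr ρ V ω) {g : Γ}
    {μ : ℂ} (hg : ρ g = μ • 1) : g = 1 := by
  by_contra hne
  have h1 := h.rreg.inner_zero g hne
  have h2 : ρ g ω = μ • ω := by rw [hg]; rfl
  rw [h2, inner_smul_right, inner_self_eq_norm_sq_to_K, h.rreg.norm_one] at h1
  have h3 : μ = 0 := by simpa using h1
  have h4 := h.rreg.norm_map g ω
  rw [h2, h3, zero_smul, norm_zero, h.rreg.norm_one] at h4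
  exact zero_ne_one h4

open Vale.Agent.P092.H87 in
/-- The block END of helper87 in the present form. -/
theorem end_of {ρ : Γ →* (K →L[ℂ] K)} {V : Λ →* (K →L[ℂ] K)} {ω : K} (h : Pr ρ V ω)
    {ι : Type*} (b' : HilbertBasis ι ℂ K) (D : VonNeumannAlgebra K)
    (hV : ∀ v, ∀ T ∈ D, V v * T * V v⁻¹ ∈ D) (hR : ∀ g, ∀ T ∈ D, ρ g * T * ρ g⁻¹ ∈ D)
    (h1 : ∃ T ∈ D, T ≠ 0 ∧ FiniteDimensional ℂ (LinearMap.range (T : K →ₗ[ℂ] K)))
    (h2 : ∀ z, z ∈ D → z ∈ D.commutant → (∀ v, V v * z = z * V v) → ∃ μ : ℂ, z = μ • 1)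
    (h3 : ∀ z, z ∈ D → z ∈ D.commutant → (∀ g, ρ g * z = z * ρ g) → ∃ μ : ℂ, z = μ • 1)
    (h4 : TrZero b' (toU V h.vreg.adj) D)
    (h5 : ∀ N : Subgroup Λ, N.Normal → Finite N → N = ⊥) : EndC ρ V ω := by
  have hc : ∀ {G : Type} [Group G] (π : G →* (K →L[ℂ] K)) (hp : ∀ g, adjoint (π g) = π g⁻¹)
      (g : G) (T : K →L[ℂ] K), cj (toU π hp) g T = π g * T * π g⁻¹ := by
    intro G _ π hp g T
    rfl
  obtain ⟨w, δ, χ, hw, hχ, hδ⟩ := end_group (toU V h.vreg.adj) (toU ρ h.rreg.adj) (D := D) b'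
    h.vreg.basis (ξ₀ := ω) (fun v => h.vreg.basis_apply v)
    (fun g T hT => by rw [hc]; exact hV g T hT) (fun g T hT => by rw [hc]; exact hR g T hT)
    (fun v g => (h.comm g v).symm) h1 h2 h3 h4 h5 (fun g μ hg => h.inj hg)
    (fun A hA B hB => (h.commute hB hA).symm)
  refine ⟨w, δ, χ, Unitary.coe_star_mul_self w, Unitary.coe_mul_star_self w, hw, hχ,
    fun g A hA hA1 => hδ g A hA hA1⟩

end pic

section iso

variable {Γ Λ : Type} [Group Γ] [Group Λ]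

/-- The picture attached to an isomorphism. -/
theorem pr_of_iso (hΓ : ∀ g : Γ, g ≠ 1 → Set.Infinite {y : Γ | ∃ h, y = h * g * h⁻¹})
    (θ : LG Γ ≃⋆ₐ[ℂ] LG Λ) : Pr (alphaOf θ) (rhoH (G := Λ)) (dl 1 : Ell2 Λ) where
  rreg := (frame_of_iso hΓ θ).reg
  vreg := regRep_rho
  comm g v := (frame_of_iso hΓ θ).comm g v

/-- The other group is also ICC. -/
theorem icc_of_iso (hΓ : ∀ g : Γ, g ≠ 1 → Set.Infinite {y : Γ | ∃ h, y = h * g * h⁻¹})
    (θ : LG Γ ≃⋆ₐ[ℂ] LG Λ) : ∀ v : Λ, v ≠ 1 → Set.Infinite {y : Λ | ∃ h, y = h * v * h⁻¹} :=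
  (frame_of_iso hΓ θ).icc hΓ

/-- The conclusion of END for this picture gives canonicity. -/
theorem canonical_of_end (θ : LG Γ ≃⋆ₐ[ℂ] LG Λ)
    (h : EndC (alphaOf θ) (rhoH (G := Λ)) (dl 1 : Ell2 Λ)) : Canonical θ := by
  obtain ⟨w, δ, χ, hw1, hw2, hw, hχ, hδ⟩ := h
  have hkey : ∀ g, alphaOf θ g = χ g • (w * lam (δ g) * adjoint w) := by
    intro g
    have h1 := hδ g (lam (δ g)) (cmm_rho_lam _) (by
      rw [rhoH_apply, lam_dl, rho_dl, mul_one, one_mul, inv_inv])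
    have h2 := congrArg (fun T : Ell2 Λ →L[ℂ] Ell2 Λ => T * adjoint w) h1
    beta_reduce at h2
    rw [mul_assoc, hw2, mul_one, smul_mul_assoc] at h2
    exact h2
  have hc : ∀ g, χ g ∈ Submonoid.unitSphere ℂ := fun g => mem_sphere_zero_iff_norm.mpr (hχ g)
  refine canonical_of_form θ ⟨w, δ,
    { toFun := fun g => ⟨χ g, hc g⟩
      map_one' := Subtype.ext (map_one χ)
      map_mul' := fun g g' => Subtype.ext (map_mul χ g g') }, hw, hw1, hw2, hkey⟩

/-- Final form: if for every picture of the pair of groups the conclusion of END holds then every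
isomorphism is canonical. -/
theorem canonical_all
    (hΓ : ∀ g : Γ, g ≠ 1 → Set.Infinite {y : Γ | ∃ h, y = h * g * h⁻¹})
    (H : ∀ {K : Type} [NormedAddCommGroup K] [InnerProductSpace ℂ K] [CompleteSpace K]
      (ρ : Γ →* (K →L[ℂ] K)) (V : Λ →* (K →L[ℂ] K)) (ω : K), Pr ρ V ω → EndC ρ V ω)
    (θ : St.StarIso Γ Λ) : St.Canonical θ :=
  canonical_iff θ (canonical_of_end _ (H _ _ _ (pr_of_iso hΓ (toAlg θ))))

/-- A frame on `ℓ²(Λ)` is a picture. -/
theorem pr_of_frame {α : Γ →* (Ell2 Λ →L[ℂ] Ell2 Λ)} (h : Frame α) :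
    Pr α (rhoH (G := Λ)) (dl 1 : Ell2 Λ) := ⟨h.reg, regRep_rho, fun g v => h.comm g v⟩

/-- The same with frames only. -/
theorem canonical_frame
    (hΓ : ∀ g : Γ, g ≠ 1 → Set.Infinite {y : Γ | ∃ h, y = h * g * h⁻¹})
    (H : ∀ α : Γ →* (Ell2 Λ →L[ℂ] Ell2 Λ), Frame α → EndC α (rhoH (G := Λ)) (dl 1 : Ell2 Λ))
    (θ : St.StarIso Γ Λ) : St.Canonical θ :=
  canonical_iff θ (canonical_of_end _ (H _ (frame_of_iso hΓ (toAlg θ))))

end iso

end Vale.Agent.P092.H714.Fin
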