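import Vale.Agent.P092.H714.StC
import Vale.Agent.P092.H714.Cl9
import Vale.Agent.P092.H15.Sp
import Vale.Agent.P092.H264.S2Asm
import Vale.Agent.P092.PA.Fin

/-!
P092, block A-CLASS (helper714): isomorphisms between the group von Neumann algebras of irreducible
ICC lattices in products of two classical groups over local fields are canonical.
-/

set_option linter.all false

open Matrix Filter Topology

namespace Vale.Agent.P092.H714.Cl

open Vale.Agent.P092.H303 (FormGroup hyp Idx)
open Vale.Agent.P092.PC.St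

/-- Every group of the class is a factor. -/
theorem cls_fct {G : Type} [hG : Group G] [hT : TopologicalSpace G] (h : Cls G) :
    ∃ r, TF.Fct G r := by
  cases h with
  | sl k hk n hn =>
    obtain ⟨m, rfl⟩ := Nat.exists_eq_add_of_le' (show 1 ≤ n by omega)
    exact ⟨m, TF.fct_sl (H515.locK hk) (by omega)⟩
  | isom k hk σ hσ hn ε hε hσε ι J₀ hH hJ hu q hq G hG =>
    obtain rfl : G = FormGroup σ (hyp q ε J₀) := by
      ext g
      rw [hG]
      rfl
    have hcl : IsClosed (FormGroup σ (hyp q ε J₀) : Set (SpecialLinearGroup (Idx q ι) k)) :=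
      H303.isClosed_formGroup (continuous_of_norm hn) _
    by_cases hne : ∃ c, σ c ≠ c
    · -- unitary
      have h0 := frm0_of_aniso hσ hε hne hH hσε hJ
      have hcc := cc_of_ne hσ hε hσε hne
      have hF : Frm σ ε (hyp q ε J₀) := frm_hyp hσ hε hσε h0 hcc (by omega)
      obtain ⟨r, hr, hr1⟩ := exists_fix hF hn
      have hr0 : r ≠ 0 := by
        rintro rfl
        rw [norm_zero] at hr1
        linarith
      have hr1' : r ≠ 1 := by
        rintro rfl
        rw [norm_one] at hr1
        linarith
      have hGT := formGroup_eq_GT hF hne hr hr0 hr1'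
      refine ⟨q, fct_form (H515.locK hk) hn hσ hε hσε h0 hcc hq hJ hGT ?_⟩
      refine (H15.hmg_cl hn hF hGT.ge le_rfl hcl ?_).howeMoore
      rw [hGT]
      exact Subgroup.le_topologicalClosure _
    · -- symplectic
      obtain ⟨rfl, hι⟩ := hu.resolve_left hne
      push Not at hne
      obtain rfl : σ = RingHom.id k := RingHom.ext hne
      have hcc : ∃ c : k, c ≠ 0 ∧ c + -1 * (RingHom.id k) c = 0 :=
        ⟨1, one_ne_zero, by simp⟩
      have h0 : Frm0 (RingHom.id k) (-1) J₀ := frm0_empty
      have hF : Frm (RingHom.id k) (-1) (hyp q (-1) J₀) :=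
        frm_hyp hσ hε hσε h0 hcc (by omega)
      have hGT : FormGroup (RingHom.id k) (hyp q (-1) J₀) =
          GT (RingHom.id k) (-1) (hyp q (-1) J₀) := by
        refine H15.formGroup_eq_GT ⟨?_, ?_, ?_⟩
        · intro i
          rcases i with (i | i) | i
          · simp [hyp]
          · simp [hyp]
          · exact (hι.false i).elim
        · intro i j
          rcases i with (i | i) | i <;> rcases j with (j | j) | j <;>
            first
              | exact (hι.false i).elim
              | exact (hι.false j).elim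
              | simp [hyp, Matrix.one_apply, eq_comm]
        · intro h
          obtain ⟨v, hv0, hv⟩ := Matrix.exists_vecMul_eq_zero_iff.2 h
          obtain ⟨y, hy⟩ := hF.nondeg v hv0
          apply hy
          unfold hf
          rw [dotProduct_mulVec, hv, zero_dotProduct]
      refine ⟨q, fct_form (H515.locK hk) hn hσ hε hσε h0 hcc hq hJ hGT ?_⟩
      refine (H15.hmg_cl hn hF hGT.ge le_rfl hcl ?_).howeMoore
      rw [hGT]
      exact Subgroup.le_topologicalClosure _

/-- **The main theorem for classical groups.** -/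
theorem main_cls (Γ Λ : Type) [Group Γ] [Group Λ] (hΓ : ClsLattice Γ) (hΛ : ClsLattice Λ)
    (θ : H160.St.StarIso Γ Λ) : H160.St.Canonical θ := by
  obtain ⟨iΓ, E₁, E₂, _, _, _, _, i, c₁, c₂, hi⟩ := hΓ
  obtain ⟨iΛ, F₁, F₂, _, _, _, _, j, d₁, d₂, hj⟩ := hΛ
  obtain ⟨m₁, e₁⟩ := cls_fct c₁
  obtain ⟨m₂, e₂⟩ := cls_fct c₂
  obtain ⟨n₁, f₁⟩ := cls_fct d₁
  obtain ⟨n₂, f₂⟩ := cls_fct d₂
  exact TF.canonical_fct PA.blocks H264.s2Asm e₁ e₂ f₁ f₂ i j hi hj iΓ iΛ θ

end Vale.Agent.P092.H714.Cl
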