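import Vale.Agent.P092.H714.AsmA
import Vale.Agent.P092.H553.Contra

/-!
P092 (helper714), block [S9], third part: the geometric input for subgroups of `SL_3(ℤ)`.
-/

set_option linter.all false

open scoped InnerProductSpace
open Filter Topology ContinuousLinearMap

namespace Vale.Agent.P092.H714

open Vale.Agent.P092.H160 Vale.Agent.P092.H553 Vale.Agent.P092.H432 Vale.Agent.P092.H200
  Vale.Agent.P092.H132 Vale.Agent.P092.H732

/-- The functions used for subgroups of `SL_3(ℤ)`: diagonal entries of `N*`. -/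
def FZ (Γ : Subgroup G3) : Set (Γ → ℝ) := {H | ∃ c : Fin 3, H = hh Γ c}

theorem geoZ (Γ : Subgroup G3) : GeoA (fun g : Γ => G12 (g : G3)) (fun g : Γ => G23 (g : G3))
    (qq Γ) (FZ Γ) where
  q_mem := qq_mem
  q_inv g := q1_inv (g : G3)
  q_tr := qq_tendsto
  q_low M := tendsto_sub (q1_low M)
  reg_shift a := by
    obtain ⟨C, hC, h⟩ := H553.reg_shift (a : G3)
    exact ⟨C, hC, fun r hr g hg => h r hr (g : G3) hg⟩
  mem := by
    rintro H ⟨c, rfl⟩ g
    exact hh_mem c g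
  right := by
    rintro H ⟨c, rfl⟩ t
    exact tendsto_sub (q1_NS_tendsto (t : G3) c c)
  far := by
    rintro H ⟨c, rfl⟩ r δ hr hδ
    obtain ⟨hT1, F, hF⟩ := T1 (R0 := r) (δ := δ) (by linarith) hδ
    have hd' : ∀ k h : Γ, δ ≤ |hh Γ c k - hh Γ c h| →
        δ ^ 2 ≤ hs (NS (k : G3) - NS (h : G3)) := by
      intro k h hd
      refine le_trans ?_ (sq_entry_le _ c c)
      rw [Matrix.sub_apply, ← sq_abs (NS (k : G3) c c - NS (h : G3) c c)]
      exact pow_le_pow_left₀ hδ.le hd 2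
    classical
    refine ⟨(δ ^ 2 / (2 * r)) ^ 2, by positivity, F.subtype (fun x => x ∈ Γ), ?_, ?_⟩
    · intro k h hk hh' hd
      exact hT1 (k : G3) (h : G3) hk hh' (hd' k h hd)
    · intro k₁ h₁ k₂ h₂ a1 a2 a3 a4 d1 d2 he
      rw [Finset.mem_subtype]
      have he' : (k₁ : G3)⁻¹ * (h₁ : G3) = (k₂ : G3)⁻¹ * (h₂ : G3) := congrArg Subtype.val he
      exact hF _ _ _ _ a1 a2 a3 a4 (hd' _ _ d1) (hd' _ _ d2) he'

/-- No invariant functional for subgroups of finite index. -/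
theorem noInvZ (Γ : Subgroup G3) [Γ.FiniteIndex] : NoInvA (FZ Γ) := by
  intro ℓ h1 h2 h3 h4 h5
  have hbd : ∀ c : Fin 3, ∀ g : Γ, |hh Γ c g| ≤ 1 := fun c g => abs_hh c g
  have hsum : ∀ (n : ℕ) (F : ℕ → Γ → ℝ), (∀ m g, |F m g| ≤ 1) →
      ℓ (fun g => ∑ m ∈ Finset.range n, F m g) = ∑ m ∈ Finset.range n, ℓ (F m) := by
    intro n F hF
    induction n with
    | zero =>
      have := h2 0 (fun _ => 0) ⟨0, fun g => by simp⟩
      simpa using this
    | succ n ih =>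
      have hb : ∀ g, |∑ m ∈ Finset.range n, F m g| ≤ n := by
        intro g
        refine (Finset.abs_sum_le_sum_abs _ _).trans ?_
        refine (Finset.sum_le_card_nsmul _ _ 1 fun m _ => hF m g).trans ?_
        simp
      simp only [Finset.sum_range_succ]
      rw [h1 _ _ ⟨n, hb⟩ ⟨1, hF n⟩, ih]
  have hmono : ∀ F G : Γ → ℝ, (∃ C, ∀ g, |F g| ≤ C) → (∃ C, ∀ g, |G g| ≤ C) →
      (∀ g, F g ≤ G g) → ℓ F ≤ ℓ G := by
    rintro F G ⟨C, hC⟩ ⟨D, hD⟩ h
    have e1 := h1 F (fun g => G g - F g) ⟨C, hC⟩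
      ⟨D + C, fun g => (abs_sub _ _).trans (add_le_add (hD g) (hC g))⟩
    have e2 : (fun g => F g + (G g - F g)) = G := by funext g; ring
    rw [e2] at e1
    have e3 := h3 (fun g => G g - F g)
      ⟨D + C, fun g => (abs_sub _ _).trans (add_le_add (hD g) (hC g))⟩
      (fun g => sub_nonneg.mpr (h g))
    linarith
  have hle : ∀ c : Fin 3, ℓ (hh Γ c) ≤ 17 / 70 * ℓ (fun _ => 1) := by
    intro c
    obtain ⟨s, hs⟩ := unip7 (Γ := Γ) c
    have e1 := hsum 7 (fun m g => hh Γ c (s m * g)) (fun m g => hbd c _)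
    rw [Finset.sum_congr rfl fun m _ => h5 (hh Γ c) ⟨c, rfl⟩ (s m), Finset.sum_const,
      Finset.card_range, nsmul_eq_mul] at e1
    have e2 := hmono (fun g => ∑ m ∈ Finset.range 7, hh Γ c (s m * g)) (fun _ => 17 / 10)
      ⟨7, fun g => by
        refine (Finset.abs_sum_le_sum_abs _ _).trans ?_
        refine (Finset.sum_le_card_nsmul _ _ 1 fun m _ => hbd c _).trans ?_
        simp⟩ ⟨17 / 10, fun g => by rw [abs_of_nonneg (by norm_num)]⟩ hs
    have e3 := h2 (17 / 10) (fun _ => 1) ⟨1, fun g => by simp⟩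
    rw [mul_one] at e3
    rw [e1, e3] at e2
    push_cast at e2
    linarith
  have htot : ℓ (fun _ => 1) = ℓ (hh Γ 0) + ℓ (hh Γ 1) + ℓ (hh Γ 2) := by
    rw [← h1 _ _ ⟨1, hbd 0⟩ ⟨1, hbd 1⟩, ← h1 _ _ ⟨1 + 1, fun g => (abs_add_le _ _).trans
      (add_le_add (hbd 0 g) (hbd 1 g))⟩ ⟨1, hbd 2⟩]
    congr 1
    funext g
    have := NS_trace (g : G3)
    rw [Fin.sum_univ_three] at this
    exact this.symm
  have h0 := hle 0
  have h1' := hle 1
  have h2' := hle 2
  linarith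

/-- The rigidity theorem in the row model: finite index subgroups of `SL_3(ℤ)`, clustered `Λ`. -/
theorem rowZ (Γ : Subgroup G3) [Γ.FiniteIndex] {Λ ι : Type} [Group Λ] [Fintype ι] [DecidableEq ι]
    {t : ℝ} {R : Λ → (Ell2 (Γ × ι) →L[ℂ] Ell2 (Γ × ι))} (hR : ARep t R)
    (hconf : ∀ K : Subgroup Λ, NoMean K →
      ConfA R (fun g : Γ => G12 (g : G3)) (fun g : Γ => G23 (g : G3)) K)
    (hν : InvTr R) (hΛ : Clustered Λ) : False :=
  contraA hR (geoZ Γ) hconf hν (noInvZ Γ) hΛ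

end Vale.Agent.P092.H714
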