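import Vale.Agent.P092.H714.AsmA

/-!
P092 (helper714): Theorem N in the row model, first part: multiplicativity and balance in one
statement, `Π_{z'}(H) Π_z(f) = Π_z(f H)` for `H` in the class `FF` and arbitrary bounded `f`.
-/

set_option linter.all false

open scoped InnerProductSpace
open Filter Topology ContinuousLinearMap

namespace Vale.Agent.P092.H714

open Vale.Agent.P092.H160 Vale.Agent.P092.H553 Vale.Agent.P092.H432 Vale.Agent.P092.H200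

section

variable {Γ Λ ι : Type} [Group Γ] [Group Λ] [Fintype ι] {t : ℝ}
  {R : Λ → (Ell2 (Γ × ι) →L[ℂ] Ell2 (Γ × ι))}

theorem mo_mo {X : Type} {F G : X → ℝ} {C D : ℝ} (hF : ∀ x, |F x| ≤ C) (hG : ∀ x, |G x| ≤ D)
    (ξ : Ell2 X) : mo F (mo G ξ) = mo (fun x => F x * G x) ξ := (mo_mul hF hG ξ).symm

theorem mul_abs_le {a b : ℝ} (ha : |a| ≤ 1) (hb : |b| ≤ 1) : |a * b| ≤ 1 := by
  rw [abs_mul]; exact mul_le_one₀ ha (abs_nonneg _) hb

theorem balance_mulA (hR : ARep t R) (U : Ultrafilter ℕ) (z z' : ℕ → Λ)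
    {q H f : Γ → ℝ} (hq : ∀ g, 0 ≤ q g ∧ q g ≤ 1) (hH : ∀ g, 0 ≤ H g ∧ H g ≤ 1)
    (hf : ∀ g, |f g| ≤ 1) (h1' : Pi2A U R z' q (fun _ => 1) = R 1)
    (a b : Γ × ι) (hfar : FarA U R z z' q H a b) :
    ⟪Pi2A U R z' q H (dl b : Ell2 (Γ × ι)), Pi2A U R z q f (dl a)⟫_ℂ =
      ⟪(dl b : Ell2 (Γ × ι)), Pi2A U R z q (fun g => f g * H g) (dl a)⟫_ℂ := by
  have hq' : ∀ g, |q g| ≤ 1 := fun g => by rw [abs_of_nonneg (hq g).1]; exact (hq g).2
  have hH' : ∀ g, |H g| ≤ 1 := fun g => by rw [abs_of_nonneg (hH g).1]; exact (hH g).2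
  have hqH : ∀ g, |q g * H g| ≤ 1 := fun g => mul_abs_le (hq' g) (hH' g)
  have hqf : ∀ g, |q g * f g| ≤ 1 := fun g => mul_abs_le (hq' g) (hf g)
  have hqfH : ∀ g, |q g * (f g * H g)| ≤ 1 := fun g =>
    mul_abs_le (hq' g) (mul_abs_le (hf g) (hH' g))
  have hq1 : (fun g => q g * (1 : ℝ)) = q := by
    funext g; rw [mul_one]
  -- the approximants
  obtain ⟨A, hA⟩ : ∃ A : (Γ → ℝ) → Λ → Γ × ι → Ell2 (Γ × ι), A = fun F w c =>
    R w⁻¹ (mp ι F (R w (dl c))) := ⟨_, rfl⟩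
  have hA1 : ∀ F w c, R 1 (A F w c) = A F w c := by
    intro F w c
    rw [hA, hR.app, one_mul]
  have hAspec : ∀ (y : ℕ → Λ) (F : Γ → ℝ), (∀ g, |F g| ≤ 1) → ∀ (ξ : Ell2 (Γ × ι)) (c : Γ × ι),
      Tendsto (fun k => ⟪ξ, A F (y k) c⟫_ℂ) U (𝓝 ⟪ξ, PiA U R y (fun _ => F) (dl c)⟫_ℂ) := by
    intro y F hF ξ c
    refine (pa_spec (U := U) (z := y) (F := fun _ => F) hR (fun _ => hF) ξ (dl c)).congr
      fun k => ?_
    rw [hA, hR.inner_left]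
  have hAspec' : ∀ (y : ℕ → Λ) (F : Γ → ℝ), (∀ g, |F g| ≤ 1) → ∀ (ξ : Ell2 (Γ × ι)) (c : Γ × ι),
      Tendsto (fun k => ⟪A F (y k) c, ξ⟫_ℂ) U (𝓝 ⟪PiA U R y (fun _ => F) (dl c), ξ⟫_ℂ) := by
    intro y F hF ξ c
    have h2 := (Complex.continuous_conj.tendsto _).comp (hAspec y F hF ξ c)
    rw [inner_conj_symm] at h2
    refine h2.congr fun k => ?_
    rw [Function.comp_apply, inner_conj_symm]
  obtain ⟨A2, hA2⟩ : ∃ A2 : (Γ → ℝ) → Λ → Γ × ι → Ell2 (Γ × ι), A2 = fun F w c =>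
    A F w c + A F w⁻¹ c := ⟨_, rfl⟩
  have hA21 : ∀ F w c, R 1 (A2 F w c) = A2 F w c := by
    intro F w c
    simp only [hA2, map_add, hA1]
  have hA2spec : ∀ (y : ℕ → Λ) (F : Γ → ℝ), (∀ g, |q g * F g| ≤ 1) →
      ∀ (ξ : Ell2 (Γ × ι)) (c : Γ × ι),
      Tendsto (fun k => ⟪ξ, A2 (fun g => q g * F g) (y k) c⟫_ℂ) U
        (𝓝 ⟪ξ, Pi2A U R y q F (dl c)⟫_ℂ) := by
    intro y F hF ξ c
    rw [Pi2A, add_apply, inner_add_right]
    refine ((hAspec y _ hF ξ c).add (hAspec (fun k => (y k)⁻¹) _ hF ξ c)).congr fun k => ?_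
    rw [hA2, ← inner_add_right]
  have hA2spec' : ∀ (y : ℕ → Λ) (F : Γ → ℝ), (∀ g, |q g * F g| ≤ 1) →
      ∀ (ξ : Ell2 (Γ × ι)) (c : Γ × ι),
      Tendsto (fun k => ⟪A2 (fun g => q g * F g) (y k) c, ξ⟫_ℂ) U
        (𝓝 ⟪Pi2A U R y q F (dl c), ξ⟫_ℂ) := by
    intro y F hF ξ c
    rw [Pi2A, add_apply, inner_add_left]
    refine ((hAspec' y _ hF ξ c).add (hAspec' (fun k => (y k)⁻¹) _ hF ξ c)).congr fun k => ?_
    rw [hA2, ← inner_add_left]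
  have hone : ∀ g, |q g * (fun _ => (1 : ℝ)) g| ≤ 1 := fun g => by
    change |q g * 1| ≤ 1
    rw [mul_one]; exact hq' g
  have l1 := hA2spec z (fun g => f g * H g) hqfH (dl b) a
  have l2 := hA2spec z f hqf (Pi2A U R z' q H (dl b)) a
  have hd := l1.sub l2
  suffices hz : Tendsto (fun k => ⟪(dl b : Ell2 (Γ × ι)),
      A2 (fun g => q g * (f g * H g)) (z k) a⟫_ℂ -
      ⟪Pi2A U R z' q H (dl b), A2 (fun g => q g * f g) (z k) a⟫_ℂ) U (𝓝 0) by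
    exact (sub_eq_zero.mp (tendsto_nhds_unique hd hz)).symm
  rw [Metric.tendsto_nhds]
  intro ε₀ hε₀
  obtain ⟨N, hN⟩ := exists_nat_gt (72 / ε₀)
  have hNpos : 0 < N := by
    have : (0 : ℝ) < N := lt_trans (by positivity) hN
    exact_mod_cast this
  have hN' : (0 : ℝ) < N := by exact_mod_cast hNpos
  obtain ⟨ε, hε0, hε⟩ : ∃ ε : ℝ, 0 < ε ∧ 24 * ((N : ℝ) + 1) ^ 2 * ε ≤ ε₀ / 4 := by
    refine ⟨ε₀ / (96 * ((N : ℝ) + 1) ^ 2), by positivity, ?_⟩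
    rw [mul_div_assoc', div_le_iff₀ (by positivity)]
    nlinarith
  have hbound : 4 * (9 / N + 2 * ((N : ℝ) + 1) ^ 2 * (3 * ε)) ≤ 3 * ε₀ / 4 := by
    have h3 : 36 / (N : ℝ) ≤ ε₀ / 2 := by
      rw [div_le_div_iff₀ hN' (by norm_num)]
      rw [div_lt_iff₀ hε₀] at hN
      linarith
    calc 4 * (9 / N + 2 * ((N : ℝ) + 1) ^ 2 * (3 * ε)) =
          36 / N + 24 * ((N : ℝ) + 1) ^ 2 * ε := by ring
      _ ≤ ε₀ / 2 + ε₀ / 4 := add_le_add h3 hε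
      _ = 3 * ε₀ / 4 := by ring
  obtain ⟨E, P, T, f1, f2, f3, f4, f5⟩ := hfar (1 / N) (by positivity) ε hε0
  filter_upwards [f1] with k hk
  rw [dist_zero_right]
  -- the inner limit
  have m1 := hA2spec' z' (fun _ => 1) hone (A2 (fun g => q g * (f g * H g)) (z k) a) b
  rw [h1', hR.inner_left, inv_one, hA21] at m1
  have m2 := hA2spec' z' H hqH (A2 (fun g => q g * f g) (z k) a) b
  have m3 := (m1.sub m2).norm
  refine lt_of_le_of_lt (le_of_tendsto m3 ?_) (show 3 * ε₀ / 4 < ε₀ by linarith)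
  filter_upwards [f2] with l hl
  have hpair : ∀ w v, (w = z k ∨ w = (z k)⁻¹) → (v = z' l ∨ v = (z' l)⁻¹) →
      ‖⟪A q v b, A (fun g => q g * (f g * H g)) w a⟫_ℂ -
        ⟪A (fun g => q g * H g) v b, A (fun g => q g * f g) w a⟫_ℂ‖ ≤
        9 / N + 2 * ((N : ℝ) + 1) ^ 2 * (3 * ε) := by
    intro w v hw hv
    simp only [hA]
    rw [pair_R hR, pair_R hR]
    have hη : ‖R w (dl a : Ell2 (Γ × ι))‖ ≤ 1 := (hR.norm_le _ _).trans (norm_dl _).le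
    have hζ : ‖R v (dl b : Ell2 (Γ × ι))‖ ≤ 1 := (hR.norm_le _ _).trans (norm_dl _).le
    have hη' : ‖mo (fun x : Γ × ι => f x.1) (R w (dl a : Ell2 (Γ × ι)))‖ ≤ 1 := by
      refine (norm_mo_le (F := fun x : Γ × ι => f x.1) (C := 1) (fun x => hf x.1) _).trans ?_
      rw [one_mul]; exact hη
    have e1 : mp ι (fun g => q g * (f g * H g)) (R w (dl a : Ell2 (Γ × ι))) =
        mo (fun x : Γ × ι => q x.1 * H x.1) (mo (fun x : Γ × ι => f x.1) (R w (dl a))) := by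
      rw [mo_mo (F := fun x : Γ × ι => q x.1 * H x.1) (G := fun x : Γ × ι => f x.1) (C := 1)
        (D := 1) (fun x => hqH x.1) (fun x => hf x.1), mp]
      congr 2
      funext x; ring
    have e2 : mp ι (fun g => q g * f g) (R w (dl a : Ell2 (Γ × ι))) =
        mo (fun x : Γ × ι => q x.1) (mo (fun x : Γ × ι => f x.1) (R w (dl a))) := by
      rw [mo_mo (F := fun x : Γ × ι => q x.1) (G := fun x : Γ × ι => f x.1) (C := 1)
        (D := 1) (fun x => hq' x.1) (fun x => hf x.1), mp]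
    rw [e1, e2]
    refine pair_estimate_gen (R (v * w⁻¹)) (hR.norm_le _) (q := fun x : Γ × ι => q x.1)
      (H := fun x : Γ × ι => H x.1) (fun x => hq x.1) (fun x => hH x.1) N hNpos _ _ hη' hζ ?_
    intro F G hF hG hFG
    have e3 : mo (fun x : Γ × ι => q x.1 * F x) (mo (fun x : Γ × ι => f x.1)
        (R w (dl a : Ell2 (Γ × ι)))) = mo (fun x : Γ × ι => q x.1 * (f x.1 * F x)) (R w (dl a)) := by
      rw [mo_mo (F := fun x : Γ × ι => q x.1 * F x) (G := fun x : Γ × ι => f x.1) (C := 1)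
        (D := 1) (fun x => mul_abs_le (hq' x.1) (hF x)) (fun x => hf x.1)]
      congr 2
      funext x; ring
    rw [e3]
    exact far_estimateA hR hq (H := H) _ _ hη hζ (v * w⁻¹) (hk w hw) (hl v hv) f3 f4
      (f5 k l w v hw hv) (fun x => f x.1 * F x) G (fun x => mul_abs_le (hf x.1) (hF x)) hG
      (fun x y hx hy => hFG x y (fun h0 => hx (by rw [h0, mul_zero])) hy)
  have p1 := hpair (z k) (z' l) (Or.inl rfl) (Or.inl rfl)
  have p2 := hpair (z k)⁻¹ (z' l) (Or.inr rfl) (Or.inl rfl)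
  have p3 := hpair (z k) (z' l)⁻¹ (Or.inl rfl) (Or.inr rfl)
  have p4 := hpair (z k)⁻¹ (z' l)⁻¹ (Or.inr rfl) (Or.inr rfl)
  refine le_trans ?_ hbound
  rw [hq1]
  simp only [hA2]
  have e1 : ⟪A q (z' l) b + A q (z' l)⁻¹ b,
        A (fun g => q g * (f g * H g)) (z k) a + A (fun g => q g * (f g * H g)) (z k)⁻¹ a⟫_ℂ -
      ⟪A (fun g => q g * H g) (z' l) b + A (fun g => q g * H g) (z' l)⁻¹ b,
        A (fun g => q g * f g) (z k) a + A (fun g => q g * f g) (z k)⁻¹ a⟫_ℂ =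
      (⟪A q (z' l) b, A (fun g => q g * (f g * H g)) (z k) a⟫_ℂ -
        ⟪A (fun g => q g * H g) (z' l) b, A (fun g => q g * f g) (z k) a⟫_ℂ) +
      (⟪A q (z' l) b, A (fun g => q g * (f g * H g)) (z k)⁻¹ a⟫_ℂ -
        ⟪A (fun g => q g * H g) (z' l) b, A (fun g => q g * f g) (z k)⁻¹ a⟫_ℂ) +
      (⟪A q (z' l)⁻¹ b, A (fun g => q g * (f g * H g)) (z k) a⟫_ℂ -
        ⟪A (fun g => q g * H g) (z' l)⁻¹ b, A (fun g => q g * f g) (z k) a⟫_ℂ) +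
      (⟪A q (z' l)⁻¹ b, A (fun g => q g * (f g * H g)) (z k)⁻¹ a⟫_ℂ -
        ⟪A (fun g => q g * H g) (z' l)⁻¹ b, A (fun g => q g * f g) (z k)⁻¹ a⟫_ℂ) := by
    simp only [inner_add_left, inner_add_right]
    ring
  rw [e1]
  calc _ ≤ _ := (norm_add_le _ _).trans (add_le_add_left norm_add₃_le _)
    _ ≤ (9 / N + 2 * ((N : ℝ) + 1) ^ 2 * (3 * ε)) + (9 / N + 2 * ((N : ℝ) + 1) ^ 2 * (3 * ε)) +
        (9 / N + 2 * ((N : ℝ) + 1) ^ 2 * (3 * ε)) + (9 / N + 2 * ((N : ℝ) + 1) ^ 2 * (3 * ε)) :=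
        add_le_add (add_le_add (add_le_add p1 p2) p3) p4
    _ = _ := by ring

theorem pi2_symA (hR : ARep t R) {U : Ultrafilter ℕ} {z : ℕ → Λ} {q F : Γ → ℝ} {C : ℝ}
    (hF : ∀ g, |q g * F g| ≤ C) (ξ η : Ell2 (Γ × ι)) :
    ⟪Pi2A U R z q F ξ, η⟫_ℂ = ⟪ξ, Pi2A U R z q F η⟫_ℂ := by
  unfold Pi2A
  rw [add_apply, add_apply, inner_add_left, inner_add_right,
    pa_sym hR (F := fun _ g => q g * F g) (fun _ => hF),
    pa_sym hR (F := fun _ g => q g * F g) (fun _ => hF)]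

theorem pi2_adjA (hR : ARep t R) {U : Ultrafilter ℕ} {z : ℕ → Λ} {q F : Γ → ℝ} {C : ℝ}
    (hF : ∀ g, |q g * F g| ≤ C) : adjoint (Pi2A U R z q F) = Pi2A U R z q F := by
  rw [eq_comm, ContinuousLinearMap.eq_adjoint_iff]
  exact pi2_symA hR hF

/-- Multiplicativity and balance: `Π_{z'}(H) Π_z(f) = Π_z(f H)`. -/
theorem mulA (hR : ARep t R) (U : Ultrafilter ℕ) (z z' : ℕ → Λ)
    {q H f : Γ → ℝ} (hq : ∀ g, 0 ≤ q g ∧ q g ≤ 1) (hH : ∀ g, 0 ≤ H g ∧ H g ≤ 1)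
    (hf : ∀ g, |f g| ≤ 1) (h1' : Pi2A U R z' q (fun _ => 1) = R 1)
    (hfar : ∀ a b : Γ × ι, FarA U R z z' q H a b) :
    Pi2A U R z' q H * Pi2A U R z q f = Pi2A U R z q (fun g => f g * H g) := by
  have hq' : ∀ g, |q g| ≤ 1 := fun g => by rw [abs_of_nonneg (hq g).1]; exact (hq g).2
  have hH' : ∀ g, |H g| ≤ 1 := fun g => by rw [abs_of_nonneg (hH g).1]; exact (hH g).2
  have hqH : ∀ g, |q g * H g| ≤ 1 := fun g => mul_abs_le (hq' g) (hH' g)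
  apply op_ext
  intro a
  refine ext_inner_dl fun b => ?_
  rw [← inner_dl, ← inner_dl, mul_ap, ← pi2_symA hR hqH]
  exact balance_mulA hR U z z' hq hH hf h1' a b (hfar a b)

theorem mulA' (hR : ARep t R) (U : Ultrafilter ℕ) (z z' : ℕ → Λ)
    {q H f : Γ → ℝ} (hq : ∀ g, 0 ≤ q g ∧ q g ≤ 1) (hH : ∀ g, 0 ≤ H g ∧ H g ≤ 1)
    (hf : ∀ g, |f g| ≤ 1) (h1' : Pi2A U R z' q (fun _ => 1) = R 1)
    (hfar : ∀ a b : Γ × ι, FarA U R z z' q H a b) :
    Pi2A U R z q f * Pi2A U R z' q H = Pi2A U R z q (fun g => f g * H g) := by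
  have hq' : ∀ g, |q g| ≤ 1 := fun g => by rw [abs_of_nonneg (hq g).1]; exact (hq g).2
  have hH' : ∀ g, |H g| ≤ 1 := fun g => by rw [abs_of_nonneg (hH g).1]; exact (hH g).2
  have h := congrArg adjoint (mulA hR U z z' hq hH hf h1' hfar)
  rw [← star_eq_adjoint, ← star_eq_adjoint, star_mul, star_eq_adjoint, star_eq_adjoint,
    pi2_adjA hR (fun g => mul_abs_le (hq' g) (hH' g)),
    pi2_adjA hR (fun g => mul_abs_le (hq' g) (hf g)), star_eq_adjoint,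
    pi2_adjA hR (fun g => mul_abs_le (hq' g) (mul_abs_le (hf g) (hH' g)))] at h
  exact h

/-! ### Kadison-Schwarz and linearity -/

theorem pi2_addA (hR : ARep t R) {U : Ultrafilter ℕ} {z : ℕ → Λ} {q F G : Γ → ℝ} {C D : ℝ}
    (hF : ∀ g, |q g * F g| ≤ C) (hG : ∀ g, |q g * G g| ≤ D) :
    Pi2A U R z q (fun g => F g + G g) = Pi2A U R z q F + Pi2A U R z q G := by
  unfold Pi2A
  have e : (fun (_ : ℕ) g => q g * (F g + G g)) = fun _ g => q g * F g + q g * G g := by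
    funext _ g; ring
  rw [e, pa_add hR (F := fun _ g => q g * F g) (F' := fun _ g => q g * G g) (fun _ => hF)
      (fun _ => hG),
    pa_add hR (F := fun _ g => q g * F g) (F' := fun _ g => q g * G g) (fun _ => hF) (fun _ => hG)]
  abel

theorem pi2_smulA (hR : ARep t R) {U : Ultrafilter ℕ} {z : ℕ → Λ} {q F : Γ → ℝ} {C : ℝ}
    (c : ℝ) (hF : ∀ g, |q g * F g| ≤ C) :
    Pi2A U R z q (fun g => c * F g) = (c : ℂ) • Pi2A U R z q F := by
  unfold Pi2A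
  have e : (fun (_ : ℕ) g => q g * (c * F g)) = fun _ g => c * (q g * F g) := by
    funext _ g; ring
  rw [e, pa_smul hR c (F := fun _ g => q g * F g) (fun _ => hF),
    pa_smul hR c (F := fun _ g => q g * F g) (fun _ => hF), smul_add]

theorem pi2_subA (hR : ARep t R) {U : Ultrafilter ℕ} {z : ℕ → Λ} {q F G : Γ → ℝ} {C D : ℝ}
    (hF : ∀ g, |q g * F g| ≤ C) (hG : ∀ g, |q g * G g| ≤ D) :
    Pi2A U R z q (fun g => F g - G g) = Pi2A U R z q F - Pi2A U R z q G := by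
  have h := pi2_addA (U := U) (z := z) (F := fun g => F g - G g) (G := G) (C := C + D) hR
    (fun g => by
      rw [mul_sub]
      exact (abs_sub _ _).trans (add_le_add (hF g) (hG g))) hG
  have e : (fun g => F g - G g + G g) = F := by funext g; ring
  rw [e] at h
  rw [h, add_sub_cancel_right]

theorem pi2_sumA (hR : ARep t R) {κ : Type} (s : Finset κ) {U : Ultrafilter ℕ} {z : ℕ → Λ}
    {q : Γ → ℝ} (F : κ → Γ → ℝ) {C : ℝ} (hF : ∀ i g, |q g * F i g| ≤ C) :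
    Pi2A U R z q (fun g => ∑ i ∈ s, F i g) = ∑ i ∈ s, Pi2A U R z q (F i) := by
  classical
  induction s using Finset.induction_on with
  | empty =>
    have h := pi2_smulA (U := U) (z := z) (q := q) (F := fun _ => 0) (C := 0) hR 0
      (fun g => by simp)
    simp only [mul_zero, Complex.ofReal_zero, zero_smul] at h
    simpa using h
  | insert i s hi ih =>
    rw [Finset.sum_insert hi, ← ih]
    have h1 : ∀ g, |q g * ∑ j ∈ s, F j g| ≤ s.card * C := fun g => by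
      rw [Finset.mul_sum]
      refine (Finset.abs_sum_le_sum_abs _ _).trans ?_
      rw [← nsmul_eq_mul]
      exact Finset.sum_le_card_nsmul _ _ _ fun j _ => hF j g
    rw [← pi2_addA hR (hF i) h1]
    congr 1
    funext g
    rw [Finset.sum_insert hi]

theorem pi2_monoA (hR : ARep t R) {U : Ultrafilter ℕ} {z : ℕ → Λ} {q F G : Γ → ℝ} {C D : ℝ}
    (hq : ∀ g, 0 ≤ q g) (hF : ∀ g, |q g * F g| ≤ C) (hG : ∀ g, |q g * G g| ≤ D)
    (h : ∀ g, F g ≤ G g) (ξ : Ell2 (Γ × ι)) :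
    (⟪ξ, Pi2A U R z q F ξ⟫_ℂ).re ≤ (⟪ξ, Pi2A U R z q G ξ⟫_ℂ).re := by
  unfold Pi2A
  rw [add_apply, add_apply, inner_add_right, inner_add_right, Complex.add_re, Complex.add_re]
  refine add_le_add (pa_mono hR (F := fun _ g => q g * F g) (F' := fun _ g => q g * G g)
    (fun _ => hF) (fun _ => hG) (fun _ g => mul_le_mul_of_nonneg_left (h g) (hq g)) ξ)
    (pa_mono hR (F := fun _ g => q g * F g) (F' := fun _ g => q g * G g)
    (fun _ => hF) (fun _ => hG) (fun _ g => mul_le_mul_of_nonneg_left (h g) (hq g)) ξ)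

/-- Kadison-Schwarz. -/
theorem pi2_ksA (hR : ARep t R) {U : Ultrafilter ℕ} {z : ℕ → Λ} {q F : Γ → ℝ}
    (hq : ∀ g, 0 ≤ q g ∧ q g ≤ 1) (h1 : Pi2A U R z q (fun _ => 1) = R 1)
    (hF : ∀ g, |F g| ≤ 1) (ξ : Ell2 (Γ × ι)) :
    ‖Pi2A U R z q F ξ‖ ^ 2 ≤ (⟪ξ, Pi2A U R z q (fun g => F g ^ 2) ξ⟫_ℂ).re := by
  have hq' : ∀ g, |q g| ≤ 1 := fun g => by rw [abs_of_nonneg (hq g).1]; exact (hq g).2
  have hqF : ∀ g, |q g * F g| ≤ 1 := fun g => mul_abs_le (hq' g) (hF g)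
  have hqF2 : ∀ g, |q g * F g ^ 2| ≤ 1 := fun g => by
    rw [pow_two]; exact mul_abs_le (hq' g) (mul_abs_le (hF g) (hF g))
  have hq1 : ∀ g, |q g * 1| ≤ 1 := fun g => by rw [mul_one]; exact hq' g
  -- the finite stage Cauchy-Schwarz inequality, for both signs
  obtain ⟨η, hη⟩ : ∃ η, η = Pi2A U R z q F ξ := ⟨_, rfl⟩
  have hcs : ∀ (w : Λ) (x y : Ell2 (Γ × ι)) (s : ℝ), 0 < s →
      2 * (⟪R w x, mp ι (fun g => q g * F g) (R w y)⟫_ℂ).re ≤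
        s * (⟪R w x, mp ι (fun g => q g * 1) (R w x)⟫_ℂ).re +
        s⁻¹ * (⟪R w y, mp ι (fun g => q g * F g ^ 2) (R w y)⟫_ℂ).re := by
    intro w x y s hs
    obtain ⟨X, hX⟩ : ∃ X, X = R w x := ⟨_, rfl⟩
    obtain ⟨Y, hY⟩ : ∃ Y, Y = R w y := ⟨_, rfl⟩
    rw [← hX, ← hY]
    have e1 : (⟪X, mp ι (fun g => q g * 1) X⟫_ℂ).re = ∑' p, q p.1 * ‖X p‖ ^ 2 := by
      rw [mp, inner_mo (F := fun p : Γ × ι => q p.1 * 1) (C := 1) (fun p => hq1 p.1),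
        Complex.ofReal_re]
      refine tsum_congr fun p => ?_
      rw [mul_one]
    have e2 : (⟪Y, mp ι (fun g => q g * F g ^ 2) Y⟫_ℂ).re =
        ∑' p, q p.1 * F p.1 ^ 2 * ‖Y p‖ ^ 2 := by
      rw [mp, inner_mo (F := fun p : Γ × ι => q p.1 * F p.1 ^ 2) (C := 1) (fun p => hqF2 p.1),
        Complex.ofReal_re]
    have e3 : (⟪X, mp ι (fun g => q g * F g) Y⟫_ℂ).re =
        ∑' p, ((q p.1 * F p.1 : ℝ) : ℂ).re * (Y p * (starRingEnd ℂ) (X p)).re := by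
      rw [inner_eq, mp]
      have hs1 : Summable fun p => mo (fun x : Γ × ι => q x.1 * F x.1) Y p *
          (starRingEnd ℂ) (X p) := (hasSum_inner' X (mo (fun x : Γ × ι => q x.1 * F x.1) Y)).summable
      rw [Complex.re_tsum hs1]
      refine tsum_congr fun p => ?_
      rw [mo_apply (F := fun x : Γ × ι => q x.1 * F x.1) (C := 1) (fun p => hqF p.1), mul_assoc,
        Complex.re_ofReal_mul, Complex.ofReal_re]
    have s1 : Summable fun p : Γ × ι => q p.1 * ‖X p‖ ^ 2 :=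
      summable_mo (F := fun p : Γ × ι => q p.1) (C := 1) (fun p => hq' p.1) X
    have s2 : Summable fun p : Γ × ι => q p.1 * F p.1 ^ 2 * ‖Y p‖ ^ 2 :=
      summable_mo (F := fun p : Γ × ι => q p.1 * F p.1 ^ 2) (C := 1) (fun p => hqF2 p.1) Y
    rw [e1, e2, e3, ← tsum_mul_left, ← tsum_mul_left, ← tsum_mul_left,
      ← Summable.tsum_add (s1.mul_left s) (s2.mul_left s⁻¹)]
    have hterm : ∀ p : Γ × ι, 2 * (((q p.1 * F p.1 : ℝ) : ℂ).re *
        (Y p * (starRingEnd ℂ) (X p)).re) ≤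
        s * (q p.1 * ‖X p‖ ^ 2) + s⁻¹ * (q p.1 * F p.1 ^ 2 * ‖Y p‖ ^ 2) := by
      intro p
      rw [Complex.ofReal_re]
      have h1 : |(Y p * (starRingEnd ℂ) (X p)).re| ≤ ‖X p‖ * ‖Y p‖ := by
        refine (Complex.abs_re_le_norm _).trans ?_
        rw [norm_mul, RCLike.norm_conj, mul_comm]
      have h2 : F p.1 * (Y p * (starRingEnd ℂ) (X p)).re ≤ |F p.1| * (‖X p‖ * ‖Y p‖) := by
        refine (le_abs_self _).trans ?_
        rw [abs_mul]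
        gcongr
      have h3 : 2 * (|F p.1| * (‖X p‖ * ‖Y p‖)) ≤ s * ‖X p‖ ^ 2 + s⁻¹ * (F p.1 ^ 2 * ‖Y p‖ ^ 2) := by
        have h4 : 0 ≤ (s * ‖X p‖ - |F p.1| * ‖Y p‖) ^ 2 := sq_nonneg _
        have h5 : s⁻¹ * (s * ‖X p‖ - |F p.1| * ‖Y p‖) ^ 2 = s * ‖X p‖ ^ 2 -
            2 * (|F p.1| * (‖X p‖ * ‖Y p‖)) + s⁻¹ * (|F p.1| ^ 2 * ‖Y p‖ ^ 2) := by
          field_simp
          ring
        rw [sq_abs] at h5
        have h6 : 0 ≤ s⁻¹ * (s * ‖X p‖ - |F p.1| * ‖Y p‖) ^ 2 :=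
          mul_nonneg (inv_nonneg.mpr hs.le) h4
        linarith
      have hqp := (hq p.1).1
      calc _ = 2 * q p.1 * (F p.1 * (Y p * (starRingEnd ℂ) (X p)).re) := by ring
        _ ≤ 2 * q p.1 * (|F p.1| * (‖X p‖ * ‖Y p‖)) := by gcongr
        _ = q p.1 * (2 * (|F p.1| * (‖X p‖ * ‖Y p‖))) := by ring
        _ ≤ q p.1 * (s * ‖X p‖ ^ 2 + s⁻¹ * (F p.1 ^ 2 * ‖Y p‖ ^ 2)) := by gcongr
        _ = _ := by ring
    refine Summable.tsum_le_tsum hterm ?_ ((s1.mul_left s).add (s2.mul_left s⁻¹))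
    refine Summable.mul_left 2 ?_
    refine Summable.of_norm_bounded ((s1.mul_left 1).add (s2.mul_left 1)) fun p => ?_
    rw [Complex.ofReal_re, Real.norm_eq_abs, abs_mul, abs_mul]
    have h1 : |(Y p * (starRingEnd ℂ) (X p)).re| ≤ ‖X p‖ * ‖Y p‖ := by
      refine (Complex.abs_re_le_norm _).trans ?_
      rw [norm_mul, RCLike.norm_conj, mul_comm]
    have h4 : 0 ≤ (‖X p‖ - |F p.1| * ‖Y p‖) ^ 2 := sq_nonneg _
    have h5 : |F p.1| * (‖X p‖ * ‖Y p‖) ≤ ‖X p‖ ^ 2 + F p.1 ^ 2 * ‖Y p‖ ^ 2 := by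
      have h6 : (|F p.1| * ‖Y p‖) ^ 2 = F p.1 ^ 2 * ‖Y p‖ ^ 2 := by rw [mul_pow, sq_abs]
      nlinarith [sq_nonneg (‖X p‖), sq_nonneg (|F p.1| * ‖Y p‖)]
    have hqp := (hq p.1).1
    rw [abs_of_nonneg hqp]
    calc q p.1 * |F p.1| * |(Y p * (starRingEnd ℂ) (X p)).re| ≤
        q p.1 * |F p.1| * (‖X p‖ * ‖Y p‖) := by gcongr
      _ = q p.1 * (|F p.1| * (‖X p‖ * ‖Y p‖)) := by ring
      _ ≤ q p.1 * (‖X p‖ ^ 2 + F p.1 ^ 2 * ‖Y p‖ ^ 2) := by gcongr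
      _ = _ := by ring
  have hlim : ∀ s : ℝ, 0 < s → 2 * (⟪η, Pi2A U R z q F ξ⟫_ℂ).re ≤
      s * (⟪η, Pi2A U R z q (fun _ => 1) η⟫_ℂ).re +
      s⁻¹ * (⟪ξ, Pi2A U R z q (fun g => F g ^ 2) ξ⟫_ℂ).re := by
    intro s hs
    have key : ∀ y : ℕ → Λ, 2 * (⟪η, PiA U R y (fun _ g => q g * F g) ξ⟫_ℂ).re ≤
        s * (⟪η, PiA U R y (fun _ g => q g * 1) η⟫_ℂ).re +
        s⁻¹ * (⟪ξ, PiA U R y (fun _ g => q g * F g ^ 2) ξ⟫_ℂ).re := by
      intro y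
      have t1 := ((Complex.continuous_re.tendsto _).comp (pa_spec (U := U) (z := y)
        (F := fun _ g => q g * F g) hR (fun _ => hqF) η ξ)).const_mul 2
      have t2 := ((Complex.continuous_re.tendsto _).comp (pa_spec (U := U) (z := y)
        (F := fun _ g => q g * 1) hR (fun _ => hq1) η η)).const_mul s
      have t3 := ((Complex.continuous_re.tendsto _).comp (pa_spec (U := U) (z := y)
        (F := fun _ g => q g * F g ^ 2) hR (fun _ => hqF2) ξ ξ)).const_mul s⁻¹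
      exact le_of_tendsto_of_tendsto t1 (t2.add t3) (Eventually.of_forall fun k =>
        hcs (y k) η ξ s hs)
    have k1 := key z
    have k2 := key (fun k => (z k)⁻¹)
    unfold Pi2A
    simp only [add_apply, inner_add_right, Complex.add_re]
    nlinarith
  have hηη : (⟪η, Pi2A U R z q F ξ⟫_ℂ).re = ‖η‖ ^ 2 := by
    rw [← hη, inner_self_eq_norm_sq_to_K]
    norm_cast
  have h1η : (⟪η, Pi2A U R z q (fun _ => 1) η⟫_ℂ).re ≤ ‖η‖ ^ 2 := by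
    rw [h1]
    have h2 : ‖⟪η, R 1 η⟫_ℂ‖ ≤ ‖η‖ * ‖η‖ := by
      refine (norm_inner_le_norm _ _).trans ?_
      have := hR.norm_le 1 η
      gcongr
    exact (Complex.re_le_norm _).trans (h2.trans (by rw [pow_two]))
  have h3 := hlim 1 one_pos
  rw [hηη, inv_one, one_mul, one_mul] at h3
  rw [← hη]
  linarith

end

end Vale.Agent.P092.H714
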