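import Vale.Agent.P092.H714.NBal

/-!
P092 (helper714): Theorem N in the row model, second part: commutation with the representation and
the mass outside of the wall.
-/

set_option linter.all false

open scoped InnerProductSpace
open Filter Topology ContinuousLinearMap

namespace Vale.Agent.P092.H714

open Vale.Agent.P092.H160 Vale.Agent.P092.H553 Vale.Agent.P092.H432 Vale.Agent.P092.H200

section

variable {Γ Λ ι : Type} [Group Γ] [Group Λ] [Fintype ι] {t : ℝ}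
  {R : Λ → (Ell2 (Γ × ι) →L[ℂ] Ell2 (Γ × ι))} {G12 G23 q : Γ → ℝ} {FF : Set (Γ → ℝ)}
  {U : Ultrafilter ℕ} {z : ℕ → Λ}

theorem smallA_qH (hR : ARep t R) (hg : GeoA G12 G23 q FF) {H : Γ → ℝ} (hH : H ∈ FF)
    (hz : ∀ v : Λ, ∀ᶠ k in U, z k ≠ v) (t : Γ) :
    SmallA U R z (fun _ g => q (g * t) * H (g * t) - q g * H g) := by
  refine H967.smallA_of_tendsto hR hz (C := 1 + 1) (fun g => ?_) (hg.qh_tendsto hH t)
  exact (abs_sub _ _).trans (add_le_add (abs_mul_le_oneA (hg.abs_q _) (hg.abs_H hH _))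
    (abs_mul_le_oneA (hg.abs_q _) (hg.abs_H hH _)))

theorem smallA_q1 (hR : ARep t R) (hg : GeoA G12 G23 q FF)
    (hz : ∀ v : Λ, ∀ᶠ k in U, z k ≠ v) (t : Γ) :
    SmallA U R z (fun _ g => q (g * t) * 1 - q g * 1) := by
  refine H967.smallA_of_tendsto hR hz (C := 1 + 1) (fun g => ?_) ?_
  · rw [mul_one, mul_one]
    exact (abs_sub _ _).trans (add_le_add (hg.abs_q _) (hg.abs_q _))
  · refine (hg.q_tr 1 t).congr fun g => ?_
    rw [one_mul, mul_one, mul_one]

/-- Conjugation of the two-sided limit. -/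
theorem pi2_conjA [DecidableEq ι] (hR : ARep t R) {q F : Γ → ℝ} {C : ℝ}
    (hF : ∀ g, |q g * F g| ≤ C) (v : Λ)
    (h1 : ∀ t : Γ, SmallA U R z (fun _ g => q (g * t) * F (g * t) - q g * F g))
    (h2 : ∀ t : Γ, SmallA U R (fun k => (z k)⁻¹) (fun _ g => q (g * t) * F (g * t) - q g * F g)) :
    R v * Pi2A U R z q F * R v⁻¹ = Pi2A U R (fun k => v * z k * v⁻¹) q F := by
  have e1 := pa_conj (U := U) hR (z := z) (F := fun _ g => q g * F g) (fun _ => hF) v h1
  have e2 := pa_conj (U := U) hR (z := fun k => (z k)⁻¹) (F := fun _ g => q g * F g)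
    (fun _ => hF) v h2
  have e3 : (fun k => (v * z k * v⁻¹)⁻¹) = fun k => v * (z k)⁻¹ * v⁻¹ := by
    funext k; group
  unfold Pi2A
  rw [e3, mul_add, add_mul, e1, e2]

theorem escape_conj (hU : ∀ v : Λ, ∀ᶠ k in U, z k ≠ v) (u : Λ) :
    ∀ v : Λ, ∀ᶠ k in U, u * z k * u⁻¹ ≠ v := by
  intro w
  filter_upwards [hU (u⁻¹ * w * u)] with k hk he
  exact hk (by rw [← he]; group)

theorem comm_conj {K : Subgroup Λ} (hz : ∀ k, ∀ v ∈ K, z k * v = v * z k) {u : Λ}
    (hu : ∀ v ∈ K, u * v = v * u) : ∀ k, ∀ v ∈ K, (u * z k * u⁻¹) * v = v * (u * z k * u⁻¹) := by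
  intro k v hv
  have h1 : Commute u v := hu v hv
  have h2 : Commute (z k) v := hz k v hv
  exact ((h1.mul_left h2).mul_left h1.inv_left)

/-- Commutation of `Π_z(H)`, `H` in the class, with the elements commuting with `K`. -/
theorem comm_FF [DecidableEq ι] (hR : ARep t R) (hg : GeoA G12 G23 q FF) {K : Subgroup Λ}
    (hc : ConfA R G12 G23 K) (hz : ∀ k, ∀ v ∈ K, z k * v = v * z k)
    (hU : ∀ v : Λ, ∀ᶠ k in U, z k ≠ v) (h1 : Pi2A U R z q (fun _ => 1) = R 1) {H : Γ → ℝ}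
    (hH : H ∈ FF) (u : Λ) (hu : ∀ v ∈ K, u * v = v * u) :
    Pi2A U R z q H * R u = R u * Pi2A U R z q H := by
  obtain ⟨z', hz'⟩ : ∃ z' : ℕ → Λ, z' = fun k => u * z k * u⁻¹ := ⟨_, rfl⟩
  have hzz : ∀ k, ∀ v ∈ K, z' k * v = v * z' k := by rw [hz']; exact comm_conj hz hu
  have hU' : ∀ v : Λ, ∀ᶠ k in U, z' k ≠ v := by rw [hz']; exact escape_conj hU u
  have h1' : Pi2A U R z' q (fun _ => 1) = R 1 := by
    have e := pi2_conjA (U := U) (z := z) hR (q := q) (F := fun _ => 1) (C := 1)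
      (fun g => by rw [mul_one]; exact hg.abs_q g) u (fun t => smallA_q1 hR hg hU t)
      (fun t => smallA_q1 hR hg (escape_inv hU) t)
    rw [hz', ← e, h1, hR.mul_one, hR.mul_inv]
  have hqH : ∀ g, |q g * H g| ≤ 1 := fun g => mul_abs_le (hg.abs_q g) (hg.abs_H hH g)
  have hbal := mulA hR U z z' (f := fun _ => 1) hg.q_mem (hg.mem H hH) (fun g => by simp) h1'
    (fun a b => far_of_confA hR hg hc hz hzz hU hU' hH a b)
  rw [h1, pi2_mul_one hR hqH] at hbal
  have e1 : (fun g => (1 : ℝ) * H g) = H := by funext g; rw [one_mul]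
  rw [e1] at hbal
  have e2 := pi2_conjA (U := U) (z := z) hR (q := q) (F := H) (C := 1) hqH u
    (fun t => smallA_qH hR hg hH hU t) (fun t => smallA_qH hR hg hH (escape_inv hU) t)
  rw [← hz', hbal] at e2
  calc Pi2A U R z q H * R u = R u * Pi2A U R z q H * R u⁻¹ * R u := by rw [e2]
    _ = R u * (Pi2A U R z q H * (R u⁻¹ * R u)) := by simp only [mul_assoc]
    _ = R u * Pi2A U R z q H := by rw [hR.inv_mul, pi2_mul_one hR hqH]

/-- The mass outside of the wall region. -/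
theorem mass_leA (hR : ARep t R) (hg : GeoA G12 G23 q FF) {K : Subgroup Λ}
    (hc : ConfA R G12 G23 K) (a : Γ × ι) {ε : ℝ} (hε : 0 < ε) :
    ∃ r0 : ℝ, 3 ≤ r0 ∧ ∀ r, r0 ≤ r → ∀ (M : ℝ), r ≤ M → ∀ z : ℕ → Λ,
      (∀ k, ∀ v ∈ K, z k * v = v * z k) → (∀ v : Λ, ∀ᶠ k in U, z k ≠ v) →
      ∀ u : Λ, (∀ v ∈ K, u * v = v * u) →
      (⟪R u (dl a : Ell2 (Γ × ι)), Pi2A U R z q (ind fun h => ¬ (G12 h ≤ r ∧ M ≤ G23 h))
        (R u (dl a))⟫_ℂ).re ≤ ε := by
  obtain ⟨δ, hδ0, hδ⟩ : ∃ δ : ℝ, 0 < δ ∧ δ ^ 2 ≤ ε / 4 := by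
    refine ⟨min 1 (ε / 4), lt_min one_pos (by positivity), ?_⟩
    have h1 : min 1 (ε / 4) ≤ 1 := min_le_left _ _
    have h2 : min 1 (ε / 4) ≤ ε / 4 := min_le_right _ _
    have h3 : 0 < min 1 (ε / 4) := lt_min one_pos (by positivity)
    nlinarith
  obtain ⟨r0, hr0, hm⟩ := conf_shiftA hR hg hc a hδ0
  refine ⟨r0, hr0, fun r hr M hM z hz hU u hu => ?_⟩
  have hq0 : ∀ g, 0 ≤ q g := fun g => (hg.q_mem g).1
  have hq1 : ∀ g, q g ≤ 1 := fun g => (hg.q_mem g).2
  obtain ⟨F, hF⟩ : ∃ F : Γ → ℝ, F = ind fun h => ¬ (G12 h ≤ r ∧ M ≤ G23 h) := ⟨_, rfl⟩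
  obtain ⟨L, hL⟩ : ∃ L : Γ → ℝ, L = fun g => q g * ind (fun g => G23 g < M) g := ⟨_, rfl⟩
  have hF1 : ∀ g, |F g| ≤ 1 := fun g => by rw [hF]; exact abs_ind_le _ _
  have hqF : ∀ g, |q g * F g| ≤ 1 := fun g => mul_abs_le (hg.abs_q g) (hF1 g)
  have hL1 : ∀ g, |L g| ≤ 1 := fun g => by rw [hL]; exact mul_abs_le (hg.abs_q g) (abs_ind_le _ _)
  have hL0 : Tendsto L cofinite (𝓝 0) := by rw [hL]; exact hg.q_low M
  have hle : ∀ g, q g * F g ≤ ind (RegA G12 G23 r) g + L g := by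
    intro g
    rw [hF, hL]
    by_cases hE : G12 g ≤ r ∧ M ≤ G23 g
    · rw [ind_neg (P := fun g : Γ => ¬ (G12 g ≤ r ∧ M ≤ G23 g)) (fun h => h hE), mul_zero]
      exact add_nonneg (ind_nonneg _ _) (mul_nonneg (hq0 g) (ind_nonneg _ _))
    · rw [ind_pos (P := fun g : Γ => ¬ (G12 g ≤ r ∧ M ≤ G23 g)) hE, mul_one]
      by_cases h23 : G23 g < M
      · dsimp only
        rw [ind_pos (P := fun g : Γ => G23 g < M) h23, mul_one]
        linarith [ind_nonneg (RegA G12 G23 r) g]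
      · rw [not_lt] at h23
        have h12 : r < G12 g := by
          by_contra h
          exact hE ⟨not_lt.mp h, h23⟩
        have hReg : RegA G12 G23 r g := ⟨h12.le, hM.trans h23⟩
        rw [ind_pos hReg]
        have := mul_nonneg (hq0 g) (ind_nonneg (fun g : Γ => G23 g < M) g)
        have := hq1 g
        dsimp only
        linarith
  have key : ∀ y : ℕ → Λ, (∀ k, ∀ v ∈ K, y k * v = v * y k) → (∀ v : Λ, ∀ᶠ k in U, y k ≠ v) →
      (⟪R u (dl a : Ell2 (Γ × ι)), PiA U R y (fun _ g => q g * F g) (R u (dl a))⟫_ℂ).re ≤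
        ε / 2 := by
    intro y hy hyU
    have t1 := (Complex.continuous_re.tendsto _).comp (pa_spec (U := U) (z := y)
      (F := fun _ g => q g * F g) hR (fun _ => hqF) (R u (dl a)) (R u (dl a)))
    have t2 := H967.smallA_of_tendsto hR hyU hL1 hL0 (R u (dl a))
    refine le_of_tendsto t1 ?_
    filter_upwards [(Metric.tendsto_nhds.mp t2) (ε / 4) (by positivity)] with k hk
    rw [dist_zero_right, norm_norm] at hk
    rw [Function.comp_apply]
    obtain ⟨X, hX⟩ : ∃ X, X = R (y k) (R u (dl a : Ell2 (Γ × ι))) := ⟨_, rfl⟩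
    rw [← hX] at hk ⊢
    have hX1 : ‖X‖ ≤ 1 := by
      rw [hX]
      exact (hR.norm_le _ _).trans ((hR.norm_le _ _).trans (norm_dl _).le)
    have hXr : ‖mp ι (ind (RegA G12 G23 r)) X‖ ≤ δ := by
      rw [hX, hR.app]
      refine le_trans (norm_mp_ind_mono (fun g hg => RegA.mono hr hg) _) (hm _ fun v hv => ?_)
      have e1 : Commute (y k) v := hy k v hv
      have e2 : Commute u v := hu v hv
      exact e1.mul_left e2
    have h1 : (⟪X, mp ι (fun g => q g * F g) X⟫_ℂ).re ≤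
        (⟪X, mp ι (fun g => ind (RegA G12 G23 r) g + L g) X⟫_ℂ).re :=
      inner_mo_re_mono (F := fun x : Γ × ι => q x.1 * F x.1)
        (G := fun x : Γ × ι => ind (RegA G12 G23 r) x.1 + L x.1) (C := 1) (D := 1 + 1)
        (fun x => hqF x.1) (fun x => (abs_add_le _ _).trans
          (add_le_add (abs_ind_le _ _) (hL1 x.1))) (fun x => hle x.1) X
    have h2 : mp ι (fun g => ind (RegA G12 G23 r) g + L g) X =
        mp ι (ind (RegA G12 G23 r)) X + mp ι L X :=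
      mo_add (F := fun x : Γ × ι => ind (RegA G12 G23 r) x.1) (G := fun x : Γ × ι => L x.1)
        (fun x => abs_ind_le _ x.1) (fun x => hL1 x.1) X
    have h3 : (⟪X, mp ι (ind (RegA G12 G23 r)) X⟫_ℂ).re ≤ δ ^ 2 := by
      have e1 : (⟪X, mp ι (ind (RegA G12 G23 r)) X⟫_ℂ).re = ‖mp ι (ind (RegA G12 G23 r)) X‖ ^ 2 := by
        rw [mp, inner_mo (F := fun x : Γ × ι => ind (RegA G12 G23 r) x.1) (C := 1)
          (fun x => abs_ind_le _ x.1), Complex.ofReal_re,
          norm_mo_sq (F := fun x : Γ × ι => ind (RegA G12 G23 r) x.1) (C := 1)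
          (fun x => abs_ind_le _ x.1)]
        refine tsum_congr fun x => ?_
        have e2 : ind (RegA G12 G23 r) x.1 ^ 2 = ind (RegA G12 G23 r) x.1 := by
          by_cases hx : RegA G12 G23 r x.1
          · rw [ind_pos hx]; norm_num
          · rw [ind_neg hx]; norm_num
        rw [e2]
      rw [e1]
      gcongr
    have h4 : (⟪X, mp ι L X⟫_ℂ).re ≤ ε / 4 := by
      refine (Complex.re_le_norm _).trans ((norm_inner_le_norm _ _).trans ?_)
      calc ‖X‖ * ‖mp ι L X‖ ≤ 1 * (ε / 4) :=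
            mul_le_mul hX1 hk.le (norm_nonneg _) zero_le_one
        _ = ε / 4 := one_mul _
    refine h1.trans ?_
    rw [h2, inner_add_right, Complex.add_re]
    linarith
  have k1 := key z hz hU
  have k2 := key (fun k => (z k)⁻¹) (fun k v hv => (comm_inv hz k (z k)⁻¹ (Or.inr rfl)).1 v hv)
    (escape_inv hU)
  rw [← hF]
  unfold Pi2A
  rw [add_apply, inner_add_right, Complex.add_re]
  linarith

end

end Vale.Agent.P092.H714
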