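import Vale.Agent.P092.H714.NFin
import Vale.Agent.P092.L.H553.Inst
import Vale.Agent.P092.H432.EFam
import Vale.Agent.P092.H859.NoIso

/-!
P092 (helper714): Theorem N for all amplifications and all groups with a discrete embedding in
`SL_3(ℝ)`, up to the wall functions and the mean.
-/

set_option linter.all false

open scoped InnerProductSpace
open Filter Topology ContinuousLinearMap MeasureTheory

namespace Vale.Agent.P092.H714

open Vale.Agent.P092.H160 Vale.Agent.P092.H200 Vale.Agent.P092.L.H553 Vale.Agent.P092.L.H732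
open Vale.Agent.P092.H432 (ARep mp ep exists_efam)
open Vale.Agent.P092.H859 (Pair)




theorem mean_NA_of {G3 : Type} [Group G3] [Emb G3] [Countable G3] {Λ ι : Type} [Group Λ]
    [Fintype ι] [DecidableEq ι]
    {t : ℝ} {R : Λ → (Ell2 (G3 × ι) →L[ℂ] Ell2 (G3 × ι))} (hR : ARep t R)
    (hw : WallFun (Γ := G3) G12 G23 {f | Adm f}) {K0 K1 A : Subgroup Λ} (hK0 : NoMean K0)
    (hcom : ∀ v ∈ K0, ∀ w ∈ K1, v * w = w * v) (hA : Vertex A) (hAK : A ≤ K1)
    (hmean : ∀ (B : ℕ → Finset G3) (P0 Y : ℕ → G3 → (Ell2 (G3 × ι) →L[ℂ] Ell2 (G3 × ι))) (c : ℝ),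
      FamA B P0 → CovA Ufl B P0 → FamA B Y → (∀ u ∈ K1, ∀ n b, Y n b * R u = R u * Y n b) →
      0 < c → LowA R K1 Ufl B Y P0 c → ∃ m : Set Λ → ℝ, H200.IsInvMean K1 m) :
    ∃ m : Set Λ → ℝ, H200.IsInvMean K1 m := by
  obtain ⟨E, hE⟩ := exists_efam hR
  have hc : ConfA R (fun g : G3 => G12 g) (fun g : G3 => G23 g) K0 := fun ε hε =>
    L.H538.propA_row hR hE K0 hK0 hε
  obtain ⟨z, hz⟩ := exists_seqInA hA.1
  have hgood := goodA hR (geoA_emb (G3 := G3)) hc (fun u hu v hv => (hcom v hv u hu).symm) hA hAK hz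
  exact mean_of_goodA hR K1 _ hgood hw hmean

end Vale.Agent.P092.H714
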