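import Vale.Agent.P092.H714.NGood

/-!
P092 (helper714): Theorem N in the row model, fourth part: the limit maps satisfy the abstract
properties.
-/

set_option linter.all false

open scoped InnerProductSpace
open Filter Topology ContinuousLinearMap

namespace Vale.Agent.P092.H714

open Vale.Agent.P092.H160 Vale.Agent.P092.H553 Vale.Agent.P092.H432 Vale.Agent.P092.H200

section

variable {Γ Λ ι : Type} [Group Γ] [Group Λ] [Fintype ι] [DecidableEq ι] {t : ℝ}
  {R : Λ → (Ell2 (Γ × ι) →L[ℂ] Ell2 (Γ × ι))} {G12 G23 q : Γ → ℝ} {FF : Set (Γ → ℝ)}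

theorem goodA (hR : ARep t R) (hg : GeoA G12 G23 q FF) {K0 K1 A : Subgroup Λ}
    (hc : ConfA R G12 G23 K0) (hcom : ∀ u ∈ K1, ∀ v ∈ K0, u * v = v * u) (hA : Vertex A)
    (hAK : A ≤ K1) {z : ℕ → Λ} (hz : SeqInA A z) :
    GoodA G12 G23 FF R K1 (Pi2A Ufl R z q) := by
  have hone := pi2_totalA hR hg hA hz
  have hq0 : ∀ g, 0 ≤ q g := fun g => (hg.q_mem g).1
  have hb : ∀ {F : Γ → ℝ} {C : ℝ}, (∀ g, |F g| ≤ C) → ∀ (g : Γ), |q g * F g| ≤ C := by
    intro F C hF g
    rw [abs_mul]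
    exact (mul_le_of_le_one_left (abs_nonneg _) (hg.abs_q g)).trans (hF g)
  have hzz : ∀ k, ∀ v ∈ K0, z k * v = v * z k := fun k v hv => hcom _ (hAK (hz.1 k)) v hv
  refine ⟨hone, ?_, ?_, ?_, ?_, ?_, ?_, ?_, ?_, ?_, ?_⟩
  · intro s F C hF
    exact pi2_sumA hR s F (C := C) fun b g => hb (hF b) g
  · intro c d F G C hF hG
    have hcF : ∀ g, |c * F g| ≤ |c| * C := fun g => by
      rw [abs_mul]; exact mul_le_mul_of_nonneg_left (hF g) (abs_nonneg _)
    have hdG : ∀ g, |d * G g| ≤ |d| * C := fun g => by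
      rw [abs_mul]; exact mul_le_mul_of_nonneg_left (hG g) (abs_nonneg _)
    rw [pi2_addA hR (F := fun g => c * F g) (G := fun g => d * G g) (hb hcF) (hb hdG),
      pi2_smulA hR c (hb hF), pi2_smulA hR d (hb hG)]
  · intro F G C D hF hG h ξ
    exact pi2_monoA hR hq0 (hb hF) (hb hG) h ξ
  · intro F hF ξ η
    exact pi2_symA hR (hb hF) ξ η
  · intro F hF ξ
    exact pi2_ksA hR hg.q_mem hone hF ξ
  · intro F hF s ξ
    have hbs : ∀ (k : ℕ) (g : Γ), |q g * F (s * g)| ≤ 1 := fun _ g => hb (fun g => hF (s * g)) g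
    have hD : Tendsto (fun g : Γ => q (s⁻¹ * g) * F g - q g * F g) cofinite (𝓝 0) := by
      have h1 := (hg.q_tr s⁻¹ 1).abs
      rw [abs_zero] at h1
      refine squeeze_zero_norm (fun g => ?_) h1
      rw [Real.norm_eq_abs, ← sub_mul, abs_mul, mul_one]
      exact mul_le_of_le_one_right (abs_nonneg _) (hF g)
    have hDb : ∀ g : Γ, |q (s⁻¹ * g) * F g - q g * F g| ≤ 1 + 1 := fun g =>
      (abs_sub _ _).trans (add_le_add (abs_mul_le_oneA (hg.abs_q _) (hF _))
        (abs_mul_le_oneA (hg.abs_q _) (hF _)))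
    have hs1 := H967.smallA_of_tendsto hR hz.2 hDb hD
    have hs2 := H967.smallA_of_tendsto hR hz.inv hDb hD
    unfold Pi2A
    rw [add_apply, add_apply, map_add,
      pa_lx hR (F' := fun _ g => q g * F g) hbs (fun _ => hb hF) s
        (by simpa only [mul_inv_cancel_left] using hs1),
      pa_lx hR (F' := fun _ g => q g * F g) hbs (fun _ => hb hF) s
        (by simpa only [mul_inv_cancel_left] using hs2)]
  · intro H f hH hf
    exact mulA hR Ufl z z hg.q_mem (hg.mem H hH) hf hone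
      (fun a b => far_of_confA hR hg hc hzz hzz hz.2 hz.2 hH a b)
  · intro H hH u hu
    exact comm_FF hR hg hc hzz hz.2 hone hH u (fun v hv => hcom u hu v hv)
  · intro F C hF
    exact ⟨pi2_mul_one hR (hb hF), pi2_one_mul hR (hb hF)⟩
  · intro a ε hε
    obtain ⟨r0, hr3, hr⟩ := mass_leA (U := Ufl) hR hg hc a hε
    exact ⟨r0, fun r hr0 M hM u hu => hr r hr0 M hM z hzz hz.2 u (fun v hv => hcom u hu v hv)⟩

end

end Vale.Agent.P092.H714
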