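import Vale.Agent.P092.H714.NComm
import Vale.Agent.P092.H859.Main

/-!
P092 (helper714): Theorem N in the row model, third part: assembly of the wall functions and the
operator families (port of H859/Good.lean).
-/

set_option linter.all false

open scoped InnerProductSpace
open Filter Topology ContinuousLinearMap

namespace Vale.Agent.P092.H714

open Vale.Agent.P092.H160 Vale.Agent.P092.H553 Vale.Agent.P092.H432 Vale.Agent.P092.H200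
open Vale.Agent.P092.H859 (BB mem_BB_left mem_BB_right sum_BB_left sum_BB_right sq_add_le)

section fam

variable {Γ Λ ι : Type} [Group Γ] [Group Λ] [Fintype ι]

/-- Families of operators with finitely many members, of row norm at most one. -/
structure FamA (B : ℕ → Finset Γ) (P : ℕ → Γ → (Ell2 (Γ × ι) →L[ℂ] Ell2 (Γ × ι))) : Prop where
  off : ∀ n, ∀ b, b ∉ B n → P n b = 0
  bdd : ∀ n (ξ : Ell2 (Γ × ι)), ∑ b ∈ B n, ‖P n b ξ‖ ^ 2 ≤ ‖ξ‖ ^ 2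

/-- Asymptotic left covariance. -/
def CovA (U : Ultrafilter ℕ) (B : ℕ → Finset Γ) (P : ℕ → Γ → (Ell2 (Γ × ι) →L[ℂ] Ell2 (Γ × ι))) :
    Prop :=
  ∀ (s : Γ) (ξ : Ell2 (Γ × ι)), Tendsto (fun n => ∑ b ∈ BB (B n) s,
    ‖P n (s * b) ξ - lx s (P n b (lx s⁻¹ ξ))‖ ^ 2) U (𝓝 0)

/-- The lower bound. -/
def LowA (R : Λ → (Ell2 (Γ × ι) →L[ℂ] Ell2 (Γ × ι))) (K : Subgroup Λ) (U : Ultrafilter ℕ)
    (B : ℕ → Finset Γ) (Y P : ℕ → Γ → (Ell2 (Γ × ι) →L[ℂ] Ell2 (Γ × ι))) (c : ℝ) : Prop :=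
  ∀ u ∈ K, ∀ᶠ n in U, c ≤ ∑ i : ι,
    (∑ b ∈ B n, ⟪Y n b (R u (ep i)), P n b (R u (ep i))⟫_ℂ).re

theorem FamA.bdd_BB {B : ℕ → Finset Γ} {P : ℕ → Γ → (Ell2 (Γ × ι) →L[ℂ] Ell2 (Γ × ι))}
    (hP : FamA B P) (s : Γ) (n : ℕ) (ξ : Ell2 (Γ × ι)) :
    ∑ b ∈ BB (B n) s, ‖P n b ξ‖ ^ 2 ≤ ‖ξ‖ ^ 2 := by
  rw [sum_BB_left s (fun b => ‖P n b ξ‖ ^ 2) (fun b hb => by rw [hP.off n b hb]; simp)]
  exact hP.bdd n ξ

theorem FamA.bdd_BB' {B : ℕ → Finset Γ} {P : ℕ → Γ → (Ell2 (Γ × ι) →L[ℂ] Ell2 (Γ × ι))}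
    (hP : FamA B P) (s : Γ) (n : ℕ) (ξ : Ell2 (Γ × ι)) :
    ∑ b ∈ BB (B n) s, ‖P n (s * b) ξ‖ ^ 2 ≤ ‖ξ‖ ^ 2 := by
  rw [sum_BB_right s (fun b => ‖P n b ξ‖ ^ 2) (fun b hb => by rw [hP.off n b hb]; simp)]
  exact hP.bdd n ξ

theorem mem_closure_dlA {X : Type} (ξ : Ell2 X) {ε : ℝ} (hε : 0 < ε) :
    ∃ (s : Finset X) (c : X → ℂ), ‖ξ - ∑ g ∈ s, c g • (dl g : Ell2 X)‖ < ε := by
  obtain ⟨s, hs⟩ := ((hasSum_dl ξ).eventually (Metric.ball_mem_nhds _ hε)).exists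
  refine ⟨s, fun g => ξ g, ?_⟩
  rw [← dist_eq_norm, dist_comm]
  exact hs

theorem sum_sq_combA {X Y : Type} (C : Finset Y) (Q : Y → (Ell2 X →L[ℂ] Ell2 X)) (s : Finset X)
    (c : X → ℂ) :
    ∑ b ∈ C, ‖Q b (∑ g ∈ s, c g • (dl g : Ell2 X))‖ ^ 2 ≤
      s.card * ∑ g ∈ s, ‖c g‖ ^ 2 * ∑ b ∈ C, ‖Q b (dl g)‖ ^ 2 := by
  have h1 : ∀ b ∈ C, ‖Q b (∑ g ∈ s, c g • (dl g : Ell2 X))‖ ^ 2 ≤
      s.card * ∑ g ∈ s, ‖c g‖ ^ 2 * ‖Q b (dl g)‖ ^ 2 := by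
    intro b _
    rw [map_sum]
    have h2 : ‖∑ g ∈ s, Q b (c g • (dl g : Ell2 X))‖ ≤ ∑ g ∈ s, ‖c g‖ * ‖Q b (dl g)‖ := by
      refine (norm_sum_le _ _).trans (Finset.sum_le_sum fun g _ => ?_)
      rw [map_smul, norm_smul]
    calc _ ≤ (∑ g ∈ s, ‖c g‖ * ‖Q b (dl g)‖) ^ 2 := by gcongr
      _ ≤ s.card * ∑ g ∈ s, (‖c g‖ * ‖Q b (dl g)‖) ^ 2 := sq_sum_le_card_mul_sum_sq
      _ = _ := by simp only [mul_pow]
  refine (Finset.sum_le_sum h1).trans (le_of_eq ?_)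
  rw [← Finset.mul_sum, Finset.sum_comm]
  congr 1
  refine Finset.sum_congr rfl fun g _ => ?_
  rw [← Finset.mul_sum]

/-- It is enough to check the asymptotic covariance on the basis vectors. -/
theorem covA_of_dl {U : Ultrafilter ℕ} {B : ℕ → Finset Γ}
    {P : ℕ → Γ → (Ell2 (Γ × ι) →L[ℂ] Ell2 (Γ × ι))}
    (hP : FamA B P) (h : ∀ (s : Γ) (g : Γ × ι), Tendsto (fun n => ∑ b ∈ BB (B n) s,
      ‖P n (s * b) (dl g) - lx s (P n b (lx s⁻¹ (dl g)))‖ ^ 2) U (𝓝 0)) : CovA U B P := by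
  intro s ξ
  obtain ⟨Q, hQ⟩ : ∃ Q : ℕ → Γ → (Ell2 (Γ × ι) →L[ℂ] Ell2 (Γ × ι)), Q = fun n b =>
    P n (s * b) - (lx s).comp ((P n b).comp (lx s⁻¹)) := ⟨_, rfl⟩
  have hQa : ∀ n b ξ, Q n b ξ = P n (s * b) ξ - lx s (P n b (lx s⁻¹ ξ)) := by
    intro n b ξ; rw [hQ]; rfl
  have hQb : ∀ n ξ, ∑ b ∈ BB (B n) s, ‖Q n b ξ‖ ^ 2 ≤ 4 * ‖ξ‖ ^ 2 := by
    intro n ξ
    have h1 : ∀ b ∈ BB (B n) s, ‖Q n b ξ‖ ^ 2 ≤
        2 * ‖P n (s * b) ξ‖ ^ 2 + 2 * ‖P n b (lx s⁻¹ ξ)‖ ^ 2 := by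
      intro b _
      rw [hQa, sub_eq_add_neg]
      refine (sq_add_le _ _).trans ?_
      rw [norm_neg, norm_lx]
    refine (Finset.sum_le_sum h1).trans ?_
    rw [Finset.sum_add_distrib, ← Finset.mul_sum, ← Finset.mul_sum]
    have h2 := hP.bdd_BB' s n ξ
    have h3 := hP.bdd_BB s n (lx s⁻¹ ξ)
    rw [norm_lx] at h3
    linarith
  have h' : ∀ g : Γ × ι, Tendsto (fun n => ∑ b ∈ BB (B n) s, ‖Q n b (dl g)‖ ^ 2) U (𝓝 0) := by
    intro g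
    refine (h s g).congr fun n => ?_
    exact Finset.sum_congr rfl fun b _ => by rw [hQa]
  suffices hs : Tendsto (fun n => ∑ b ∈ BB (B n) s, ‖Q n b ξ‖ ^ 2) U (𝓝 0) by
    refine hs.congr fun n => ?_
    exact Finset.sum_congr rfl fun b _ => by rw [hQa]
  rw [Metric.tendsto_nhds]
  intro ε hε
  obtain ⟨δ, hδ0, hδ⟩ : ∃ δ : ℝ, 0 < δ ∧ 8 * δ ^ 2 < ε / 2 := by
    refine ⟨min 1 (ε / 32), by positivity, ?_⟩
    have h1 : min 1 (ε / 32) ≤ 1 := min_le_left _ _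
    have h2 : min 1 (ε / 32) ≤ ε / 32 := min_le_right _ _
    have h3 : 0 < min 1 (ε / 32) := by positivity
    nlinarith
  obtain ⟨t, c, htc⟩ := mem_closure_dlA ξ hδ0
  obtain ⟨η, hη⟩ : ∃ η : Ell2 (Γ × ι), η = ∑ g ∈ t, c g • (dl g : Ell2 (Γ × ι)) := ⟨_, rfl⟩
  rw [← hη] at htc
  have hlim : Tendsto (fun n => 2 * (t.card * ∑ g ∈ t, ‖c g‖ ^ 2 *
      ∑ b ∈ BB (B n) s, ‖Q n b (dl g)‖ ^ 2)) U (𝓝 0) := by
    have h1 : Tendsto (fun n => ∑ g ∈ t, ‖c g‖ ^ 2 * ∑ b ∈ BB (B n) s, ‖Q n b (dl g)‖ ^ 2) U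
        (𝓝 (∑ g ∈ t, ‖c g‖ ^ 2 * 0)) :=
      tendsto_finsetSum t fun g _ => (h' g).const_mul _
    have h2 := (h1.const_mul (t.card : ℝ)).const_mul 2
    simpa using h2
  filter_upwards [(Metric.tendsto_nhds.mp hlim) (ε / 2) (by positivity)] with n hn
  rw [dist_zero_right] at hn ⊢
  have hnn : 0 ≤ ∑ b ∈ BB (B n) s, ‖Q n b ξ‖ ^ 2 := Finset.sum_nonneg fun b _ => by positivity
  rw [Real.norm_of_nonneg hnn]
  have h1 : ∑ b ∈ BB (B n) s, ‖Q n b ξ‖ ^ 2 ≤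
      2 * ∑ b ∈ BB (B n) s, ‖Q n b (ξ - η)‖ ^ 2 + 2 * ∑ b ∈ BB (B n) s, ‖Q n b η‖ ^ 2 := by
    rw [Finset.mul_sum, Finset.mul_sum, ← Finset.sum_add_distrib]
    refine Finset.sum_le_sum fun b _ => ?_
    have := sq_add_le (Q n b (ξ - η)) (Q n b η)
    rwa [← map_add, sub_add_cancel] at this
  have h2 := hQb n (ξ - η)
  have h3 := sum_sq_combA (BB (B n) s) (Q n) t c
  rw [← hη] at h3
  have h4 : ‖ξ - η‖ ^ 2 ≤ δ ^ 2 := by
    have := norm_nonneg (ξ - η)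
    gcongr
  have h5 := le_abs_self (2 * (t.card * ∑ g ∈ t, ‖c g‖ ^ 2 *
      ∑ b ∈ BB (B n) s, ‖Q n b (dl g)‖ ^ 2))
  rw [Real.norm_eq_abs] at hn
  linarith

end fam

/-- Abstract wall functions. -/
def WallFun {Γ : Type} [Group Γ] (G12 G23 : Γ → ℝ) (FF : Set (Γ → ℝ)) : Prop :=
  ∀ R1 : ℝ, ∃ c : ℝ, 0 < c ∧ ∀ (S : Finset Γ) (ε : ℝ), 0 < ε → ∀ Rn : ℝ,
    ∃ (B : Finset Γ) (α β : Γ → Γ → ℝ) (M : ℝ),
    (∀ b h, 0 ≤ α b h) ∧ (∀ b ∉ B, ∀ h, α b h = 0) ∧ (∀ h, ∑ b ∈ B, α b h ^ 2 ≤ 1) ∧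
    (∀ s ∈ S, ∀ h, G12 h ≤ Rn → M ≤ G23 h →
      ∑ b ∈ BB B s, (α (s * b) (s * h) - α b h) ^ 2 ≤ ε) ∧
    (∀ b h, 0 ≤ β b h) ∧ (∀ b ∉ B, ∀ h, β b h = 0) ∧ (∀ h, ∑ b ∈ B, β b h ^ 2 ≤ 1) ∧
    (∀ b, β b ∈ FF) ∧ (∀ h, G12 h ≤ R1 → M ≤ G23 h → c ≤ ∑ b ∈ B, α b h * β b h)

/-- The wall region. -/
def WallA {Γ : Type} (G12 G23 : Γ → ℝ) (r M : ℝ) : Γ → Prop := fun h => G12 h ≤ r ∧ M ≤ G23 h

section good

variable {Γ Λ ι : Type} [Group Γ] [Group Λ] [Fintype ι] {t : ℝ}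
  {R : Λ → (Ell2 (Γ × ι) →L[ℂ] Ell2 (Γ × ι))} {G12 G23 q : Γ → ℝ} {FF : Set (Γ → ℝ)}

/-- A positive map with the properties of the limit. -/
structure GoodA (G12 G23 : Γ → ℝ) (FF : Set (Γ → ℝ)) (R : Λ → (Ell2 (Γ × ι) →L[ℂ] Ell2 (Γ × ι)))
    (K : Subgroup Λ) (PT : (Γ → ℝ) → (Ell2 (Γ × ι) →L[ℂ] Ell2 (Γ × ι))) : Prop where
  one : PT (fun _ => 1) = R 1
  sum : ∀ (s : Finset Γ) (F : Γ → Γ → ℝ) (C : ℝ), (∀ b g, |F b g| ≤ C) →
    PT (fun g => ∑ b ∈ s, F b g) = ∑ b ∈ s, PT (F b)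
  lin : ∀ (c d : ℝ) (F G : Γ → ℝ) (C : ℝ), (∀ g, |F g| ≤ C) → (∀ g, |G g| ≤ C) →
    PT (fun g => c * F g + d * G g) = (c : ℂ) • PT F + (d : ℂ) • PT G
  mono : ∀ (F G : Γ → ℝ) (C D : ℝ), (∀ g, |F g| ≤ C) → (∀ g, |G g| ≤ D) → (∀ g, F g ≤ G g) →
    ∀ ξ : Ell2 (Γ × ι), (⟪ξ, PT F ξ⟫_ℂ).re ≤ (⟪ξ, PT G ξ⟫_ℂ).re
  sym : ∀ (F : Γ → ℝ), (∀ g, |F g| ≤ 1) → ∀ ξ η : Ell2 (Γ × ι), ⟪PT F ξ, η⟫_ℂ = ⟪ξ, PT F η⟫_ℂ
  ks : ∀ (F : Γ → ℝ), (∀ g, |F g| ≤ 1) → ∀ ξ : Ell2 (Γ × ι),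
    ‖PT F ξ‖ ^ 2 ≤ (⟪ξ, PT (fun g => F g ^ 2) ξ⟫_ℂ).re
  cov : ∀ (F : Γ → ℝ), (∀ g, |F g| ≤ 1) → ∀ (s : Γ) (ξ : Ell2 (Γ × ι)),
    PT F (lx s ξ) = lx s (PT (fun g => F (s * g)) ξ)
  mul : ∀ (H f : Γ → ℝ), H ∈ FF → (∀ g, |f g| ≤ 1) → PT H * PT f = PT (fun g => f g * H g)
  comm : ∀ (H : Γ → ℝ), H ∈ FF → ∀ u ∈ K, PT H * R u = R u * PT H
  pone : ∀ (F : Γ → ℝ) (C : ℝ), (∀ g, |F g| ≤ C) → PT F * R 1 = PT F ∧ R 1 * PT F = PT F
  mass : ∀ (a : Γ × ι) (ε : ℝ), 0 < ε → ∃ r0 : ℝ, ∀ r, r0 ≤ r → ∀ (M : ℝ), r ≤ M → ∀ u ∈ K,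
    (⟪R u (dl a : Ell2 (Γ × ι)), PT (ind fun h : Γ => ¬ WallA G12 G23 r M h)
      (R u (dl a))⟫_ℂ).re ≤ ε

theorem mean_of_goodA [Countable Γ] (hR : ARep t R) (K : Subgroup Λ)
    (PT : (Γ → ℝ) → (Ell2 (Γ × ι) →L[ℂ] Ell2 (Γ × ι))) (h : GoodA G12 G23 FF R K PT)
    (hw : WallFun G12 G23 FF)
    (hmean : ∀ (B : ℕ → Finset Γ) (P0 Y : ℕ → Γ → (Ell2 (Γ × ι) →L[ℂ] Ell2 (Γ × ι))) (c : ℝ),
      FamA B P0 → CovA Ufl B P0 → FamA B Y → (∀ u ∈ K, ∀ n b, Y n b * R u = R u * Y n b) →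
      0 < c → LowA R K Ufl B Y P0 c → ∃ m : Set Λ → ℝ, H200.IsInvMean K m) :
    ∃ m : Set Λ → ℝ, H200.IsInvMean K m := by
  classical
  obtain ⟨e, he⟩ := exists_surjective_nat Γ
  obtain ⟨S, hS⟩ : ∃ S : ℕ → Finset Γ, S = fun n => (Finset.range n).image e := ⟨_, rfl⟩
  have hmemS : ∀ s : Γ, ∃ n0, ∀ n ≥ n0, s ∈ S n := by
    intro s
    obtain ⟨k, hk⟩ := he s
    refine ⟨k + 1, fun n hn => ?_⟩
    rw [hS, Finset.mem_image]
    exact ⟨k, Finset.mem_range.mpr (by omega), hk⟩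
  have ht := hR.pos
  obtain ⟨ε1, hε1, hε1t⟩ : ∃ ε1 : ℝ, 0 < ε1 ∧ (Fintype.card ι : ℝ) * ε1 ≤ t / 2 := by
    refine ⟨t / (2 * ((Fintype.card ι : ℝ) + 1)), by positivity, ?_⟩
    rw [mul_div_assoc', div_le_div_iff₀ (by positivity) (by norm_num)]
    have : (0 : ℝ) ≤ Fintype.card ι := Nat.cast_nonneg _
    nlinarith
  choose rr hrr using fun i : ι => h.mass ((1 : Γ), i) ε1 hε1
  obtain ⟨R1, hR1d⟩ : ∃ R1 : ℝ, R1 = ∑ i, |rr i| := ⟨_, rfl⟩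
  have hR1 : ∀ i, rr i ≤ R1 := by
    intro i
    rw [hR1d]
    exact (le_abs_self _).trans (Finset.single_le_sum (f := fun i => |rr i|)
      (fun i _ => abs_nonneg _) (Finset.mem_univ i))
  obtain ⟨c, hc, hw'⟩ := hw R1
  choose B α β M hα0 hαB hα1 hαE hβ0 hβB hβ1 hβL hαβ using
    fun n : ℕ => hw' (S n) (1 / ((n : ℝ) + 1)) (by positivity) (n : ℝ)
  have le1 : ∀ (B : Finset Γ) (x : Γ → ℝ), (∀ b ∉ B, x b = 0) →
      ∑ b ∈ B, x b ^ 2 ≤ 1 → ∀ b, |x b| ≤ 1 := by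
    intro B x hB h1 b
    by_cases hb : b ∈ B
    · have h2 : x b ^ 2 ≤ 1 :=
        (Finset.single_le_sum (f := fun b => x b ^ 2) (fun i _ => sq_nonneg _) hb).trans h1
      exact abs_le_one_iff_mul_self_le_one.mpr (by rw [← sq]; exact h2)
    · rw [hB b hb, abs_zero]; exact zero_le_one
  have hαa : ∀ n b g, |α n b g| ≤ 1 := fun n b g =>
    le1 (B n) (fun b => α n b g) (fun b hb => hαB n b hb g) (hα1 n g) b
  have hβa : ∀ n b g, |β n b g| ≤ 1 := fun n b g =>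
    le1 (B n) (fun b => β n b g) (fun b hb => hβB n b hb g) (hβ1 n g) b
  have hsq : ∀ x : ℝ, |x| ≤ 1 → |x ^ 2| ≤ 1 := by
    intro x hx
    rw [abs_pow]
    exact pow_le_one₀ (abs_nonneg _) hx
  have hR1n : ∀ ξ : Ell2 (Γ × ι), (⟪ξ, R 1 ξ⟫_ℂ).re = ‖R 1 ξ‖ ^ 2 := by
    intro ξ
    have e1 : ⟪ξ, R 1 ξ⟫_ℂ = ⟪R 1 ξ, R 1 ξ⟫_ℂ := by
      rw [hR.inner_left, inv_one, hR.app, mul_one]
    rw [e1, inner_self_eq_norm_sq_to_K]
    norm_cast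
  have hone : ∀ ξ : Ell2 (Γ × ι), (⟪ξ, PT (fun _ => 1) ξ⟫_ℂ).re = ‖R 1 ξ‖ ^ 2 := by
    intro ξ
    rw [h.one, hR1n]
  have hone' : ∀ ξ : Ell2 (Γ × ι), ‖R 1 ξ‖ ^ 2 ≤ ‖ξ‖ ^ 2 := by
    intro ξ
    have := hR.norm_le 1 ξ
    gcongr
  have hsumb : ∀ (T : Finset Γ) (F : Γ → Γ → ℝ) (C : ℝ), (∀ b g, |F b g| ≤ C) → ∀ g,
      |∑ b ∈ T, F b g| ≤ T.card * C := by
    intro T F C hF g
    refine (Finset.abs_sum_le_sum_abs _ _).trans ?_
    rw [← nsmul_eq_mul]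
    exact Finset.sum_le_card_nsmul _ _ _ fun j _ => hF j g
  have hfam : ∀ γ : ℕ → Γ → Γ → ℝ, (∀ n b, b ∉ B n → ∀ g, γ n b g = 0) →
      (∀ n b g, |γ n b g| ≤ 1) → (∀ n g, ∑ b ∈ B n, γ n b g ^ 2 ≤ 1) →
      FamA B (fun n b => PT (γ n b)) := by
    intro γ g1 g2 g3
    refine ⟨fun n b hb => ?_, fun n ξ => ?_⟩
    · have e0 : γ n b = fun g => ∑ b ∈ (∅ : Finset Γ), (fun _ _ => (0 : ℝ)) b g := by
        funext g
        rw [g1 n b hb g, Finset.sum_empty]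
      change PT (γ n b) = 0
      rw [e0, h.sum ∅ (fun _ _ => (0 : ℝ)) 1 (fun _ _ => by simp), Finset.sum_empty]
    · have h1 : ∀ b ∈ B n, ‖PT (γ n b) ξ‖ ^ 2 ≤ (⟪ξ, PT (fun g => γ n b g ^ 2) ξ⟫_ℂ).re :=
        fun b _ => h.ks (γ n b) (g2 n b) ξ
      refine (Finset.sum_le_sum h1).trans (le_trans ?_ (hone' ξ))
      rw [← Complex.re_sum, ← inner_sum, ← ContinuousLinearMap.sum_apply,
        ← h.sum (B n) (fun b g => γ n b g ^ 2) 1 (fun b g => hsq _ (g2 n b g)), ← hone ξ]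
      exact h.mono _ _ ((B n).card * 1) 1
        (hsumb (B n) (fun b g => γ n b g ^ 2) 1 (fun b g => hsq _ (g2 n b g)))
        (fun g => by simp) (fun g => g3 n g) ξ
  have hP0 : FamA B (fun n b => PT (α n b)) :=
    hfam α (fun n b hb g => hαB n b hb g) hαa (fun n g => hα1 n g)
  have hY : FamA B (fun n b => PT (β n b)) :=
    hfam β (fun n b hb g => hβB n b hb g) hβa (fun n g => hβ1 n g)
  have hYW : ∀ u ∈ K, ∀ n b, PT (β n b) * R u = R u * PT (β n b) :=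
    fun u hu n b => h.comm (β n b) (hβL n b) u hu
  -- expectations of functions which are small on the wall region
  have hexp : ∀ (F : Γ → ℝ) (r M a b C : ℝ), (∀ g, |F g| ≤ C) → 0 ≤ b →
      (∀ g, F g ≤ a + b * ind (fun h : Γ => ¬ WallA G12 G23 r M h) g) → ∀ ξ : Ell2 (Γ × ι),
      (⟪ξ, PT F ξ⟫_ℂ).re ≤ a * ‖R 1 ξ‖ ^ 2 +
        b * (⟪ξ, PT (ind fun h : Γ => ¬ WallA G12 G23 r M h) ξ⟫_ℂ).re := by
    intro F r M a b C hF hb hle ξ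
    have h1 : ∀ g, |a * 1 + b * ind (fun h : Γ => ¬ WallA G12 G23 r M h) g| ≤ |a| + b := by
      intro g
      refine (abs_add_le _ _).trans (add_le_add (by rw [mul_one]) ?_)
      rw [abs_mul, abs_of_nonneg hb]
      exact mul_le_of_le_one_right hb (abs_ind_le _ _)
    refine (h.mono F (fun g => a * 1 + b * ind (fun h : Γ => ¬ WallA G12 G23 r M h) g) C
      (|a| + b) hF h1 (fun g => by rw [mul_one]; exact hle g) ξ).trans (le_of_eq ?_)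
    rw [h.lin a b (fun _ => 1) (ind fun h : Γ => ¬ WallA G12 G23 r M h) 1 (fun _ => by simp)
      (abs_ind_le _), add_apply, smul_apply, smul_apply, inner_add_right, inner_smul_right,
      inner_smul_right, Complex.add_re, Complex.re_ofReal_mul, Complex.re_ofReal_mul, hone]
  have hlxlx : ∀ (s : Γ) (ω : Ell2 (Γ × ι)), lx s (lx s⁻¹ ω) = ω := by
    intro s ω
    rw [← mul_ap, ← lx_mul, mul_inv_cancel, lx_one]
    rfl
  -- asymptotic covariance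
  have hcov : CovA Ufl B (fun n b => PT (α n b)) := by
    refine covA_of_dl hP0 fun s g => ?_
    have hda : ∀ n b k, |α n (s * b) k - α n b (s⁻¹ * k)| ≤ 1 := by
      intro n b k
      have h1 := hα0 n (s * b) k
      have h2 := hα0 n b (s⁻¹ * k)
      have h3 := (le_abs_self _).trans (hαa n (s * b) k)
      have h4 := (le_abs_self _).trans (hαa n b (s⁻¹ * k))
      rw [abs_le]
      constructor <;> linarith
    have hdiff : ∀ n b, PT (α n (s * b)) (dl g) - lx s (PT (α n b) (lx s⁻¹ (dl g))) =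
        PT (fun k => α n (s * b) k - α n b (s⁻¹ * k)) (dl g) := by
      intro n b
      have e1 : lx s (PT (α n b) (lx s⁻¹ (dl g : Ell2 (Γ × ι)))) =
          PT (fun k => α n b (s⁻¹ * k)) (dl g) := by
        have e2 := h.cov (fun k => α n b (s⁻¹ * k)) (fun k => hαa n b _) s (lx s⁻¹ (dl g))
        rw [hlxlx] at e2
        rw [e2]
        simp only [inv_mul_cancel_left]
      rw [e1]
      have e4 : PT (fun k => α n (s * b) k - α n b (s⁻¹ * k)) =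
          PT (α n (s * b)) - PT (fun k => α n b (s⁻¹ * k)) := by
        have e5 := h.lin 1 (-1) (α n (s * b)) (fun k => α n b (s⁻¹ * k)) 1 (hαa n _)
          (fun k => hαa n b _)
        have e6 : (fun k => α n (s * b) k - α n b (s⁻¹ * k)) =
            fun k => 1 * α n (s * b) k + -1 * α n b (s⁻¹ * k) := by
          funext k; ring
        rw [e6, e5]
        push_cast
        rw [one_smul, neg_one_smul, sub_eq_add_neg]
      rw [e4, ContinuousLinearMap.sub_apply]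
    obtain ⟨D, hD⟩ : ∃ D : ℕ → Γ → ℝ, D = fun n k => ∑ b ∈ BB (B n) s,
      (α n (s * b) k - α n b (s⁻¹ * k)) ^ 2 := ⟨_, rfl⟩
    have hb1 : ∀ n, ∑ b ∈ BB (B n) s,
        ‖PT (α n (s * b)) (dl g) - lx s (PT (α n b) (lx s⁻¹ (dl g)))‖ ^ 2 ≤
        (⟪(dl g : Ell2 (Γ × ι)), PT (D n) (dl g)⟫_ℂ).re := by
      intro n
      have h1 : ∀ b ∈ BB (B n) s,
          ‖PT (α n (s * b)) (dl g) - lx s (PT (α n b) (lx s⁻¹ (dl g)))‖ ^ 2 ≤
          (⟪(dl g : Ell2 (Γ × ι)),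
            PT (fun k => (α n (s * b) k - α n b (s⁻¹ * k)) ^ 2) (dl g)⟫_ℂ).re := by
        intro b _
        rw [hdiff]
        exact h.ks _ (hda n b) _
      refine (Finset.sum_le_sum h1).trans (le_of_eq ?_)
      rw [hD, ← Complex.re_sum, ← inner_sum, ← ContinuousLinearMap.sum_apply,
        ← h.sum (BB (B n) s) (fun b k => (α n (s * b) k - α n b (s⁻¹ * k)) ^ 2) 1
          (fun b k => hsq _ (hda n b k))]
    have hDb : ∀ n k, |D n k| ≤ (BB (B n) s).card * 1 := by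
      intro n k
      rw [hD]
      exact hsumb _ (fun b k => (α n (s * b) k - α n b (s⁻¹ * k)) ^ 2) 1
        (fun b k => hsq _ (hda n b k)) k
    -- the bound `4`
    have hD4 : ∀ n k, D n k ≤ 4 := by
      intro n k
      rw [hD]
      have h1 : ∀ b ∈ BB (B n) s, (α n (s * b) k - α n b (s⁻¹ * k)) ^ 2 ≤
          2 * α n (s * b) k ^ 2 + 2 * α n b (s⁻¹ * k) ^ 2 := by
        intro b _
        nlinarith [sq_nonneg (α n (s * b) k + α n b (s⁻¹ * k))]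
      refine (Finset.sum_le_sum h1).trans ?_
      rw [Finset.sum_add_distrib, ← Finset.mul_sum, ← Finset.mul_sum,
        sum_BB_right s (fun b => α n b k ^ 2) (fun b hb => by rw [hαB n b hb k]; simp),
        sum_BB_left s (fun b => α n b (s⁻¹ * k) ^ 2) (fun b hb => by rw [hαB n b hb]; simp)]
      have h2 := hα1 n k
      have h3 := hα1 n (s⁻¹ * k)
      linarith
    -- translation of the argument
    obtain ⟨ζ, hζ⟩ : ∃ ζ : Ell2 (Γ × ι), ζ = R 1 (dl (s⁻¹ * g.1, g.2)) := ⟨_, rfl⟩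
    have hζg : R 1 (dl g : Ell2 (Γ × ι)) = lx s ζ := by
      rw [hζ, ← hR.lx, lx_dl, mul_inv_cancel_left]
    have hζn : ‖R 1 ζ‖ ^ 2 ≤ 1 := by
      have h1 : ‖ζ‖ ≤ 1 := by rw [hζ]; exact (hR.norm_le _ _).trans (norm_dl _).le
      have h2 := hone' ζ
      have h3 : ‖ζ‖ ^ 2 ≤ 1 := pow_le_one₀ (norm_nonneg _) h1
      linarith
    have hb2 : ∀ n, (⟪(dl g : Ell2 (Γ × ι)), PT (D n) (dl g)⟫_ℂ).re =
        (⟪ζ, PT (fun k => D n (s * k)) ζ⟫_ℂ).re := by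
      intro n
      obtain ⟨p1, p2⟩ := h.pone (D n) _ (hDb n)
      have e0 : ⟪(dl g : Ell2 (Γ × ι)), PT (D n) (dl g)⟫_ℂ = ⟪lx s ζ, PT (D n) (lx s ζ)⟫_ℂ := by
        have q1 := congrArg (fun T : Ell2 (Γ × ι) →L[ℂ] Ell2 (Γ × ι) => T (dl g)) p1
        have q2 := congrArg (fun T : Ell2 (Γ × ι) →L[ℂ] Ell2 (Γ × ι) => T (R 1 (dl g))) p2
        simp only [mul_ap] at q1 q2
        rw [← hζg, hR.inner_left, inv_one, q2, q1]
      have e2 : PT (D n) (lx s ζ) = lx s (PT (fun k => D n (s * k)) ζ) := by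
        have e3 := h.cov (fun k => 4⁻¹ * D n k + 0 * 0) (fun k => by
          have h4 := hD4 n k
          have h0 : 0 ≤ D n k := by
            rw [hD]; exact Finset.sum_nonneg fun b _ => sq_nonneg _
          rw [abs_le]; constructor <;> linarith) s ζ
        rw [h.lin 4⁻¹ 0 (D n) (fun _ => 0) ((BB (B n) s).card * 1) (hDb n)
          (fun _ => by rw [abs_zero]; positivity),
          h.lin 4⁻¹ 0 (fun k => D n (s * k)) (fun _ => 0) ((BB (B n) s).card * 1)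
            (fun k => hDb n _) (fun _ => by rw [abs_zero]; positivity)] at e3
        simp only [Complex.ofReal_zero, zero_smul, add_zero, smul_apply, map_smul] at e3
        have h5 : ((4⁻¹ : ℝ) : ℂ) ≠ 0 := by norm_num
        exact smul_right_injective _ h5 e3
      rw [e0, e2, inner_lx]
    -- the final bound
    have hb3 : ∀ n, s ∈ S n → (⟪ζ, PT (fun k => D n (s * k)) ζ⟫_ℂ).re ≤
        1 / ((n : ℝ) + 1) +
          4 * (⟪ζ, PT (ind fun h : Γ => ¬ WallA G12 G23 (n : ℝ) (max (M n) n) h) ζ⟫_ℂ).re := by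
      intro n hn
      have h1 := hexp (fun k => D n (s * k)) (n : ℝ) (max (M n) n) (1 / ((n : ℝ) + 1)) 4
        ((BB (B n) s).card * 1) (fun k => hDb n _) (by norm_num) (fun k => ?_) ζ
      · have h2 : 1 / ((n : ℝ) + 1) * ‖R 1 ζ‖ ^ 2 ≤ 1 / ((n : ℝ) + 1) :=
          mul_le_of_le_one_right (by positivity) hζn
        linarith
      · by_cases hk : WallA G12 G23 (n : ℝ) (max (M n) n) k
        · rw [ind_neg (P := fun h : Γ => ¬ WallA G12 G23 (n : ℝ) (max (M n) n) h)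
            (fun h0 => h0 hk), mul_zero, add_zero, hD]
          have h2 := hαE n s hn k hk.1 ((le_max_left _ _).trans hk.2)
          simpa only [inv_mul_cancel_left] using h2
        · rw [ind_pos (P := fun h : Γ => ¬ WallA G12 G23 (n : ℝ) (max (M n) n) h) hk, mul_one]
          have h2 := hD4 n (s * k)
          have h3 : (0 : ℝ) ≤ 1 / ((n : ℝ) + 1) := by positivity
          linarith
    rw [Metric.tendsto_nhds]
    intro ε hε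
    obtain ⟨R0, hR0⟩ := h.mass (s⁻¹ * g.1, g.2) (ε / 16) (by positivity)
    obtain ⟨n0, hn0⟩ := hmemS s
    obtain ⟨n1, hn1⟩ := exists_nat_gt (max R0 (2 / ε))
    have hev : ∀ᶠ n : ℕ in Ufl, n0 + n1 ≤ n := hyperfilter_le_cofinite (by
      rw [Nat.cofinite_eq_atTop]; exact eventually_ge_atTop _)
    filter_upwards [hev] with n hn
    rw [dist_zero_right, Real.norm_of_nonneg (Finset.sum_nonneg fun b _ => by positivity)]
    have hn' : (n1 : ℝ) ≤ n := by exact_mod_cast (show n1 ≤ n by omega)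
    have a1 : R0 ≤ (n : ℝ) := ((le_max_left _ _).trans hn1.le).trans hn'
    have a2 : 2 / ε ≤ (n : ℝ) := ((le_max_right _ _).trans hn1.le).trans hn'
    have a3 := hR0 (n : ℝ) a1 (max (M n) n) (le_max_right _ _) 1 K.one_mem
    rw [← hζ] at a3
    have a4 := hb3 n (hn0 n (by omega))
    have a5 := hb1 n
    rw [hb2 n] at a5
    have a6 : 1 / ((n : ℝ) + 1) ≤ ε / 2 := by
      rw [div_le_iff₀ hε] at a2
      rw [div_le_iff₀ (by positivity)]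
      nlinarith
    linarith
  -- the lower bound
  have hlow : LowA R K Ufl B (fun n b => PT (β n b)) (fun n b => PT (α n b)) (c * t / 2) := by
    intro u hu
    refine Eventually.of_forall fun n => ?_
    have hαβa : ∀ b g, |α n b g * β n b g| ≤ 1 := fun b g => by
      rw [abs_mul]; exact mul_le_one₀ (hαa n b g) (abs_nonneg _) (hβa n b g)
    have hsb := hsumb (B n) (fun b g => α n b g * β n b g) 1 hαβa
    have hterm : ∀ i : ι, c * (‖R 1 (R u (ep i : Ell2 (Γ × ι)))‖ ^ 2 - ε1) ≤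
        (∑ b ∈ B n, ⟪PT (β n b) (R u (ep i)), PT (α n b) (R u (ep i))⟫_ℂ).re := by
      intro i
      obtain ⟨ζ, hζ⟩ : ∃ ζ : Ell2 (Γ × ι), ζ = R u (ep i) := ⟨_, rfl⟩
      rw [← hζ]
      have e1 : ∀ b ∈ B n, ⟪PT (β n b) ζ, PT (α n b) ζ⟫_ℂ =
          ⟪ζ, PT (fun g => α n b g * β n b g) ζ⟫_ℂ := by
        intro b _
        rw [h.sym (β n b) (hβa n b), ← h.mul (β n b) (α n b) (hβL n b) (hαa n b)]
        rfl
      rw [Finset.sum_congr rfl e1, ← inner_sum, ← ContinuousLinearMap.sum_apply,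
        ← h.sum (B n) (fun b g => α n b g * β n b g) 1 hαβa]
      have hm := hrr i R1 (hR1 i) (max (M n) R1) (le_max_right _ _) u hu
      have e2 : R u (dl ((1 : Γ), i)) = ζ := by rw [hζ]; rfl
      rw [e2] at hm
      have h2 := hexp (fun g => -1 * ∑ b ∈ B n, α n b g * β n b g + 0 * 0) R1 (max (M n) R1)
        (-c) c ((B n).card * 1) (fun g => by
          rw [zero_mul, add_zero, neg_one_mul, abs_neg]; exact hsb g) hc.le (fun g => ?_) ζ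
      · rw [h.lin (-1) 0 (fun g => ∑ b ∈ B n, α n b g * β n b g) (fun _ => 0) ((B n).card * 1) hsb
          (fun _ => by rw [abs_zero]; positivity)] at h2
        simp only [Complex.ofReal_zero, zero_smul, add_zero, smul_apply, inner_smul_right,
          Complex.re_ofReal_mul] at h2
        nlinarith
      · rw [zero_mul, add_zero]
        by_cases hk : WallA G12 G23 R1 (max (M n) R1) g
        · rw [ind_neg (P := fun h : Γ => ¬ WallA G12 G23 R1 (max (M n) R1) h)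
            (fun h0 => h0 hk), mul_zero, add_zero]
          have := hαβ n g hk.1 ((le_max_left _ _).trans hk.2)
          linarith
        · rw [ind_pos (P := fun h : Γ => ¬ WallA G12 G23 R1 (max (M n) R1) h) hk, mul_one]
          have : 0 ≤ ∑ b ∈ B n, α n b g * β n b g :=
            Finset.sum_nonneg fun b _ => mul_nonneg (hα0 n b g) (hβ0 n b g)
          linarith
    refine le_trans ?_ (Finset.sum_le_sum fun i _ => hterm i)
    rw [← Finset.mul_sum, Finset.sum_sub_distrib, Finset.sum_const, Finset.card_univ,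
      nsmul_eq_mul]
    have htr : ∑ i : ι, ‖R 1 (R u (ep i : Ell2 (Γ × ι)))‖ ^ 2 = t := by
      have e1 : ∀ i : ι, ‖R 1 (R u (ep i : Ell2 (Γ × ι)))‖ ^ 2 =
          (⟪(ep i : Ell2 (Γ × ι)), R 1 (ep i)⟫_ℂ).re := by
        intro i
        rw [hR.app, one_mul, hR.norm_map, hR1n]
      rw [Finset.sum_congr rfl fun i _ => e1 i, ← Complex.re_sum, hR.tr_one, Complex.ofReal_re]
    rw [htr]
    nlinarith
  exact hmean B _ _ _ hP0 hcov hY hYW (by positivity) hlow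

end good

end Vale.Agent.P092.H714
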