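import Vale.Agent.P092.H714.NEmb
import Vale.Agent.P092.H432.MeanRow

/-!
P092 (helper714): Theorem N for all amplifications and all groups with a discrete embedding in
`SL_3(ℝ)`, up to the wall functions.
-/

set_option linter.all false

open scoped InnerProductSpace
open Filter Topology ContinuousLinearMap MeasureTheory

namespace Vale.Agent.P092.H714

open Vale.Agent.P092.H160 Vale.Agent.P092.H200 Vale.Agent.P092.L.H553 Vale.Agent.P092.L.H732
open Vale.Agent.P092.H432 (ARep mp ep exists_efam)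
open Vale.Agent.P092.H859 (Pair)

theorem mean_NA {G3 : Type} [Group G3] [Emb G3] {Λ ι : Type} [Group Λ] [Fintype ι]
    {t : ℝ} {R : Λ → (Ell2 (G3 × ι) →L[ℂ] Ell2 (G3 × ι))} (hR : ARep t R)
    (hw : WallFun (Γ := G3) G12 G23 {f | Adm f}) {K0 K1 A : Subgroup Λ} (hK0 : NoMean K0)
    (hcom : ∀ v ∈ K0, ∀ w ∈ K1, v * w = w * v) (hA : Vertex A) (hAK : A ≤ K1) :
    ∃ m : Set Λ → ℝ, H200.IsInvMean K1 m := by
  classical
  haveI : Countable G3 := L.H538.countable_emb G3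
  obtain ⟨E, hE⟩ := exists_efam hR
  refine mean_NA_of hR hw hK0 hcom hA hAK fun B P0 Y c hP hcov hY hYW hc hlow => ?_
  refine H432.mean_of_maps1 hR hE K1 Ufl B P0 Y (fun n b hb => hP.off n b hb) hP.bdd
    (fun s x => hcov s (dl x)) (CY := ∑ i : ι, ‖R 1 (ep i : Ell2 (G3 × ι))‖ ^ 2)
    (fun n => Finset.sum_le_sum fun i _ => hY.bdd n _) hYW hc (fun u hu => ?_)
  filter_upwards [hlow u hu] with n hn
  refine hn.trans (le_of_eq ?_)
  rw [Finset.sum_comm, Complex.re_sum]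

theorem no_arep_of_pair {G3 : Type} [Group G3] [Emb G3]
    (hw : WallFun (Γ := G3) G12 G23 {f | Adm f}) {Λ ι : Type} [Group Λ] [Fintype ι]
    (hΛ : Pair Λ) {t : ℝ} {R : Λ → (Ell2 (G3 × ι) →L[ℂ] Ell2 (G3 × ι))} : ¬ ARep t R := by
  intro hR
  obtain ⟨K0, K1, A, h0, h1, hc, hA, hAK⟩ := hΛ
  exact h1 (mean_NA hR hw h0 hc hA hAK)

end Vale.Agent.P092.H714
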