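import Vale.Agent.P092.H714.NMean
import Vale.Agent.P092.H19.ShB
import Vale.Agent.P092.H377.Com

/-!
P092 (helper714): Theorem N, final statements from the wall functions.
-/

set_option linter.all false

open scoped InnerProductSpace
open Filter Topology ContinuousLinearMap MeasureTheory

namespace Vale.Agent.P092.H714

open Vale.Agent.P092.H160 Vale.Agent.P092.H200 Vale.Agent.P092.L.H553 Vale.Agent.P092.L.H732
open Vale.Agent.P092.H432 (ARep AFrame)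
open Vale.Agent.P092.H859 (Pair)
open Vale.Agent.P092.H655 (SLR TraceRep)
open Vale.Agent.P092.H377 (arep_finiteIndex)

/-- Wall functions for all groups with a discrete embedding in `SL_3(ℝ)`. -/
def WallEmb : Prop :=
  ∀ (G : Type) [Group G] [Emb G], WallFun (Γ := G) G12 G23 {f | Adm f}

theorem no_arepN (hw : WallEmb) {Γ₀ : Subgroup (SLR 3)} (hΓ : DiscreteTopology Γ₀) {Γ Λ : Type}
    [Group Γ] [Group Λ] (i : Γ₀ →* Γ) (hi : Function.Injective i) (hfi : i.range.FiniteIndex)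
    (hΛ : Pair Λ) (ι : Type) [Fintype ι] (t : ℝ)
    (R : Λ → (Ell2 (Γ × ι) →L[ℂ] Ell2 (Γ × ι))) : ¬ ARep t R := by
  intro hR
  obtain ⟨κ, _, t₁, R₁, h2⟩ := arep_finiteIndex i hR hi
  letI : Emb Γ₀ := embDisc Γ₀
  exact no_arep_of_pair (hw Γ₀) hΛ h2

/-- The final statement. -/
def FinalN : Prop :=
  ∀ (Γ₀ : Subgroup (SLR 3)), DiscreteTopology Γ₀ → ∀ (Γ Λ : Type) [Group Γ] [Group Λ]
    (i : Γ₀ →* Γ), Function.Injective i → i.range.FiniteIndex → Pair Λ → ∀ k : ℕ,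
      (∀ U : Λ → H103.St.MOp k Γ, ¬ TraceRep Λ Γ k U) ∧
      ((∀ g : Γ, g ≠ 1 → Set.Infinite {y : Γ | ∃ h, y = h * g * h⁻¹}) →
        ∀ p : H103.St.MOp k Γ, H103.St.IsProj p → IsEmpty (H103.St.CornerIso Λ Γ k p))

theorem finalN_of (hw : WallEmb) : FinalN := by
  intro Γ₀ hΓ Γ Λ _ _ i hi hfi hΛ k
  refine ⟨fun U e => ?_, fun hI p hp => ⟨fun c => ?_⟩⟩
  · obtain ⟨t, R, hR⟩ := H19.arep_of_traceRep e
    exact no_arepN hw hΓ i hi hfi hΛ _ _ _ hR
  · obtain ⟨t, R, hR⟩ := H19.aframe_of_iso hp c (Or.inl hI)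
    exact no_arepN hw hΓ i hi hfi hΛ _ _ _ hR.toARep

end Vale.Agent.P092.H714
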