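import Vale.Agent.P092.H714.PairForm

/-!
P092 (helper714): discrete subgroups with commuting nonamenable subgroups: the families.
-/

set_option linter.all false

open Matrix Topology

namespace Vale.Agent.P092.H714

open Vale.Agent.P092.L.H859 (CommPair)
open Vale.Agent.P092.H303 (FormGroup mem_formGroup hyp Idx)

section sl

variable {k : Type} [NontriviallyNormedField k]

theorem fixS_det {σ : k →+* k} (g : fixS σ) : g.1.1.det = 1 := g.1.2

/-- `SL_n(k)`, `n ≥ 4`. -/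
theorem disc_sl (n : ℕ) (hn : 4 ≤ n) :
    ∃ D : Subgroup (SpecialLinearGroup (Fin n) k), DiscreteTopology D ∧ CommPair D := by
  obtain ⟨r, rfl⟩ := Nat.exists_eq_add_of_le hn
  obtain ⟨w, hw⟩ := NormedField.exists_lt_norm k 2
  obtain ⟨e, he⟩ : ∃ e : Fin (4 + r) ≃ (Fin 2 ⊕ Fin 2) ⊕ Fin r, e =
      finSumFinEquiv.symm.trans (Equiv.sumCongr (finSumFinEquiv (m := 2) (n := 2)).symm
        (Equiv.refl _)) := ⟨_, rfl⟩
  refine disc_of (RingHom.id k) hw.le rfl
    ((extSL e).comp (bd.comp ((fixS (RingHom.id k)).subtype.prodMap (fixS (RingHom.id k)).subtype)))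
    (fun g => g.1) continuous_subtype_val rfl (fun i => e.symm (.inl (.inl i)))
    (fun i => e.symm (.inl (.inr i))) ?_ ?_ (fun x => ⟨1, ?_⟩) (fun x => ⟨1, ?_⟩)
  · intro i j h
    simpa using h
  · intro i j h
    simpa using h
  · ext i j
    change (fromBlocks (fromBlocks x.1.1.1 0 0 x.2.1.1) 0 0 1).submatrix e e
      (e.symm (.inl (.inl i))) (e.symm (.inl (.inl j))) = _
    simp
  · ext i j
    change (fromBlocks (fromBlocks x.1.1.1 0 0 x.2.1.1) 0 0 1).submatrix e e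
      (e.symm (.inl (.inr i))) (e.symm (.inl (.inr j))) = _
    simp

/-- Block diagonal matrices, for alternating forms. -/
def P3 (g h : Matrix (Fin 2) (Fin 2) k) : Matrix (Fin 2 ⊕ Fin 2) (Fin 2 ⊕ Fin 2) k :=
  fromBlocks !![g 0 0, 0; 0, h 0 0] !![g 0 1, 0; 0, h 0 1] !![g 1 0, 0; 0, h 1 0]
    !![g 1 1, 0; 0, h 1 1]

theorem P3_mul (g h g' h' : Matrix (Fin 2) (Fin 2) k) :
    P3 (g * g') (h * h') = P3 g h * P3 g' h' := by
  rw [P3, P3, P3, fromBlocks_multiply]
  congr 1 <;> ext i j <;> fin_cases i <;> fin_cases j <;>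
    simp [Matrix.mul_apply, Fin.sum_univ_two]

theorem P3_one : P3 (1 : Matrix (Fin 2) (Fin 2) k) 1 = 1 := by
  rw [P3, ← fromBlocks_one]
  congr 1 <;> ext i j <;> fin_cases i <;> fin_cases j <;> simp

/-- A permutation of the four indices. -/
def e5 : Fin 2 ⊕ Fin 2 ≃ Fin 2 ⊕ Fin 2 where
  toFun
    | .inl 0 => .inl 0
    | .inl 1 => .inr 0
    | .inr 0 => .inl 1
    | .inr 1 => .inr 1
  invFun
    | .inl 0 => .inl 0
    | .inl 1 => .inr 0
    | .inr 0 => .inl 1
    | .inr 1 => .inr 1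
  left_inv := by
    rintro (i | i) <;> fin_cases i <;> rfl
  right_inv := by
    rintro (i | i) <;> fin_cases i <;> rfl

theorem det_P3 (g h : Matrix (Fin 2) (Fin 2) k) : (P3 g h).det = g.det * h.det := by
  have e : P3 g h = (fromBlocks g 0 0 h).submatrix e5 e5 := by
    ext i j
    rcases i with i | i <;> rcases j with j | j <;> fin_cases i <;> fin_cases j <;>
      simp [P3, e5]
  rw [e, det_submatrix_equiv_self, det_fromBlocks_zero₂₁]

theorem P3_form (g h : Matrix (Fin 2) (Fin 2) k) (hg : g.det = 1) (hh : h.det = 1) :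
    P3 g h * F4 (-1) * (P3 g h)ᵀ = F4 (-1) := by
  rw [det_fin_two] at hg hh
  rw [P3, F4, fromBlocks_transpose, fromBlocks_multiply, fromBlocks_multiply]
  congr 1 <;> ext i j <;> fin_cases i <;> fin_cases j <;>
    simp [Matrix.mul_apply, Fin.sum_univ_two, Matrix.smul_apply, Matrix.one_apply,
      Matrix.vecMul, dotProduct] <;>
    first
    | ring1
    | linear_combination hg
    | linear_combination hh
    | linear_combination -hg
    | linear_combination -hh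

theorem P1_map {σ : k →+* k} (g : Matrix (Fin 2) (Fin 2) k) (h : g.map σ = g) :
    (P1 g).map σ = P1 g := by
  have h' : ∀ i j, σ (g i j) = g i j := fun i j => congrFun (congrFun h i) j
  rw [P1, fromBlocks_map]
  congr 1 <;> ext i j <;> fin_cases i <;> fin_cases j <;> simp [h']

theorem P2_map {σ : k →+* k} (g : Matrix (Fin 2) (Fin 2) k) (h : g.map σ = g) :
    (P2 g).map σ = P2 g := by
  have h' : ∀ i j, σ (g i j) = g i j := fun i j => congrFun (congrFun h i) j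
  rw [P2, fromBlocks_map]
  congr 1 <;> ext i j <;> fin_cases i <;> fin_cases j <;> simp [h']

theorem P3_map {σ : k →+* k} (g g' : Matrix (Fin 2) (Fin 2) k) (h : g.map σ = g)
    (k' : g'.map σ = g') : (P3 g g').map σ = P3 g g' := by
  have h' : ∀ i j, σ (g i j) = g i j := fun i j => congrFun (congrFun h i) j
  have h'' : ∀ i j, σ (g' i j) = g' i j := fun i j => congrFun (congrFun k' i) j
  rw [P3, fromBlocks_map]
  congr 1 <;> ext i j <;> fin_cases i <;> fin_cases j <;> simp [h', h'']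

/-- The homomorphism for symmetric forms. -/
def PhiP (σ : k →+* k) : fixS σ × fixS σ →* SpecialLinearGroup (Fin 2 ⊕ Fin 2) k where
  toFun x := ⟨P1 x.1.1.1 * P2 x.2.1.1, by
    rw [det_mul, det_P1, det_P2, fixS_det, fixS_det, mul_one, mul_one]⟩
  map_one' := by
    apply Subtype.ext
    change P1 (1 : Matrix (Fin 2) (Fin 2) k) * P2 1 = 1
    rw [P1_one, P2_one, mul_one]
  map_mul' x y := by
    apply Subtype.ext
    change P1 (x.1.1.1 * y.1.1.1) * P2 (x.2.1.1 * y.2.1.1) =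
      (P1 x.1.1.1 * P2 x.2.1.1) * (P1 y.1.1.1 * P2 y.2.1.1)
    rw [P1_mul, P2_mul]
    have h := P12_comm y.1.1.1 x.2.1.1
    calc P1 x.1.1.1 * P1 y.1.1.1 * (P2 x.2.1.1 * P2 y.2.1.1) =
        P1 x.1.1.1 * (P1 y.1.1.1 * P2 x.2.1.1) * P2 y.2.1.1 := by simp only [Matrix.mul_assoc]
      _ = P1 x.1.1.1 * (P2 x.2.1.1 * P1 y.1.1.1) * P2 y.2.1.1 := by rw [h]
      _ = _ := by simp only [Matrix.mul_assoc]

/-- The homomorphism for alternating forms. -/
def PhiM (σ : k →+* k) : fixS σ × fixS σ →* SpecialLinearGroup (Fin 2 ⊕ Fin 2) k where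
  toFun x := ⟨P3 x.1.1.1 x.2.1.1, by rw [det_P3, fixS_det, fixS_det, mul_one]⟩
  map_one' := by
    apply Subtype.ext
    exact P3_one
  map_mul' x y := by
    apply Subtype.ext
    exact P3_mul _ _ _ _

theorem PhiP_mem (σ : k →+* k) (x : fixS σ × fixS σ) : PhiP σ x ∈ FormGroup σ (F4 1) := by
  refine form_fix ?_ ?_
  · change (P1 x.1.1.1 * P2 x.2.1.1).map σ = P1 x.1.1.1 * P2 x.2.1.1
    rw [Matrix.map_mul, P1_map _ (fixS_map x.1), P2_map _ (fixS_map x.2)]
  · change P1 x.1.1.1 * P2 x.2.1.1 * F4 1 * (P1 x.1.1.1 * P2 x.2.1.1)ᵀ = F4 1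
    rw [transpose_mul]
    calc P1 x.1.1.1 * P2 x.2.1.1 * F4 1 * ((P2 x.2.1.1)ᵀ * (P1 x.1.1.1)ᵀ) =
        P1 x.1.1.1 * (P2 x.2.1.1 * F4 1 * (P2 x.2.1.1)ᵀ) * (P1 x.1.1.1)ᵀ := by
          simp only [Matrix.mul_assoc]
      _ = F4 1 := by rw [P2_form _ (fixS_det _), P1_form _ (fixS_det _)]

theorem PhiM_mem (σ : k →+* k) (x : fixS σ × fixS σ) : PhiM σ x ∈ FormGroup σ (F4 (-1)) := by
  refine form_fix ?_ ?_
  · exact P3_map _ _ (fixS_map x.1) (fixS_map x.2)
  · exact P3_form _ _ (fixS_det _) (fixS_det _)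

/-- The general construction. -/
theorem disc_form {σ : k →+* k} {w : k} (hw : 2 ≤ ‖w‖) (hσ : σ w = w) {ι : Type} [Fintype ι]
    [DecidableEq ι] (r : ℕ) (ε : k) (J₀ : Matrix ι ι k)
    (Ψ : fixS σ × fixS σ →* SpecialLinearGroup (Fin 2 ⊕ Fin 2) k)
    (hΨ : ∀ x, Ψ x ∈ FormGroup σ (F4 ε)) (p q : Fin 2 → Fin 2 ⊕ Fin 2)
    (hp : Function.Injective p) (hq : Function.Injective q)
    (h₁ : ∀ x : fixS σ × fixS σ, ∃ c : k, (Ψ x).1.submatrix p p = c • x.1.1.1)
    (h₂ : ∀ x : fixS σ × fixS σ, ∃ c : k, (Ψ x).1.submatrix q q = c • x.2.1.1) :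
    ∃ D : Subgroup (FormGroup σ (hyp (r + 2) ε J₀)), DiscreteTopology D ∧ CommPair D := by
  have hmem : ∀ x, ((extSL (e8 r ι)).comp Ψ) x ∈ FormGroup σ (hyp (r + 2) ε J₀) := by
    intro x
    rw [hyp_e8]
    exact extSL_form (e8 r ι) (hΨ x)
  refine disc_of σ hw hσ (((extSL (e8 r ι)).comp Ψ).codRestrict _ hmem) (fun g => g.1.1)
    (continuous_subtype_val.comp continuous_subtype_val) rfl
    (fun i => (e8 r ι).symm (.inl (p i))) (fun i => (e8 r ι).symm (.inl (q i))) ?_ ?_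
    (fun x => ?_) (fun x => ?_)
  · intro i j h
    exact hp (by simpa using h)
  · intro i j h
    exact hq (by simpa using h)
  · obtain ⟨c, hc⟩ := h₁ x
    refine ⟨c, ?_⟩
    rw [← hc]
    ext i j
    change (fromBlocks (Ψ x).1 0 0 1).submatrix (e8 r ι) (e8 r ι)
      ((e8 r ι).symm (.inl (p i))) ((e8 r ι).symm (.inl (p j))) = _
    simp
  · obtain ⟨c, hc⟩ := h₂ x
    refine ⟨c, ?_⟩
    rw [← hc]
    ext i j
    change (fromBlocks (Ψ x).1 0 0 1).submatrix (e8 r ι) (e8 r ι)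
      ((e8 r ι).symm (.inl (q i))) ((e8 r ι).symm (.inl (q j))) = _
    simp

/-- Isometry groups of forms of Witt index at least two. -/
theorem disc_isom {σ : k →+* k} (hσ : ∀ x, σ (σ x) = x) (hn : ∀ x, ‖σ x‖ = ‖x‖) {ε : k}
    (hε : ε * ε = 1) {ι : Type} [Fintype ι] [DecidableEq ι] (J₀ : Matrix ι ι k) (q : ℕ)
    (hq : 2 ≤ q) :
    ∃ D : Subgroup (FormGroup σ (hyp q ε J₀)), DiscreteTopology D ∧ CommPair D := by
  obtain ⟨r, rfl⟩ := Nat.exists_eq_add_of_le' hq
  obtain ⟨u, hu⟩ := NormedField.exists_lt_norm k 2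
  have hw : 2 ≤ ‖u * σ u‖ := by
    rw [norm_mul, hn]
    nlinarith
  have hσw : σ (u * σ u) = u * σ u := by rw [map_mul, hσ, mul_comm]
  rcases mul_self_eq_one_iff.mp hε with rfl | rfl
  · refine disc_form hw hσw r 1 J₀ (PhiP σ) (PhiP_mem σ) Sum.inl ![Sum.inl 0, Sum.inr 1]
      Sum.inl_injective ?_ (fun x => ⟨x.2.1.1 0 0, ?_⟩) (fun x => ⟨x.1.1.1 0 0, ?_⟩)
    · intro i j h
      fin_cases i <;> fin_cases j <;> simp_all
    · change (P1 x.1.1.1 * P2 x.2.1.1).submatrix Sum.inl Sum.inl = _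
      rw [P1, P2, fromBlocks_multiply]
      ext i j
      fin_cases i <;> fin_cases j <;> simp <;> ring
    · change (P1 x.1.1.1 * P2 x.2.1.1).submatrix _ _ = _
      rw [P1, P2, fromBlocks_multiply]
      ext i j
      fin_cases i <;> fin_cases j <;> simp
  · refine disc_form hw hσw r (-1) J₀ (PhiM σ) (PhiM_mem σ) ![Sum.inl 0, Sum.inr 0]
      ![Sum.inl 1, Sum.inr 1] ?_ ?_ (fun x => ⟨1, ?_⟩) (fun x => ⟨1, ?_⟩)
    · intro i j h
      fin_cases i <;> fin_cases j <;> simp_all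
    · intro i j h
      fin_cases i <;> fin_cases j <;> simp_all
    · change (P3 x.1.1.1 x.2.1.1).submatrix _ _ = _
      ext i j
      fin_cases i <;> fin_cases j <;> simp [P3]
    · change (P3 x.1.1.1 x.2.1.1).submatrix _ _ = _
      ext i j
      fin_cases i <;> fin_cases j <;> simp [P3]

end sl

end Vale.Agent.P092.H714
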