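import Vale.Agent.P092.H714.PairInst
import Vale.Agent.P092.H303.Form

/-!
P092 (helper714): discrete subgroups with commuting nonamenable subgroups in `SL_n(k)`, `n ≥ 4`, and
in the isometry groups of forms of Witt index at least two.
-/

set_option linter.all false

open Matrix Topology

namespace Vale.Agent.P092.H714

open Vale.Agent.P092.L.H859 (CommPair)
open Vale.Agent.P092.H303 (FormGroup mem_formGroup hyp Idx)

section ext

variable {k : Type} [Field k] {m m' n : Type} [Fintype m] [DecidableEq m] [Fintype m']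
  [DecidableEq m'] [Fintype n] [DecidableEq n]

/-- Extension by the identity. -/
def extSL (e : n ≃ m ⊕ m') : SpecialLinearGroup m k →* SpecialLinearGroup n k where
  toFun g := ⟨(fromBlocks g.1 0 0 1).submatrix e e, by
    rw [det_submatrix_equiv_self, det_fromBlocks_zero₂₁, g.2, det_one, mul_one]⟩
  map_one' := by
    apply Subtype.ext
    change (fromBlocks (1 : Matrix m m k) 0 0 1).submatrix e e = 1
    rw [fromBlocks_one, submatrix_one_equiv]
  map_mul' g h := by
    apply Subtype.ext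
    change (fromBlocks (g.1 * h.1) 0 0 1).submatrix e e =
      (fromBlocks g.1 0 0 1).submatrix e e * (fromBlocks h.1 0 0 1).submatrix e e
    rw [submatrix_mul_equiv, fromBlocks_multiply]
    simp

theorem extSL_form {σ : k →+* k} (e : n ≃ m ⊕ m') {F : Matrix m m k} {F' : Matrix m' m' k}
    {g : SpecialLinearGroup m k} (hg : g ∈ FormGroup σ F) :
    extSL e g ∈ FormGroup σ ((fromBlocks F 0 0 F').submatrix e e) := by
  rw [mem_formGroup] at hg ⊢
  change (fromBlocks g.1 0 0 1).submatrix e e * (fromBlocks F 0 0 F').submatrix e e *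
    (((fromBlocks g.1 0 0 1).submatrix e e).map σ)ᵀ = _
  rw [← submatrix_map, transpose_submatrix, submatrix_mul_equiv, fromBlocks_map,
    fromBlocks_transpose, submatrix_mul_equiv, fromBlocks_multiply, fromBlocks_multiply]
  simp [hg, Matrix.map_one σ (map_zero σ) (map_one σ), Matrix.map_zero σ (map_zero σ)]

/-- Block diagonal matrices. -/
def bd : SpecialLinearGroup m k × SpecialLinearGroup m' k →* SpecialLinearGroup (m ⊕ m') k where
  toFun x := ⟨fromBlocks x.1.1 0 0 x.2.1, by
    rw [det_fromBlocks_zero₂₁, x.1.2, x.2.2, mul_one]⟩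
  map_one' := by
    apply Subtype.ext
    exact fromBlocks_one
  map_mul' x y := by
    apply Subtype.ext
    change fromBlocks (x.1.1 * y.1.1) 0 0 (x.2.1 * y.2.1) =
      fromBlocks x.1.1 0 0 x.2.1 * fromBlocks y.1.1 0 0 y.2.1
    rw [fromBlocks_multiply]
    simp

/-- Reindexing. -/
def reSL (e : n ≃ m) : SpecialLinearGroup m k →* SpecialLinearGroup n k where
  toFun g := ⟨g.1.submatrix e e, by rw [det_submatrix_equiv_self, g.2]⟩
  map_one' := by
    apply Subtype.ext
    change (1 : Matrix m m k).submatrix e e = 1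
    rw [submatrix_one_equiv]
  map_mul' g h := by
    apply Subtype.ext
    change (g.1 * h.1).submatrix e e = g.1.submatrix e e * h.1.submatrix e e
    rw [submatrix_mul_equiv]

end ext

section four

variable {k : Type} [Field k]

/-- The first factor, for symmetric forms. -/
def P1 (g : Matrix (Fin 2) (Fin 2) k) : Matrix (Fin 2 ⊕ Fin 2) (Fin 2 ⊕ Fin 2) k :=
  fromBlocks !![g 0 0, g 0 1; g 1 0, g 1 1] 0 0 !![g 1 1, -g 1 0; -g 0 1, g 0 0]

/-- The second factor, for symmetric forms. -/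
def P2 (h : Matrix (Fin 2) (Fin 2) k) : Matrix (Fin 2 ⊕ Fin 2) (Fin 2 ⊕ Fin 2) k :=
  fromBlocks !![h 0 0, 0; 0, h 0 0] !![0, h 0 1; -h 0 1, 0] !![0, -h 1 0; h 1 0, 0]
    !![h 1 1, 0; 0, h 1 1]

theorem P1_mul (g h : Matrix (Fin 2) (Fin 2) k) : P1 (g * h) = P1 g * P1 h := by
  rw [P1, P1, P1, fromBlocks_multiply]
  congr 1 <;> ext i j <;> fin_cases i <;> fin_cases j <;>
    simp [Matrix.mul_apply, Fin.sum_univ_two] <;> ring

theorem P2_mul (g h : Matrix (Fin 2) (Fin 2) k) : P2 (g * h) = P2 g * P2 h := by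
  rw [P2, P2, P2, fromBlocks_multiply]
  congr 1 <;> ext i j <;> fin_cases i <;> fin_cases j <;>
    simp [Matrix.mul_apply, Fin.sum_univ_two] <;> ring

theorem P12_comm (g h : Matrix (Fin 2) (Fin 2) k) : P1 g * P2 h = P2 h * P1 g := by
  rw [P1, P2, fromBlocks_multiply, fromBlocks_multiply]
  congr 1 <;> ext i j <;> fin_cases i <;> fin_cases j <;>
    simp [Matrix.mul_apply, Fin.sum_univ_two] <;> ring

theorem P1_one : P1 (1 : Matrix (Fin 2) (Fin 2) k) = 1 := by
  rw [P1, ← fromBlocks_one]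
  congr 1 <;> ext i j <;> fin_cases i <;> fin_cases j <;> simp

theorem P2_one : P2 (1 : Matrix (Fin 2) (Fin 2) k) = 1 := by
  rw [P2, ← fromBlocks_one]
  congr 1 <;> ext i j <;> fin_cases i <;> fin_cases j <;> simp

theorem det_P1 (g : Matrix (Fin 2) (Fin 2) k) : (P1 g).det = g.det * g.det := by
  rw [P1, det_fromBlocks_zero₂₁, det_fin_two_of, det_fin_two_of, det_fin_two]
  ring

/-- A permutation of the four indices. -/
def e4 : Fin 2 ⊕ Fin 2 ≃ Fin 2 ⊕ Fin 2 where
  toFun
    | .inl 0 => .inl 0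
    | .inl 1 => .inr 0
    | .inr 0 => .inr 1
    | .inr 1 => .inl 1
  invFun
    | .inl 0 => .inl 0
    | .inl 1 => .inr 1
    | .inr 0 => .inl 1
    | .inr 1 => .inr 0
  left_inv := by
    rintro (i | i) <;> fin_cases i <;> rfl
  right_inv := by
    rintro (i | i) <;> fin_cases i <;> rfl

theorem det_P2 (h : Matrix (Fin 2) (Fin 2) k) : (P2 h).det = h.det * h.det := by
  have e : P2 h = (fromBlocks !![h 0 0, h 0 1; h 1 0, h 1 1] 0 0
      !![h 0 0, -h 0 1; -h 1 0, h 1 1]).submatrix e4 e4 := by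
    ext i j
    rcases i with i | i <;> rcases j with j | j <;> fin_cases i <;> fin_cases j <;>
      simp [P2, e4]
  rw [e, det_submatrix_equiv_self, det_fromBlocks_zero₂₁, det_fin_two_of, det_fin_two_of,
    det_fin_two]
  ring

/-- The form of two hyperbolic planes. -/
def F4 (ε : k) : Matrix (Fin 2 ⊕ Fin 2) (Fin 2 ⊕ Fin 2) k :=
  fromBlocks 0 1 (ε • (1 : Matrix (Fin 2) (Fin 2) k)) 0

theorem P1_form (g : Matrix (Fin 2) (Fin 2) k) (hg : g.det = 1) (ε : k) :
    P1 g * F4 ε * (P1 g)ᵀ = F4 ε := by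
  rw [det_fin_two] at hg
  rw [P1, F4, fromBlocks_transpose, fromBlocks_multiply, fromBlocks_multiply]
  congr 1 <;> ext i j <;> fin_cases i <;> fin_cases j <;>
    simp [Matrix.mul_apply, Fin.sum_univ_two, Matrix.smul_apply, Matrix.one_apply,
      Matrix.vecMul, dotProduct] <;>
    first
    | ring1
    | linear_combination hg
    | linear_combination ε * hg

theorem P2_form (g : Matrix (Fin 2) (Fin 2) k) (hg : g.det = 1) :
    P2 g * F4 1 * (P2 g)ᵀ = F4 1 := by
  rw [det_fin_two] at hg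
  rw [P2, F4, fromBlocks_transpose, fromBlocks_multiply, fromBlocks_multiply]
  congr 1 <;> ext i j <;> fin_cases i <;> fin_cases j <;>
    simp [Matrix.mul_apply, Fin.sum_univ_two, Matrix.smul_apply, Matrix.one_apply,
      Matrix.vecMul, dotProduct] <;>
    first
    | ring1
    | linear_combination hg

theorem hJ (g : Matrix (Fin 2) (Fin 2) k) (hg : g.det = 1) :
    g * !![0, 1; -1, 0] * gᵀ = !![0, 1; -1, 0] := by
  rw [det_fin_two] at hg
  ext i j
  fin_cases i <;> fin_cases j <;>
    simp [Matrix.mul_apply, Fin.sum_univ_two] <;>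
    first
    | ring1
    | linear_combination hg
    | linear_combination -hg

end four

section form

variable {k : Type} [NormedField k]

theorem form_fix {σ : k →+* k} {n : Type} [Fintype n] [DecidableEq n]
    {g : SpecialLinearGroup n k} {F : Matrix n n k} (hσ : g.1.map σ = g.1)
    (h : g.1 * F * g.1ᵀ = F) : g ∈ FormGroup σ F := by
  rw [mem_formGroup, hσ, h]

/-- The index set of `p + 2` hyperbolic planes. -/
def e8 (p : ℕ) (ι : Type) : Idx (p + 2) ι ≃ (Fin 2 ⊕ Fin 2) ⊕ Idx p ι :=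
  (((Equiv.sumCongr ((finCongr (add_comm p 2)).trans finSumFinEquiv.symm)
    ((finCongr (add_comm p 2)).trans finSumFinEquiv.symm)).trans
      (Equiv.sumSumSumComm _ _ _ _)).sumCongr (Equiv.refl ι)).trans (Equiv.sumAssoc _ _ _)

theorem hyp_e8 {ι : Type} [Fintype ι] [DecidableEq ι] (p : ℕ) (ε : k) (J₀ : Matrix ι ι k) :
    hyp (p + 2) ε J₀ = (fromBlocks (F4 ε) 0 0 (hyp p ε J₀)).submatrix (e8 p ι) (e8 p ι) := by
  obtain ⟨s, hs⟩ : ∃ s : Fin (p + 2) ≃ Fin 2 ⊕ Fin p,
    s = (finCongr (add_comm p 2)).trans finSumFinEquiv.symm := ⟨_, rfl⟩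
  have h : (hyp (p + 2) ε J₀).submatrix (e8 p ι).symm (e8 p ι).symm =
      fromBlocks (F4 ε) 0 0 (hyp p ε J₀) := by
    have h1 : ∀ a, (e8 p ι).symm (.inl (.inl a)) = .inl (.inl (s.symm (.inl a))) := fun a => by
      rw [hs]; rfl
    have h2 : ∀ a, (e8 p ι).symm (.inl (.inr a)) = .inl (.inr (s.symm (.inl a))) := fun a => by
      rw [hs]; rfl
    have h3 : ∀ a, (e8 p ι).symm (.inr (.inl (.inl a))) = .inl (.inl (s.symm (.inr a))) :=
      fun a => by rw [hs]; rfl
    have h4 : ∀ a, (e8 p ι).symm (.inr (.inl (.inr a))) = .inl (.inr (s.symm (.inr a))) :=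
      fun a => by rw [hs]; rfl
    have h5 : ∀ a, (e8 p ι).symm (.inr (.inr a)) = .inr a := fun a => rfl
    ext i j
    rw [submatrix_apply]
    rcases i with (i | i) | ((i | i) | i) <;> rcases j with (j | j) | ((j | j) | j) <;>
      simp only [h1, h2, h3, h4, h5] <;>
      simp [hyp, F4, Matrix.one_apply]
  rw [← h, submatrix_submatrix]
  simp

end form

end Vale.Agent.P092.H714
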