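import Vale.Agent.P092.H714.Schottky
import Vale.Agent.P092.L.H859.Pair

/-!
P092 (helper714): discrete subgroups with commuting nonamenable subgroups in matrix groups over
local fields.
-/

set_option linter.all false

open Matrix Topology

namespace Vale.Agent.P092.H714

open Vale.Agent.P092.L.H859 (CommPair commPair_of_split)

section abs

variable {k : Type} [NormedField k] {N : Type}

/-- The elements of `SL_2(k)` with entries fixed by `σ`. -/
def fixS (σ : k →+* k) : Subgroup (SpecialLinearGroup (Fin 2) k) :=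
  (SpecialLinearGroup.map σ).eqLocus (MonoidHom.id _)

theorem fixS_map {σ : k →+* k} (g : fixS σ) : g.1.1.map σ = g.1.1 :=
  congrArg Subtype.val (show SpecialLinearGroup.map σ g.1 = g.1 from g.2)

/-- The criterion. -/
theorem disc_of {G : Type} [Group G] [TopologicalSpace G] [IsTopologicalGroup G] (σ : k →+* k)
    {w : k} (hw : 2 ≤ ‖w‖) (hσ : σ w = w) (Φ : fixS σ × fixS σ →* G) (m : G → Matrix N N k)
    [DecidableEq N] (hm : Continuous m) (hm1 : m 1 = 1) (p q : Fin 2 → N)
    (hp : Function.Injective p) (hq : Function.Injective q)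
    (h₁ : ∀ x : fixS σ × fixS σ, ∃ c : k, (m (Φ x)).submatrix p p = c • x.1.1.1)
    (h₂ : ∀ x : fixS σ × fixS σ, ∃ c : k, (m (Φ x)).submatrix q q = c • x.2.1.1) :
    ∃ D : Subgroup G, DiscreteTopology D ∧ CommPair D := by
  obtain ⟨φ, v, U, hUo, hvU, hUs, hφ, hφσ⟩ := schottky w hw
  have hmem : ∀ x, φ x ∈ fixS σ := fun x => Subtype.ext (hφσ σ hσ x)
  obtain ⟨ψ, hψ⟩ : ∃ ψ : FreeGroup (Fin 2) →* fixS σ, ∀ x, (ψ x).1 = φ x :=
    ⟨φ.codRestrict (fixS σ) hmem, fun x => rfl⟩
  obtain ⟨Ψ, hΨ⟩ : ∃ Ψ : FreeGroup (Fin 2) × FreeGroup (Fin 2) →* G,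
      ∀ x, Ψ x = Φ (ψ x.1, ψ x.2) := ⟨Φ.comp (ψ.prodMap ψ), fun x => rfl⟩
  have hkey : ∀ x, (m (Ψ x)).submatrix p p *ᵥ v ∈ U → (m (Ψ x)).submatrix q q *ᵥ v ∈ U →
      x = 1 := by
    intro x hx1 hx2
    rw [hΨ] at hx1 hx2
    obtain ⟨c, hc⟩ := h₁ (ψ x.1, ψ x.2)
    obtain ⟨c', hc'⟩ := h₂ (ψ x.1, ψ x.2)
    rw [hc, smul_mulVec] at hx1
    rw [hc', smul_mulVec] at hx2
    have y1 := hUs _ _ hx1
    have y2 := hUs _ _ hx2
    simp only [hψ] at y1 y2
    refine Prod.ext ?_ ?_
    · by_contra hne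
      exact hφ _ hne y1
    · by_contra hne
      exact hφ _ hne y2
  have h1 : (m 1).submatrix p p *ᵥ v ∈ U := by
    rw [hm1, submatrix_one _ hp, one_mulVec]; exact hvU
  have h2 : (m 1).submatrix q q *ᵥ v ∈ U := by
    rw [hm1, submatrix_one _ hq, one_mulVec]; exact hvU
  have hinj : Function.Injective Ψ := by
    rw [injective_iff_map_eq_one]
    intro x hx
    refine hkey x ?_ ?_
    · rw [hx]; exact h1
    · rw [hx]; exact h2
  refine ⟨Ψ.range, ?_, ?_⟩
  · refine discreteTopology_of_isOpen_singleton_one ?_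
    have hmD : Continuous fun d : Ψ.range => m d := hm.comp continuous_subtype_val
    have hcont : ∀ r : Fin 2 → N, Continuous fun d : Ψ.range => (m d).submatrix r r *ᵥ v := by
      intro r
      exact (hmD.matrix_submatrix r r).matrix_mulVec continuous_const
    have ho : IsOpen {d : Ψ.range | (m d).submatrix p p *ᵥ v ∈ U ∧
        (m d).submatrix q q *ᵥ v ∈ U} :=
      (hUo.preimage (hcont p)).inter (hUo.preimage (hcont q))
    have he : {d : Ψ.range | (m d).submatrix p p *ᵥ v ∈ U ∧ (m d).submatrix q q *ᵥ v ∈ U} =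
        {1} := by
      ext d
      simp only [Set.mem_setOf_eq, Set.mem_singleton_iff]
      constructor
      · rintro ⟨a1, a2⟩
        obtain ⟨x, hx⟩ := d.2
        apply Subtype.ext
        rw [← hx] at a1 a2
        rw [← hx, hkey x a1 a2, map_one]
        rfl
      · rintro rfl
        exact ⟨h1, h2⟩
    rw [← he]
    exact ho
  · refine commPair_of_split ?_
    exact H200.split_of_F2F2 Ψ.rangeRestrict (by
      intro x y hxy
      exact hinj (congrArg Subtype.val hxy))

end abs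

end Vale.Agent.P092.H714
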