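import Mathlib

/-!
P092 (helper714), [P3-CLS], algebra: a map between the isotropic points of two forms which
preserves orthogonality and, on every isotropic line, the cross ratio up to a homomorphism of
fields `τ`, is given by a `τ`-semilinear similitude (`pol_ext`). Any form of Witt index at least
two, any field.
-/

set_option linter.all false

namespace Vale.Agent.P092.H714.Pc

open Module

section basic

variable {K V : Type*} [Field K] [AddCommGroup V] [Module K V]

/-- hermitian forms -/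
structure SF (σ : K →+* K) (ε : K) (h : V → V → K) : Prop where
  inv : ∀ x, σ (σ x) = x
  eps : ε * ε = 1
  seps : σ ε = ε
  add : ∀ x y z, h (x + y) z = h x z + h y z
  smul : ∀ (c : K) x y, h (c • x) y = c * h x y
  herm : ∀ x y, h y x = ε * σ (h x y)

namespace SF

variable {σ : K →+* K} {ε : K} {h : V → V → K} (hh : SF σ ε h)

include hh

theorem eps_ne : ε ≠ 0 := fun h0 => by
  have := hh.eps
  rw [h0, mul_zero] at this
  exact zero_ne_one this

theorem add_right (x y z : V) : h x (y + z) = h x y + h x z := by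
  rw [hh.herm (y + z) x, hh.add, map_add, mul_add, ← hh.herm, ← hh.herm]

theorem smul_right (c : K) (x y : V) : h x (c • y) = σ c * h x y := by
  rw [hh.herm (c • y) x, hh.smul, map_mul, hh.herm y x]
  ring

theorem zero_left (x : V) : h 0 x = 0 := by
  have := hh.smul 0 0 x
  rw [zero_smul, zero_mul] at this
  exact this

theorem zero_right (x : V) : h x 0 = 0 := by
  have := hh.smul_right 0 x 0
  rw [zero_smul, map_zero, zero_mul] at this
  exact this

theorem symm {x y : V} (hxy : h x y = 0) : h y x = 0 := by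
  rw [hh.herm x y, hxy, map_zero, mul_zero]

theorem symm_iff {x y : V} : h y x = 0 ↔ h x y = 0 := ⟨fun a => hh.symm a, fun a => hh.symm a⟩

theorem sub_left (x y z : V) : h (x - y) z = h x z - h y z := by
  rw [sub_eq_add_neg, hh.add, ← neg_one_smul K y, hh.smul]
  ring

theorem sum_left {ι : Type*} (s : Finset ι) (f : ι → V) (y : V) :
    h (∑ i ∈ s, f i) y = ∑ i ∈ s, h (f i) y := by
  classical
  induction s using Finset.induction_on with
  | empty => rw [Finset.sum_empty, Finset.sum_empty, hh.zero_left]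
  | insert a s ha ih => rw [Finset.sum_insert ha, Finset.sum_insert ha, hh.add, ih]

theorem sum_right {ι : Type*} (s : Finset ι) (f : ι → V) (y : V) :
    h y (∑ i ∈ s, f i) = ∑ i ∈ s, h y (f i) := by
  classical
  induction s using Finset.induction_on with
  | empty => rw [Finset.sum_empty, Finset.sum_empty, hh.zero_right]
  | insert a s ha ih => rw [Finset.sum_insert ha, Finset.sum_insert ha, hh.add_right, ih]

end SF

/-- proportional vectors -/
def Pr (K : Type*) {V : Type*} [Field K] [AddCommGroup V] [Module K V] (u v : V) : Prop :=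
  ∃ c : K, c ≠ 0 ∧ u = c • v

theorem Pr.refl (u : V) : Pr K u u := ⟨1, one_ne_zero, (one_smul _ _).symm⟩

theorem Pr.symm {u v : V} (h : Pr K u v) : Pr K v u := by
  obtain ⟨c, hc, rfl⟩ := h
  exact ⟨c⁻¹, inv_ne_zero hc, by rw [smul_smul, inv_mul_cancel₀ hc, one_smul]⟩

theorem Pr.trans {u v w : V} (h : Pr K u v) (h' : Pr K v w) : Pr K u w := by
  obtain ⟨c, hc, rfl⟩ := h
  obtain ⟨d, hd, rfl⟩ := h'
  exact ⟨c * d, mul_ne_zero hc hd, by rw [smul_smul]⟩

theorem Pr.smul {c : K} (hc : c ≠ 0) (u : V) : Pr K (c • u) u := ⟨c, hc, rfl⟩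

theorem Pr.ne {u v : V} (h : Pr K u v) (hv : v ≠ 0) : u ≠ 0 := by
  obtain ⟨c, hc, rfl⟩ := h
  exact smul_ne_zero hc hv

theorem Pr.perp {σ : K →+* K} {ε : K} {h : V → V → K} (hh : SF σ ε h) {u v w z : V}
    (huv : Pr K u v) (hwz : Pr K w z) : h u w = 0 ↔ h v z = 0 := by
  obtain ⟨c, hc, rfl⟩ := huv
  obtain ⟨d, hd, rfl⟩ := hwz
  rw [hh.smul, hh.smul_right]
  have : σ d ≠ 0 := (map_ne_zero σ).2 hd
  constructor
  · intro h0
    rcases mul_eq_zero.1 h0 with h1 | h1
    · exact absurd h1 hc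
    · rcases mul_eq_zero.1 h1 with h2 | h2
      · exact absurd h2 this
      · exact h2
  · intro h0
    rw [h0, mul_zero, mul_zero]

theorem li_pair {u v : V} (h : LinearIndependent K ![u, v]) {a b c d : K}
    (e : a • u + b • v = c • u + d • v) : a = c ∧ b = d := by
  have h1 := LinearIndependent.pair_iff.1 h (a - c) (b - d) (by
    rw [sub_smul, sub_smul]
    have : a • u + b • v - (c • u + d • v) = 0 := by rw [e, sub_self]
    rw [← this]
    abel)
  exact ⟨sub_eq_zero.1 h1.1, sub_eq_zero.1 h1.2⟩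

theorem li_of_perp {σ : K →+* K} {ε : K} {h : V → V → K} (hh : SF σ ε h) {e x f : V}
    (hef : h e f ≠ 0) (hxf : h x f = 0) (hx : x ≠ 0) : LinearIndependent K ![e, x] := by
  rw [LinearIndependent.pair_iff]
  intro s t hst
  have h1 : h (s • e + t • x) f = 0 := by rw [hst, hh.zero_left]
  rw [hh.add, hh.smul, hh.smul, hxf, mul_zero, add_zero] at h1
  have hs : s = 0 := by
    rcases mul_eq_zero.1 h1 with h2 | h2
    · exact h2
    · exact absurd h2 hef
  rw [hs, zero_smul, zero_add] at hst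
  rcases smul_eq_zero.1 hst with h2 | h2
  · exact ⟨hs, h2⟩
  · exact absurd h2 hx

end basic

/-- The relations: isotropic vectors to vectors. -/
structure Rel {K L V V' : Type*} [Field K] [Field L] [AddCommGroup V] [Module K V]
    [AddCommGroup V'] [Module L V'] (τ : K →+* L) (h : V → V → K) (h' : V' → V' → L)
    (φ : V → V') : Prop where
  ne : ∀ x, x ≠ 0 → h x x = 0 → φ x ≠ 0
  sc : ∀ x (c : K), c ≠ 0 → x ≠ 0 → h x x = 0 → Pr L (φ (c • x)) (φ x)
  perp : ∀ x y, x ≠ 0 → y ≠ 0 → h x x = 0 → h y y = 0 → (h' (φ x) (φ y) = 0 ↔ h x y = 0)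
  line : ∀ x y, x ≠ 0 → y ≠ 0 → h x x = 0 → h y y = 0 → h x y = 0 →
    LinearIndependent K ![x, y] → ∀ s : K, ∃ v w, LinearIndependent L ![v, w] ∧
      Pr L (φ x) v ∧ Pr L (φ y) w ∧ Pr L (φ (x + y)) (v + w) ∧
      Pr L (φ (s • x + y)) (τ s • v + w)

section main

variable {K L V V' : Type*} [Field K] [Field L] [AddCommGroup V] [Module K V]
    [AddCommGroup V'] [Module L V'] {τ : K →+* L} {σ : K →+* K} {ε : K} {h : V → V → K}
    {σ' : L →+* L} {ε' : L} {h' : V' → V' → L} {φ : V → V'}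

/-- isotropic vectors of the orthogonal complement of a hyperbolic pair -/
def SW (h : V → V → K) (e f x : V) : Prop := x ≠ 0 ∧ h x x = 0 ∧ h x e = 0 ∧ h x f = 0

theorem Rel.lift (R : Rel τ h h' φ) {x y : V} (hx : x ≠ 0) (hy : y ≠ 0) (hxx : h x x = 0)
    (hyy : h y y = 0) (hxy : h x y = 0) (hI : LinearIndependent K ![x, y]) :
    ∃ P, Pr L (φ y) P ∧ LinearIndependent L ![φ x, P] ∧
      ∀ s : K, Pr L (φ (s • x + y)) (τ s • φ x + P) := by
  obtain ⟨v, w, h1, ⟨c, hc, h2⟩, h3, h4, -⟩ := R.line x y hx hy hxx hyy hxy hI 0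
  have e1 : v = c⁻¹ • φ x := by rw [h2, smul_smul, inv_mul_cancel₀ hc, one_smul]
  have hI' : LinearIndependent L ![φ x, c • w] := by
    rw [h2, LinearIndependent.pair_iff]
    intro s t hst
    have := LinearIndependent.pair_iff.1 h1 (s * c) (t * c) (by
      rw [← hst, smul_smul, smul_smul])
    exact ⟨(mul_eq_zero.1 this.1).resolve_right hc, (mul_eq_zero.1 this.2).resolve_right hc⟩
  have hs1 : Pr L (φ (x + y)) (φ x + c • w) := by
    refine h4.trans ?_
    refine ⟨c⁻¹, inv_ne_zero hc, ?_⟩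
    rw [smul_add, ← e1, smul_smul, inv_mul_cancel₀ hc, one_smul]
  refine ⟨c • w, h3.trans (Pr.smul hc w).symm, hI', fun s => ?_⟩
  obtain ⟨v', w', h1', ⟨c', hc', h2'⟩, h3', h4', h5'⟩ := R.line x y hx hy hxx hyy hxy hI s
  have e1' : v' = c'⁻¹ • φ x := by rw [h2', smul_smul, inv_mul_cancel₀ hc', one_smul]
  -- `c' w' = c w`
  have hp : Pr L (c' • w') (c • w) :=
    (Pr.smul hc' w').trans (h3'.symm.trans (h3.trans (Pr.smul hc w).symm))
  obtain ⟨a, ha, hpa⟩ := hp
  have hs2 : Pr L (φ (x + y)) (φ x + c' • w') := by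
    refine h4'.trans ?_
    refine ⟨c'⁻¹, inv_ne_zero hc', ?_⟩
    rw [smul_add, ← e1', smul_smul, inv_mul_cancel₀ hc', one_smul]
  obtain ⟨b, hb, hbe⟩ := hs1.symm.trans hs2
  rw [hpa, smul_add, smul_smul] at hbe
  have h6 := li_pair hI' (a := 1) (b := 1) (c := b) (d := b * a) (by
    rw [one_smul, one_smul, hbe])
  have ha1 : a = 1 := by
    have := h6.2
    rw [← h6.1, one_mul] at this
    exact this.symm
  rw [ha1, one_smul] at hpa
  refine h5'.trans ⟨c'⁻¹, inv_ne_zero hc', ?_⟩
  rw [← hpa, smul_add, smul_smul, smul_smul, inv_mul_cancel₀ hc', one_smul, e1', smul_smul,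
    mul_comm]

variable (hh : SF σ ε h) (hh' : SF σ' ε' h') (R : Rel τ h h' φ) {e f : V}
  (he : h e e = 0) (hf : h f f = 0) (hef : h e f = 1)

include hh hef in
theorem e_ne : e ≠ 0 := fun h0 => by
  rw [h0, hh.zero_left] at hef
  exact zero_ne_one hef

include hh hef in
theorem hfe : h f e = ε := by rw [hh.herm e f, hef, map_one, mul_one]

include hh hef in
theorem f_ne : f ≠ 0 := fun h0 => by
  rw [h0, hh.zero_right] at hef
  exact zero_ne_one hef

include hh in
theorem SW.smul {x : V} (hx : SW h e f x) {c : K} (hc : c ≠ 0) : SW h e f (c • x) := by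
  obtain ⟨h1, h2, h3, h4⟩ := hx
  refine ⟨smul_ne_zero hc h1, ?_, ?_, ?_⟩
  · rw [hh.smul, hh.smul_right, h2, mul_zero, mul_zero]
  · rw [hh.smul, h3, mul_zero]
  · rw [hh.smul, h4, mul_zero]

include hh he hef in
theorem iso_e {x : V} (hx : SW h e f x) (s : K) : s • e + x ≠ 0 ∧ h (s • e + x) (s • e + x) = 0 := by
  obtain ⟨h1, h2, h3, h4⟩ := hx
  have hI := li_of_perp hh (e := e) (f := f) (by rw [hef]; exact one_ne_zero) h4 h1
  refine ⟨fun h0 => ?_, ?_⟩
  · have := LinearIndependent.pair_iff.1 hI s 1 (by rw [one_smul]; exact h0)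
    exact one_ne_zero this.2
  · rw [hh.add, hh.add_right, hh.add_right, hh.smul, hh.smul, hh.smul_right, hh.smul_right, he,
      h2, h3, hh.symm h3]
    ring

include hh hf hef in
theorem iso_f {x : V} (hx : SW h e f x) (s : K) : s • f + x ≠ 0 ∧ h (s • f + x) (s • f + x) = 0 := by
  obtain ⟨h1, h2, h3, h4⟩ := hx
  have hI := li_of_perp hh (e := f) (f := e) (by rw [hfe hh hef]; exact hh.eps_ne) h3 h1
  refine ⟨fun h0 => ?_, ?_⟩
  · have := LinearIndependent.pair_iff.1 hI s 1 (by rw [one_smul]; exact h0)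
    exact one_ne_zero this.2
  · rw [hh.add, hh.add_right, hh.add_right, hh.smul, hh.smul, hh.smul_right, hh.smul_right, hf,
      h2, h4, hh.symm h4]
    ring

include hh he hf hef in
/-- the normalised lifts -/
theorem exists_P (R : Rel τ h h' φ) : ∃ (P : V → V') (l : V → L), ∀ x, SW h e f x →
    Pr L (φ x) (P x) ∧ LinearIndependent L ![φ e, P x] ∧ LinearIndependent L ![φ f, P x] ∧
    l x ≠ 0 ∧ (∀ s : K, Pr L (φ (s • e + x)) (τ s • φ e + P x)) ∧
    ∀ s : K, Pr L (φ (s • f + x)) ((τ s * l x) • φ f + P x) := by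
  classical
  have key : ∀ x, ∃ p : V' × L, SW h e f x →
      Pr L (φ x) p.1 ∧ LinearIndependent L ![φ e, p.1] ∧ LinearIndependent L ![φ f, p.1] ∧
      p.2 ≠ 0 ∧ (∀ s : K, Pr L (φ (s • e + x)) (τ s • φ e + p.1)) ∧
      ∀ s : K, Pr L (φ (s • f + x)) ((τ s * p.2) • φ f + p.1) := by
    intro x
    by_cases hx : SW h e f x
    · obtain ⟨h1, h2, h3, h4⟩ := hx
      have i1 := li_of_perp hh (e := e) (f := f) (by rw [hef]; exact one_ne_zero) h4 h1
      have i2 := li_of_perp hh (e := f) (f := e) (by rw [hfe hh hef]; exact hh.eps_ne) h3 h1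
      obtain ⟨P, p1, p2, p3⟩ := R.lift (e_ne hh hef) h1 he h2 (hh.symm h3) i1
      obtain ⟨P', q1, q2, q3⟩ := R.lift (f_ne hh hef) h1 hf h2 (hh.symm h4) i2
      obtain ⟨a, ha, hPa⟩ := q1.symm.trans p1
      have hPP : P = a⁻¹ • P' := by rw [hPa, smul_smul, inv_mul_cancel₀ ha, one_smul]
      refine ⟨(P, a⁻¹), fun _ => ⟨p1, p2, ?_, inv_ne_zero ha, p3, fun s => ?_⟩⟩
      · change LinearIndependent L ![φ f, P]
        rw [LinearIndependent.pair_iff]
        intro s t hst
        have := LinearIndependent.pair_iff.1 q2 s (t * a⁻¹) (by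
          rw [← hst, hPP, smul_smul])
        exact ⟨this.1, (mul_eq_zero.1 this.2).resolve_right (inv_ne_zero ha)⟩
      · refine (q3 s).trans ⟨a, ha, ?_⟩
        change τ s • φ f + P' = a • ((τ s * a⁻¹) • φ f + P)
        rw [smul_add, smul_smul, hPa]
        congr 2
        field_simp
    · exact ⟨(0, 0), fun hx' => absurd hx' hx⟩
  choose p hp using key
  exact ⟨fun x => (p x).1, fun x => (p x).2, hp⟩

end main

end Vale.Agent.P092.H714.Pc
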