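import Vale.Agent.P092.H714.Pc1

/-!
P092 (helper714), [P3-CLS], algebra: the Gram relation of the normalised lifts.
-/

set_option linter.all false

namespace Vale.Agent.P092.H714.Pc

open Module

variable {K L V V' : Type*} [Field K] [Field L] [AddCommGroup V] [Module K V]
    [AddCommGroup V'] [Module L V'] {τ : K →+* L} {σ : K →+* K} {ε : K} {h : V → V → K}
    {σ' : L →+* L} {ε' : L} {h' : V' → V' → L} {φ : V → V'}

/-- the normalised lifts -/
structure Nl (τ : K →+* L) (h : V → V → K) (φ : V → V') (e f : V) (P : V → V') (l : V → L) :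
    Prop where
  pr : ∀ x, SW h e f x → Pr L (φ x) (P x)
  ie : ∀ x, SW h e f x → LinearIndependent L ![φ e, P x]
  jf : ∀ x, SW h e f x → LinearIndependent L ![φ f, P x]
  l0 : ∀ x, SW h e f x → l x ≠ 0
  le : ∀ x, SW h e f x → ∀ s : K, Pr L (φ (s • e + x)) (τ s • φ e + P x)
  lf : ∀ x, SW h e f x → ∀ s : K, Pr L (φ (s • f + x)) ((τ s * l x) • φ f + P x)

variable (hh : SF σ ε h) (hh' : SF σ' ε' h') (R : Rel τ h h' φ) {e f : V}
  (he : h e e = 0) (hf : h f f = 0) (hef : h e f = 1) {P : V → V'} {l : V → L}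
  (N : Nl τ h φ e f P l)

include hh he hf hef in
theorem exists_nl (R : Rel τ h h' φ) : ∃ P l, Nl τ h φ e f P l := by
  obtain ⟨P, l, H⟩ := exists_P hh he hf hef R
  exact ⟨P, l, fun x hx => (H x hx).1, fun x hx => (H x hx).2.1, fun x hx => (H x hx).2.2.1,
    fun x hx => (H x hx).2.2.2.1, fun x hx => (H x hx).2.2.2.2.1, fun x hx => (H x hx).2.2.2.2.2⟩

include hh' R hh he hef N in
theorem perp_eP {x : V} (hx : SW h e f x) : h' (φ e) (P x) = 0 :=
  (Pr.perp hh' (Pr.refl _) (N.pr x hx)).1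
    ((R.perp e x (e_ne hh hef) hx.1 he hx.2.1).2 (hh.symm hx.2.2.1))

include hh' R hh hf hef N in
theorem perp_fP {x : V} (hx : SW h e f x) : h' (φ f) (P x) = 0 :=
  (Pr.perp hh' (Pr.refl _) (N.pr x hx)).1
    ((R.perp f x (f_ne hh hef) hx.1 hf hx.2.1).2 (hh.symm hx.2.2.2))

include hh' R hh he hf hef N in
/-- **the Gram relation** -/
theorem star {x y : V} (hx : SW h e f x) (hy : SW h e f y) :
    h' (P x) (P y) = τ (h x y) * (σ' (l y) * h' (φ e) (φ f)) := by
  have h1 := N.le x hx (-(h x y))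
  have h2 := N.lf y hy 1
  have i1 := iso_e hh he hef hx (-(h x y))
  have i2 := iso_f hh hf hef hy 1
  have h3 : h (-(h x y) • e + x) ((1 : K) • f + y) = 0 := by
    rw [one_smul, hh.add, hh.add_right, hh.add_right, hh.smul, hh.smul, hef, hh.symm hy.2.2.1,
      hx.2.2.2]
    ring
  have h4 := (Pr.perp hh' h1 h2).1 ((R.perp _ _ i1.1 i2.1 i1.2 i2.2).2 h3)
  rw [hh'.add, hh'.add_right, hh'.add_right, hh'.smul, hh'.smul, hh'.smul_right, hh'.smul_right,
    perp_eP hh hh' R he hef N hy, hh'.symm (perp_fP hh hh' R hf hef N hx), map_neg, map_one,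
    one_mul] at h4
  linear_combination h4

include hh he hef N R in
/-- the lifts are homogeneous -/
theorem P_smul {x : V} (hx : SW h e f x) {t : K} (ht : t ≠ 0) : P (t • x) = τ t • P x := by
  have hτ : τ t ≠ 0 := (map_ne_zero τ).2 ht
  have hx' := hx.smul hh ht
  -- `P (t x)` is proportional to `P x`
  obtain ⟨a, ha, hPa⟩ := (N.pr _ hx').symm.trans
    ((R.sc x t ht hx.1 hx.2.1).trans (N.pr x hx))
  have h1 := N.le _ hx' 1
  have h2 := N.le x hx t⁻¹
  have i2 := iso_e hh he hef hx t⁻¹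
  have h3 := R.sc _ t ht i2.1 i2.2
  have e1 : t • (t⁻¹ • e + x) = (1 : K) • e + t • x := by
    rw [smul_add, smul_smul, mul_inv_cancel₀ ht]
  rw [e1] at h3
  obtain ⟨b, hb, hbe⟩ := h1.symm.trans (h3.trans h2)
  rw [map_one, one_smul, hPa, smul_add, smul_smul] at hbe
  have h4 := li_pair (N.ie x hx) (a := 1) (b := a) (c := b * τ t⁻¹) (d := b) (by
    rw [one_smul, hbe])
  have h5 : b = τ t := by
    have h6 := h4.1
    rw [map_inv₀] at h6
    field_simp at h6
    exact h6.symm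
  rw [hPa, h4.2, h5]

include hh he hf hef N R in
theorem l_smul {x : V} (hx : SW h e f x) {t : K} (ht : t ≠ 0) : l (t • x) = l x := by
  have hτ : τ t ≠ 0 := (map_ne_zero τ).2 ht
  have hx' := hx.smul hh ht
  have h1 := N.lf _ hx' 1
  have h2 := N.lf x hx t⁻¹
  have i2 := iso_f hh hf hef hx t⁻¹
  have h3 := R.sc _ t ht i2.1 i2.2
  have e1 : t • (t⁻¹ • f + x) = (1 : K) • f + t • x := by
    rw [smul_add, smul_smul, mul_inv_cancel₀ ht]
  rw [e1] at h3
  obtain ⟨b, hb, hbe⟩ := h1.symm.trans (h3.trans h2)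
  rw [map_one, one_mul, P_smul hh R he hef N hx ht, smul_add, smul_smul] at hbe
  have h4 := li_pair (N.jf x hx) (a := l (t • x)) (b := τ t) (c := b * (τ t⁻¹ * l x)) (d := b)
    (by rw [hbe])
  rw [h4.1, ← h4.2, map_inv₀]
  field_simp

include hh hh' he hf hef R in
theorem b_ne : h' (φ e) (φ f) ≠ 0 := fun h0 => by
  have := (R.perp e f (e_ne hh hef) (f_ne hh hef) he hf).1 h0
  rw [hef] at this
  exact one_ne_zero this

include hh hh' he hf hef N R in
/-- the involutions correspond -/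
theorem tau_sigma {x y : V} (hx : SW h e f x) (hy : SW h e f y) (hxy : h x y ≠ 0) (t : K) :
    σ' (τ t) = τ (σ t) := by
  rcases eq_or_ne t 0 with rfl | ht
  · rw [map_zero, map_zero, map_zero, map_zero]
  have h1 := star hh hh' R he hf hef N hx (hy.smul hh ht)
  rw [P_smul hh R he hef N hy ht, l_smul hh R he hf hef N hy ht, hh'.smul_right,
    star hh hh' R he hf hef N hx hy, hh.smul_right, map_mul] at h1
  have h2 : τ (h x y) * (σ' (l y) * h' (φ e) (φ f)) ≠ 0 :=
    mul_ne_zero ((map_ne_zero τ).2 hxy) (mul_ne_zero ((map_ne_zero σ').2 (N.l0 y hy))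
      (b_ne hh hh' R he hf hef))
  exact mul_right_cancel₀ h2 (by rw [h1]; ring)

include hh hh' he hf hef N R in
/-- the second lifts are proportional to the first by one constant -/
theorem l_const (hx0 : ∃ x, SW h e f x)
    (conn : ∀ y z, SW h e f y → SW h e f z → ∃ x, SW h e f x ∧ h x y ≠ 0 ∧ h x z ≠ 0) :
    ∃ l₀ : L, l₀ ≠ 0 ∧ ∀ x, SW h e f x → l x = l₀ := by
  obtain ⟨x₀, hx₀⟩ := hx0
  refine ⟨l x₀, N.l0 x₀ hx₀, fun y hy => ?_⟩
  obtain ⟨x, hx, h1, h2⟩ := conn y x₀ hy hx₀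
  obtain ⟨κ, hκ, key⟩ : ∃ κ : L, κ ≠ 0 ∧ ∀ z, SW h e f z → h x z ≠ 0 → l z = κ := by
    refine ⟨(ε' * τ ε)⁻¹ ^ 0 * (σ' (l x) * h' (φ e) (φ f) * τ ε * (ε' * σ' (h' (φ e) (φ f)))⁻¹),
      ?_, fun z hz hxz => ?_⟩
    · have a1 := (map_ne_zero σ').2 (N.l0 x hx)
      have a2 := b_ne hh hh' R he hf hef
      have a3 := (map_ne_zero σ').2 a2
      have a4 := (map_ne_zero τ).2 hh.eps_ne
      have a5 := hh'.eps_ne
      rw [pow_zero, one_mul]
      exact mul_ne_zero (mul_ne_zero (mul_ne_zero a1 a2) a4) (inv_ne_zero (mul_ne_zero a5 a3))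
    · have s1 := star hh hh' R he hf hef N hx hz
      have s2 := star hh hh' R he hf hef N hz hx
      have s3 := hh'.herm (P x) (P z)
      rw [s1, s2, hh.herm x z, map_mul, map_mul, map_mul, hh'.inv,
        tau_sigma hh hh' R he hf hef N hx hz hxz] at s3
      have a1 : τ (σ (h x z)) ≠ 0 := (map_ne_zero τ).2 ((map_ne_zero σ).2 hxz)
      have a3 := (map_ne_zero σ').2 (b_ne hh hh' R he hf hef)
      have a5 := hh'.eps_ne
      rw [pow_zero, one_mul, eq_mul_inv_iff_mul_eq₀ (mul_ne_zero a5 a3)]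
      apply mul_left_cancel₀ a1
      linear_combination -s3
  rw [key y hy h1, key x₀ hx₀ h2]

end Vale.Agent.P092.H714.Pc
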