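import Vale.Agent.P092.H714.Pc2

/-!
P092 (helper714), [P3-CLS], algebra: `pol_ext`.
-/

set_option linter.all false

namespace Vale.Agent.P092.H714.Pc

open Module

variable {K L V V' : Type*} [Field K] [Field L] [AddCommGroup V] [Module K V]
    [AddCommGroup V'] [Module L V'] {τ : K →+* L} {σ : K →+* K} {ε : K} {h : V → V → K}
    {σ' : L →+* L} {ε' : L} {h' : V' → V' → L} {φ : V → V'}
  {ι : Type*} [Fintype ι] [DecidableEq ι]

/-! ### The semilinear map -/

section ext

variable (B : Basis (ι ⊕ Bool) K V) (C : ι ⊕ Bool → V')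

/-- the `τ`-linear map with values `C` on the basis `B` -/
noncomputable def ext (τ : K →+* L) (B : Basis (ι ⊕ Bool) K V) (C : ι ⊕ Bool → V') (x : V) : V' :=
  ∑ j, τ (B.repr x j) • C j

theorem ext_add (x y : V) : ext τ B C (x + y) = ext τ B C x + ext τ B C y := by
  simp only [ext, map_add, Finsupp.add_apply, add_smul, Finset.sum_add_distrib]

theorem ext_smul (c : K) (x : V) : ext τ B C (c • x) = τ c • ext τ B C x := by
  simp only [ext, map_smul, Finsupp.smul_apply, smul_eq_mul, map_mul, Finset.smul_sum, smul_smul]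

theorem ext_basis (j : ι ⊕ Bool) : ext τ B C (B j) = C j := by
  rw [ext, Finset.sum_eq_single j]
  · rw [Basis.repr_self, Finsupp.single_eq_same, map_one, one_smul]
  · intro i _ hij
    rw [Basis.repr_self, Finsupp.single_eq_of_ne hij, map_zero, zero_smul]
  · intro hj
    exact absurd (Finset.mem_univ j) hj

theorem ext_form (hh : SF σ ε h) (hh' : SF σ' ε' h') {β : L} (ts : ∀ t, σ' (τ t) = τ (σ t))
    (G : ∀ i j, h' (C i) (C j) = β * τ (h (B i) (B j))) (x y : V) :
    h' (ext τ B C x) (ext τ B C y) = β * τ (h x y) := by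
  have e1 : h x y = ∑ i, ∑ j, B.repr x i * (σ (B.repr y j) * h (B i) (B j)) := by
    conv_lhs => rw [← B.sum_repr x, ← B.sum_repr y]
    rw [hh.sum_left]
    refine Finset.sum_congr rfl fun i _ => ?_
    rw [hh.smul, hh.sum_right, Finset.mul_sum]
    exact Finset.sum_congr rfl fun j _ => by rw [hh.smul_right]
  rw [e1, ext, ext, hh'.sum_left, map_sum, Finset.mul_sum]
  refine Finset.sum_congr rfl fun i _ => ?_
  rw [hh'.smul, hh'.sum_right, map_sum, Finset.mul_sum, Finset.mul_sum]
  refine Finset.sum_congr rfl fun j _ => ?_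
  rw [hh'.smul_right, G, ts, map_mul, map_mul]
  ring

/-- Gram matrices of bases are invertible -/
theorem gram_det (hh : SF σ ε h) (nd : ∀ x, (∀ y, h x y = 0) → x = 0) :
    (Matrix.of fun i j => h (B i) (B j)).det ≠ 0 := by
  intro h0
  obtain ⟨v, hv, hv0⟩ := Matrix.exists_vecMul_eq_zero_iff.2 h0
  apply hv
  have h1 : (∑ i, v i • B i) = 0 := by
    refine nd _ fun y => ?_
    rw [← B.sum_repr y, hh.sum_right]
    refine Finset.sum_eq_zero fun j _ => ?_
    rw [hh.smul_right, hh.sum_left]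
    have := congrFun hv0 j
    simp only [Matrix.vecMul, dotProduct, Matrix.of_apply, Pi.zero_apply] at this
    have e : (∑ i, h (v i • B i) (B j)) = 0 := by
      rw [← this]
      exact Finset.sum_congr rfl fun i _ => hh.smul _ _ _
    rw [e, mul_zero]
  funext i
  exact Fintype.linearIndependent_iff.1 B.linearIndependent v h1 i

/-- vectors with an invertible Gram matrix are independent -/
theorem li_gram (hh' : SF σ' ε' h') {β : L} (hβ : β ≠ 0)
    (hG : (Matrix.of fun i j => h (B i) (B j)).det ≠ 0)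
    (G : ∀ i j, h' (C i) (C j) = β * τ (h (B i) (B j))) : LinearIndependent L C := by
  rw [Fintype.linearIndependent_iff]
  intro c hc
  have h1 : c = 0 := by
    refine Matrix.eq_zero_of_vecMul_eq_zero (M := (Matrix.of fun i j => h (B i) (B j)).map τ) ?_ ?_
    · rw [← RingHom.mapMatrix_apply, ← RingHom.map_det]
      exact (map_ne_zero τ).2 hG
    · funext j
      simp only [Matrix.vecMul, dotProduct, Matrix.map_apply, Matrix.of_apply, Pi.zero_apply]
      apply mul_left_cancel₀ hβ
      rw [mul_zero, Finset.mul_sum]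
      have h2 : h' (∑ i, c i • C i) (C j) = 0 := by rw [hc, hh'.zero_left]
      rw [hh'.sum_left] at h2
      rw [← h2]
      refine Finset.sum_congr rfl fun i _ => ?_
      rw [hh'.smul, G]
      ring
  intro i
  rw [h1]
  rfl

theorem ext_inj (hh' : SF σ' ε' h') {β : L} (hβ : β ≠ 0) (nd : ∀ x, (∀ y, h x y = 0) → x = 0)
    (F : ∀ x y, h' (ext τ B C x) (ext τ B C y) = β * τ (h x y)) {x : V} (hx : x ≠ 0) :
    ext τ B C x ≠ 0 := by
  intro h0
  apply hx
  refine nd x fun y => ?_
  have h1 := F x y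
  rw [h0, hh'.zero_left] at h1
  exact (map_eq_zero τ).1 ((mul_eq_zero.1 h1.symm).resolve_left hβ)

end ext

/-! ### The theorem -/

section main

variable (hh : SF σ ε h) (hh' : SF σ' ε' h') (R : Rel τ h h' φ) {e f : V}
  (he : h e e = 0) (hf : h f f = 0) (hef : h e f = 1) {P : V → V'} {l : V → L}
  (N : Nl τ h φ e f P l)

/-- **the extension theorem** -/
theorem pol_ext (hh : SF σ ε h) (hh' : SF σ' ε' h') (R : Rel τ h h' φ) {e f : V}
    (he : h e e = 0) (hf : h f f = 0) (hef : h e f = 1)
    (nd : ∀ x, (∀ y, h x y = 0) → x = 0) (nd' : ∀ x, (∀ y, h' x y = 0) → x = 0)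
    (conn : ∀ y z, SW h e f y → SW h e f z → ∃ x, SW h e f x ∧ h x y ≠ 0 ∧ h x z ≠ 0)
    (hx0 : ∃ x, SW h e f x) (B : Basis (ι ⊕ Bool) K V) (hB : ∀ i, SW h e f (B (Sum.inl i)))
    (hBe : B (Sum.inr false) = e) (hBf : B (Sum.inr true) = f)
    (hdim : finrank L V' = Fintype.card (ι ⊕ Bool)) :
    ∃ (C : ι ⊕ Bool → V') (β : L), β ≠ 0 ∧ LinearIndependent L C ∧
      (∀ t, σ' (τ t) = τ (σ t)) ∧
      (∀ x y, h' (ext τ B C x) (ext τ B C y) = β * τ (h x y)) ∧
      ∀ x, x ≠ 0 → h x x = 0 → Pr L (φ x) (ext τ B C x) := by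
  obtain ⟨P, l, N⟩ := exists_nl hh he hf hef R
  obtain ⟨l₀, hl₀, hl⟩ := l_const hh hh' R he hf hef N hx0 conn
  obtain ⟨x₀, hx₀⟩ := hx0
  obtain ⟨y₀, hy₀, hyx, -⟩ := conn x₀ x₀ hx₀ hx₀
  have ts : ∀ t, σ' (τ t) = τ (σ t) := tau_sigma hh hh' R he hf hef N hy₀ hx₀ hyx
  obtain ⟨β, hβ⟩ : ∃ β, β = σ' l₀ * h' (φ e) (φ f) := ⟨_, rfl⟩
  have hb0 := b_ne hh hh' R he hf hef
  have hβ0 : β ≠ 0 := by rw [hβ]; exact mul_ne_zero ((map_ne_zero σ').2 hl₀) hb0
  have hst : ∀ x y, SW h e f x → SW h e f y → h' (P x) (P y) = β * τ (h x y) := by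
    intro x y hx hy
    rw [star hh hh' R he hf hef N hx hy, hl y hy, hβ]
    ring
  have heps : ε' * σ' β = τ ε * β := by
    have h1 := hst y₀ x₀ hy₀ hx₀
    have h2 := hst x₀ y₀ hx₀ hy₀
    rw [hh'.herm (P y₀) (P x₀), h1, hh.herm y₀ x₀, map_mul, map_mul, ts] at h2
    have h3 : τ (σ (h y₀ x₀)) ≠ 0 := (map_ne_zero τ).2 ((map_ne_zero σ).2 hyx)
    apply mul_right_cancel₀ h3
    linear_combination h2
  let C : ι ⊕ Bool → V' := Sum.elim (fun i => P (B (Sum.inl i)))
    (fun b => if b then l₀ • φ f else φ e)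
  have hCi : ∀ i, C (Sum.inl i) = P (B (Sum.inl i)) := fun i => rfl
  have hCe : C (Sum.inr false) = φ e := rfl
  have hCf : C (Sum.inr true) = l₀ • φ f := rfl
  have sym : ∀ i j, h' (C i) (C j) = β * τ (h (B i) (B j)) →
      h' (C j) (C i) = β * τ (h (B j) (B i)) := by
    intro i j hij
    rw [hh'.herm (C i) (C j), hij, hh.herm (B i) (B j), map_mul, map_mul, ts, ← mul_assoc, heps]
    ring
  have g1 : ∀ i, h' (C (Sum.inl i)) (C (Sum.inr false)) = β * τ (h (B (Sum.inl i))
      (B (Sum.inr false))) := by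
    intro i
    rw [hCi, hCe, hBe, (hB i).2.2.1, hh'.symm (perp_eP hh hh' R he hef N (hB i)), map_zero,
      mul_zero]
  have g2 : ∀ i, h' (C (Sum.inl i)) (C (Sum.inr true)) = β * τ (h (B (Sum.inl i))
      (B (Sum.inr true))) := by
    intro i
    rw [hCi, hCf, hBf, (hB i).2.2.2, hh'.smul_right,
      hh'.symm (perp_fP hh hh' R hf hef N (hB i)), map_zero, mul_zero, mul_zero]
  have g3 : h' (C (Sum.inr false)) (C (Sum.inr true)) = β * τ (h (B (Sum.inr false))
      (B (Sum.inr true))) := by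
    rw [hCe, hCf, hBe, hBf, hef, hh'.smul_right, map_one, hβ, mul_one]
  have G : ∀ i j, h' (C i) (C j) = β * τ (h (B i) (B j)) := by
    rintro (i | i) (j | j)
    · exact hst _ _ (hB i) (hB j)
    · cases j
      · exact g1 i
      · exact g2 i
    · cases i
      · exact sym _ _ (g1 j)
      · exact sym _ _ (g2 j)
    · cases i <;> cases j
      · rw [hCe, hBe, he, map_zero, mul_zero]
        exact (R.perp e e (e_ne hh hef) (e_ne hh hef) he he).2 he
      · exact g3
      · exact sym _ _ g3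
      · rw [hCf, hBf, hf, map_zero, mul_zero, hh'.smul, hh'.smul_right,
          (R.perp f f (f_ne hh hef) (f_ne hh hef) hf hf).2 hf, mul_zero, mul_zero]
  have hF := ext_form B C hh hh' ts G
  have hLI : LinearIndependent L C := li_gram B C hh' hβ0 (gram_det B hh nd) G
  refine ⟨C, β, hβ0, hLI, ts, hF, ?_⟩
  -- vectors orthogonal to all `C j`
  have hspan : ∀ z : V', (∀ j, h' z (C j) = 0) → z = 0 := by
    intro z hz
    haveI : FiniteDimensional L V' := by
      refine FiniteDimensional.of_finrank_pos ?_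
      rw [hdim, Fintype.card_sum, Fintype.card_bool]
      omega
    let D : Basis (ι ⊕ Bool) L V' := basisOfLinearIndependentOfCardEqFinrank hLI hdim.symm
    have hD : ∀ j, D j = C j := fun j => by
      rw [coe_basisOfLinearIndependentOfCardEqFinrank]
    refine nd' z fun y => ?_
    rw [← D.sum_repr y, hh'.sum_right]
    refine Finset.sum_eq_zero fun j _ => ?_
    rw [hh'.smul_right, hD, hz, mul_zero]
  have hE : ext τ B C e = φ e := by
    conv_lhs => rw [← hBe]
    rw [ext_basis, hCe]
  have hFf : ext τ B C f = l₀ • φ f := by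
    conv_lhs => rw [← hBf]
    rw [ext_basis, hCf]
  have hPA : ∀ x, SW h e f x → P x = ext τ B C x := by
    intro x hx
    rw [← sub_eq_zero]
    refine hspan _ fun j => ?_
    rw [hh'.sub_left, ← ext_basis (τ := τ) B C j, hF, ext_basis]
    rcases j with i | b
    · rw [hCi, hst x _ hx (hB i), sub_self]
    · cases b
      · rw [hCe, hBe, hx.2.2.1, hh'.symm (perp_eP hh hh' R he hef N hx), map_zero, mul_zero,
          sub_self]
      · rw [hCf, hBf, hx.2.2.2, hh'.smul_right, hh'.symm (perp_fP hh hh' R hf hef N hx),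
          map_zero, mul_zero, mul_zero, sub_self]
  -- the vectors `s e + x`, `s f + x`
  have hle : ∀ x, SW h e f x → ∀ s : K, Pr L (φ (s • e + x)) (ext τ B C (s • e + x)) := by
    intro x hx s
    rw [ext_add, ext_smul, hE, ← hPA x hx]
    exact N.le x hx s
  have hlf : ∀ x, SW h e f x → ∀ s : K, Pr L (φ (s • f + x)) (ext τ B C (s • f + x)) := by
    intro x hx s
    rw [ext_add, ext_smul, hFf, ← hPA x hx, smul_smul, ← hl x hx]
    exact N.lf x hx s
  have hsw : ∀ x, SW h e f x → Pr L (φ x) (ext τ B C x) := fun x hx => by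
    rw [← hPA x hx]
    exact N.pr x hx
  -- the general case
  have gen : ∀ (w : V) (a b : K), w ≠ 0 → a ≠ 0 → b ≠ 0 → h w e = 0 → h w f = 0 →
      h (w + a • e + b • f) (w + a • e + b • f) = 0 → w + a • e + b • f ≠ 0 →
      Pr L (φ (w + a • e + b • f)) (ext τ B C (w + a • e + b • f)) := by
    intro w a b hw ha hb hwe hwf hiso hne
    obtain ⟨g, hg⟩ : ∃ g, g = w + a • e + b • f := ⟨_, rfl⟩
    rw [← hg] at hiso hne ⊢
    have hge : h g e = b * ε := by
      rw [hg, hh.add, hh.add, hh.smul, hh.smul, hwe, he, hfe hh hef]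
      ring
    have hgf : h g f = a := by
      rw [hg, hh.add, hh.add, hh.smul, hh.smul, hwf, hf, hef]
      ring
    have hgx : ∀ x, SW h e f x → h g x = h w x := by
      intro x hx
      rw [hg, hh.add, hh.add, hh.smul, hh.smul, hh.symm hx.2.2.1, hh.symm hx.2.2.2]
      ring
    have hbe : b * ε ≠ 0 := mul_ne_zero hb hh.eps_ne
    -- the coefficient
    obtain ⟨c, hc⟩ : ∃ c : L, c = h' (φ g) (φ e) * (β * τ (b * ε))⁻¹ := ⟨_, rfl⟩
    obtain ⟨v, hv⟩ : ∃ v, v = φ g - c • ext τ B C g := ⟨_, rfl⟩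
    have hne0 : β * τ (b * ε) ≠ 0 := mul_ne_zero hβ0 ((map_ne_zero τ).2 hbe)
    have hvE : h' v (φ e) = 0 := by
      have h1 := hF g e
      rw [hE, hge] at h1
      rw [hv, hh'.sub_left, hh'.smul, h1, hc, mul_assoc, inv_mul_cancel₀ hne0, mul_one, sub_self]
    -- orthogonality to a vector
    have hperp : ∀ y, y ≠ 0 → h y y = 0 → h g y = 0 → Pr L (φ y) (ext τ B C y) →
        h' v (ext τ B C y) = 0 := by
      intro y hy hyy hgy hpr
      have h1 := (Pr.perp hh' (Pr.refl _) hpr).1 ((R.perp g y hne hy hiso hyy).2 hgy)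
      rw [hv, hh'.sub_left, hh'.smul, h1, hF, hgy, map_zero]
      ring
    have hvx : ∀ x, SW h e f x → h' v (ext τ B C x) = 0 := by
      intro x hx
      obtain ⟨s, hs⟩ : ∃ s, s = σ (-(h w x) * (b * ε)⁻¹) := ⟨_, rfl⟩
      have i1 := iso_e hh he hef hx s
      have h1 : h g (s • e + x) = 0 := by
        rw [hh.add_right, hh.smul_right, hge, hgx x hx, hs, hh.inv, mul_assoc,
          inv_mul_cancel₀ hbe]
        ring
      have h2 := hperp _ i1.1 i1.2 h1 (hle x hx s)
      rw [ext_add, ext_smul, hE, hh'.add_right, hh'.smul_right, hvE, mul_zero, zero_add] at h2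
      exact h2
    -- a vector of the basis which is not orthogonal to `w`
    obtain ⟨i, hi⟩ : ∃ i, h w (B (Sum.inl i)) ≠ 0 := by
      by_contra hcon
      push Not at hcon
      apply hw
      refine nd w fun y => ?_
      rw [← B.sum_repr y, hh.sum_right]
      refine Finset.sum_eq_zero fun j _ => ?_
      rw [hh.smul_right]
      rcases j with j | j
      · rw [hcon j, mul_zero]
      · cases j
        · rw [hBe, hwe, mul_zero]
        · rw [hBf, hwf, mul_zero]
    have hvF : h' v (ext τ B C f) = 0 := by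
      have hx := hB i
      obtain ⟨s, hs⟩ : ∃ s, s = σ (-(h w (B (Sum.inl i))) * a⁻¹) := ⟨_, rfl⟩
      have hs0 : s ≠ 0 := by
        rw [hs]
        exact (map_ne_zero σ).2 (mul_ne_zero (neg_ne_zero.2 hi) (inv_ne_zero ha))
      have i1 := iso_f hh hf hef hx s
      have h1 : h g (s • f + B (Sum.inl i)) = 0 := by
        rw [hh.add_right, hh.smul_right, hgf, hgx _ hx, hs, hh.inv, mul_assoc,
          inv_mul_cancel₀ ha]
        ring
      have h2 := hperp _ i1.1 i1.2 h1 (hlf _ hx s)
      rw [ext_add, ext_smul, hh'.add_right, hh'.smul_right, hvx _ hx, add_zero] at h2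
      exact (mul_eq_zero.1 h2).resolve_left ((map_ne_zero σ').2 ((map_ne_zero τ).2 hs0))
    have hv0 : v = 0 := by
      refine hspan v fun j => ?_
      rcases j with j | j
      · rw [hCi, hPA _ (hB j)]
        exact hvx _ (hB j)
      · cases j
        · rw [hCe]
          exact hvE
        · rw [hCf, ← hFf]
          exact hvF
    rw [hv, sub_eq_zero] at hv0
    refine ⟨c, fun h0 => ?_, hv0⟩
    rw [h0, zero_smul] at hv0
    exact R.ne g hne hiso hv0
  -- all vectors
  intro x hx hxx
  obtain ⟨a, ha⟩ : ∃ a, a = h x f := ⟨_, rfl⟩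
  obtain ⟨b, hb⟩ : ∃ b, b = ε * h x e := ⟨_, rfl⟩
  obtain ⟨w, hw⟩ : ∃ w, w = x - a • e - b • f := ⟨_, rfl⟩
  have hxw : x = w + a • e + b • f := by rw [hw]; abel
  have hwe : h w e = 0 := by
    rw [hw, hh.sub_left, hh.sub_left, hh.smul, hh.smul, he, hfe hh hef, hb]
    linear_combination (-(h x e)) * hh.eps
  have hwf : h w f = 0 := by
    rw [hw, hh.sub_left, hh.sub_left, hh.smul, hh.smul, hf, hef, ha]
    ring
  have hxx' : h w w + (a * σ b + b * (σ a * ε)) = 0 := by
    rw [← hxx, hxw]
    simp only [hh.add, hh.add_right, hh.smul, hh.smul_right, he, hf, hef, hfe hh hef, hwe, hwf,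
      hh.symm hwe, hh.symm hwf]
    ring
  by_cases hw0 : w = 0
  · by_cases ha0 : a = 0
    · -- `x = b f`
      have hb0' : b ≠ 0 := by
        rintro rfl
        exact hx (by rw [hxw, hw0, ha0]; simp)
      have e1 : x = b • f := by rw [hxw, hw0, ha0]; simp
      rw [e1, ext_smul, hFf]
      refine (R.sc f b hb0' (f_ne hh hef) hf).trans ?_
      exact ((Pr.smul ((map_ne_zero τ).2 hb0') _).trans (Pr.smul hl₀ _)).symm
    · by_cases hb0' : b = 0
      · have e1 : x = a • e := by rw [hxw, hw0, hb0']; simp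
        rw [e1, ext_smul, hE]
        exact (R.sc e a ha0 (e_ne hh hef) he).trans (Pr.smul ((map_ne_zero τ).2 ha0) _).symm
      · -- the hyperbolic plane
        have e1 : x = a • e + b • f := by rw [hxw, hw0, zero_add]
        have hxx2 : h (x₀ + a • e + b • f) (x₀ + a • e + b • f) = 0 := by
          simp only [hh.add, hh.add_right, hh.smul, hh.smul_right, he, hf, hef, hfe hh hef,
            hx₀.2.2.1, hx₀.2.2.2, hh.symm hx₀.2.2.1, hh.symm hx₀.2.2.2, hx₀.2.1]
          rw [hw0, hh.zero_left] at hxx'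
          linear_combination hxx'
        have hpe : h x₀ x = 0 := by
          rw [e1, hh.add_right, hh.smul_right, hh.smul_right, hx₀.2.2.1, hx₀.2.2.2]
          ring
        have hI : LinearIndependent K ![x, x₀] := by
          refine li_of_perp hh (e := x) (f := f) ?_ hx₀.2.2.2 hx₀.1
          rw [← ha]
          exact ha0
        have hI' : LinearIndependent K ![x₀, x] := by
          rw [LinearIndependent.pair_iff] at hI ⊢
          intro s t hst
          have := hI t s (by rw [← hst]; abel)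
          exact ⟨this.2, this.1⟩
        have hne3 : x₀ + a • e + b • f ≠ 0 := by
          intro h0
          rw [add_assoc, ← e1] at h0
          have := LinearIndependent.pair_iff.1 hI' 1 1 (by rw [one_smul, one_smul, h0])
          exact one_ne_zero this.1
        have h1 := gen x₀ a b hx₀.1 ha0 hb0' hx₀.2.2.1 hx₀.2.2.2 hxx2 hne3
        rw [add_assoc, ← e1] at h1
        obtain ⟨v0, v1, i1, p1, p2, p3, -⟩ := R.line x₀ x hx₀.1 hx hx₀.2.1 hxx hpe hI' 0
        -- `v1` is a combination of `A x` and `A x₀`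
        obtain ⟨c0, hc0, q0⟩ := p1.symm.trans (hsw x₀ hx₀)
        obtain ⟨c1, hc1, q1⟩ := p3.symm.trans h1
        have q2 : v1 = c1 • ext τ B C x + (c1 - c0) • ext τ B C x₀ := by
          have : v1 = (v0 + v1) - v0 := by abel
          rw [this, q1, q0, ext_add, smul_add, sub_smul]
          abel
        obtain ⟨d, hd, q3⟩ := p2
        have q4 : h' (φ x) (ext τ B C y₀) = 0 := by
          have hxy : h x y₀ = 0 := by
            rw [e1, hh.add, hh.smul, hh.smul, hh.symm hy₀.2.2.1, hh.symm hy₀.2.2.2]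
            ring
          exact (Pr.perp hh' (Pr.refl _) (hsw y₀ hy₀)).1
            ((R.perp x y₀ hx hy₀.1 hxx hy₀.2.1).2 hxy)
        have q5 : h' v1 (ext τ B C y₀) = 0 := by
          have := (Pr.perp hh' (⟨d, hd, q3⟩ : Pr L (φ x) v1) (Pr.refl (ext τ B C y₀))).1 q4
          exact this
        rw [q2, hh'.add, hh'.smul, hh'.smul, hF, hF] at q5
        have hxy : h x y₀ = 0 := by
          rw [e1, hh.add, hh.smul, hh.smul, hh.symm hy₀.2.2.1, hh.symm hy₀.2.2.2]
          ring
        have hx0y : h x₀ y₀ ≠ 0 := fun h0 => hyx (hh.symm h0)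
        rw [hxy, map_zero, mul_zero, mul_zero, zero_add] at q5
        have q6 : c1 - c0 = 0 := by
          rcases mul_eq_zero.1 q5 with h2 | h2
          · exact h2
          · exact absurd h2 (mul_ne_zero hβ0 ((map_ne_zero τ).2 hx0y))
        rw [q6, zero_smul, add_zero] at q2
        exact ⟨d * c1, mul_ne_zero hd hc1, by rw [q3, q2, smul_smul]⟩
  · by_cases ha0 : a = 0
    · have hww : h w w = 0 := by
        rw [ha0, map_zero] at hxx'
        linear_combination hxx'
      have e1 : x = b • f + w := by rw [hxw, ha0, zero_smul, add_zero, add_comm]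
      rw [e1]
      exact hlf w ⟨hw0, hww, hwe, hwf⟩ b
    · by_cases hb0' : b = 0
      · have hww : h w w = 0 := by
          rw [hb0', map_zero] at hxx'
          linear_combination hxx'
        have e1 : x = a • e + w := by rw [hxw, hb0', zero_smul, add_zero, add_comm]
        rw [e1]
        exact hle w ⟨hw0, hww, hwe, hwf⟩ a
      · have := gen w a b hw0 ha0 hb0' hwe hwf (by rw [← hxw]; exact hxx) (by rw [← hxw]; exact hx)
        rw [← hxw] at this
        exact this

end main

end Vale.Agent.P092.H714.Pc
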