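import Vale.Agent.P092.H714.Pc3

/-!
P092 (helper714), [P3-CLS], algebra: isotropic bases, common non-orthogonal vectors, isotropic
frames, for every form of Witt index at least two.
-/

set_option linter.all false

namespace Vale.Agent.P092.H714.Pc

open Module

variable {K V : Type*} [Field K] [AddCommGroup V] [Module K V] {σ : K →+* K} {ε : K}
  {h : V → V → K}

/-- projection to the complement of a hyperbolic pair -/
theorem proj_perp (hh : SF σ ε h) {e f : V} (he : h e e = 0) (hf : h f f = 0) (hef : h e f = 1)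
    (x : V) : h (x - h x f • e - (ε * h x e) • f) e = 0 ∧
      h (x - h x f • e - (ε * h x e) • f) f = 0 := by
  constructor
  · rw [hh.sub_left, hh.sub_left, hh.smul, hh.smul, he, hfe hh hef]
    linear_combination (-(h x e)) * hh.eps
  · rw [hh.sub_left, hh.sub_left, hh.smul, hh.smul, hf, hef]
    ring

/-- the isotropic vectors of the complement span it -/
theorem mem_span_SW (hh : SF σ ε h) {e f u : V} (hu : SW h e f u)
    (he : h e e = 0) (hf : h f f = 0) (hef : h e f = 1)
    (nd : ∀ x, (∀ y, h x y = 0) → x = 0) (tv : ∀ y, ∃ β, h y y = β + ε * σ β) {w : V}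
    (hwe : h w e = 0) (hwf : h w f = 0) : w ∈ Submodule.span K {x | SW h e f x} := by
  have key : ∀ w, h w e = 0 → h w f = 0 → h w u ≠ 0 → w ∈ Submodule.span K {x | SW h e f x} := by
    intro w hwe hwf hwu
    obtain ⟨β, hβ⟩ := tv w
    have huw : h u w ≠ 0 := fun h0 => hwu (hh.symm h0)
    obtain ⟨c, hc⟩ : ∃ c, c = -β * (h u w)⁻¹ := ⟨_, rfl⟩
    have hcw : c * h u w = -β := by rw [hc, mul_assoc, inv_mul_cancel₀ huw, mul_one]
    have hu' : c • u ∈ Submodule.span K {x | SW h e f x} :=
      Submodule.smul_mem _ _ (Submodule.subset_span hu)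
    have e1 : w = (w + c • u) - c • u := by abel
    rw [e1]
    refine Submodule.sub_mem _ ?_ hu'
    by_cases h0 : w + c • u = 0
    · rw [h0]; exact Submodule.zero_mem _
    · refine Submodule.subset_span ⟨h0, ?_, ?_, ?_⟩
      · rw [hh.add, hh.add_right, hh.add_right, hh.smul, hh.smul, hh.smul_right, hh.smul_right,
          hu.2.1, hβ, hcw, hh.herm u w]
        have e2 : σ c * (ε * σ (h u w)) = ε * σ (-β) := by
          rw [← hcw, map_mul]; ring
        rw [e2, map_neg]
        ring
      · rw [hh.add, hh.smul, hwe, hu.2.2.1]; ring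
      · rw [hh.add, hh.smul, hwf, hu.2.2.2]; ring
  by_cases hwu : h w u = 0
  · obtain ⟨y, hy⟩ : ∃ y, h u y ≠ 0 := by
      by_contra hcon
      push Not at hcon
      exact hu.1 (nd u hcon)
    obtain ⟨w', hw'⟩ : ∃ w', w' = y - h y f • e - (ε * h y e) • f := ⟨_, rfl⟩
    have hp := proj_perp hh he hf hef y
    rw [← hw'] at hp
    have h1 : h w' u ≠ 0 := by
      rw [hw', hh.sub_left, hh.sub_left, hh.smul, hh.smul, hh.symm hu.2.2.1, hh.symm hu.2.2.2]
      intro h0
      apply hy
      apply hh.symm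
      linear_combination h0
    have e1 : w = (w + w') - w' := by abel
    rw [e1]
    refine Submodule.sub_mem _ (key _ ?_ ?_ ?_) (key _ hp.1 hp.2 h1)
    · rw [hh.add, hwe, hp.1, add_zero]
    · rw [hh.add, hwf, hp.2, add_zero]
    · rw [hh.add, hwu, zero_add]; exact h1
  · exact key w hwe hwf hwu

/-- **isotropic bases** -/
theorem exists_iso_basis [FiniteDimensional K V] (hh : SF σ ε h) {e f u : V} (hu : SW h e f u)
    (he : h e e = 0) (hf : h f f = 0) (hef : h e f = 1)
    (nd : ∀ x, (∀ y, h x y = 0) → x = 0) (tv : ∀ y, ∃ β, h y y = β + ε * σ β) :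
    ∃ (m : ℕ) (B : Basis (Fin m ⊕ Bool) K V), (∀ i, SW h e f (B (Sum.inl i))) ∧
      B (Sum.inr false) = e ∧ B (Sum.inr true) = f := by
  classical
  obtain ⟨b, hbS, hbspan, hbI⟩ := exists_linearIndependent K {x | SW h e f x}
  haveI : Finite b := hbI.finite
  haveI : Fintype b := Fintype.ofFinite b
  let E : Fin (Fintype.card b) ≃ b := (Fintype.equivFin b).symm
  let v : Fin (Fintype.card b) ⊕ Bool → V :=
    Sum.elim (fun i => (E i : V)) (fun c => if c then f else e)
  have hvi : ∀ i, SW h e f (E i : V) := fun i => hbS (E i).2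
  have hI : LinearIndependent K v := by
    rw [Fintype.linearIndependent_iff]
    intro g hg
    rw [Fintype.sum_sum_type, Fintype.sum_bool] at hg
    have hg' : (∑ i, g (Sum.inl i) • (E i : V)) + (g (Sum.inr true) • f + g (Sum.inr false) • e) = 0
      := hg
    have h1 : h (∑ i, g (Sum.inl i) • (E i : V)) e = 0 := by
      rw [hh.sum_left]
      exact Finset.sum_eq_zero fun i _ => by rw [hh.smul, (hvi i).2.2.1, mul_zero]
    have h2 : h (∑ i, g (Sum.inl i) • (E i : V)) f = 0 := by
      rw [hh.sum_left]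
      exact Finset.sum_eq_zero fun i _ => by rw [hh.smul, (hvi i).2.2.2, mul_zero]
    have h3 : h ((∑ i, g (Sum.inl i) • (E i : V)) + (g (Sum.inr true) • f +
        g (Sum.inr false) • e)) e = 0 := by rw [hg', hh.zero_left]
    have h4 : h ((∑ i, g (Sum.inl i) • (E i : V)) + (g (Sum.inr true) • f +
        g (Sum.inr false) • e)) f = 0 := by rw [hg', hh.zero_left]
    rw [hh.add, hh.add, hh.smul, hh.smul, h1, he, hfe hh hef] at h3
    rw [hh.add, hh.add, hh.smul, hh.smul, h2, hf, hef] at h4
    have g1 : g (Sum.inr true) = 0 := by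
      have : g (Sum.inr true) * ε = 0 := by linear_combination h3
      exact (mul_eq_zero.1 this).resolve_right hh.eps_ne
    have g0 : g (Sum.inr false) = 0 := by linear_combination h4
    rw [g1, g0, zero_smul, zero_smul, add_zero, add_zero] at hg'
    have hI' : LinearIndependent K (fun i => (E i : V)) := hbI.comp E E.injective
    have h5 := Fintype.linearIndependent_iff.1 hI' (fun i => g (Sum.inl i)) hg'
    rintro (i | c)
    · exact h5 i
    · cases c
      · exact g0
      · exact g1
  have hspan : ⊤ ≤ Submodule.span K (Set.range v) := by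
    intro x _
    obtain ⟨w, hw⟩ : ∃ w, w = x - h x f • e - (ε * h x e) • f := ⟨_, rfl⟩
    have hp := proj_perp hh he hf hef x
    rw [← hw] at hp
    have e1 : x = w + (h x f • e + (ε * h x e) • f) := by rw [hw]; abel
    rw [e1]
    have hwS := mem_span_SW hh hu he hf hef nd tv hp.1 hp.2
    rw [← hbspan] at hwS
    refine Submodule.add_mem _ ?_ (Submodule.add_mem _ ?_ ?_)
    · refine Submodule.span_mono ?_ hwS
      rintro y hy
      refine ⟨Sum.inl (E.symm ⟨y, hy⟩), ?_⟩
      change ((E (E.symm ⟨y, hy⟩) : b) : V) = y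
      rw [Equiv.apply_symm_apply]
    · exact Submodule.smul_mem _ _ (Submodule.subset_span ⟨Sum.inr false, rfl⟩)
    · exact Submodule.smul_mem _ _ (Submodule.subset_span ⟨Sum.inr true, rfl⟩)
  refine ⟨Fintype.card b, Basis.mk hI hspan, fun i => ?_, ?_, ?_⟩
  · rw [Basis.mk_apply]
    exact hvi i
  · rw [Basis.mk_apply]
    rfl
  · rw [Basis.mk_apply]
    rfl

/-- The forms which are not the symmetric hyperbolic form of dimension four: there is a non-zero
`c` with `c + ε σ c = 0`, or the form is symmetric, `2 ≠ 0`, and the dimension is at least five. -/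
def Big (σ : K →+* K) (ε : K) (m : ℕ) : Prop :=
  (∃ c, c ≠ 0 ∧ c + ε * σ c = 0) ∨ ((∀ x, σ x = x) ∧ ε = 1 ∧ (2 : K) ≠ 0 ∧ 3 ≤ m)

section conn

variable {m : ℕ} {e f : V} (B : Basis (Fin m ⊕ Bool) K V)

include B in
/-- a vector which is not isotropic, orthogonal to two hyperbolic pairs -/
theorem exists_aniso (hh : SF σ ε h) (he : h e e = 0) (hf : h f f = 0) (hef : h e f = 1)
    (nd : ∀ x, (∀ y, h x y = 0) → x = 0) (h1 : ∀ x, σ x = x) (h2 : ε = 1) (h3 : (2 : K) ≠ 0)
    (hm : 3 ≤ m) {y z : V} (hy : SW h e f y) (hz : SW h e f z) (hyz : h y z = 1) :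
    ∃ v, h v e = 0 ∧ h v f = 0 ∧ h v y = 0 ∧ h v z = 0 ∧ h v v ≠ 0 := by
  have hsym : ∀ a b, h b a = h a b := fun a b => by rw [hh.herm a b, h2, h1, one_mul]
  by_contra hcon
  push Not at hcon
  -- a non-zero vector orthogonal to `e, f, y, z`
  let T : V →ₗ[K] (Fin 4 → K) :=
    { toFun := fun v => ![h v e, h v f, h v y, h v z]
      map_add' := fun v w => by
        ext i
        fin_cases i <;> simp [hh.add]
      map_smul' := fun c v => by
        ext i
        fin_cases i <;> simp [hh.smul] }
  haveI : FiniteDimensional K V := Module.Finite.of_basis B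
  have hT : LinearMap.ker T ≠ ⊥ := by
    refine LinearMap.ker_ne_bot_of_finrank_lt ?_
    rw [finrank_eq_card_basis B, Module.finrank_fintype_fun_eq_card, Fintype.card_sum, Fintype.card_bool,
      Fintype.card_fin, Fintype.card_fin]
    omega
  obtain ⟨u, hu, hu0⟩ := Submodule.exists_mem_ne_zero_of_ne_bot hT
  have hTu : T u = 0 := hu
  have u1 : h u e = 0 := congrFun hTu 0
  have u2 : h u f = 0 := congrFun hTu 1
  have u3 : h u y = 0 := congrFun hTu 2
  have u4 : h u z = 0 := congrFun hTu 3
  apply hu0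
  refine nd u fun x => ?_
  obtain ⟨x', hx'⟩ : ∃ x', x' = x - h x f • e - h x e • f - h x z • y - h x y • z := ⟨_, rfl⟩
  have hzy : h z y = 1 := by rw [hsym, hyz]
  have hfe' : h f e = 1 := by rw [hsym, hef]
  have p1 : h x' e = 0 := by
    rw [hx']
    simp only [hh.sub_left, hh.smul, he, hfe', hy.2.2.1, hz.2.2.1]
    ring
  have p2 : h x' f = 0 := by
    rw [hx']
    simp only [hh.sub_left, hh.smul, hf, hef, hy.2.2.2, hz.2.2.2]
    ring
  have p3 : h x' y = 0 := by
    rw [hx']
    simp only [hh.sub_left, hh.smul, hsym y e, hsym y f, hy.2.2.1, hy.2.2.2, hy.2.1, hzy]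
    ring
  have p4 : h x' z = 0 := by
    rw [hx']
    simp only [hh.sub_left, hh.smul, hsym z e, hsym z f, hz.2.2.1, hz.2.2.2, hz.2.1, hyz]
    ring
  have q1 := hcon x' p1 p2 p3 p4
  have q2 := hcon u u1 u2 u3 u4
  have q3 := hcon (u + x') (by rw [hh.add, u1, p1, add_zero]) (by rw [hh.add, u2, p2, add_zero])
    (by rw [hh.add, u3, p3, add_zero]) (by rw [hh.add, u4, p4, add_zero])
  rw [hh.add, hh.add_right, hh.add_right, q1, q2, hsym u x'] at q3
  have q4 : h u x' = 0 := by
    have : 2 * h u x' = 0 := by linear_combination q3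
    exact (mul_eq_zero.1 this).resolve_left h3
  have e1 : x = x' + (h x f • e + h x e • f + h x z • y + h x y • z) := by rw [hx']; abel
  rw [e1]
  simp only [hh.add_right, hh.smul_right, q4, u1, u2, u3, u4]
  ring

include B in
/-- a third isotropic vector -/
theorem exists_third (hh : SF σ ε h) (he : h e e = 0) (hf : h f f = 0) (hef : h e f = 1)
    (nd : ∀ x, (∀ y, h x y = 0) → x = 0)
    (hb : Big σ ε m) {y z : V} (hy : SW h e f y) (hz : SW h e f z) (hyz : h y z = 1) :
    ∃ x, SW h e f x ∧ h x y ≠ 0 ∧ h x z ≠ 0 := by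
  -- `v` and `q ≠ 0` with `h v v + q ε + σ q = 0`
  obtain ⟨v, q, hv1, hv2, hv3, hv4, hq, hvq⟩ : ∃ (v : V) (q : K), h v e = 0 ∧ h v f = 0 ∧
      h v y = 0 ∧ h v z = 0 ∧ q ≠ 0 ∧ h v v + ε * q + σ q = 0 := by
    rcases hb with ⟨c, hc, hc'⟩ | ⟨h1, h2, h3, hm⟩
    · refine ⟨0, ε * c, hh.zero_left _, hh.zero_left _, hh.zero_left _, hh.zero_left _,
        mul_ne_zero hh.eps_ne hc, ?_⟩
      rw [hh.zero_left, map_mul, hh.seps]
      linear_combination hc' + c * hh.eps
    · obtain ⟨v, a1, a2, a3, a4, a5⟩ := exists_aniso B hh he hf hef nd h1 h2 h3 hm hy hz hyz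
      refine ⟨v, -(h v v / 2), a1, a2, a3, a4, neg_ne_zero.2 (div_ne_zero a5 h3), ?_⟩
      rw [h1, h2]
      field_simp
      ring
  have hzy : h z y = ε := by rw [hh.herm y z, hyz, map_one, mul_one]
  refine ⟨y + v + q • z, ⟨?_, ?_, ?_, ?_⟩, ?_, ?_⟩
  · intro h0
    have h1 : h (y + v + q • z) z = 0 := by rw [h0, hh.zero_left]
    rw [hh.add, hh.add, hh.smul, hyz, hv4, hz.2.1] at h1
    have : (1 : K) = 0 := by linear_combination h1
    exact one_ne_zero this
  · simp only [hh.add, hh.add_right, hh.smul, hh.smul_right, hy.2.1, hz.2.1, hv3, hv4,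
      hh.symm hv3, hh.symm hv4, hyz, hzy]
    linear_combination hvq
  · rw [hh.add, hh.add, hh.smul, hy.2.2.1, hv1, hz.2.2.1]; ring
  · rw [hh.add, hh.add, hh.smul, hy.2.2.2, hv2, hz.2.2.2]; ring
  · rw [hh.add, hh.add, hh.smul, hy.2.1, hv3, hzy]
    intro h0
    have : q * ε = 0 := by linear_combination h0
    exact (mul_ne_zero hq hh.eps_ne) this
  · rw [hh.add, hh.add, hh.smul, hyz, hv4, hz.2.1]
    intro h0
    have : (1 : K) = 0 := by linear_combination h0
    exact one_ne_zero this

/-- **two isotropic vectors have a common non-orthogonal isotropic vector** -/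
theorem conn_of (hh : SF σ ε h) (he : h e e = 0) (hf : h f f = 0) (hef : h e f = 1)
    (nd : ∀ x, (∀ y, h x y = 0) → x = 0)
    (hb : Big σ ε m) (hB : ∀ i, SW h e f (B (Sum.inl i))) (hBe : B (Sum.inr false) = e)
    (hBf : B (Sum.inr true) = f) {y z : V} (hy : SW h e f y) (hz : SW h e f z) :
    ∃ x, SW h e f x ∧ h x y ≠ 0 ∧ h x z ≠ 0 := by
  by_cases hyz : h y z = 0
  · have key : ∀ y, SW h e f y → ∃ x, SW h e f x ∧ h x y ≠ 0 := by
      intro y hy
      by_contra hcon
      push Not at hcon
      apply hy.1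
      refine nd y fun x => ?_
      rw [← B.sum_repr x, hh.sum_right]
      refine Finset.sum_eq_zero fun j _ => ?_
      rw [hh.smul_right]
      rcases j with j | j
      · rw [hh.symm (hcon _ (hB j)), mul_zero]
      · cases j
        · rw [hBe, hy.2.2.1, mul_zero]
        · rw [hBf, hy.2.2.2, mul_zero]
    obtain ⟨a, ha, hay⟩ := key y hy
    obtain ⟨b, hb', hbz⟩ := key z hz
    by_cases haz : h a z = 0
    · by_cases hby : h b y = 0
      · -- change `b` to `b + t y`, orthogonal to `a`
        obtain ⟨t, ht⟩ : ∃ t, t = σ (-(h a b) * (h a y)⁻¹) := ⟨_, rfl⟩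
        have h1 : h a (b + t • y) = 0 := by
          rw [hh.add_right, hh.smul_right, ht, hh.inv, mul_assoc, inv_mul_cancel₀ hay]
          ring
        have h1' := hh.symm h1
        have hbb : h (b + t • y) (b + t • y) = 0 := by
          rw [hh.add, hh.add_right, hh.add_right, hh.smul, hh.smul, hh.smul_right, hh.smul_right,
            hb'.2.1, hy.2.1, hby, hh.symm hby]
          ring
        have hxy : h (a + (b + t • y)) y = h a y := by
          rw [hh.add, hh.add, hh.smul, hby, hy.2.1]
          ring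
        refine ⟨a + (b + t • y), ⟨fun h0 => ?_, ?_, ?_, ?_⟩, ?_, ?_⟩
        · rw [h0, hh.zero_left] at hxy
          exact hay hxy.symm
        · rw [hh.add, hh.add_right a a, hh.add_right (b + t • y) a, ha.2.1, h1, h1', hbb]
          ring
        · rw [hh.add, hh.add, hh.smul, ha.2.2.1, hb'.2.2.1, hy.2.2.1]; ring
        · rw [hh.add, hh.add, hh.smul, ha.2.2.2, hb'.2.2.2, hy.2.2.2]; ring
        · rw [hxy]; exact hay
        · rw [hh.add, hh.add, hh.smul, haz, hyz]
          intro h0
          apply hbz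
          linear_combination h0
      · exact ⟨b, hb', hby, hbz⟩
    · exact ⟨a, ha, hay, haz⟩
  · have hc : (σ (h y z))⁻¹ ≠ 0 := inv_ne_zero ((map_ne_zero σ).2 hyz)
    have h1 : h y ((σ (h y z))⁻¹ • z) = 1 := by
      rw [hh.smul_right, map_inv₀, hh.inv, inv_mul_cancel₀ hyz]
    obtain ⟨x, hx, h2, h3⟩ := exists_third B hh he hf hef nd hb hy (hz.smul hh hc) h1
    refine ⟨x, hx, h2, fun h0 => h3 ?_⟩
    rw [hh.smul_right, h0, mul_zero]

/-- **isotropic frames** -/
theorem exists_frame (hh : SF σ ε h) (he : h e e = 0) (hf : h f f = 0) (hef : h e f = 1)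
    (nd : ∀ x, (∀ y, h x y = 0) → x = 0) (tv : ∀ y, ∃ β, h y y = β + ε * σ β)
    (hb : Big σ ε m) (hm : 0 < m) (hB : ∀ i, SW h e f (B (Sum.inl i)))
    (hBe : B (Sum.inr false) = e) (hBf : B (Sum.inr true) = f) :
    ∃ t : Fin m ⊕ Bool → K, (∀ j, t j ≠ 0) ∧ h (∑ j, t j • B j) (∑ j, t j • B j) = 0 := by
  classical
  -- coefficients in the complement
  obtain ⟨s, hs, hsq⟩ : ∃ s : Fin m → K, (∀ i, s i ≠ 0) ∧
      ((∃ c, c ≠ 0 ∧ c + ε * σ c = 0) ∨
        h (∑ i, s i • B (Sum.inl i)) (∑ i, s i • B (Sum.inl i)) ≠ 0) := by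
    rcases hb with hc | ⟨h1, h2, h3, hm3⟩
    · exact ⟨fun _ => 1, fun _ => one_ne_zero, Or.inl hc⟩
    · have hsym : ∀ a b, h b a = h a b := fun a b => by rw [hh.herm a b, h2, h1, one_mul]
      obtain ⟨u, hu⟩ : ∃ u, u = ∑ i : Fin m, (1 : K) • B (Sum.inl i) := ⟨_, rfl⟩
      by_cases huu : h u u = 0
      · -- `u ≠ 0`, so some `h (B i) u ≠ 0`
        obtain ⟨i, hi⟩ : ∃ i, h (B (Sum.inl i)) u ≠ 0 := by
          by_contra hcon
          push Not at hcon
          have hu0 : u = 0 := by
            refine nd u fun x => ?_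
            rw [← B.sum_repr x, hh.sum_right]
            refine Finset.sum_eq_zero fun j _ => ?_
            rw [hh.smul_right]
            rcases j with j | j
            · rw [hh.symm (hcon j), mul_zero]
            · have hue : ∀ g, (∀ i, h (B (Sum.inl i)) g = 0) → h u g = 0 := by
                intro g hg
                rw [hu, hh.sum_left]
                exact Finset.sum_eq_zero fun i _ => by rw [hh.smul, hg, mul_zero]
              cases j
              · rw [hBe, hue e fun i => (hB i).2.2.1, mul_zero]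
              · rw [hBf, hue f fun i => (hB i).2.2.2, mul_zero]
          have hI : LinearIndependent K fun i : Fin m => B (Sum.inl i) :=
            B.linearIndependent.comp _ Sum.inl_injective
          rw [hu] at hu0
          exact one_ne_zero (Fintype.linearIndependent_iff.1 hI _ hu0 ⟨0, hm⟩)
        refine ⟨fun j => if j = i then 2 else 1, fun j => ?_, Or.inr ?_⟩
        · change (if j = i then (2 : K) else 1) ≠ 0
          split_ifs
          · exact h3
          · exact one_ne_zero
        · have e1 : (∑ j : Fin m, (if j = i then (2 : K) else 1) • B (Sum.inl j)) =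
              u + B (Sum.inl i) := by
            have : ∀ j : Fin m, (if j = i then (2 : K) else 1) • B (Sum.inl j) =
                (1 : K) • B (Sum.inl j) + (if j = i then B (Sum.inl j) else 0) := by
              intro j
              split_ifs
              · rw [← one_add_one_eq_two, add_smul, one_smul]
              · rw [add_zero]
            rw [Finset.sum_congr rfl fun j _ => this j, Finset.sum_add_distrib, ← hu,
              Finset.sum_ite_eq' Finset.univ i, if_pos (Finset.mem_univ i)]
          rw [e1, hh.add, hh.add_right, hh.add_right, huu, (hB i).2.1,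
            hsym (B (Sum.inl i)) u]
          intro h0
          have : 2 * h (B (Sum.inl i)) u = 0 := by linear_combination h0
          exact (mul_ne_zero h3 hi) this
      · refine ⟨fun _ => 1, fun _ => one_ne_zero, Or.inr ?_⟩
        rw [← hu]
        exact huu
  obtain ⟨u, hu⟩ : ∃ u, u = ∑ i, s i • B (Sum.inl i) := ⟨_, rfl⟩
  have hue : h u e = 0 := by
    rw [hu, hh.sum_left]
    exact Finset.sum_eq_zero fun i _ => by rw [hh.smul, (hB i).2.2.1, mul_zero]
  have huf : h u f = 0 := by
    rw [hu, hh.sum_left]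
    exact Finset.sum_eq_zero fun i _ => by rw [hh.smul, (hB i).2.2.2, mul_zero]
  obtain ⟨q, hq, huq⟩ : ∃ q : K, q ≠ 0 ∧ h u u + ε * q + σ q = 0 := by
    obtain ⟨β, hβ⟩ := tv u
    by_cases hβ0 : β = 0
    · rcases hsq with ⟨c, hc, hc'⟩ | h0
      · refine ⟨ε * c, mul_ne_zero hh.eps_ne hc, ?_⟩
        rw [hβ, hβ0, map_zero, map_mul, hh.seps]
        linear_combination hc' + c * hh.eps
      · rw [← hu, hβ, hβ0, map_zero, mul_zero, add_zero] at h0
        exact absurd rfl h0
    · refine ⟨-(ε * β), neg_ne_zero.2 (mul_ne_zero hh.eps_ne hβ0), ?_⟩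
      rw [hβ, map_neg, map_mul, hh.seps]
      linear_combination (-β) * hh.eps
  refine ⟨Sum.elim s (fun c => if c then q else 1), ?_, ?_⟩
  · rintro (i | c)
    · exact hs i
    · cases c
      · exact one_ne_zero
      · exact hq
  · have e1 : (∑ j, (Sum.elim s (fun c => if c then q else 1) : Fin m ⊕ Bool → K) j • B j) =
        u + q • f + e := by
      rw [Fintype.sum_sum_type, Fintype.sum_bool]
      simp only [Sum.elim_inl, Sum.elim_inr, if_true, Bool.false_eq_true, if_false, hBe, hBf,
        one_smul]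
      rw [hu, add_assoc]
    rw [e1]
    simp only [hh.add, hh.add_right, hh.smul, hh.smul_right, he, hf, hef, hfe hh hef, hue, huf,
      hh.symm hue, hh.symm huf]
    linear_combination huq

end conn

end Vale.Agent.P092.H714.Pc
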