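import Vale.Agent.P092.H714.Pc4
import Vale.Agent.P092.H375.X2.Sig2
import Vale.Agent.P092.H375.ClsF

/-!
P092 (helper714), [P3-CLS]: the extension theorem for points of projective spaces, and its form
over a countable subfield.
-/

set_option linter.all false

namespace Vale.Agent.P092.H714.Pc

open Module Matrix
open Vale.Agent.P092.H375.X2 (sgm sgm_mk sl sl_inj)
open Vale.Agent.P092.H375.Cls (Rl mi)
open Vale.Agent.P092.H820 (pj pj_eq pj_surj)
open scoped LinearAlgebra.Projectivization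

section gram

variable {K L V V' : Type*} [Field K] [Field L] [AddCommGroup V] [Module K V]
    [AddCommGroup V'] [Module L V'] {τ : K →+* L} {σ : K →+* K} {ε : K} {h : V → V → K}
    {σ' : L →+* L} {ε' : L} {h' : V' → V' → L} {ι : Type*} [Fintype ι] [DecidableEq ι]
    (B : Basis ι K V) (C : ι → V')

theorem gram_det' (hh : SF σ ε h) (nd : ∀ x, (∀ y, h x y = 0) → x = 0) :
    (Matrix.of fun i j => h (B i) (B j)).det ≠ 0 := by
  intro h0
  obtain ⟨v, hv, hv0⟩ := Matrix.exists_vecMul_eq_zero_iff.2 h0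
  apply hv
  have h1 : (∑ i, v i • B i) = 0 := by
    refine nd _ fun y => ?_
    rw [← B.sum_repr y, hh.sum_right]
    refine Finset.sum_eq_zero fun j _ => ?_
    rw [hh.smul_right, hh.sum_left]
    have := congrFun hv0 j
    simp only [Matrix.vecMul, dotProduct, Matrix.of_apply, Pi.zero_apply] at this
    have e : (∑ i, h (v i • B i) (B j)) = 0 := by
      rw [← this]
      exact Finset.sum_congr rfl fun i _ => hh.smul _ _ _
    rw [e, mul_zero]
  funext i
  exact Fintype.linearIndependent_iff.1 B.linearIndependent v h1 i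

theorem li_gram' (hh' : SF σ' ε' h') {β : L} (hβ : β ≠ 0)
    (hG : (Matrix.of fun i j => h (B i) (B j)).det ≠ 0)
    (G : ∀ i j, h' (C i) (C j) = β * τ (h (B i) (B j))) : LinearIndependent L C := by
  rw [Fintype.linearIndependent_iff]
  intro c hc
  have h1 : c = 0 := by
    refine Matrix.eq_zero_of_vecMul_eq_zero (M := (Matrix.of fun i j => h (B i) (B j)).map τ) ?_ ?_
    · rw [← RingHom.mapMatrix_apply, ← RingHom.map_det]
      exact (map_ne_zero τ).2 hG
    · funext j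
      simp only [Matrix.vecMul, dotProduct, Matrix.map_apply, Matrix.of_apply, Pi.zero_apply]
      apply mul_left_cancel₀ hβ
      rw [mul_zero, Finset.mul_sum]
      have h2 : h' (∑ i, c i • C i) (C j) = 0 := by rw [hc, hh'.zero_left]
      rw [hh'.sum_left] at h2
      rw [← h2]
      refine Finset.sum_congr rfl fun i _ => ?_
      rw [hh'.smul, G]
      ring
  intro i
  rw [h1]
  rfl

end gram

section pts

variable {K : Type} {k : Type} [Field K] [NontriviallyNormedField k] {n m : ℕ} {τ : K →+* k}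
  {σ : K →+* K} {ε : K} {h : (Fin n → K) → (Fin n → K) → K}
  {σ' : k →+* k} {ε' : k} {h' : (Fin n → k) → (Fin n → k) → k}

/-- a semilinear similitude is given by an invertible matrix -/
theorem exists_gl (hh : SF σ ε h) (hh' : SF σ' ε' h') (nd : ∀ x, (∀ y, h x y = 0) → x = 0)
    {A : (Fin n → K) → (Fin n → k)} {β : k} (hβ : β ≠ 0) (add : ∀ x y, A (x + y) = A x + A y)
    (smul : ∀ (c : K) x, A (c • x) = τ c • A x)
    (F : ∀ x y, h' (A x) (A y) = β * τ (h x y)) :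
    ∃ M : GL (Fin n) k, ∀ x, A x = M.1 *ᵥ fun i => τ (x i) := by
  classical
  have hI : LinearIndependent k fun j : Fin n => A (Pi.single j 1) := by
    refine li_gram' (τ := τ) (Pi.basisFun K (Fin n)) _ hh' hβ (gram_det' _ hh nd) fun i j => ?_
    rw [F, Pi.basisFun_apply, Pi.basisFun_apply]
  obtain ⟨M, hM⟩ : ∃ M : Matrix (Fin n) (Fin n) k, M = Matrix.of fun a j => A (Pi.single j 1) a :=
    ⟨_, rfl⟩
  have hMu : IsUnit M := by
    rw [← Matrix.linearIndependent_cols_iff_isUnit]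
    have e : M.col = fun j => A (Pi.single j 1) := by
      funext j a
      rw [hM]; rfl
    rw [e]
    exact hI
  have A0 : A 0 = 0 := by
    have := smul 0 0
    rwa [smul_zero, map_zero, zero_smul] at this
  have hsum : ∀ (s : Finset (Fin n)) (f : Fin n → Fin n → K), A (∑ i ∈ s, f i) =
      ∑ i ∈ s, A (f i) := by
    intro s f
    induction s using Finset.induction_on with
    | empty => rw [Finset.sum_empty, Finset.sum_empty, A0]
    | insert a s ha ih => rw [Finset.sum_insert ha, Finset.sum_insert ha, add, ih]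
  obtain ⟨g, hg⟩ := hMu
  refine ⟨g, fun x => ?_⟩
  rw [hg]
  have e1 : x = ∑ j, x j • (Pi.single j 1 : Fin n → K) := by
    funext i
    rw [Finset.sum_apply]
    simp [Pi.single_apply]
  conv_lhs => rw [e1]
  rw [hsum]
  funext a
  rw [Finset.sum_apply, Matrix.mulVec, dotProduct]
  refine Finset.sum_congr rfl fun j _ => ?_
  rw [smul, hM, Pi.smul_apply, smul_eq_mul, Matrix.of_apply]
  ring

theorem rep_pr {v : Fin n → k} (hv : v ≠ 0) {z : ℙ k (Fin n → k)}
    (hz : z = pj k (Fin n) ⟨v, hv⟩) : Pr k z.rep v := by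
  have h1 : pj k (Fin n) ⟨z.rep, z.rep_nonzero⟩ = z := z.mk_rep
  rw [hz] at h1
  have h2 := (pj_eq _ _).1 (h1.trans rfl)
  obtain ⟨c, hc⟩ := h2
  refine ⟨c, c.ne_zero, ?_⟩
  rw [hz]
  exact hc.symm

theorem pj_of_pr {u v : Fin n → k} (hu : u ≠ 0) (hv : v ≠ 0) (h : Pr k u v) :
    pj k (Fin n) ⟨u, hu⟩ = pj k (Fin n) ⟨v, hv⟩ := by
  obtain ⟨c, hc, e⟩ := h
  exact (pj_eq _ _).2 ⟨Units.mk0 c hc, e.symm⟩

/-- **the extension theorem for points** -/
theorem pol_pts (hh : SF σ ε h) (hh' : SF σ' ε' h') (nd : ∀ x, (∀ y, h x y = 0) → x = 0)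
    (nd' : ∀ x, (∀ y, h' x y = 0) → x = 0) {e f : Fin n → K}
    (he : h e e = 0) (hf : h f f = 0) (hef : h e f = 1)
    (conn : ∀ y z, SW h e f y → SW h e f z → ∃ x, SW h e f x ∧ h x y ≠ 0 ∧ h x z ≠ 0)
    (hm : 0 < m) (B : Basis (Fin m ⊕ Bool) K (Fin n → K)) (hB : ∀ i, SW h e f (B (Sum.inl i)))
    (hBe : B (Sum.inr false) = e) (hBf : B (Sum.inr true) = f)
    (z : (Fin n → K) → ℙ k (Fin n → k))
    (sc : ∀ x (c : K), c ≠ 0 → x ≠ 0 → h x x = 0 → z (c • x) = z x)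
    (perp : ∀ x y, x ≠ 0 → y ≠ 0 → h x x = 0 → h y y = 0 →
      (h' (z x).rep (z y).rep = 0 ↔ h x y = 0))
    (line : ∀ x y, x ≠ 0 → y ≠ 0 → h x x = 0 → h y y = 0 → h x y = 0 →
      LinearIndependent K ![x, y] → ∀ s : K, Rl ![z x, z y, z (x + y), z (s • x + y)] (τ s)) :
    ∃ M : GL (Fin n) k, ∀ x (hx : x ≠ 0), h x x = 0 →
      z x = M • sgm τ n (Projectivization.mk K x hx) := by
  classical
  have R : Rel τ h h' (fun x => (z x).rep) := by
    refine ⟨fun x _ _ => (z x).rep_nonzero, fun x c hc hx hxx => ?_, perp,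
      fun x y hx hy hxx hyy hxy hI s => ?_⟩
    · change Pr k (z (c • x)).rep (z x).rep
      rw [sc x c hc hx hxx]
      exact Pr.refl _
    · obtain ⟨v0, v1, h0, h1, h2, h3, h4, z0, z1, z2, z3⟩ := line x y hx hy hxx hyy hxy hI s
      refine ⟨v0, v1, (H375.Cls.mi_zero_iff v0 v1).1 h4, rep_pr h0 z0, rep_pr h1 z1,
        rep_pr h2 z2, rep_pr h3 z3⟩
  have hdim : finrank k (Fin n → k) = Fintype.card (Fin m ⊕ Bool) := by
    rw [Module.finrank_fintype_fun_eq_card, ← finrank_eq_card_basis B,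
      Module.finrank_fintype_fun_eq_card]
  obtain ⟨C, β, hβ, hC, ts, F, H⟩ := pol_ext hh hh' R he hf hef nd nd' conn
    ⟨_, hB ⟨0, hm⟩⟩ B hB hBe hBf hdim
  obtain ⟨M, hM⟩ := exists_gl hh hh' nd hβ (ext_add B C) (ext_smul B C) F
  refine ⟨M, fun x hx hxx => ?_⟩
  have hτx : (fun i => τ (x i)) ≠ 0 := fun h0 => hx (sl_inj τ n (h0.trans (map_zero (sl τ n)).symm))
  have hMx : M.1 *ᵥ (fun i => τ (x i)) ≠ 0 := (smul_ne_zero_iff_ne M).2 hτx
  have e1 : M • sgm τ n (Projectivization.mk K x hx) =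
      pj k (Fin n) ⟨M.1 *ᵥ (fun i => τ (x i)), hMx⟩ := rfl
  have e2 : z x = pj k (Fin n) ⟨(z x).rep, (z x).rep_nonzero⟩ := (z x).mk_rep.symm
  rw [e1, e2]
  refine pj_of_pr _ _ ?_
  rw [← hM]
  exact H x hx hxx

end pts

section rat

variable {kS k : Type} [Field kS] [NontriviallyNormedField k] {n m : ℕ} {τ : kS →+* k}
  {σ : kS →+* kS} {ε : kS} {h : (Fin n → kS) → (Fin n → kS) → kS}
  {σ' : k →+* k} {ε' : k} {h' : (Fin n → k) → (Fin n → k) → k}

/-- vectors with coordinates in a subfield -/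
def cv {k₁ : Subfield kS} (x : Fin n → k₁) : Fin n → kS := fun i => (x i : kS)

theorem cv_ne {k₁ : Subfield kS} {x : Fin n → k₁} (hx : x ≠ 0) : cv x ≠ 0 := fun h0 => hx (by
  funext i
  exact Subtype.ext (congrFun h0 i))

/-- the data of a rational structure -/
structure Rat (σ : kS →+* kS) (ε : kS) (h : (Fin n → kS) → (Fin n → kS) → kS) (m : ℕ)
    (B : Basis (Fin m ⊕ Bool) kS (Fin n → kS)) (k₁ : Subfield kS) : Prop where
  s1 : ∀ x ∈ k₁, σ x ∈ k₁
  s2 : ε ∈ k₁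
  s3 : ∀ i j, h (Pi.single i 1) (Pi.single j 1) ∈ k₁
  s4 : ∀ j i, B j i ∈ k₁
  s5 : (∃ c ∈ k₁, c ≠ 0 ∧ c + ε * σ c = 0) ∨ ((∀ x, σ x = x) ∧ ε = 1 ∧ (2 : kS) ≠ 0 ∧ 3 ≤ m)

theorem form_mem (hh : SF σ ε h) {k₁ : Subfield kS} (s1 : ∀ x ∈ k₁, σ x ∈ k₁)
    (s3 : ∀ i j, h (Pi.single i 1) (Pi.single j 1) ∈ k₁) (x y : Fin n → k₁) :
    h (cv x) (cv y) ∈ k₁ := by
  have e : ∀ x : Fin n → k₁, cv x = ∑ i, (x i : kS) • (Pi.single i 1 : Fin n → kS) := by
    intro x
    funext i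
    rw [Finset.sum_apply]
    simp [Pi.single_apply, cv]
  rw [e x, e y, hh.sum_left]
  refine Subfield.sum_mem _ fun i _ => ?_
  rw [hh.smul, hh.sum_right]
  refine Subfield.mul_mem _ (x i).2 (Subfield.sum_mem _ fun j _ => ?_)
  rw [hh.smul_right]
  exact Subfield.mul_mem _ (s1 _ (y j).2) (s3 i j)

/-- **the extension theorem over a subfield** -/
theorem pol_rat (hh : SF σ ε h) (hh' : SF σ' ε' h') (nd : ∀ x, (∀ y, h x y = 0) → x = 0)
    (nd' : ∀ x, (∀ y, h' x y = 0) → x = 0) {e f : Fin n → kS}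
    (he : h e e = 0) (hf : h f f = 0) (hef : h e f = 1) (hm : 0 < m)
    (B : Basis (Fin m ⊕ Bool) kS (Fin n → kS)) (hB : ∀ i, SW h e f (B (Sum.inl i)))
    (hBe : B (Sum.inr false) = e) (hBf : B (Sum.inr true) = f) {k₁ : Subfield kS}
    (hr : Rat σ ε h m B k₁) (z : (Fin n → kS) → ℙ k (Fin n → k))
    (sc : ∀ x (c : kS), (∀ i, x i ∈ k₁) → c ∈ k₁ → c ≠ 0 → x ≠ 0 → h x x = 0 → z (c • x) = z x)
    (perp : ∀ x y, (∀ i, x i ∈ k₁) → (∀ i, y i ∈ k₁) → x ≠ 0 → y ≠ 0 → h x x = 0 → h y y = 0 →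
      (h' (z x).rep (z y).rep = 0 ↔ h x y = 0))
    (line : ∀ x y, (∀ i, x i ∈ k₁) → (∀ i, y i ∈ k₁) → x ≠ 0 → y ≠ 0 → h x x = 0 → h y y = 0 →
      h x y = 0 → LinearIndependent kS ![x, y] → ∀ s ∈ k₁,
        Rl ![z x, z y, z (x + y), z (s • x + y)] (τ s)) :
    ∃ M : GL (Fin n) k, ∀ x (hx : x ≠ 0), (∀ i, x i ∈ k₁) → h x x = 0 →
      z x = M • sgm τ n (Projectivization.mk kS x hx) := by
  classical
  obtain ⟨s1, s2, s3, s4, s5⟩ := hr
  let σ₁ : k₁ →+* k₁ := (σ.comp k₁.subtype).codRestrict k₁ fun x => s1 x x.2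
  have hσ₁ : ∀ x : k₁, ((σ₁ x : k₁) : kS) = σ x := fun x => rfl
  let h₁ : (Fin n → k₁) → (Fin n → k₁) → k₁ := fun x y => ⟨h (cv x) (cv y), form_mem hh s1 s3 x y⟩
  have hh₁ : SF σ₁ (⟨ε, s2⟩ : k₁) h₁ := by
    refine ⟨fun x => Subtype.ext (hh.inv x), Subtype.ext hh.eps, Subtype.ext hh.seps,
      fun x y w => Subtype.ext (hh.add _ _ _), fun c x y => Subtype.ext (hh.smul _ _ _),
      fun x y => Subtype.ext (hh.herm _ _)⟩
  -- the basis
  let Br : Fin m ⊕ Bool → Fin n → k₁ := fun j i => ⟨B j i, s4 j i⟩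
  have hBr : ∀ j, cv (Br j) = B j := fun j => rfl
  have hI : LinearIndependent k₁ Br := by
    rw [Fintype.linearIndependent_iff]
    intro g hg j
    have h1 : (∑ j, (g j : kS) • B j) = 0 := by
      funext i
      have := congrArg (fun x : k₁ => (x : kS)) (congrFun hg i)
      rw [Finset.sum_apply] at this ⊢
      simpa using this
    exact Subtype.ext (Fintype.linearIndependent_iff.1 B.linearIndependent _ h1 j)
  have hcard : Fintype.card (Fin m ⊕ Bool) = finrank k₁ (Fin n → k₁) := by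
    rw [Module.finrank_fintype_fun_eq_card, ← finrank_eq_card_basis B,
      Module.finrank_fintype_fun_eq_card]
  have : Nonempty (Fin m ⊕ Bool) := ⟨Sum.inr true⟩
  let B₁ : Basis (Fin m ⊕ Bool) k₁ (Fin n → k₁) := basisOfLinearIndependentOfCardEqFinrank hI hcard
  have hB₁ : ∀ j, B₁ j = Br j := fun j => by
    rw [coe_basisOfLinearIndependentOfCardEqFinrank]
  have nd₁ : ∀ x, (∀ y, h₁ x y = 0) → x = 0 := by
    intro x hx
    by_contra hx0
    refine cv_ne hx0 (nd _ fun y => ?_)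
    rw [← B.sum_repr y, hh.sum_right]
    refine Finset.sum_eq_zero fun j _ => ?_
    rw [hh.smul_right, ← hBr j]
    have := congrArg (fun x : k₁ => (x : kS)) (hx (Br j))
    have h2 : h (cv x) (cv (Br j)) = 0 := this
    rw [h2, mul_zero]
  obtain ⟨e₁, he₁⟩ : ∃ e₁, e₁ = Br (Sum.inr false) := ⟨_, rfl⟩
  obtain ⟨f₁, hf₁⟩ : ∃ f₁, f₁ = Br (Sum.inr true) := ⟨_, rfl⟩
  have ce : cv e₁ = e := by rw [he₁, hBr, hBe]
  have cf : cv f₁ = f := by rw [hf₁, hBr, hBf]
  have he' : h₁ e₁ e₁ = 0 := Subtype.ext (by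
    change h (cv e₁) (cv e₁) = 0
    rw [ce, he])
  have hf' : h₁ f₁ f₁ = 0 := Subtype.ext (by
    change h (cv f₁) (cv f₁) = 0
    rw [cf, hf])
  have hef' : h₁ e₁ f₁ = 1 := Subtype.ext (by
    change h (cv e₁) (cv f₁) = 1
    rw [ce, cf, hef])
  have hSW : ∀ i, SW h₁ e₁ f₁ (B₁ (Sum.inl i)) := by
    intro i
    obtain ⟨a1, a2, a3, a4⟩ := hB i
    refine ⟨B₁.ne_zero _, ?_, ?_, ?_⟩
    · rw [hB₁]
      exact Subtype.ext a2
    · rw [hB₁]
      refine Subtype.ext ?_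
      change h (B (Sum.inl i)) (cv e₁) = 0
      rw [ce, a3]
    · rw [hB₁]
      refine Subtype.ext ?_
      change h (B (Sum.inl i)) (cv f₁) = 0
      rw [cf, a4]
  have hbig : Big σ₁ (⟨ε, s2⟩ : k₁) m := by
    rcases s5 with ⟨c, hc, hc0, hc'⟩ | ⟨a1, a2, a3, a4⟩
    · exact Or.inl ⟨⟨c, hc⟩, fun h0 => hc0 (congrArg Subtype.val h0), Subtype.ext hc'⟩
    · refine Or.inr ⟨fun x => Subtype.ext (a1 x), Subtype.ext a2, fun h0 => a3 ?_, a4⟩
      exact congrArg Subtype.val h0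
  have hconn : ∀ y z, SW h₁ e₁ f₁ y → SW h₁ e₁ f₁ z → ∃ x, SW h₁ e₁ f₁ x ∧ h₁ x y ≠ 0 ∧
      h₁ x z ≠ 0 := fun y z hy hz => conn_of B₁ hh₁ he' hf' hef' nd₁ hbig hSW
        (by rw [hB₁, he₁]) (by rw [hB₁, hf₁]) hy hz
  obtain ⟨M, hM⟩ := pol_pts (τ := τ.comp k₁.subtype) hh₁ hh' nd₁ nd' he' hf' hef' hconn hm B₁ hSW
    (by rw [hB₁, he₁]) (by rw [hB₁, hf₁]) (fun x => z (cv x))
    (fun x c hc hx hxx => by
      have := sc (cv x) c (fun i => (x i).2) c.2 (fun h0 => hc (Subtype.ext h0)) (cv_ne hx)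
        (congrArg Subtype.val hxx)
      exact this)
    (fun x y hx hy hxx hyy => by
      have := perp (cv x) (cv y) (fun i => (x i).2) (fun i => (y i).2) (cv_ne hx) (cv_ne hy)
        (congrArg Subtype.val hxx) (congrArg Subtype.val hyy)
      rw [this]
      exact ⟨fun h0 => Subtype.ext h0, fun h0 => congrArg Subtype.val h0⟩)
    (fun x y hx hy hxx hyy hxy hI s => by
      have hI' : LinearIndependent kS ![cv x, cv y] := by
        rw [LinearIndependent.pair_iff' (cv_ne hx)]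
        intro a ha
        obtain ⟨i, hi⟩ : ∃ i, x i ≠ 0 := by
          by_contra hcon
          push Not at hcon
          exact hx (funext hcon)
        have hi' : (x i : kS) ≠ 0 := fun h0 => hi (Subtype.ext h0)
        have h1 : a * (x i : kS) = y i := congrFun ha i
        have h2 : a = ((y i / x i : k₁) : kS) := by
          rw [Subfield.coe_div, ← h1, mul_div_assoc, div_self hi', mul_one]
        rw [LinearIndependent.pair_iff' hx] at hI
        apply hI (y i / x i)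
        funext l
        refine Subtype.ext ?_
        have h3 : a * (x l : kS) = y l := congrFun ha l
        change ((y i / x i : k₁) : kS) * (x l : kS) = y l
        rw [← h2, h3]
      have := line (cv x) (cv y) (fun i => (x i).2) (fun i => (y i).2) (cv_ne hx) (cv_ne hy)
        (congrArg Subtype.val hxx) (congrArg Subtype.val hyy) (congrArg Subtype.val hxy) hI' s s.2
      exact this)
  refine ⟨M, fun x hx hxr hxx => ?_⟩
  have hx' : (fun i => (⟨x i, hxr i⟩ : k₁)) ≠ 0 := fun h0 => hx (by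
    funext i
    exact congrArg Subtype.val (congrFun h0 i))
  exact hM (fun i => ⟨x i, hxr i⟩) hx' (Subtype.ext hxx)

end rat

end Vale.Agent.P092.H714.Pc
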