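import Vale.Agent.P092.H714.Pc5
import Vale.Agent.P092.H171.Ch
import Vale.Agent.P092.H789.Fr
import Vale.Agent.P092.H375.ClsG
import Mathlib.SetTheory.Cardinal.Subfield

/-!
P092 (helper714), [P3-CLS], row [P3-SEM]: the joint law of the letters of finitely many isotropic
points is carried by the semilinear images of the points.
-/

set_option linter.all false

namespace Vale.Agent.P092.H714.Pc

open Module Matrix Cardinal
open Vale.Agent.P092.H375.X2 (sgm sgm_mk sl sl_inj)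
open Vale.Agent.P092.H375.Cls (Rl mi)
open Vale.Agent.P092.H820 (pj pj_eq pj_surj)
open Vale.Agent.P092.H466 Vale.Agent.P092.H171
open Vale.Agent.P092.H789 (cmap src sv PG YY isOpenEmbedding_cmap)
open MeasureTheory Topology TopologicalSpace Filter
open scoped LinearAlgebra.Projectivization

section rat

variable {kS : Type} [Field kS] {n m : ℕ}
  {σ : kS →+* kS} {ε : kS} {h : (Fin n → kS) → (Fin n → kS) → kS}

/-- **countable rational structures** -/
theorem exists_rat (hh : SF σ ε h) (B : Basis (Fin m ⊕ Bool) kS (Fin n → kS)) (hb : Big σ ε m)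
    {S : Set kS} (hS : S.Countable) :
    ∃ k₁ : Subfield kS, Countable k₁ ∧ S ⊆ k₁ ∧ Rat σ ε h m B k₁ := by
  obtain ⟨c₀, hc₀⟩ : ∃ c₀ : kS, (∃ c, c ≠ 0 ∧ c + ε * σ c = 0) → c₀ ≠ 0 ∧ c₀ + ε * σ c₀ = 0 := by
    by_cases hc : ∃ c, c ≠ 0 ∧ c + ε * σ c = 0
    · obtain ⟨c, hc⟩ := hc
      exact ⟨c, fun _ => hc⟩
    · exact ⟨0, fun h0 => absurd h0 hc⟩
  let T : Set kS := S ∪ ({ε, c₀} ∪ (Set.range (fun p : Fin n × Fin n =>
    h (Pi.single p.1 1) (Pi.single p.2 1)) ∪ Set.range (fun p : (Fin m ⊕ Bool) × Fin n =>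
      B p.1 p.2)))
  have hT : T.Countable := hS.union (((Set.countable_singleton c₀).insert ε).union
    ((Set.countable_range _).union (Set.countable_range _)))
  let T' : Set kS := T ∪ σ '' T
  have hT' : T'.Countable := hT.union (hT.image _)
  let k₁ : Subfield kS := Subfield.closure T'
  have hsub : T' ⊆ k₁ := Subfield.subset_closure
  have hTk : T ⊆ k₁ := fun x hx => hsub (Or.inl hx)
  refine ⟨k₁, ?_, fun x hx => hTk (Or.inl hx), ?_, ?_, ?_, ?_, ?_⟩
  · have h1 := Subfield.cardinalMk_closure_le_max T'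
    have h2 : #T' ≤ ℵ₀ := Cardinal.mk_le_aleph0_iff.2 hT'.to_subtype
    rw [max_eq_right h2] at h1
    exact Cardinal.mk_le_aleph0_iff.1 h1
  · intro x hx
    have h1 : k₁ ≤ k₁.comap σ := by
      refine Subfield.closure_le.2 fun y hy => ?_
      rcases hy with hy | ⟨w, hw, rfl⟩
      · exact hsub (Or.inr ⟨y, hy, rfl⟩)
      · change σ (σ w) ∈ k₁
        rw [hh.inv]
        exact hTk hw
    exact h1 hx
  · exact hTk (Or.inr (Or.inl (Or.inl rfl)))
  · intro i j
    exact hTk (Or.inr (Or.inr (Or.inl ⟨(i, j), rfl⟩)))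
  · intro j i
    exact hTk (Or.inr (Or.inr (Or.inr ⟨(j, i), rfl⟩)))
  · rcases hb with hc | hc
    · exact Or.inl ⟨c₀, hTk (Or.inr (Or.inl (Or.inr rfl))), hc₀ hc⟩
    · exact Or.inr hc

end rat

section sem

variable {kS k : Type} [Field kS] [NontriviallyNormedField k] [ProperSpace k] {N m : ℕ}
  {τ : kS →+* k} {σ : kS →+* kS} {ε : kS}
  {h : (Fin (N + 1) → kS) → (Fin (N + 1) → kS) → kS}
  {σ' : k →+* k} {ε' : k} {h' : (Fin (N + 1) → k) → (Fin (N + 1) → k) → k}
  {K : Type} [NormedAddCommGroup K] [InnerProductSpace ℂ K] [CompleteSpace K]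
  {E : ℙ kS (Fin (N + 1) → kS) → (C(ℙ k (Fin (N + 1) → k), ℂ) →⋆ₐ[ℂ] (K →L[ℂ] K))}

/-- isotropic points -/
def Is (h : (Fin (N + 1) → kS) → (Fin (N + 1) → kS) → kS) (p : ℙ kS (Fin (N + 1) → kS)) : Prop :=
  h p.rep p.rep = 0

theorem rep_pr' {v : Fin (N + 1) → kS} (hv : v ≠ 0) : Pr kS (Projectivization.mk kS v hv).rep v := by
  obtain ⟨c, hc⟩ := Projectivization.exists_smul_eq_mk_rep kS v hv
  exact ⟨c, c.ne_zero, hc.symm⟩

theorem is_mk (hh : SF σ ε h) {v : Fin (N + 1) → kS} (hv : v ≠ 0) :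
    Is h (Projectivization.mk kS v hv) ↔ h v v = 0 := Pr.perp hh (rep_pr' hv) (rep_pr' hv)

/-- The letters. -/
structure Let (τ : kS →+* k) (h : (Fin (N + 1) → kS) → (Fin (N + 1) → kS) → kS)
    (h' : (Fin (N + 1) → k) → (Fin (N + 1) → k) → k)
    (E : ℙ kS (Fin (N + 1) → kS) → (C(ℙ k (Fin (N + 1) → k), ℂ) →⋆ₐ[ℂ] (K →L[ℂ] K))) :
    Prop where
  com : ∀ a b, Is h a → Is h b → ∀ f g, Commute (E a f) (E b g)
  perp : ∀ a b, Is h a → Is h b → ∀ Φ : C(Fin 2 → ℙ k (Fin (N + 1) → k), ℂ) →⋆ₐ[ℂ] (K →L[ℂ] K),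
    (∀ i f, Φ (co i f) = E (![a, b] i) f) → ∀ ξ, ∀ᵐ z ∂(ms Φ ξ),
      (h' (z 0).rep (z 1).rep = 0 ↔ h a.rep b.rep = 0)
  line : ∀ x y (hx : x ≠ 0) (hy : y ≠ 0) (hI : LinearIndependent kS ![x, y]), h x x = 0 →
    h y y = 0 → h x y = 0 → ∀ s : kS, ∀ hxy : x + y ≠ 0, ∀ hsxy : s • x + y ≠ 0,
    ∀ Φ : C(Fin 4 → ℙ k (Fin (N + 1) → k), ℂ) →⋆ₐ[ℂ] (K →L[ℂ] K),
    (∀ i f, Φ (co i f) = E (![Projectivization.mk kS x hx, Projectivization.mk kS y hy,
      Projectivization.mk kS (x + y) hxy, Projectivization.mk kS (s • x + y) hsxy] i) f) →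
      ∀ ξ, ∀ᵐ z ∂(ms Φ ξ), Rl z (τ s)

theorem Let.sem (hL : Let τ h h' E) (hh : SF σ ε h) (hh' : SF σ' ε' h')
    (nd : ∀ x, (∀ y, h x y = 0) → x = 0)
    (nd' : ∀ x, (∀ y, h' x y = 0) → x = 0) {e f : Fin (N + 1) → kS}
    (he : h e e = 0) (hf : h f f = 0) (hef : h e f = 1) (hm : 0 < m)
    (B : Basis (Fin m ⊕ Bool) kS (Fin (N + 1) → kS)) (hB : ∀ i, SW h e f (B (Sum.inl i)))
    (hBe : B (Sum.inr false) = e) (hBf : B (Sum.inr true) = f) (hb : Big σ ε m)
    {κ : Type} [Fintype κ] (a : κ → ℙ kS (Fin (N + 1) → kS)) (ha : ∀ i, Is h (a i))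
    (Φ : C(κ → ℙ k (Fin (N + 1) → k), ℂ) →⋆ₐ[ℂ] (K →L[ℂ] K))
    (hΦ : ∀ i f, Φ (co i f) = E (a i) f) (ξ : K) :
    ∀ᵐ z ∂(ms Φ ξ), ∃ M : GL (Fin (N + 1)) k, ∀ i, z i = M • sgm τ (N + 1) (a i) := by
  classical
  have he0 := e_ne hh hef
  obtain ⟨k₁, hk₁, hS, hr⟩ := exists_rat hh B hb (S := Set.range fun p : κ × Fin (N + 1) =>
    (a p.1).rep p.2) (Set.countable_range _)
  have har : ∀ i j, (a i).rep j ∈ k₁ := fun i j => hS ⟨(i, j), rfl⟩
  -- the index set
  let incl : ℙ k₁ (Fin (N + 1) → k₁) → ℙ kS (Fin (N + 1) → kS) := sgm k₁.subtype (N + 1)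
  haveI : Countable (ℙ k₁ (Fin (N + 1) → k₁)) := by
    have hs : Function.Surjective (Projectivization.mk' k₁ :
      {v : Fin (N + 1) → k₁ // v ≠ 0} → ℙ k₁ (Fin (N + 1) → k₁)) := Quotient.mk_surjective
    exact hs.countable
  let E₁ : ℙ k₁ (Fin (N + 1) → k₁) → (C(ℙ k (Fin (N + 1) → k), ℂ) →⋆ₐ[ℂ] (K →L[ℂ] K)) :=
    fun p => if Is h (incl p) then E (incl p) else E (Projectivization.mk kS e he0)
  have hE₁ : ∀ p, Is h (incl p) → E₁ p = E (incl p) := fun p hp => if_pos hp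
  have hcomE : ∀ p q f g, Commute (E₁ p f) (E₁ q g) := by
    intro p q f g
    have h1 : ∀ p, ∃ b, Is h b ∧ E₁ p = E b := by
      intro p
      by_cases hp : Is h (incl p)
      · exact ⟨_, hp, if_pos hp⟩
      · exact ⟨_, (is_mk hh he0).2 he, if_neg hp⟩
    obtain ⟨b, hb1, hb2⟩ := h1 p
    obtain ⟨c, hc1, hc2⟩ := h1 q
    rw [hb2, hc2]
    exact hL.com b c hb1 hc1 f g
  obtain ⟨Ψ, hΨ⟩ := exists_joint E₁ hcomE
  -- restriction to finite families
  have restr : ∀ {ι : Type} (r : ι → ℙ k₁ (Fin (N + 1) → k₁)),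
      ∃ R : C(ℙ k₁ (Fin (N + 1) → k₁) → ℙ k (Fin (N + 1) → k), ι → ℙ k (Fin (N + 1) → k)),
        (∀ z i, R z i = z (r i)) ∧
        ∀ i f, (Ψ.comp (R.compStarAlgHom' ℂ ℂ)) (co i f) = E₁ (r i) f := by
    intro ι r
    refine ⟨⟨fun z i => z (r i), by fun_prop⟩, fun z i => rfl, fun i f => ?_⟩
    rw [← hΨ]
    rfl
  -- the index of a rational vector
  let idx : (Fin (N + 1) → kS) → ℙ k₁ (Fin (N + 1) → k₁) := fun x =>
    if hx : (∀ i, x i ∈ k₁) ∧ x ≠ 0 then Projectivization.mk k₁ (fun i => ⟨x i, hx.1 i⟩)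
      (fun h0 => hx.2 (by
        funext i
        exact congrArg Subtype.val (congrFun h0 i))) else
      Projectivization.mk k₁ (fun _ => 1) (fun h0 => one_ne_zero (congrFun h0 0))
  have hidx : ∀ x (hx : x ≠ 0), (∀ i, x i ∈ k₁) → incl (idx x) = Projectivization.mk kS x hx := by
    intro x hx hxr
    have e1 : idx x = Projectivization.mk k₁ (fun i => ⟨x i, hxr i⟩)
      (fun h0 => hx (by
        funext i
        exact congrArg Subtype.val (congrFun h0 i))) := dif_pos ⟨hxr, hx⟩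
    rw [e1]
    rfl
  have hidx_is : ∀ x, x ≠ 0 → (∀ i, x i ∈ k₁) → h x x = 0 → Is h (incl (idx x)) := by
    intro x hx hxr hxx
    rw [hidx x hx hxr]
    exact (is_mk hh hx).2 hxx
  -- orthogonality almost everywhere
  have A1 : ∀ᵐ z ∂(ms Ψ ξ), ∀ p q : ℙ k₁ (Fin (N + 1) → k₁), Is h (incl p) → Is h (incl q) →
      (h' (z p).rep (z q).rep = 0 ↔ h (incl p).rep (incl q).rep = 0) := by
    rw [ae_all_iff]
    intro p
    rw [ae_all_iff]
    intro q
    by_cases hp : Is h (incl p)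
    · by_cases hq : Is h (incl q)
      · obtain ⟨R, hR1, hR2⟩ := restr ![p, q]
        have h1 := hL.perp (incl p) (incl q) hp hq (Ψ.comp (R.compStarAlgHom' ℂ ℂ)) (by
          intro i f
          rw [hR2]
          fin_cases i
          · exact congrFun (congrArg DFunLike.coe (hE₁ p hp)) f
          · exact congrFun (congrArg DFunLike.coe (hE₁ q hq)) f) ξ
        have h2 := ae_restr Ψ R ξ (p := fun z => (h' (z 0).rep (z 1).rep = 0 ↔
          h (incl p).rep (incl q).rep = 0)) h1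
        filter_upwards [h2] with z hz _ _
        rw [hR1, hR1] at hz
        exact hz
      · exact Eventually.of_forall fun z _ h0 => absurd h0 hq
    · exact Eventually.of_forall fun z h0 => absurd h0 hp
  -- lines almost everywhere
  have A2 : ∀ᵐ z ∂(ms Ψ ξ), ∀ (x y : Fin (N + 1) → k₁) (s : k₁), cv x ≠ 0 → cv y ≠ 0 →
      h (cv x) (cv x) = 0 → h (cv y) (cv y) = 0 → h (cv x) (cv y) = 0 →
      LinearIndependent kS ![cv x, cv y] →
      Rl ![z (idx (cv x)), z (idx (cv y)), z (idx (cv x + cv y)),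
        z (idx ((s : kS) • cv x + cv y))] (τ s) := by
    rw [ae_all_iff]
    intro x
    rw [ae_all_iff]
    intro y
    rw [ae_all_iff]
    intro s
    by_cases hc : cv x ≠ 0 ∧ cv y ≠ 0 ∧ h (cv x) (cv x) = 0 ∧ h (cv y) (cv y) = 0 ∧
      h (cv x) (cv y) = 0 ∧ LinearIndependent kS ![cv x, cv y]
    · obtain ⟨hx, hy, hxx, hyy, hxy, hI⟩ := hc
      have hs0 : ∀ t : kS, t • cv x + cv y ≠ 0 := by
        intro t h0
        have := LinearIndependent.pair_iff.1 hI t 1 (by rw [one_smul]; exact h0)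
        exact one_ne_zero this.2
      have hxy0 : cv x + cv y ≠ 0 := by
        have := hs0 1
        rwa [one_smul] at this
      have hr1 : ∀ i, (cv x + cv y) i ∈ k₁ := fun i => Subfield.add_mem _ (x i).2 (y i).2
      have hr2 : ∀ i, ((s : kS) • cv x + cv y) i ∈ k₁ := fun i =>
        Subfield.add_mem _ (Subfield.mul_mem _ s.2 (x i).2) (y i).2
      have hi : ∀ t : kS, h (t • cv x + cv y) (t • cv x + cv y) = 0 := by
        intro t
        rw [hh.add, hh.add_right, hh.add_right, hh.smul, hh.smul, hh.smul_right, hh.smul_right,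
          hxx, hyy, hxy, hh.symm hxy]
        ring
      have hi1 : h (cv x + cv y) (cv x + cv y) = 0 := by
        have := hi 1
        rwa [one_smul] at this
      obtain ⟨R, hR1, hR2⟩ := restr ![idx (cv x), idx (cv y), idx (cv x + cv y),
        idx ((s : kS) • cv x + cv y)]
      have h1 := hL.line (cv x) (cv y) hx hy hI hxx hyy hxy s hxy0 (hs0 s)
        (Ψ.comp (R.compStarAlgHom' ℂ ℂ)) (by
          intro i f
          rw [hR2]
          have key : ∀ v (hv : v ≠ 0), (∀ i, v i ∈ k₁) → h v v = 0 →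
              E₁ (idx v) f = E (Projectivization.mk kS v hv) f := by
            intro v hv hvr hvv
            rw [hE₁ _ (hidx_is v hv hvr hvv), hidx v hv hvr]
          fin_cases i
          · exact key _ hx (fun i => (x i).2) hxx
          · exact key _ hy (fun i => (y i).2) hyy
          · exact key _ hxy0 hr1 hi1
          · exact key _ (hs0 s) hr2 (hi s)) ξ
      have h2 := ae_restr Ψ R ξ (p := fun z => Rl z (τ s)) h1
      filter_upwards [h2] with z hz _ _ _ _ _ _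
      convert hz using 1
      funext i
      rw [hR1]
      fin_cases i <;> rfl
    · refine Eventually.of_forall fun z h1 h2 h3 h4 h5 h6 => absurd ⟨h1, h2, h3, h4, h5, h6⟩ hc
  -- the matrix
  have A3 : ∀ᵐ z ∂(ms Ψ ξ), ∃ M : GL (Fin (N + 1)) k, ∀ x (hx : x ≠ 0), (∀ i, x i ∈ k₁) →
      h x x = 0 → z (idx x) = M • sgm τ (N + 1) (Projectivization.mk kS x hx) := by
    filter_upwards [A1, A2] with z hz1 hz2
    refine pol_rat hh hh' nd nd' he hf hef hm B hB hBe hBf hr (fun x => z (idx x)) ?_ ?_ ?_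
    · intro x c hxr hc hc0 hx hxx
      congr 1
      have hcx : c • x ≠ 0 := smul_ne_zero hc0 hx
      have hcr : ∀ i, (c • x) i ∈ k₁ := fun i => Subfield.mul_mem _ hc (hxr i)
      have e1 : idx x = Projectivization.mk k₁ (fun i => ⟨x i, hxr i⟩)
        (fun h0 => hx (by
          funext i
          exact congrArg Subtype.val (congrFun h0 i))) := dif_pos ⟨hxr, hx⟩
      have e2 : idx (c • x) = Projectivization.mk k₁ (fun i => ⟨(c • x) i, hcr i⟩)
        (fun h0 => hcx (by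
          funext i
          exact congrArg Subtype.val (congrFun h0 i))) := dif_pos ⟨hcr, hcx⟩
      rw [e1, e2, Projectivization.mk_eq_mk_iff']
      refine ⟨⟨c, hc⟩, ?_⟩
      funext i
      exact Subtype.ext rfl
    · intro x y hxr hyr hx hy hxx hyy
      rw [hz1 _ _ (hidx_is x hx hxr hxx) (hidx_is y hy hyr hyy), hidx x hx hxr, hidx y hy hyr]
      exact Pr.perp hh (rep_pr' hx) (rep_pr' hy)
    · intro x y hxr hyr hx hy hxx hyy hxy hI s hs
      exact hz2 (fun i => ⟨x i, hxr i⟩) (fun i => ⟨y i, hyr i⟩) ⟨s, hs⟩ hx hy hxx hyy hxy hI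
  -- the finite family
  obtain ⟨R, hR1, hR2⟩ := restr fun i => idx (a i).rep
  have e1 : Ψ.comp (R.compStarAlgHom' ℂ ℂ) = Φ := by
    refine hom_uniq fun i f => ?_
    have h1 : incl (idx (a i).rep) = a i := by
      rw [hidx _ (a i).rep_nonzero (har i), Projectivization.mk_rep]
    rw [hR2, hΦ, hE₁ _ (by rw [h1]; exact ha i), h1]
  haveI : LocallyCompactSpace (PG k (N + 1)) :=
    (isOpenEmbedding_cmap (k := k) (m := N)).locallyCompactSpace
  have hcont : Continuous fun (g : PG k (N + 1)) (i : κ) => g • sgm τ (N + 1) (a i) := by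
    refine continuous_pi fun i => ?_
    have h : Continuous fun p : PG k (N + 1) × YY k N => p.1 • p.2 := continuous_smul
    exact h.comp (continuous_id.prodMk continuous_const)
  have hmeas : MeasurableSet {y : κ → ℙ k (Fin (N + 1) → k) |
      ∃ M : GL (Fin (N + 1)) k, ∀ i, y i = M • sgm τ (N + 1) (a i)} := by
    have e : {y : κ → ℙ k (Fin (N + 1) → k) |
        ∃ M : GL (Fin (N + 1)) k, ∀ i, y i = M • sgm τ (N + 1) (a i)} =
        Set.range fun (g : PG k (N + 1)) (i : κ) => g • sgm τ (N + 1) (a i) := by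
      ext y
      constructor
      · rintro ⟨M, hM⟩
        exact ⟨QuotientGroup.mk M, (funext hM).symm⟩
      · rintro ⟨g, rfl⟩
        obtain ⟨M, rfl⟩ := QuotientGroup.mk_surjective g
        exact ⟨M, fun i => rfl⟩
    rw [e]
    obtain ⟨C, hC, hC2⟩ := isSigmaCompact_range hcont
    rw [← hC2]
    exact MeasurableSet.iUnion fun n => (hC n).measurableSet
  rw [← e1, ms_restr, ae_map_iff R.continuous.measurable.aemeasurable hmeas]
  filter_upwards [A3] with z hz
  obtain ⟨M, hM⟩ := hz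
  refine ⟨M, fun i => ?_⟩
  have hii : h (a i).rep (a i).rep = 0 := ha i
  rw [hR1, hM _ (a i).rep_nonzero (har i) hii, Projectivization.mk_rep]

end sem

end Vale.Agent.P092.H714.Pc
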