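import Mathlib

/-!
P092 (helper714): a discrete free subgroup of `SL_2(k)` for every normed field with an element of
large norm.
-/

set_option linter.all false

open Matrix

namespace Vale.Agent.P092.H714

section pp

variable {α ι G : Type} [Group G]

/-- Ping-pong with a base point. -/
theorem pingpong (act : G → α → α) (hact : ∀ g h v, act (g * h) v = act g (act h v))
    (hone : ∀ v, act 1 v = v) (g : ι → G) (Z : Set α) (X : ι × Bool → Set α) (v : α) (hv : v ∈ Z)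
    (hvX : ∀ p, v ∉ X p) (hXZ : ∀ p, X p ⊆ Z) (hdis : ∀ p q, p ≠ q → Disjoint (X p) (X q))
    (hmap : ∀ i, ∀ y ∈ Z, (y ∉ X (i, false) → act (g i) y ∈ X (i, true)) ∧
      (y ∉ X (i, true) → act (g i)⁻¹ y ∈ X (i, false)))
    (x : FreeGroup ι) (hx : x ≠ 1) : ∃ p, act (FreeGroup.lift g x) v ∈ X p := by
  classical
  have hstep : ∀ (i : ι) (b : Bool) (y : α), y ∈ Z → y ∉ X (i, !b) →
      act (cond b (g i) (g i)⁻¹) y ∈ X (i, b) := by
    intro i b y hy hn
    cases b with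
    | true => exact (hmap i y hy).1 hn
    | false => exact (hmap i y hy).2 hn
  have key : ∀ (L : List (ι × Bool)) (p : ι × Bool), FreeGroup.IsReduced (p :: L) →
      act (FreeGroup.lift g (FreeGroup.mk (p :: L))) v ∈ X p := by
    intro L
    induction L with
    | nil =>
      intro p _
      have e : FreeGroup.lift g (FreeGroup.mk [p]) = cond p.2 (g p.1) (g p.1)⁻¹ := by
        rw [FreeGroup.lift_mk]
        simp
      rw [e]
      exact hstep p.1 p.2 v hv (hvX _)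
    | cons q L ih =>
      intro p hp
      rw [FreeGroup.isReduced_cons_cons] at hp
      have h1 := ih q hp.2
      have e : FreeGroup.lift g (FreeGroup.mk (p :: q :: L)) =
          cond p.2 (g p.1) (g p.1)⁻¹ * FreeGroup.lift g (FreeGroup.mk (q :: L)) := by
        rw [FreeGroup.lift_mk, FreeGroup.lift_mk, List.map_cons, List.prod_cons]
      rw [e, hact]
      refine hstep p.1 p.2 _ (hXZ _ h1) fun h2 => ?_
      refine Set.disjoint_left.mp (hdis q (p.1, !p.2) ?_) h1 h2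
      intro h3
      have h4 := hp.1 (by rw [h3])
      rw [h3] at h4
      simp at h4
  have hw : x.toWord ≠ [] := by
    intro h
    exact hx (FreeGroup.toWord_eq_nil_iff.mp h)
  obtain ⟨p, L, hL⟩ := List.exists_cons_of_ne_nil hw
  refine ⟨p, ?_⟩
  have h1 : FreeGroup.IsReduced (p :: L) := by rw [← hL]; exact FreeGroup.isReduced_toWord
  have h2 := key L p h1
  rw [← hL, FreeGroup.mk_toWord] at h2
  exact h2

end pp

section sch

variable {k : Type} [NormedField k]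

/-- The matrix `diag(u, u⁻¹)`. -/
def sA (u : k) (hu : u ≠ 0) : SpecialLinearGroup (Fin 2) k :=
  ⟨!![u, 0; 0, u⁻¹], by rw [det_fin_two_of]; field_simp; simp⟩

/-- The conjugate of `diag(u, u⁻¹)` by the matrix `!![1, w; 1, 1]`. -/
def sB (w u : k) (hw : 1 - w ≠ 0) (hu : u ≠ 0) : SpecialLinearGroup (Fin 2) k :=
  ⟨!![(u - w * u⁻¹) / (1 - w), (w * u⁻¹ - w * u) / (1 - w); (u - u⁻¹) / (1 - w),
    (u⁻¹ - w * u) / (1 - w)], by rw [det_fin_two_of]; field_simp; ring⟩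

theorem sA_act (u : k) (hu : u ≠ 0) (v : Fin 2 → k) :
    ((sA u hu).1 *ᵥ v) 0 = u * v 0 ∧ ((sA u hu).1 *ᵥ v) 1 = u⁻¹ * v 1 := by
  constructor <;> simp [sA, Matrix.mulVec, dotProduct, Fin.sum_univ_two]

theorem sB_act (w u : k) (hw : 1 - w ≠ 0) (hu : u ≠ 0) (v : Fin 2 → k) :
    ((sB w u hw hu).1 *ᵥ v) 0 - w * ((sB w u hw hu).1 *ᵥ v) 1 = u * (v 0 - w * v 1) ∧
      ((sB w u hw hu).1 *ᵥ v) 0 - ((sB w u hw hu).1 *ᵥ v) 1 = u⁻¹ * (v 0 - v 1) := by
  constructor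
  · simp [sB, Matrix.mulVec, dotProduct, Fin.sum_univ_two]
    field_simp
    ring
  · simp [sB, Matrix.mulVec, dotProduct, Fin.sum_univ_two]
    field_simp
    ring

theorem sA_inv (u : k) (hu : u ≠ 0) : (sA u hu)⁻¹ = sA u⁻¹ (inv_ne_zero hu) := by
  apply Subtype.ext
  change adjugate (sA u hu).1 = _
  rw [adjugate_fin_two]
  ext i j
  fin_cases i <;> fin_cases j <;> simp [sA]

theorem sB_inv (w u : k) (hw : 1 - w ≠ 0) (hu : u ≠ 0) :
    (sB w u hw hu)⁻¹ = sB w u⁻¹ hw (inv_ne_zero hu) := by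
  apply Subtype.ext
  change adjugate (sB w u hw hu).1 = _
  rw [adjugate_fin_two]
  ext i j
  fin_cases i <;> fin_cases j <;> simp [sB] <;> ring

/-- The ping-pong sets. -/
def sX (w : k) (C : ℝ) : Fin 2 × Bool → Set (Fin 2 → k)
  | (0, true) => {v | C * ‖v 1‖ < ‖v 0‖}
  | (0, false) => {v | C * ‖v 0‖ < ‖v 1‖}
  | (1, true) => {v | C * ‖v 0 - v 1‖ < ‖v 0 - w * v 1‖}
  | (1, false) => {v | C * ‖v 0 - w * v 1‖ < ‖v 0 - v 1‖}

/-- The open set which avoids the ping-pong sets. -/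
def sU (w : k) (C : ℝ) : Set (Fin 2 → k) :=
  {v | ‖v 0‖ < C * ‖v 1‖ ∧ ‖v 1‖ < C * ‖v 0‖ ∧ ‖v 0 - w * v 1‖ < C * ‖v 0 - v 1‖ ∧
    ‖v 0 - v 1‖ < C * ‖v 0 - w * v 1‖}

theorem sU_open (w : k) (C : ℝ) : IsOpen (sU w C) := by
  have c0 : Continuous fun v : Fin 2 → k => v 0 := continuous_apply 0
  have c1 : Continuous fun v : Fin 2 → k => v 1 := continuous_apply 1
  have d0 : Continuous fun v : Fin 2 → k => ‖v 0‖ := c0.norm
  have d1 : Continuous fun v : Fin 2 → k => ‖v 1‖ := c1.norm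
  have d2 : Continuous fun v : Fin 2 → k => ‖v 0 - v 1‖ := (c0.sub c1).norm
  have d3 : Continuous fun v : Fin 2 → k => ‖v 0 - w * v 1‖ :=
    (c0.sub (continuous_const.mul c1)).norm
  have o1 := isOpen_lt d0 (continuous_const.mul d1 : Continuous fun v => C * ‖v 1‖)
  have o2 := isOpen_lt d1 (continuous_const.mul d0 : Continuous fun v => C * ‖v 0‖)
  have o3 := isOpen_lt d3 (continuous_const.mul d2 : Continuous fun v => C * ‖v 0 - v 1‖)
  have o4 := isOpen_lt d2 (continuous_const.mul d3 : Continuous fun v => C * ‖v 0 - w * v 1‖)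
  exact o1.inter (o2.inter (o3.inter o4))

theorem sU_smul (w : k) (C : ℝ) (c : k) (v : Fin 2 → k) (h : c • v ∈ sU w C) : v ∈ sU w C := by
  obtain ⟨h1, h2, h3, h4⟩ := h
  have e1 : (c • v) 0 - w * (c • v) 1 = c * (v 0 - w * v 1) := by
    simp only [Pi.smul_apply, smul_eq_mul]; ring
  have e2 : (c • v) 0 - (c • v) 1 = c * (v 0 - v 1) := by
    simp only [Pi.smul_apply, smul_eq_mul]; ring
  rw [e1, e2, norm_mul, norm_mul] at h3 h4
  simp only [Pi.smul_apply, smul_eq_mul, norm_mul] at h1 h2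
  have hc : 0 < ‖c‖ := by
    rcases (norm_nonneg c).lt_or_eq with h | h
    · exact h
    · rw [← h] at h1
      simp at h1
  refine ⟨?_, ?_, ?_, ?_⟩ <;> · refine lt_of_mul_lt_mul_left ?_ hc.le; linarith

theorem sU_notMem {w : k} {C : ℝ} {v : Fin 2 → k} (h : v ∈ sU w C) (p : Fin 2 × Bool) :
    v ∉ sX w C p := by
  obtain ⟨h1, h2, h3, h4⟩ := h
  obtain ⟨i, b⟩ := p
  fin_cases i <;> cases b <;> simp only [sX] <;> intro h <;> simp at h <;> linarith

theorem sU_base {w : k} (hw : 2 ≤ ‖w‖) : (![w + 1, 1] : Fin 2 → k) ∈ sU w (4 * (‖w‖ + 1)) := by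
  have h1 : ‖w + 1‖ ≤ ‖w‖ + 1 := by
    have := norm_add_le w 1
    rwa [norm_one] at this
  have h2 : ‖w‖ - 1 ≤ ‖w + 1‖ := by
    have := norm_sub_norm_le w (-1)
    rwa [norm_neg, norm_one, sub_neg_eq_add] at this
  have e1 : (![w + 1, 1] : Fin 2 → k) 0 = w + 1 := rfl
  have e2 : (![w + 1, 1] : Fin 2 → k) 1 = 1 := rfl
  simp only [sU, Set.mem_setOf_eq, e1, e2]
  have e3 : w + 1 - w * 1 = 1 := by ring
  have e4 : w + 1 - 1 = w := by ring
  rw [e3, e4, norm_one]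
  refine ⟨by nlinarith, by nlinarith, by nlinarith, by nlinarith⟩

theorem sX_nz {w : k} {C : ℝ} (hC : 0 ≤ C) (p : Fin 2 × Bool) (v : Fin 2 → k)
    (hv : v ∈ sX w C p) : v ≠ 0 := by
  rintro rfl
  obtain ⟨i, b⟩ := p
  fin_cases i <;> cases b <;> simp [sX] at hv

theorem sX_disj {w : k} (hw : 2 ≤ ‖w‖) (p q : Fin 2 × Bool) (hpq : p ≠ q) :
    Disjoint (sX w (4 * (‖w‖ + 1)) p) (sX w (4 * (‖w‖ + 1)) q) := by
  rw [Set.disjoint_left]
  intro v h1 h2
  obtain ⟨x, hx⟩ : ∃ x, x = v 0 := ⟨_, rfl⟩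
  obtain ⟨y, hy⟩ : ∃ y, y = v 1 := ⟨_, rfl⟩
  have a1 : ‖x - y‖ ≤ ‖x‖ + ‖y‖ := norm_sub_le x y
  have a2 : ‖x‖ - ‖y‖ ≤ ‖x - y‖ := norm_sub_norm_le x y
  have a3 : ‖y‖ - ‖x‖ ≤ ‖x - y‖ := by rw [norm_sub_rev]; exact norm_sub_norm_le y x
  have a4 : ‖x - w * y‖ ≤ ‖x‖ + ‖w‖ * ‖y‖ := by rw [← norm_mul]; exact norm_sub_le _ _
  have a5 : ‖x‖ - ‖w‖ * ‖y‖ ≤ ‖x - w * y‖ := by rw [← norm_mul]; exact norm_sub_norm_le _ _
  have a6 : ‖w‖ * ‖y‖ - ‖x‖ ≤ ‖x - w * y‖ := by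
    rw [← norm_mul, norm_sub_rev]; exact norm_sub_norm_le _ _
  have n1 := norm_nonneg x
  have n2 := norm_nonneg y
  have n3 := norm_nonneg (x - y)
  have n4 := norm_nonneg (x - w * y)
  obtain ⟨i, b⟩ := p
  obtain ⟨j, c⟩ := q
  fin_cases i <;> fin_cases j <;> cases b <;> cases c <;> simp only [sX] at h1 h2 <;>
    first
    | exact hpq rfl
    | (simp only [Set.mem_setOf_eq, Fin.zero_eta, Fin.mk_one] at h1 h2
       try rw [← hx, ← hy] at h1 h2
       nlinarith [mul_nonneg (norm_nonneg w) n1, mul_nonneg (norm_nonneg w) n2,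
         mul_nonneg (norm_nonneg w) n3, mul_nonneg (norm_nonneg w) n4])

/-- The elementary contraction estimate. -/
theorem contract {C : ℝ} {a b a' b' U : ℝ} (hC : 0 < C) (hU : C < U) (ha : a' = U * a)
    (hb : U * b' = b) (h0 : 0 < a) (h : b ≤ C * a) (hb' : 0 ≤ b') : C * b' < a' := by
  have hU0 : 0 < U := hC.trans hU
  have h1 : U * (C * b') < U * a' := by
    calc U * (C * b') = C * b := by rw [← hb]; ring
      _ ≤ C * (C * a) := by gcongr
      _ < U * (U * a) := by nlinarith [mul_pos hC h0, mul_pos hU0 h0]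
      _ = U * a' := by rw [ha]
  exact lt_of_mul_lt_mul_left h1 hU0.le

theorem sB_inj {w : k} (hw : 1 - w ≠ 0) {v : Fin 2 → k} (h1 : v 0 - w * v 1 = 0)
    (h2 : v 0 - v 1 = 0) : v = 0 := by
  have h3 : (1 - w) * v 1 = 0 := by linear_combination h1 - h2
  have h4 : v 1 = 0 := (mul_eq_zero.mp h3).resolve_left hw
  have h5 : v 0 = 0 := by rw [h4] at h2; simpa using h2
  funext i
  fin_cases i
  · exact h5
  · exact h4

/-- The ping-pong maps. -/
theorem sch_map {w u : k} (hw : 2 ≤ ‖w‖) (hw1 : 1 - w ≠ 0) (hu : u ≠ 0)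
    (hU : 4 * (‖w‖ + 1) < ‖u‖) (i : Fin 2) (y : Fin 2 → k) (hy : y ≠ 0) :
    (y ∉ sX w (4 * (‖w‖ + 1)) (i, false) →
      ((![sA u hu, sB w u hw1 hu] i).1 *ᵥ y) ∈ sX w (4 * (‖w‖ + 1)) (i, true)) ∧
    (y ∉ sX w (4 * (‖w‖ + 1)) (i, true) →
      ((![sA u hu, sB w u hw1 hu] i)⁻¹.1 *ᵥ y) ∈ sX w (4 * (‖w‖ + 1)) (i, false)) := by
  obtain ⟨C, hC⟩ : ∃ C, C = 4 * (‖w‖ + 1) := ⟨_, rfl⟩
  rw [← hC] at hU ⊢
  have hC0 : 0 < C := by rw [hC]; positivity
  have hu1 : ‖u‖ * ‖u⁻¹‖ = 1 := by rw [← norm_mul, mul_inv_cancel₀ hu, norm_one]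
  fin_cases i
  · obtain ⟨a1, a2⟩ := sA_act u hu y
    obtain ⟨b1, b2⟩ := sA_act u⁻¹ (inv_ne_zero hu) y
    rw [inv_inv] at b2
    constructor
    · intro h
      simp only [sX, Fin.zero_eta, Set.mem_setOf_eq, not_lt] at h
      change C * ‖((sA u hu).1 *ᵥ y) 1‖ < ‖((sA u hu).1 *ᵥ y) 0‖
      rw [a1, a2, norm_mul, norm_mul]
      have h0 : 0 < ‖y 0‖ := by
        rw [norm_pos_iff]
        intro h1
        rw [h1, norm_zero, mul_zero] at h
        refine hy (funext fun i => ?_)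
        fin_cases i
        · exact h1
        · exact norm_le_zero_iff.mp h
      exact contract (a := ‖y 0‖) (b := ‖y 1‖) hC0 hU rfl
        (by rw [← mul_assoc, hu1, one_mul]) h0 h (by positivity)
    · intro h
      simp only [sX, Fin.zero_eta, Set.mem_setOf_eq, not_lt] at h
      change C * ‖((sA u hu)⁻¹.1 *ᵥ y) 0‖ < ‖((sA u hu)⁻¹.1 *ᵥ y) 1‖
      rw [sA_inv, b1, b2, norm_mul, norm_mul]
      have h0 : 0 < ‖y 1‖ := by
        rw [norm_pos_iff]
        intro h1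
        rw [h1, norm_zero, mul_zero] at h
        refine hy (funext fun i => ?_)
        fin_cases i
        · exact norm_le_zero_iff.mp h
        · exact h1
      exact contract (a := ‖y 1‖) (b := ‖y 0‖) hC0 hU rfl
        (by rw [← mul_assoc, hu1, one_mul]) h0 h (by positivity)
  · obtain ⟨a1, a2⟩ := sB_act w u hw1 hu y
    obtain ⟨b1, b2⟩ := sB_act w u⁻¹ hw1 (inv_ne_zero hu) y
    rw [inv_inv] at b2
    constructor
    · intro h
      simp only [sX, Fin.mk_one, Set.mem_setOf_eq, not_lt] at h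
      change C * ‖((sB w u hw1 hu).1 *ᵥ y) 0 - ((sB w u hw1 hu).1 *ᵥ y) 1‖ <
        ‖((sB w u hw1 hu).1 *ᵥ y) 0 - w * ((sB w u hw1 hu).1 *ᵥ y) 1‖
      rw [a1, a2, norm_mul, norm_mul]
      have h0 : 0 < ‖y 0 - w * y 1‖ := by
        rw [norm_pos_iff]
        intro h1
        rw [h1, norm_zero, mul_zero] at h
        exact hy (sB_inj hw1 h1 (norm_le_zero_iff.mp h))
      exact contract (a := ‖y 0 - w * y 1‖) (b := ‖y 0 - y 1‖) hC0 hU rfl
        (by rw [← mul_assoc, hu1, one_mul]) h0 h (by positivity)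
    · intro h
      simp only [sX, Fin.mk_one, Set.mem_setOf_eq, not_lt] at h
      change C * ‖((sB w u hw1 hu)⁻¹.1 *ᵥ y) 0 - w * ((sB w u hw1 hu)⁻¹.1 *ᵥ y) 1‖ <
        ‖((sB w u hw1 hu)⁻¹.1 *ᵥ y) 0 - ((sB w u hw1 hu)⁻¹.1 *ᵥ y) 1‖
      rw [sB_inv, b1, b2, norm_mul, norm_mul]
      have h0 : 0 < ‖y 0 - y 1‖ := by
        rw [norm_pos_iff]
        intro h1
        rw [h1, norm_zero, mul_zero] at h
        exact hy (sB_inj hw1 (norm_le_zero_iff.mp h) h1)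
      exact contract (a := ‖y 0 - y 1‖) (b := ‖y 0 - w * y 1‖) hC0 hU rfl
        (by rw [← mul_assoc, hu1, one_mul]) h0 h (by positivity)

/-- A discrete free subgroup of `SL_2(k)`. -/
theorem schottky (w : k) (hw : 2 ≤ ‖w‖) :
    ∃ (φ : FreeGroup (Fin 2) →* SpecialLinearGroup (Fin 2) k) (v : Fin 2 → k)
      (U : Set (Fin 2 → k)), IsOpen U ∧ v ∈ U ∧ (∀ (c : k) u, c • u ∈ U → u ∈ U) ∧
      (∀ x, x ≠ 1 → (φ x).1 *ᵥ v ∉ U) ∧
      ∀ σ : k →+* k, σ w = w → ∀ x, (φ x).1.map σ = (φ x).1 := by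
  have hw1 : 1 - w ≠ 0 := by
    intro h
    have h1 : w = 1 := (sub_eq_zero.mp h).symm
    rw [h1, norm_one] at hw
    norm_num at hw
  have hw0 : w ≠ 0 := by
    intro h
    rw [h, norm_zero] at hw
    norm_num at hw
  obtain ⟨N, hN⟩ := pow_unbounded_of_one_lt (4 * (‖w‖ + 1)) (show (1 : ℝ) < ‖w‖ by linarith)
  have hu : w ^ N ≠ 0 := pow_ne_zero _ hw0
  have hU : 4 * (‖w‖ + 1) < ‖w ^ N‖ := by rw [norm_pow]; exact hN
  refine ⟨FreeGroup.lift ![sA (w ^ N) hu, sB w (w ^ N) hw1 hu], ![w + 1, 1],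
    sU w (4 * (‖w‖ + 1)), sU_open _ _, sU_base hw, sU_smul _ _, fun x hx h => ?_,
    fun σ hσ x => ?_⟩
  · obtain ⟨p, hp⟩ := pingpong (fun (g : SpecialLinearGroup (Fin 2) k) v => g.1 *ᵥ v)
      (fun g h v => by
        change (g.1 * h.1) *ᵥ v = _
        rw [mulVec_mulVec])
      (fun v => by
        change (1 : Matrix (Fin 2) (Fin 2) k) *ᵥ v = v
        rw [one_mulVec])
      ![sA (w ^ N) hu, sB w (w ^ N) hw1 hu] {v | v ≠ 0} (sX w (4 * (‖w‖ + 1))) ![w + 1, 1]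
      (fun h => by
        have := congrFun h 1
        simp at this)
      (fun p => sU_notMem (sU_base hw) p) (fun p v hv => sX_nz (by positivity) p v hv)
      (fun p q hpq => sX_disj hw p q hpq) (fun i y hy => sch_map hw hw1 hu hU i y hy) x hx
    exact sU_notMem h p hp
  · have hmap : ∀ g : SpecialLinearGroup (Fin 2) k, g.1.map σ = (SpecialLinearGroup.map σ g).1 :=
      fun g => rfl
    obtain ⟨ψ, hψ⟩ : ∃ ψ : FreeGroup (Fin 2) →* SpecialLinearGroup (Fin 2) k,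
      ψ = FreeGroup.lift ![sA (w ^ N) hu, sB w (w ^ N) hw1 hu] := ⟨_, rfl⟩
    rw [hmap, ← hψ]
    have hA : SpecialLinearGroup.map σ (sA (w ^ N) hu) = sA (w ^ N) hu := by
      apply Subtype.ext
      change (sA (w ^ N) hu).1.map σ = (sA (w ^ N) hu).1
      ext i j
      fin_cases i <;> fin_cases j <;> simp [sA, hσ]
    have hB : SpecialLinearGroup.map σ (sB w (w ^ N) hw1 hu) = sB w (w ^ N) hw1 hu := by
      apply Subtype.ext
      change (sB w (w ^ N) hw1 hu).1.map σ = (sB w (w ^ N) hw1 hu).1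
      ext i j
      fin_cases i <;> fin_cases j <;> simp [sB, hσ]
    have e : (SpecialLinearGroup.map σ).comp ψ = ψ := by
      rw [hψ]
      refine FreeGroup.ext_hom _ _ fun i => ?_
      rw [MonoidHom.comp_apply, FreeGroup.lift_apply_of]
      fin_cases i
      · exact hA
      · exact hB
    exact congrArg Subtype.val (DFunLike.congr_fun e x)

end sch

end Vale.Agent.P092.H714
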