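import Vale.Agent.P092.PA.Defs
import Vale.Agent.P092.H839.Kap

/-!
P092 (helper714): the group facts used for one place are stable under finite products, so that a
place may be a product of several simple factors.
-/

set_option linter.all false

open MeasureTheory Filter Topology

namespace Vale.Agent.P092.H714.Semi

variable {Γ G G' : Type} [Group Γ] [Group G] [Group G'] [TopologicalSpace G] [TopologicalSpace G']

/-- (N1) there is no nontrivial compact normal subgroup. -/
def NoCpt (G : Type) [Group G] [TopologicalSpace G] : Prop :=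
  ∀ N : Subgroup G, N.Normal → IsCompact (N : Set G) → N = ⊥

/-- (N2) the closed normal subgroup generated by `κ u`, `u ≠ 1`, is everything. -/
def Gen (κ : Γ →* G) : Prop :=
  ∀ u : Γ, u ≠ 1 → ∀ N : Subgroup G, N.Normal → IsClosed (N : Set G) → κ u ∈ N → N = ⊤

/-- (N3) finite conjugation invariant measures are carried by the identity. -/
def ConjM (G : Type) [Group G] [TopologicalSpace G] : Prop :=
  ∀ ν : @Measure G (borel G), ν Set.univ < ⊤ →
    (∀ g : G, ∀ s : Set G, MeasurableSet[borel G] s → ν ((fun x => g * x * g⁻¹) ⁻¹' s) = ν s) →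
    ν {1}ᶜ = 0

theorem noCpt_of_simple [T2Space G]
    (h : ∀ N : Subgroup G, N.Normal → IsClosed (N : Set G) → N = ⊥ ∨ N = ⊤)
    (hn : ¬ CompactSpace G) : NoCpt G := by
  intro N hN hc
  rcases h N hN hc.isClosed with h1 | h1
  · exact h1
  · exfalso
    rw [h1] at hc
    exact hn ⟨by simpa using hc⟩

theorem NoCpt.prod (h : NoCpt G) (h' : NoCpt G') : NoCpt (G × G') := by
  intro N hN hc
  have h1 : N.map (MonoidHom.fst G G') = ⊥ := by
    refine h _ (hN.map _ fun x => ⟨(x, 1), rfl⟩) ?_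
    rw [Subgroup.coe_map]
    exact hc.image continuous_fst
  have h2 : N.map (MonoidHom.snd G G') = ⊥ := by
    refine h' _ (hN.map _ fun x => ⟨(1, x), rfl⟩) ?_
    rw [Subgroup.coe_map]
    exact hc.image continuous_snd
  rw [Subgroup.eq_bot_iff_forall]
  rintro ⟨x, y⟩ hx
  have hx1 : x ∈ N.map (MonoidHom.fst G G') := ⟨_, hx, rfl⟩
  have hx2 : y ∈ N.map (MonoidHom.snd G G') := ⟨_, hx, rfl⟩
  rw [h1, Subgroup.mem_bot] at hx1
  rw [h2, Subgroup.mem_bot] at hx2
  rw [hx1, hx2]
  rfl

theorem gen_of_simple (h : ∀ N : Subgroup G, N.Normal → IsClosed (N : Set G) → N = ⊥ ∨ N = ⊤)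
    {κ : Γ →* G} (hκ : Function.Injective κ) : Gen κ := by
  intro u hu N hN hc hm
  refine (h N hN hc).resolve_left fun h1 => hu ?_
  rw [h1, Subgroup.mem_bot] at hm
  exact (map_eq_one_iff κ hκ).mp hm

theorem Gen.prod [IsTopologicalGroup G] [IsTopologicalGroup G'] {κ : Γ →* G} {κ' : Γ →* G'}
    (h : Gen κ) (h' : Gen κ')
    (hc : ∀ u : Γ, u ≠ 1 → ∃ w, u * w * u⁻¹ * w⁻¹ ≠ 1) : Gen (κ.prod κ') := by
  intro u hu N hN hcl hm
  obtain ⟨w, hw⟩ := hc u hu
  have hn := hN.conj_mem
  -- the two slices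
  have h1 : N.comap (MonoidHom.inl G G') = ⊤ := by
    refine h _ hw _ (hN.comap _) ?_ ?_
    · exact hcl.preimage (by
        change Continuous fun x : G => (x, (1 : G'))
        fun_prop)
    · rw [Subgroup.mem_comap]
      have e : MonoidHom.inl G G' (κ (u * w * u⁻¹ * w⁻¹)) =
          (κ.prod κ' u) * ((κ w, 1) * (κ.prod κ' u)⁻¹ * (κ w, 1)⁻¹) := by
        ext
        · simp [mul_assoc]
        · simp
      rw [e]
      exact N.mul_mem hm (hn _ (N.inv_mem hm) _)
  have h2 : N.comap (MonoidHom.inr G G') = ⊤ := by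
    refine h' _ hw _ (hN.comap _) ?_ ?_
    · exact hcl.preimage (by
        change Continuous fun x : G' => ((1 : G), x)
        fun_prop)
    · rw [Subgroup.mem_comap]
      have e : MonoidHom.inr G G' (κ' (u * w * u⁻¹ * w⁻¹)) =
          (κ.prod κ' u) * ((1, κ' w) * (κ.prod κ' u)⁻¹ * (1, κ' w)⁻¹) := by
        ext
        · simp
        · simp [mul_assoc]
      rw [e]
      exact N.mul_mem hm (hn _ (N.inv_mem hm) _)
  rw [eq_top_iff]
  rintro ⟨x, y⟩ -
  have hx : x ∈ N.comap (MonoidHom.inl G G') := by rw [h1]; trivial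
  have hy : y ∈ N.comap (MonoidHom.inr G G') := by rw [h2]; trivial
  have e : (x, y) = (x, 1) * ((1, y) : G × G') := by simp
  rw [e]
  exact N.mul_mem hx hy

theorem ConjM.prod [IsTopologicalGroup G] [IsTopologicalGroup G'] [T2Space G] [T2Space G']
    (h : ConjM G) (h' : ConjM G') : ConjM (G × G') := by
  intro ν hν hi
  letI : MeasurableSpace G := borel G
  letI : MeasurableSpace G' := borel G'
  haveI : BorelSpace G := ⟨rfl⟩
  haveI : BorelSpace G' := ⟨rfl⟩
  letI mp : MeasurableSpace (G × G') := borel (G × G')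
  have hf : @Measurable _ _ mp _ (Prod.fst : G × G' → G) :=
    @Continuous.borel_measurable _ _ _ _ Prod.fst continuous_fst
  have hs : @Measurable _ _ mp _ (Prod.snd : G × G' → G') :=
    @Continuous.borel_measurable _ _ _ _ Prod.snd continuous_snd
  have h1 : (ν.map Prod.fst) {1}ᶜ = 0 := by
    refine h _ ?_ fun g s hs' => ?_
    · rw [Measure.map_apply hf MeasurableSet.univ]
      exact hν
    · have hc : Continuous fun x : G => g * x * g⁻¹ := by fun_prop
      rw [Measure.map_apply hf (hc.measurable hs'), Measure.map_apply hf hs']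
      have := hi (g, 1) (Prod.fst ⁻¹' s) (hf hs')
      rw [← this]
      rfl
  have h2 : (ν.map Prod.snd) {1}ᶜ = 0 := by
    refine h' _ ?_ fun g s hs' => ?_
    · rw [Measure.map_apply hs MeasurableSet.univ]
      exact hν
    · have hc : Continuous fun x : G' => g * x * g⁻¹ := by fun_prop
      rw [Measure.map_apply hs (hc.measurable hs'), Measure.map_apply hs hs']
      have := hi (1, g) (Prod.snd ⁻¹' s) (hs hs')
      rw [← this]
      rfl
  rw [Measure.map_apply hf (measurableSet_singleton _).compl] at h1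
  rw [Measure.map_apply hs (measurableSet_singleton _).compl] at h2
  refine measure_mono_null (t := Prod.fst ⁻¹' {1}ᶜ ∪ Prod.snd ⁻¹' {1}ᶜ) ?_
    (measure_union_null h1 h2)
  rintro ⟨x, y⟩ hxy
  by_contra hcon
  simp only [Set.mem_union, Set.mem_preimage, Set.mem_compl_iff, Set.mem_singleton_iff, not_or,
    not_not] at hcon
  exact hxy (by rw [hcon.1, hcon.2]; rfl)

/-- The recurrence property of a product. -/
theorem rec_prod (h : H839.Rec G) (h' : H839.Rec G') : H839.Rec (G × G') := by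
  rintro ⟨z, z'⟩ hz
  by_cases h1 : z = 1
  · have h2 : z' ≠ 1 := by
      rintro rfl
      exact hz (by rw [h1]; rfl)
    obtain ⟨E, hE, a, ha⟩ := h' z' h2
    refine ⟨Prod.snd ⁻¹' E, continuous_snd.continuousAt.preimage_mem_nhds hE,
      fun i => (1, a i), fun i j hij => ?_⟩
    refine Set.disjoint_left.mpr ?_
    rintro _ ⟨x, hx, rfl⟩ ⟨y, hy, hxy⟩
    refine Set.disjoint_left.mp (ha hij) ⟨x.2, hx, rfl⟩ ⟨y.2, hy, ?_⟩
    exact congrArg Prod.snd hxy
  · obtain ⟨E, hE, a, ha⟩ := h z h1
    refine ⟨Prod.fst ⁻¹' E, continuous_fst.continuousAt.preimage_mem_nhds hE,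
      fun i => (a i, 1), fun i j hij => ?_⟩
    refine Set.disjoint_left.mpr ?_
    rintro _ ⟨x, hx, rfl⟩ ⟨y, hy, hxy⟩
    refine Set.disjoint_left.mp (ha hij) ⟨x.1, hx, rfl⟩ ⟨y.1, hy, ?_⟩
    exact congrArg Prod.fst hxy

theorem noc_prod {p : Γ →* G} (p' : Γ →* G') (h : PA.Noc p) : PA.Noc (p.prod p') := by
  intro g hg U hU
  have h1 : Tendsto (fun x : G => (x, (1 : G'))) (𝓝 1) (𝓝 1) := by
    have : Continuous fun x : G => (x, (1 : G')) := by fun_prop
    exact this.tendsto 1
  obtain ⟨u, hu, hne⟩ := h g hg _ (h1 hU)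
  exact ⟨(u, 1), hu, fun h2 => hne (congrArg Prod.fst h2)⟩

theorem inj_prod {p : Γ →* G} (p' : Γ →* G') (h : Function.Injective p) :
    Function.Injective (p.prod p') := fun x y hxy => h (congrArg Prod.fst hxy)

end Vale.Agent.P092.H714.Semi
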