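import Mathlib

/-!
P092, Team P (helper714): two stabilisers generate the group, from a connected graph with triangles on
which the group acts transitively on edges.
-/

set_option linter.all false

namespace Vale.Agent.P092.H714.SgG

variable {G Z : Type*} [Group G] [MulAction G Z]

/-- A subgroup which contains a point stabiliser and is transitive is everything. -/
theorem top_of_trans {H : Subgroup G} {x : Z} (hx : ∀ g : G, g • x = x → g ∈ H)
    (ht : ∀ y : Z, ∃ h ∈ H, h • x = y) : H = ⊤ := by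
  rw [eq_top_iff]
  intro g _
  obtain ⟨h, hh, e⟩ := ht (g • x)
  have h1 : h⁻¹ * g ∈ H := hx _ (by rw [mul_smul, ← e, inv_smul_smul])
  have := H.mul_mem hh h1
  rwa [mul_inv_cancel_left] at this

/-- **Two stabilisers generate**: `R` is a symmetric invariant relation, the group is transitive on the
ordered pairs in relation `R`, the graph is connected and contains a triangle. -/
theorem gen_graph {R : Z → Z → Prop} (hs : ∀ x y, R x y → R y x)
    (hi : ∀ (g : G) x y, R x y → R (g • x) (g • y))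
    (htr : ∀ x y x' y', R x y → R x' y' → ∃ g : G, g • x = x' ∧ g • y = y')
    (hconn : ∀ x y, Relation.ReflTransGen R x y) {a b c : Z} (hab : R a b) (hbc : R b c)
    (hac : R a c) {x y : Z} (hxy : R x y) {H : Subgroup G} (hx : ∀ g : G, g • x = x → g ∈ H)
    (hy : ∀ g : G, g • y = y → g ∈ H) : H = ⊤ := by
  -- a triangle on `x`, `y`
  obtain ⟨z, hxz, hyz⟩ : ∃ z, R x z ∧ R y z := by
    obtain ⟨g, rfl, rfl⟩ := htr a b x y hab hxy
    exact ⟨g • c, hi g _ _ hac, hi g _ _ hbc⟩
  have c1 : ∀ w, R x w → ∃ h ∈ H, h • y = w := fun w hw => by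
    obtain ⟨g, h1, h2⟩ := htr x y x w hxy hw
    exact ⟨g, hx g h1, h2⟩
  have c2 : ∀ w, R y w → ∃ h ∈ H, h • x = w := fun w hw => by
    obtain ⟨g, h1, h2⟩ := htr y x y w (hs _ _ hxy) hw
    exact ⟨g, hy g h1, h2⟩
  obtain ⟨h1, hh1, e1⟩ := c1 z hxz
  obtain ⟨h2, hh2, e2⟩ := c2 z hyz
  have c3 : ∀ w, R x w → ∃ h ∈ H, h • x = w := fun w hw => by
    obtain ⟨h, hh, e⟩ := c1 w hw
    refine ⟨h * (h1⁻¹ * h2), H.mul_mem hh (H.mul_mem (H.inv_mem hh1) hh2), ?_⟩
    rw [mul_smul, mul_smul, e2, ← e1, inv_smul_smul, e]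
  refine top_of_trans hx fun w => ?_
  induction hconn x w with
  | refl => exact ⟨1, H.one_mem, one_smul G x⟩
  | tail _ hw ih =>
    rename_i p q _
    obtain ⟨h, hh, rfl⟩ := ih
    obtain ⟨h', hh', e⟩ := c3 (h⁻¹ • q) (by
      have := hi h⁻¹ _ _ hw
      rwa [inv_smul_smul] at this)
    exact ⟨h * h', H.mul_mem hh hh', by rw [mul_smul, e, smul_inv_smul]⟩

/-- The form with two orbits: a bipartite graph (points and lines), connected; the group is transitive
on the incident pairs. The stabilisers of an incident pair generate. -/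
theorem gen_bip {Z' : Type*} [MulAction G Z'] {I : Z → Z' → Prop}
    (hi : ∀ (g : G) x l, I x l → I (g • x) (g • l))
    (htr : ∀ x l x' l', I x l → I x' l' → ∃ g : G, g • x = x' ∧ g • l = l')
    (hconn : ∀ x y : Z, Relation.ReflTransGen (fun x y => ∃ l, I x l ∧ I y l) x y) {x : Z} {l : Z'}
    (hxl : I x l) {H : Subgroup G} (hx : ∀ g : G, g • x = x → g ∈ H)
    (hl : ∀ g : G, g • l = l → g ∈ H) : H = ⊤ := by
  refine top_of_trans hx fun w => ?_
  induction hconn x w with
  | refl => exact ⟨1, H.one_mem, one_smul G x⟩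
  | tail _ hw ih =>
    rename_i p q _
    obtain ⟨h, hh, rfl⟩ := ih
    obtain ⟨m, hm1, hm2⟩ := hw
    -- the line `m` through `h x` is `h g l`, `g` in the stabiliser of `x`
    obtain ⟨g, hg1, hg2⟩ := htr x l x (h⁻¹ • m) hxl (by
      have := hi h⁻¹ _ _ hm1
      rwa [inv_smul_smul] at this)
    have hg := hx g hg1
    have hq : I ((h * g)⁻¹ • q) l := by
      have := hi (h * g)⁻¹ _ _ hm2
      have e : (h * g)⁻¹ • m = l := by
        rw [inv_smul_eq_iff, mul_smul, hg2, smul_inv_smul]
      rwa [e] at this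
    obtain ⟨g', hg1', hg2'⟩ := htr x l _ l hxl hq
    exact ⟨h * g * g', H.mul_mem (H.mul_mem hh hg) (hl g' hg2'), by
      rw [mul_smul, hg1', smul_inv_smul]⟩

end Vale.Agent.P092.H714.SgG
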