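import Vale.Agent.P092.H714.SpM

/-!
P092, Team P, block P-HM (helper714): stabilisers in the symplectic groups are Moore sets.
-/

set_option linter.all false

open Matrix Filter Topology

namespace Vale.Agent.P092.H714.Sp

open Vale.Agent.P092.RC (Moore)
open Vale.Agent.P092.H15 (HMG Alt)

section alg

variable {n : Type} [Fintype n] [DecidableEq n] {k : Type} [Field k] {K : Matrix n n k}

theorem om_add_left (x y z : n → k) : om K (x + y) z = om K x z + om K y z := by
  unfold om; rw [add_dotProduct]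

theorem om_add_right (x y z : n → k) : om K x (y + z) = om K x y + om K x z := by
  unfold om; rw [mulVec_add, dotProduct_add]

theorem om_smul_left (a : k) (x y : n → k) : om K (a • x) y = a * om K x y := by
  unfold om; rw [smul_dotProduct, smul_eq_mul]

theorem om_smul_right (a : k) (x y : n → k) : om K x (a • y) = a * om K x y := by
  unfold om; rw [mulVec_smul, dotProduct_smul, smul_eq_mul]

theorem om_zero_left (x : n → k) : om K 0 x = 0 := by unfold om; rw [zero_dotProduct]

theorem om_zero_right (x : n → k) : om K x 0 = 0 := by unfold om; rw [mulVec_zero, dotProduct_zero]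

/-- Isotropic subspaces. -/
def Iso (K : Matrix n n k) (X : Submodule k (n → k)) : Prop := ∀ x ∈ X, ∀ y ∈ X, om K x y = 0

/-- The orthogonal subspace. -/
def perp (K : Matrix n n k) (X : Submodule k (n → k)) : Submodule k (n → k) where
  carrier := {y | ∀ x ∈ X, om K x y = 0}
  add_mem' := by
    intro a b ha hb x hx
    rw [om_add_right, ha x hx, hb x hx, add_zero]
  zero_mem' := fun x _ => om_zero_right x
  smul_mem' := by
    intro c a ha x hx
    rw [om_smul_right, ha x hx, mul_zero]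

theorem mem_perp {X : Submodule k (n → k)} {y : n → k} : y ∈ perp K X ↔ ∀ x ∈ X, om K x y = 0 :=
  Iff.rfl

/-- The element `g` preserves the subspace `X`. -/
def Prs (X : Submodule k (n → k)) (g : SpG K) : Prop := ∀ x, x ∈ X ↔ g.1.1 *ᵥ x ∈ X

theorem mul_mulVec (g h : SpG K) (x : n → k) : (g * h).1.1 *ᵥ x = g.1.1 *ᵥ (h.1.1 *ᵥ x) := by
  rw [mulVec_mulVec]; rfl

theorem one_mulVec' (x : n → k) : (1 : SpG K).1.1 *ᵥ x = x := one_mulVec x

theorem prs_of {X : Submodule k (n → k)} {g : SpG K} (h : ∀ x ∈ X, g.1.1 *ᵥ x ∈ X)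
    (h' : ∀ x ∈ X, (g⁻¹).1.1 *ᵥ x ∈ X) : Prs X g := by
  intro x
  refine ⟨h x, fun hx => ?_⟩
  have := h' _ hx
  rwa [← mul_mulVec, inv_mul_cancel, one_mulVec'] at this

theorem tr_add (hK : Alt K) (u : n → k) (s t : k) : tr hK u (s + t) = tr hK u s * tr hK u t := by
  refine Subtype.ext (Subtype.ext ?_)
  refine Matrix.ext_of_mulVec_single fun j => ?_
  show (tr hK u (s + t)).1.1 *ᵥ _ = (tr hK u s * tr hK u t).1.1 *ᵥ _
  rw [mul_mulVec, tr_mulVec, tr_mulVec, tr_mulVec, om_add_right, om_smul_right, om_self hK,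
    mul_zero, add_zero, add_assoc, ← add_smul]
  congr 2
  ring

theorem tr_zero (hK : Alt K) (u : n → k) : tr hK u 0 = 1 :=
  Subtype.ext (Subtype.ext (trM_zero u))

theorem tr_neg (hK : Alt K) (u : n → k) (s : k) : (tr hK u s)⁻¹ = tr hK u (-s) := by
  rw [inv_eq_iff_mul_eq_one, ← tr_add, add_neg_cancel, tr_zero]

theorem prs_tr_mem (hK : Alt K) {X : Submodule k (n → k)} {u : n → k} (hu : u ∈ X) (s : k) :
    Prs X (tr hK u s) := by
  refine prs_of (fun x hx => ?_) fun x hx => ?_
  · rw [tr_mulVec]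
    exact X.add_mem hx (X.smul_mem _ hu)
  · rw [tr_neg, tr_mulVec]
    exact X.add_mem hx (X.smul_mem _ hu)

theorem tr_fix (hK : Alt K) {u x : n → k} (h : om K u x = 0) (s : k) :
    (tr hK u s).1.1 *ᵥ x = x := by
  rw [tr_mulVec, h, mul_zero, zero_smul, add_zero]

theorem prs_tr_perp (hK : Alt K) {X : Submodule k (n → k)} {u : n → k} (hu : u ∈ perp K X) (s : k) :
    Prs X (tr hK u s) := by
  have h0 : ∀ x ∈ X, om K u x = 0 := fun x hx => by
    rw [om_skew hK x u, hu x hx, neg_zero]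
  refine prs_of (fun x hx => ?_) fun x hx => ?_
  · rwa [tr_fix hK (h0 x hx)]
  · rwa [tr_neg, tr_fix hK (h0 x hx)]

/-- Isometries have determinant `± 1`. -/
theorem det_sq (hK : Alt K) {M : Matrix n n k} (h : Mᵀ * K * M = K) : M.det * M.det = 1 := by
  have h1 := congrArg Matrix.det h
  rw [det_mul, det_mul, det_transpose] at h1
  have h2 : K.det * (M.det * M.det) = K.det * 1 := by rw [mul_one]; linear_combination h1
  exact mul_left_cancel₀ hK.det h2

/-- The square of an isometry. -/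
def sqr (hK : Alt K) (M : Matrix n n k) (h : Mᵀ * K * M = K) : SpG K :=
  ⟨⟨M * M, by rw [det_mul, det_sq hK h]⟩, by
    show (M * M)ᵀ * K * (M * M) = K
    rw [transpose_mul]
    calc Mᵀ * Mᵀ * K * (M * M) = Mᵀ * (Mᵀ * K * M) * M := by simp only [Matrix.mul_assoc]
      _ = K := by rw [h, h]⟩

theorem sqr_mulVec (hK : Alt K) {M : Matrix n n k} (h : Mᵀ * K * M = K) (x : n → k) :
    (sqr hK M h).1.1 *ᵥ x = M *ᵥ (M *ᵥ x) := by
  rw [mulVec_mulVec]; rfl

theorem iso_of_om {M : Matrix n n k} (h : ∀ x y, om K (M *ᵥ x) (M *ᵥ y) = om K x y) :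
    Mᵀ * K * M = K := by
  refine Matrix.ext_of_mulVec_single fun j => funext fun i => ?_
  have h1 : ∀ x y : n → k, x ⬝ᵥ ((Mᵀ * K * M) *ᵥ y) = om K (M *ᵥ x) (M *ᵥ y) := fun x y => by
    unfold om
    rw [← mulVec_mulVec, ← mulVec_mulVec, dotProduct_mulVec x, vecMul_transpose]
  have h2 := h1 (Pi.single i 1) (Pi.single j 1)
  rw [h] at h2
  unfold om at h2
  rwa [single_one_dotProduct, single_one_dotProduct] at h2

/-- The dilation of a hyperbolic pair. -/
def dilM (K : Matrix n n k) (e f : n → k) (w : k) : Matrix n n k :=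
  1 + vecMulVec e (-(w - 1) • (f ᵥ* K)) + vecMulVec f ((w⁻¹ - 1) • (e ᵥ* K))

theorem dilM_mulVec (hK : Alt K) (e f x : n → k) (w : k) :
    dilM K e f w *ᵥ x = x + ((w - 1) * om K x f) • e + ((w⁻¹ - 1) * om K e x) • f := by
  rw [dilM, add_mulVec, add_mulVec, one_mulVec, vecMulVec_mulVec, vecMulVec_mulVec,
    op_smul_eq_smul, op_smul_eq_smul, smul_dotProduct, smul_dotProduct, ← om_eq, ← om_eq,
    om_skew hK x f, smul_eq_mul, smul_eq_mul, neg_mul_neg]

theorem dilM_iso (hK : Alt K) {e f : n → k} (hef : om K e f = 1) {w : k} (hw : w ≠ 0) :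
    (dilM K e f w)ᵀ * K * dilM K e f w = K := by
  refine iso_of_om fun x y => ?_
  rw [dilM_mulVec hK, dilM_mulVec hK]
  simp only [om_add_left, om_add_right, om_smul_left, om_smul_right, om_self hK, hef,
    om_skew hK e f, om_skew hK e x, om_skew hK y f, om_skew hK x f]
  field_simp
  ring

end alg

section top

variable {n : Type} [Fintype n] [DecidableEq n] {k : Type} [NontriviallyNormedField k]
  {K : Matrix n n k}

/-- Elements with an eigenvalue of norm larger than one have unbounded powers. -/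
theorem tendsto_pow (hK : Alt K) {g : SpG K} {x : n → k} (hx : x ≠ 0) {c : k}
    (hg : g.1.1 *ᵥ x = c • x) (hc : 1 < ‖c‖) : Tendsto (fun N : ℕ => g ^ N) atTop
      (cocompact (SpG K)) := by
  obtain ⟨i, hi⟩ := Function.ne_iff.1 hx
  have h1 : ∀ N : ℕ, (g ^ N).1.1 *ᵥ x = c ^ N • x := by
    intro N
    induction N with
    | zero => rw [pow_zero, pow_zero, one_smul]; exact one_mulVec x
    | succ N ih => rw [pow_succ', mul_mulVec, ih, mulVec_smul, hg, smul_smul, pow_succ]
  refine tendsto_of_entry x i ?_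
  have h2 : ∀ N : ℕ, ‖((g ^ N).1.1 *ᵥ x) i‖ = ‖c‖ ^ N * ‖x i‖ := fun N => by
    rw [h1, Pi.smul_apply, smul_eq_mul, norm_mul, norm_pow]
  simp only [h2]
  exact (tendsto_pow_atTop_atTop_of_one_lt hc).atTop_mul_const (norm_pos_iff.2 hi)

variable [ProperSpace k]

/-- **The powers of an element with an eigenvalue of norm larger than one are a Moore set.** -/
theorem moore_pow [Nonempty n] (hK : Alt K) {g : SpG K} {x : n → k} (hx : x ≠ 0) {c : k}
    (hg : g.1.1 *ᵥ x = c • x) (hc : 1 < ‖c‖) {S : Set (SpG K)} (hS : ∀ N : ℕ, g ^ N ∈ S) :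
    Moore S :=
  moore_of_tendsto (hmg hK) (tendsto_pow hK hx hg hc) (Eventually.of_forall hS)

/-- **The pointwise stabiliser of a proper subspace is a Moore set.** -/
theorem moore_fix [Nonempty n] (hK : Alt K) {L : Submodule k (n → k)} {u : n → k} (hu0 : u ≠ 0)
    (hu : u ∈ perp K L) : Moore {g : SpG K | ∀ x ∈ L, g.1.1 *ᵥ x = x} :=
  moore_of_root hK hu0 fun s x hx => tr_fix hK (by rw [om_skew hK x u, hu x hx, neg_zero]) s

end top

end Vale.Agent.P092.H714.Sp
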