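import Vale.Agent.P092.SR.St

/-!
P092, block A-CLASS (helper714): the class of classical groups in the statement of
`ClassicalLattices`.  Only definitions.
-/

open Vale.Agent.P092.H515.St Vale.Agent.P092.SR.St

namespace Vale.Agent.P092.PC.St

/-- The class of topological groups which contains, for every local field `k`, the groups `SL_n(k)`,
`n ≥ 2`, the special unitary groups `SU(J)` and the symplectic groups `Sp_{2q}(k)`, `q ≥ 2`: here
`J = form q ε J₀` is the sum of `q ≥ 2` hyperbolic planes and an anisotropic `(ε, σ)`-hermitian form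
`J₀`, where `σ` is an involution of `k` and either `σ ≠ id`, or `ε = -1` and `J₀` is empty. -/
inductive Cls : (G : Type) → [Group G] → [TopologicalSpace G] → Prop
  | sl (k : Type) [NontriviallyNormedField k] [ProperSpace k] (hk : LocK k) (n : ℕ) (hn : 2 ≤ n) :
      Cls (Matrix.SpecialLinearGroup (Fin n) k)
  | isom (k : Type) [NontriviallyNormedField k] [ProperSpace k] (hk : LocK k)
      (σ : k →+* k) (hσ : ∀ x, σ (σ x) = x) (hn : ∀ x, ‖σ x‖ = ‖x‖)
      (ε : k) (hε : ε * ε = 1) (hσε : σ ε = ε)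
      (ι : Type) [Fintype ι] [DecidableEq ι] (J₀ : Matrix ι ι k)
      (hH : ∀ i j, J₀ j i = ε * σ (J₀ i j))
      (hJ : ∀ v : ι → k, v ≠ 0 → v ⬝ᵥ (J₀.mulVec fun l => σ (v l)) ≠ 0)
      (hu : (∃ c, σ c ≠ c) ∨ ε = -1 ∧ IsEmpty ι)
      (q : ℕ) (hq : 2 ≤ q)
      (G : Subgroup (Matrix.SpecialLinearGroup ((Fin q ⊕ Fin q) ⊕ ι) k))
      (hG : ∀ g, g ∈ G ↔ g.1 * form q ε J₀ * (g.1.map σ).transpose = form q ε J₀) :
      Cls G

/-- `Γ` is an ICC irreducible lattice in a product of two groups of the class. -/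
def ClsLattice (Γ : Type) [Group Γ] : Prop :=
  ICC Γ ∧ ∃ (G H : Type) (_ : Group G) (_ : TopologicalSpace G) (_ : Group H)
    (_ : TopologicalSpace H) (i : Γ →* G × H), Cls G ∧ Cls H ∧ IrrLattice i

end Vale.Agent.P092.PC.St
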