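import Vale.Agent.P092.H714.TTot

/-!
P092 (helper714): Theorem N for induced representations: multiplicativity and balance in the
abstract row model, `Π_{z'}(H) Π_z(f) = Π_z(f H)`.
-/

set_option linter.all false

open scoped InnerProductSpace
open Filter Topology ContinuousLinearMap

namespace Vale.Agent.P092.H714

open Vale.Agent.P092.H160 Vale.Agent.P092.H553 Vale.Agent.P092.H132

section

variable {Γ ι 𝓗 D : Type} [Group Γ] [Group D] [Fintype ι] [NormedAddCommGroup 𝓗]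
  [InnerProductSpace ℂ 𝓗] [CompleteSpace 𝓗]

/-- The two-sided limit `F ↦ lim_k R(z_k)* q F R(z_k) + R(z_k⁻¹)* q F R(z_k⁻¹)`. -/
noncomputable def Pi2T (B : Base Γ ι 𝓗) (U : Ultrafilter ℕ) (R : D → (𝓗 →L[ℂ] 𝓗))
    (z : ℕ → D) (q F : Γ → ℝ) : 𝓗 →L[ℂ] 𝓗 :=
  B.PiA U R z (fun _ g => q g * F g) + B.PiA U R (fun k => (z k)⁻¹) (fun _ g => q g * F g)

/-- The mass of `R_w` on the set `P`. -/
noncomputable def massT (B : Base Γ ι 𝓗) (R : D → (𝓗 →L[ℂ] 𝓗)) (P : Γ → Prop) (w : D) : ℝ :=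
  Real.sqrt (massX B R w (ind P))

/-- The hypotheses for far pairs. -/
def FarT (B : Base Γ ι 𝓗) (U : Ultrafilter ℕ) (R : D → (𝓗 →L[ℂ] 𝓗)) (z z' : ℕ → D)
    (q H : Γ → ℝ) (a b : 𝓗) : Prop :=
  ∀ δ : ℝ, 0 < δ → ∀ ε : ℝ, 0 < ε → ∃ (E P : Γ → Prop) (T : Finset Γ),
    (∀ᶠ k in U, ∀ w, (w = z k ∨ w = (z k)⁻¹) →
      ‖B.mp (fun g => q g * ind (fun g => ¬ E g) g) (R w a)‖ ≤ ε) ∧
    (∀ᶠ k in U, ∀ w, (w = z' k ∨ w = (z' k)⁻¹) →
      ‖B.mp (fun g => q g * ind (fun g => ¬ E g) g) (R w b)‖ ≤ ε) ∧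
    (∀ k h, E k → E h → δ ≤ |H k - H h| → P (k⁻¹ * h)) ∧
    (∀ k₁ h₁ k₂ h₂, E k₁ → E h₁ → E k₂ → E h₂ → δ ≤ |H k₁ - H h₁| → δ ≤ |H k₂ - H h₂| →
      k₁⁻¹ * h₁ = k₂⁻¹ * h₂ → k₂ * k₁⁻¹ ∈ T) ∧
    (∀ k l w v, (w = z k ∨ w = (z k)⁻¹) → (v = z' l ∨ v = (z' l)⁻¹) →
      Real.sqrt T.card * massT B R P (v * w⁻¹) ≤ ε)

variable {B : Base Γ ι 𝓗} {t : ℝ} {R : D → (𝓗 →L[ℂ] 𝓗)} {Bd : Set 𝓗}

theorem far_estimateT (hR : TRep B t R) (hS : SepT B R Bd) {q H : Γ → ℝ}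
    (hq : ∀ g, 0 ≤ q g ∧ q g ≤ 1) {E P : Γ → Prop} {T : Finset Γ} {δ ε : ℝ}
    (η ζ : 𝓗) (hη : η ∈ Bd) (hζ : ζ ∈ Bd) (u : D)
    (hE1 : ‖B.mp (fun g => q g * ind (fun g => ¬ E g) g) η‖ ≤ ε)
    (hE2 : ‖B.mp (fun g => q g * ind (fun g => ¬ E g) g) ζ‖ ≤ ε)
    (hP : ∀ k h, E k → E h → δ ≤ |H k - H h| → P (k⁻¹ * h))
    (hT : ∀ k₁ h₁ k₂ h₂, E k₁ → E h₁ → E k₂ → E h₂ → δ ≤ |H k₁ - H h₁| → δ ≤ |H k₂ - H h₂| →
      k₁⁻¹ * h₁ = k₂⁻¹ * h₂ → k₂ * k₁⁻¹ ∈ T)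
    (hu : Real.sqrt T.card * massT B R P u ≤ ε)
    (F G : Γ → ℝ) (hF : ∀ g, |F g| ≤ 1) (hG : ∀ g, |G g| ≤ 1)
    (hFG : ∀ x y, F x ≠ 0 → G y ≠ 0 → δ ≤ |H x - H y|) :
    ‖⟪B.mp (fun x => q x * G x) ζ, R u (B.mp (fun x => q x * F x) η)⟫_ℂ‖ ≤ 3 * ε := by
  have hq' : ∀ g, |q g| ≤ 1 := fun g => by rw [abs_of_nonneg (hq g).1]; exact (hq g).2
  have hm : ∀ {a b : ℝ}, |a| ≤ 1 → |b| ≤ 1 → |a * b| ≤ 1 := fun {a b} ha hb => mul_abs_le ha hb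
  have hsplit : ∀ (F : Γ → ℝ), (∀ g, |F g| ≤ 1) → ∀ ξ : 𝓗,
      B.mp (fun x => q x * F x) ξ = B.mp (fun x => q x * F x * ind E x) ξ +
        B.mp (fun x => q x * F x * ind (fun g => ¬ E g) x) ξ := by
    intro F hF ξ
    rw [← B.mp_add_apply (fun g => hm (hm (hq' g) (hF g)) (abs_ind_le _ _))
      (fun g => hm (hm (hq' g) (hF g)) (abs_ind_le _ _))]
    congr 2
    funext g
    by_cases h : E g
    · rw [ind_pos h, ind_neg (P := fun g => ¬ E g) (fun h1 => h1 h)]; ring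
    · rw [ind_neg h, ind_pos (P := fun g => ¬ E g) h]; ring
  have hcompl : ∀ (F : Γ → ℝ), (∀ g, |F g| ≤ 1) → ∀ ξ : 𝓗,
      ‖B.mp (fun x => q x * F x * ind (fun g => ¬ E g) x) ξ‖ ≤
        ‖B.mp (fun g => q g * ind (fun g => ¬ E g) g) ξ‖ := by
    intro F hF ξ
    have hb1 : ∀ x : Γ, |q x * F x * ind (fun g => ¬ E g) x| ≤ 1 := fun x =>
      hm (hm (hq' x) (hF x)) (abs_ind_le _ _)
    have hb2 : ∀ x : Γ, |q x * ind (fun g => ¬ E g) x| ≤ 1 := fun x =>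
      hm (hq' x) (abs_ind_le _ _)
    refine mpT_mono hb1 hb2 (fun x => ?_) ξ
    have e1 : q x * F x * ind (fun g => ¬ E g) x =
        F x * (q x * ind (fun g => ¬ E g) x) := by ring
    rw [e1, abs_mul (F x)]
    exact mul_le_of_le_one_left (abs_nonneg _) (hF x)
  have hmain : ∀ (F : Γ → ℝ), (∀ g, |F g| ≤ 1) → ∀ ξ : 𝓗, ‖ξ‖ ≤ 1 →
      ‖B.mp F ξ‖ ≤ 1 := fun F hF ξ hξ => (B.norm_mp_le hF ξ).trans (by rw [one_mul]; exact hξ)
  obtain ⟨X, hX⟩ : ∃ X, X = B.mp (fun x => q x * F x * ind E x) η := ⟨_, rfl⟩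
  obtain ⟨Xc, hXc⟩ : ∃ X, X = B.mp (fun x => q x * F x * ind (fun g => ¬ E g) x) η := ⟨_, rfl⟩
  obtain ⟨Y, hY⟩ : ∃ X, X = B.mp (fun x => q x * G x * ind E x) ζ := ⟨_, rfl⟩
  obtain ⟨Yc, hYc⟩ : ∃ X, X = B.mp (fun x => q x * G x * ind (fun g => ¬ E g) x) ζ := ⟨_, rfl⟩
  have hη1 := hS.norm η hη
  have hζ1 := hS.norm ζ hζ
  have hX1 : ‖X‖ ≤ 1 := by
    rw [hX]; exact hmain _ (fun g => hm (hm (hq' g) (hF g)) (abs_ind_le _ _)) _ hη1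
  have hY1 : ‖Y‖ ≤ 1 := by
    rw [hY]; exact hmain _ (fun g => hm (hm (hq' g) (hG g)) (abs_ind_le _ _)) _ hζ1
  have hXc1 : ‖Xc‖ ≤ ε := by rw [hXc]; exact (hcompl F hF η).trans hE1
  have hYc1 : ‖Yc‖ ≤ ε := by rw [hYc]; exact (hcompl G hG ζ).trans hE2
  have hXX : ‖X + Xc‖ ≤ 1 := by
    rw [hX, hXc, ← hsplit F hF]; exact hmain _ (fun g => hm (hq' g) (hF g)) _ hη1
  have hsupp : ∀ (F : Γ → ℝ) (k : Γ), q k * F k * ind E k ≠ 0 → F k ≠ 0 ∧ E k := by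
    intro F k hk
    constructor
    · intro h0
      exact hk (by rw [h0]; simp)
    · by_contra h0
      exact hk (by rw [ind_neg h0]; simp)
  have hs : ‖⟪Y, R u X⟫_ℂ‖ ≤ Real.sqrt T.card * massT B R P u := by
    rw [hX, hY]
    refine hS.sep u η hη ζ hζ (fun x => q x * F x * ind E x) (fun x => q x * G x * ind E x) P T
      (fun g => hm (hm (hq' g) (hF g)) (abs_ind_le _ _))
      (fun g => hm (hm (hq' g) (hG g)) (abs_ind_le _ _)) (fun k h hk hh => ?_)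
      (fun k₁ h₁ k₂ h₂ a1 a2 a3 a4 he => ?_)
    · have h1 := hsupp F k hk
      have h2 := hsupp G h hh
      exact hP k h h1.2 h2.2 (hFG k h h1.1 h2.1)
    · have b1 := hsupp F k₁ a1
      have b2 := hsupp G h₁ a2
      have b3 := hsupp F k₂ a3
      have b4 := hsupp G h₂ a4
      exact hT k₁ h₁ k₂ h₂ b1.2 b2.2 b3.2 b4.2 (hFG _ _ b1.1 b2.1) (hFG _ _ b3.1 b4.1) he
  have hs' : ‖⟪Y, R u X⟫_ℂ‖ ≤ ε := hs.trans hu
  rw [hsplit F hF η, hsplit G hG ζ, ← hX, ← hXc, ← hY, ← hYc]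
  have e1 : ⟪Y + Yc, R u (X + Xc)⟫_ℂ = ⟪Y, R u X⟫_ℂ + ⟪Y, R u Xc⟫_ℂ +
      ⟪Yc, R u (X + Xc)⟫_ℂ := by
    rw [inner_add_left, map_add, inner_add_right]
  rw [e1]
  have b1 : ‖⟪Y, R u Xc⟫_ℂ‖ ≤ ε := by
    refine (norm_inner_le_norm _ _).trans ?_
    calc ‖Y‖ * ‖R u Xc‖ ≤ 1 * ε :=
          mul_le_mul hY1 ((hR.norm_le _ _).trans hXc1) (norm_nonneg _) zero_le_one
      _ = ε := one_mul _
  have b2 : ‖⟪Yc, R u (X + Xc)⟫_ℂ‖ ≤ ε := by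
    refine (norm_inner_le_norm _ _).trans ?_
    have hε : 0 ≤ ε := (norm_nonneg _).trans hYc1
    calc ‖Yc‖ * ‖R u (X + Xc)‖ ≤ ε * 1 :=
          mul_le_mul hYc1 ((hR.norm_le _ _).trans hXX) (norm_nonneg _) hε
      _ = ε := mul_one _
  calc _ ≤ ‖⟪Y, R u X⟫_ℂ‖ + ‖⟪Y, R u Xc⟫_ℂ‖ + ‖⟪Yc, R u (X + Xc)⟫_ℂ‖ :=
        norm_add₃_le
    _ ≤ ε + ε + ε := add_le_add (add_le_add hs' b1) b2
    _ = 3 * ε := by ring

theorem pair_RT (hR : TRep B t R) (v w : D) (ξ η : 𝓗) (F G : Γ → ℝ) :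
    ⟪R v⁻¹ (B.mp G (R v ξ)), R w⁻¹ (B.mp F (R w η))⟫_ℂ =
      ⟪B.mp G (R v ξ), R (v * w⁻¹) (B.mp F (R w η))⟫_ℂ := by
  rw [hR.inner_left, inv_inv, hR.app]

theorem balance_mulT (hR : TRep B t R) (hS : SepT B R Bd) (U : Ultrafilter ℕ) (z z' : ℕ → D)
    {q H f : Γ → ℝ} (hq : ∀ g, 0 ≤ q g ∧ q g ≤ 1) (hH : ∀ g, 0 ≤ H g ∧ H g ≤ 1)
    (hf : ∀ g, |f g| ≤ 1) (h1' : Pi2T B U R z' q (fun _ => 1) = R 1)
    (a b : 𝓗) (ha : a ∈ Bd) (hb : b ∈ Bd) (hfar : FarT B U R z z' q H a b) :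
    ⟪Pi2T B U R z' q H b, Pi2T B U R z q f a⟫_ℂ =
      ⟪b, Pi2T B U R z q (fun g => f g * H g) a⟫_ℂ := by
  have hq' : ∀ g, |q g| ≤ 1 := fun g => by rw [abs_of_nonneg (hq g).1]; exact (hq g).2
  have hH' : ∀ g, |H g| ≤ 1 := fun g => by rw [abs_of_nonneg (hH g).1]; exact (hH g).2
  have hqH : ∀ g, |q g * H g| ≤ 1 := fun g => mul_abs_le (hq' g) (hH' g)
  have hqf : ∀ g, |q g * f g| ≤ 1 := fun g => mul_abs_le (hq' g) (hf g)
  have hqfH : ∀ g, |q g * (f g * H g)| ≤ 1 := fun g =>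
    mul_abs_le (hq' g) (mul_abs_le (hf g) (hH' g))
  have hq1 : (fun g => q g * (1 : ℝ)) = q := by
    funext g; rw [mul_one]
  -- the approximants
  obtain ⟨A, hA⟩ : ∃ A : (Γ → ℝ) → D → 𝓗 → 𝓗, A = fun F w c =>
    R w⁻¹ (B.mp F (R w c)) := ⟨_, rfl⟩
  have hA1 : ∀ F w c, R 1 (A F w c) = A F w c := by
    intro F w c
    rw [hA, hR.app, one_mul]
  have hAspec : ∀ (y : ℕ → D) (F : Γ → ℝ), (∀ g, |F g| ≤ 1) → ∀ (ξ c : 𝓗),
      Tendsto (fun k => ⟪ξ, A F (y k) c⟫_ℂ) U (𝓝 ⟪ξ, B.PiA U R y (fun _ => F) c⟫_ℂ) := by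
    intro y F hF ξ c
    refine (pa_spec (U := U) (z := y) (F := fun _ => F) hR (fun _ => hF) ξ c).congr
      fun k => ?_
    rw [hA, hR.inner_left]
  have hAspec' : ∀ (y : ℕ → D) (F : Γ → ℝ), (∀ g, |F g| ≤ 1) → ∀ (ξ c : 𝓗),
      Tendsto (fun k => ⟪A F (y k) c, ξ⟫_ℂ) U (𝓝 ⟪B.PiA U R y (fun _ => F) c, ξ⟫_ℂ) := by
    intro y F hF ξ c
    have h2 := (Complex.continuous_conj.tendsto _).comp (hAspec y F hF ξ c)
    rw [inner_conj_symm] at h2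
    refine h2.congr fun k => ?_
    rw [Function.comp_apply, inner_conj_symm]
  obtain ⟨A2, hA2⟩ : ∃ A2 : (Γ → ℝ) → D → 𝓗 → 𝓗, A2 = fun F w c =>
    A F w c + A F w⁻¹ c := ⟨_, rfl⟩
  have hA21 : ∀ F w c, R 1 (A2 F w c) = A2 F w c := by
    intro F w c
    simp only [hA2, map_add, hA1]
  have hA2spec : ∀ (y : ℕ → D) (F : Γ → ℝ), (∀ g, |q g * F g| ≤ 1) →
      ∀ (ξ c : 𝓗),
      Tendsto (fun k => ⟪ξ, A2 (fun g => q g * F g) (y k) c⟫_ℂ) U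
        (𝓝 ⟪ξ, Pi2T B U R y q F c⟫_ℂ) := by
    intro y F hF ξ c
    rw [Pi2T, add_apply, inner_add_right]
    refine ((hAspec y _ hF ξ c).add (hAspec (fun k => (y k)⁻¹) _ hF ξ c)).congr fun k => ?_
    rw [hA2, ← inner_add_right]
  have hA2spec' : ∀ (y : ℕ → D) (F : Γ → ℝ), (∀ g, |q g * F g| ≤ 1) →
      ∀ (ξ c : 𝓗),
      Tendsto (fun k => ⟪A2 (fun g => q g * F g) (y k) c, ξ⟫_ℂ) U
        (𝓝 ⟪Pi2T B U R y q F c, ξ⟫_ℂ) := by
    intro y F hF ξ c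
    rw [Pi2T, add_apply, inner_add_left]
    refine ((hAspec' y _ hF ξ c).add (hAspec' (fun k => (y k)⁻¹) _ hF ξ c)).congr fun k => ?_
    rw [hA2, ← inner_add_left]
  have hone : ∀ g, |q g * (fun _ => (1 : ℝ)) g| ≤ 1 := fun g => by
    change |q g * 1| ≤ 1
    rw [mul_one]; exact hq' g
  have l1 := hA2spec z (fun g => f g * H g) hqfH b a
  have l2 := hA2spec z f hqf (Pi2T B U R z' q H b) a
  have hd := l1.sub l2
  suffices hz : Tendsto (fun k => ⟪b, A2 (fun g => q g * (f g * H g)) (z k) a⟫_ℂ -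
      ⟪Pi2T B U R z' q H b, A2 (fun g => q g * f g) (z k) a⟫_ℂ) U (𝓝 0) by
    exact (sub_eq_zero.mp (tendsto_nhds_unique hd hz)).symm
  rw [Metric.tendsto_nhds]
  intro ε₀ hε₀
  obtain ⟨N, hN⟩ := exists_nat_gt (72 / ε₀)
  have hNpos : 0 < N := by
    have : (0 : ℝ) < N := lt_trans (by positivity) hN
    exact_mod_cast this
  have hN' : (0 : ℝ) < N := by exact_mod_cast hNpos
  obtain ⟨ε, hε0, hε⟩ : ∃ ε : ℝ, 0 < ε ∧ 24 * ((N : ℝ) + 1) ^ 2 * ε ≤ ε₀ / 4 := by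
    refine ⟨ε₀ / (96 * ((N : ℝ) + 1) ^ 2), by positivity, ?_⟩
    rw [mul_div_assoc', div_le_iff₀ (by positivity)]
    nlinarith
  have hbound : 4 * (9 / N + 2 * ((N : ℝ) + 1) ^ 2 * (3 * ε)) ≤ 3 * ε₀ / 4 := by
    have h3 : 36 / (N : ℝ) ≤ ε₀ / 2 := by
      rw [div_le_div_iff₀ hN' (by norm_num)]
      rw [div_lt_iff₀ hε₀] at hN
      linarith
    calc 4 * (9 / N + 2 * ((N : ℝ) + 1) ^ 2 * (3 * ε)) =
          36 / N + 24 * ((N : ℝ) + 1) ^ 2 * ε := by ring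
      _ ≤ ε₀ / 2 + ε₀ / 4 := add_le_add h3 hε
      _ = 3 * ε₀ / 4 := by ring
  obtain ⟨E, P, T, f1, f2, f3, f4, f5⟩ := hfar (1 / N) (by positivity) ε hε0
  filter_upwards [f1] with k hk
  rw [dist_zero_right]
  -- the inner limit
  have m1 := hA2spec' z' (fun _ => 1) hone (A2 (fun g => q g * (f g * H g)) (z k) a) b
  rw [h1', hR.inner_left, inv_one, hA21] at m1
  have m2 := hA2spec' z' H hqH (A2 (fun g => q g * f g) (z k) a) b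
  have m3 := (m1.sub m2).norm
  refine lt_of_le_of_lt (le_of_tendsto m3 ?_) (show 3 * ε₀ / 4 < ε₀ by linarith)
  filter_upwards [f2] with l hl
  have hpair : ∀ w v, (w = z k ∨ w = (z k)⁻¹) → (v = z' l ∨ v = (z' l)⁻¹) →
      ‖⟪A q v b, A (fun g => q g * (f g * H g)) w a⟫_ℂ -
        ⟪A (fun g => q g * H g) v b, A (fun g => q g * f g) w a⟫_ℂ‖ ≤
        9 / N + 2 * ((N : ℝ) + 1) ^ 2 * (3 * ε) := by
    intro w v hw hv
    simp only [hA]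
    rw [pair_RT hR, pair_RT hR]
    have hη : R w a ∈ Bd := hS.map w a ha
    have hζ : R v b ∈ Bd := hS.map v b hb
    have hη' : ‖B.mp f (R w a)‖ ≤ 1 := hS.norm _ (hS.mp f hf _ hη)
    have e1 : B.mp (fun g => q g * (f g * H g)) (R w a) =
        B.mp (fun x => q x * H x) (B.mp f (R w a)) := by
      rw [← B.mp_mul_apply hqH hf]
      congr 2
      funext x; ring
    have e2 : B.mp (fun g => q g * f g) (R w a) = B.mp q (B.mp f (R w a)) := by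
      rw [← B.mp_mul_apply hq' hf]
    rw [e1, e2]
    refine pair_estimateT B (R (v * w⁻¹)) (hR.norm_le _) hq hH N hNpos _ _ hη'
      (hS.norm _ hζ) ?_
    intro F G hF hG hFG
    have e3 : B.mp (fun x => q x * F x) (B.mp f (R w a)) =
        B.mp (fun x => q x * (f x * F x)) (R w a) := by
      rw [← B.mp_mul_apply (fun x => mul_abs_le (hq' x) (hF x)) hf]
      congr 2
      funext x; ring
    rw [e3]
    exact far_estimateT hR hS hq (H := H) _ _ hη hζ (v * w⁻¹) (hk w hw) (hl v hv) f3 f4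
      (f5 k l w v hw hv) (fun x => f x * F x) G (fun x => mul_abs_le (hf x) (hF x)) hG
      (fun x y hx hy => hFG x y (fun h0 => hx (by rw [h0, mul_zero])) hy)
  have p1 := hpair (z k) (z' l) (Or.inl rfl) (Or.inl rfl)
  have p2 := hpair (z k)⁻¹ (z' l) (Or.inr rfl) (Or.inl rfl)
  have p3 := hpair (z k) (z' l)⁻¹ (Or.inl rfl) (Or.inr rfl)
  have p4 := hpair (z k)⁻¹ (z' l)⁻¹ (Or.inr rfl) (Or.inr rfl)
  refine le_trans ?_ hbound
  rw [hq1]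
  simp only [hA2]
  have e1 : ⟪A q (z' l) b + A q (z' l)⁻¹ b,
        A (fun g => q g * (f g * H g)) (z k) a + A (fun g => q g * (f g * H g)) (z k)⁻¹ a⟫_ℂ -
      ⟪A (fun g => q g * H g) (z' l) b + A (fun g => q g * H g) (z' l)⁻¹ b,
        A (fun g => q g * f g) (z k) a + A (fun g => q g * f g) (z k)⁻¹ a⟫_ℂ =
      (⟪A q (z' l) b, A (fun g => q g * (f g * H g)) (z k) a⟫_ℂ -
        ⟪A (fun g => q g * H g) (z' l) b, A (fun g => q g * f g) (z k) a⟫_ℂ) +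
      (⟪A q (z' l) b, A (fun g => q g * (f g * H g)) (z k)⁻¹ a⟫_ℂ -
        ⟪A (fun g => q g * H g) (z' l) b, A (fun g => q g * f g) (z k)⁻¹ a⟫_ℂ) +
      (⟪A q (z' l)⁻¹ b, A (fun g => q g * (f g * H g)) (z k) a⟫_ℂ -
        ⟪A (fun g => q g * H g) (z' l)⁻¹ b, A (fun g => q g * f g) (z k) a⟫_ℂ) +
      (⟪A q (z' l)⁻¹ b, A (fun g => q g * (f g * H g)) (z k)⁻¹ a⟫_ℂ -
        ⟪A (fun g => q g * H g) (z' l)⁻¹ b, A (fun g => q g * f g) (z k)⁻¹ a⟫_ℂ) := by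
    simp only [inner_add_left, inner_add_right]
    ring
  rw [e1]
  calc _ ≤ _ := (norm_add_le _ _).trans (add_le_add_left norm_add₃_le _)
    _ ≤ (9 / N + 2 * ((N : ℝ) + 1) ^ 2 * (3 * ε)) + (9 / N + 2 * ((N : ℝ) + 1) ^ 2 * (3 * ε)) +
        (9 / N + 2 * ((N : ℝ) + 1) ^ 2 * (3 * ε)) + (9 / N + 2 * ((N : ℝ) + 1) ^ 2 * (3 * ε)) :=
        add_le_add (add_le_add (add_le_add p1 p2) p3) p4
    _ = _ := by ring

theorem pi2_symT (hR : TRep B t R) {U : Ultrafilter ℕ} {z : ℕ → D} {q F : Γ → ℝ} {C : ℝ}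
    (hF : ∀ g, |q g * F g| ≤ C) (ξ η : 𝓗) :
    ⟪Pi2T B U R z q F ξ, η⟫_ℂ = ⟪ξ, Pi2T B U R z q F η⟫_ℂ := by
  unfold Pi2T
  rw [add_apply, add_apply, inner_add_left, inner_add_right,
    pa_sym hR (F := fun _ g => q g * F g) (fun _ => hF),
    pa_sym hR (F := fun _ g => q g * F g) (fun _ => hF)]

theorem pi2_adjT (hR : TRep B t R) {U : Ultrafilter ℕ} {z : ℕ → D} {q F : Γ → ℝ} {C : ℝ}
    (hF : ∀ g, |q g * F g| ≤ C) : adjoint (Pi2T B U R z q F) = Pi2T B U R z q F := by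
  rw [eq_comm, ContinuousLinearMap.eq_adjoint_iff]
  exact pi2_symT hR hF

/-- Operators are determined by their matrix coefficients at the total family. -/
theorem op_ext_total {S T : 𝓗 →L[ℂ] 𝓗} (h : ∀ s, ∀ a ∈ B.sc, ∀ i, ∀ s', ∀ a' ∈ B.sc, ∀ i',
    ⟪B.lx s (a (B.ep i)), S (B.lx s' (a' (B.ep i')))⟫_ℂ =
      ⟪B.lx s (a (B.ep i)), T (B.lx s' (a' (B.ep i')))⟫_ℂ) : S = T := by
  rw [← sub_eq_zero]
  have h1 : ∀ ξ η, ⟪ξ, (S - T) η⟫_ℂ = 0 := by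
    intro ξ η
    have h2 := B.tendsto_inner_of_total (U := hyperfilter ℕ) (f := fun _ => S - T)
      (M := ‖S - T‖) (fun _ => le_rfl) (fun s a ha i s' a' ha' i' => by
        rw [sub_apply, inner_sub_right, h s a ha i s' a' ha' i', sub_self]
        exact tendsto_const_nhds) ξ η
    exact tendsto_nhds_unique tendsto_const_nhds h2
  exact op_zero_of_inner h1

/-- Multiplicativity and balance: `Π_{z'}(H) Π_z(f) = Π_z(f H)`. -/
theorem mulT (hR : TRep B t R) (hS : SepT B R Bd) (U : Ultrafilter ℕ) (z z' : ℕ → D)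
    {q H f : Γ → ℝ} (hq : ∀ g, 0 ≤ q g ∧ q g ≤ 1) (hH : ∀ g, 0 ≤ H g ∧ H g ≤ 1)
    (hf : ∀ g, |f g| ≤ 1) (h1' : Pi2T B U R z' q (fun _ => 1) = R 1)
    (hfar : ∀ s, ∀ a ∈ B.sc, ∀ i, ∀ s', ∀ a' ∈ B.sc, ∀ i',
      FarT B U R z z' q H (B.lx s (a (B.ep i))) (B.lx s' (a' (B.ep i')))) :
    Pi2T B U R z' q H * Pi2T B U R z q f = Pi2T B U R z q (fun g => f g * H g) := by
  have hq' : ∀ g, |q g| ≤ 1 := fun g => by rw [abs_of_nonneg (hq g).1]; exact (hq g).2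
  have hH' : ∀ g, |H g| ≤ 1 := fun g => by rw [abs_of_nonneg (hH g).1]; exact (hH g).2
  have hqH : ∀ g, |q g * H g| ≤ 1 := fun g => mul_abs_le (hq' g) (hH' g)
  refine op_ext_total (B := B) fun s a ha i s' a' ha' i' => ?_
  rw [mul_ap, ← pi2_symT hR hqH]
  exact balance_mulT hR hS U z z' hq hH hf h1' _ _ (hS.ep s' a' ha' i') (hS.ep s a ha i)
    (hfar s' a' ha' i' s a ha i)

/-! ### Kadison-Schwarz and linearity -/

theorem pi2_addT (hR : TRep B t R) {U : Ultrafilter ℕ} {z : ℕ → D} {q F G : Γ → ℝ} {C D : ℝ}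
    (hF : ∀ g, |q g * F g| ≤ C) (hG : ∀ g, |q g * G g| ≤ D) :
    Pi2T B U R z q (fun g => F g + G g) = Pi2T B U R z q F + Pi2T B U R z q G := by
  unfold Pi2T
  have e : (fun (_ : ℕ) g => q g * (F g + G g)) = fun _ g => q g * F g + q g * G g := by
    funext _ g; ring
  rw [e, pa_add hR (F := fun _ g => q g * F g) (F' := fun _ g => q g * G g) (fun _ => hF)
      (fun _ => hG),
    pa_add hR (F := fun _ g => q g * F g) (F' := fun _ g => q g * G g) (fun _ => hF) (fun _ => hG)]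
  abel

theorem pi2_smulT (hR : TRep B t R) {U : Ultrafilter ℕ} {z : ℕ → D} {q F : Γ → ℝ} {C : ℝ}
    (c : ℝ) (hF : ∀ g, |q g * F g| ≤ C) :
    Pi2T B U R z q (fun g => c * F g) = (c : ℂ) • Pi2T B U R z q F := by
  unfold Pi2T
  have e : (fun (_ : ℕ) g => q g * (c * F g)) = fun _ g => c * (q g * F g) := by
    funext _ g; ring
  rw [e, pa_smul hR c (F := fun _ g => q g * F g) (fun _ => hF),
    pa_smul hR c (F := fun _ g => q g * F g) (fun _ => hF), smul_add]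

theorem pi2_sumT (hR : TRep B t R) {κ : Type} (s : Finset κ) {U : Ultrafilter ℕ} {z : ℕ → D}
    {q : Γ → ℝ} (F : κ → Γ → ℝ) {C : ℝ} (hF : ∀ i g, |q g * F i g| ≤ C) :
    Pi2T B U R z q (fun g => ∑ i ∈ s, F i g) = ∑ i ∈ s, Pi2T B U R z q (F i) := by
  classical
  induction s using Finset.induction_on with
  | empty =>
    have h := pi2_smulT (U := U) (z := z) (q := q) (F := fun _ => 0) (C := 0) hR 0
      (fun g => by simp)
    simp only [mul_zero, Complex.ofReal_zero, zero_smul] at h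
    simpa using h
  | insert i s hi ih =>
    rw [Finset.sum_insert hi, ← ih]
    have h1 : ∀ g, |q g * ∑ j ∈ s, F j g| ≤ s.card * C := fun g => by
      rw [Finset.mul_sum]
      refine (Finset.abs_sum_le_sum_abs _ _).trans ?_
      rw [← nsmul_eq_mul]
      exact Finset.sum_le_card_nsmul _ _ _ fun j _ => hF j g
    rw [← pi2_addT hR (hF i) h1]
    congr 1
    funext g
    rw [Finset.sum_insert hi]

theorem pi2_monoT (hR : TRep B t R) {U : Ultrafilter ℕ} {z : ℕ → D} {q F G : Γ → ℝ} {C D : ℝ}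
    (hq : ∀ g, 0 ≤ q g) (hF : ∀ g, |q g * F g| ≤ C) (hG : ∀ g, |q g * G g| ≤ D)
    (h : ∀ g, F g ≤ G g) (ξ : 𝓗) :
    (⟪ξ, Pi2T B U R z q F ξ⟫_ℂ).re ≤ (⟪ξ, Pi2T B U R z q G ξ⟫_ℂ).re := by
  unfold Pi2T
  rw [add_apply, add_apply, inner_add_right, inner_add_right, Complex.add_re, Complex.add_re]
  refine add_le_add (pa_mono hR (F := fun _ g => q g * F g) (F' := fun _ g => q g * G g)
    (fun _ => hF) (fun _ => hG) (fun _ g => mul_le_mul_of_nonneg_left (h g) (hq g)) ξ)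
    (pa_mono hR (F := fun _ g => q g * F g) (F' := fun _ g => q g * G g)
    (fun _ => hF) (fun _ => hG) (fun _ g => mul_le_mul_of_nonneg_left (h g) (hq g)) ξ)

theorem pi2_mul_oneT (hR : TRep B t R) {U : Ultrafilter ℕ} {z : ℕ → D} {q F : Γ → ℝ} {C : ℝ}
    (hF : ∀ g, |q g * F g| ≤ C) : Pi2T B U R z q F * R 1 = Pi2T B U R z q F := by
  unfold Pi2T
  rw [add_mul, pa_mul_one hR (F := fun _ g => q g * F g) (fun _ => hF),
    pa_mul_one hR (F := fun _ g => q g * F g) (fun _ => hF)]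

theorem pi2_one_mulT (hR : TRep B t R) {U : Ultrafilter ℕ} {z : ℕ → D} {q F : Γ → ℝ} {C : ℝ}
    (hF : ∀ g, |q g * F g| ≤ C) : R 1 * Pi2T B U R z q F = Pi2T B U R z q F := by
  unfold Pi2T
  rw [mul_add, pa_one_mul hR (F := fun _ g => q g * F g) (fun _ => hF),
    pa_one_mul hR (F := fun _ g => q g * F g) (fun _ => hF)]

theorem pi2_scT (hR : TRep B t R) {U : Ultrafilter ℕ} {z : ℕ → D} {q F : Γ → ℝ} {C : ℝ}
    (hF : ∀ g, |q g * F g| ≤ C) {a : 𝓗 →L[ℂ] 𝓗} (ha : a ∈ B.sc) :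
    Pi2T B U R z q F * a = a * Pi2T B U R z q F := by
  unfold Pi2T
  rw [mul_add, add_mul, pa_sc hR (F := fun _ g => q g * F g) (fun _ => hF) ha,
    pa_sc hR (F := fun _ g => q g * F g) (fun _ => hF) ha]

/-- Kadison-Schwarz. -/
theorem pi2_ksT (hR : TRep B t R) {U : Ultrafilter ℕ} {z : ℕ → D} {q F : Γ → ℝ}
    (hq : ∀ g, 0 ≤ q g ∧ q g ≤ 1) (h1 : Pi2T B U R z q (fun _ => 1) = R 1)
    (hF : ∀ g, |F g| ≤ 1) (ξ : 𝓗) :
    ‖Pi2T B U R z q F ξ‖ ^ 2 ≤ (⟪ξ, Pi2T B U R z q (fun g => F g ^ 2) ξ⟫_ℂ).re := by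
  have hq' : ∀ g, |q g| ≤ 1 := fun g => by rw [abs_of_nonneg (hq g).1]; exact (hq g).2
  have hqF : ∀ g, |q g * F g| ≤ 1 := fun g => mul_abs_le (hq' g) (hF g)
  have hqF2 : ∀ g, |q g * F g ^ 2| ≤ 1 := fun g => by
    rw [pow_two]; exact mul_abs_le (hq' g) (mul_abs_le (hF g) (hF g))
  have hq1 : ∀ g, |q g * 1| ≤ 1 := fun g => by rw [mul_one]; exact hq' g
  obtain ⟨p, hp⟩ : ∃ p : Γ → ℝ, p = fun g => Real.sqrt (q g) := ⟨_, rfl⟩
  have hpp : ∀ g, p g * p g = q g := fun g => by rw [hp]; exact Real.mul_self_sqrt (hq g).1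
  have hpb : ∀ g, |p g| ≤ 1 := fun g => by
    rw [hp, abs_of_nonneg (Real.sqrt_nonneg _)]
    exact Real.sqrt_le_one.mpr (hq g).2
  have hpF : ∀ g, |p g * F g| ≤ 1 := fun g => mul_abs_le (hpb g) (hF g)
  obtain ⟨η, hη⟩ : ∃ η, η = Pi2T B U R z q F ξ := ⟨_, rfl⟩
  have hcs : ∀ (X Y : 𝓗),
      2 * (⟪X, B.mp (fun g => q g * F g) Y⟫_ℂ).re ≤
        (⟪X, B.mp (fun g => q g * 1) X⟫_ℂ).re +
        (⟪Y, B.mp (fun g => q g * F g ^ 2) Y⟫_ℂ).re := by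
    intro X Y
    have e1 : (⟪X, B.mp (fun g => q g * 1) X⟫_ℂ).re = ‖B.mp p X‖ ^ 2 := by
      rw [← B.inner_mp_sq hpb]
      have e : (fun g => q g * (1 : ℝ)) = fun g => p g * p g := by
        funext g; rw [hpp, mul_one]
      rw [e]
    have e2 : (⟪Y, B.mp (fun g => q g * F g ^ 2) Y⟫_ℂ).re = ‖B.mp (fun g => p g * F g) Y‖ ^ 2 := by
      rw [← B.inner_mp_sq hpF]
      have e : (fun g => q g * F g ^ 2) = fun g => p g * F g * (p g * F g) := by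
        funext g
        calc q g * F g ^ 2 = (p g * p g) * F g ^ 2 := by rw [hpp]
          _ = _ := by ring
      rw [e]
    have e3 : ⟪X, B.mp (fun g => q g * F g) Y⟫_ℂ = ⟪B.mp p X, B.mp (fun g => p g * F g) Y⟫_ℂ := by
      rw [B.inner_mp_left hpb, ← B.mp_mul_apply hpb hpF]
      congr 3
      funext g
      calc q g * F g = (p g * p g) * F g := by rw [hpp]
        _ = _ := by ring
    rw [e1, e2, e3]
    have h2 : (⟪B.mp p X, B.mp (fun g => p g * F g) Y⟫_ℂ).re ≤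
        ‖B.mp p X‖ * ‖B.mp (fun g => p g * F g) Y‖ :=
      (Complex.re_le_norm _).trans (norm_inner_le_norm _ _)
    nlinarith [sq_nonneg (‖B.mp p X‖ - ‖B.mp (fun g => p g * F g) Y‖)]
  have hlim : 2 * (⟪η, Pi2T B U R z q F ξ⟫_ℂ).re ≤
      (⟪η, Pi2T B U R z q (fun _ => 1) η⟫_ℂ).re +
      (⟪ξ, Pi2T B U R z q (fun g => F g ^ 2) ξ⟫_ℂ).re := by
    have key : ∀ y : ℕ → D, 2 * (⟪η, B.PiA U R y (fun _ g => q g * F g) ξ⟫_ℂ).re ≤
        (⟪η, B.PiA U R y (fun _ g => q g * 1) η⟫_ℂ).re +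
        (⟪ξ, B.PiA U R y (fun _ g => q g * F g ^ 2) ξ⟫_ℂ).re := by
      intro y
      have t1 := ((Complex.continuous_re.tendsto _).comp (pa_spec (U := U) (z := y)
        (F := fun _ g => q g * F g) hR (fun _ => hqF) η ξ)).const_mul 2
      have t2 := ((Complex.continuous_re.tendsto _).comp (pa_spec (U := U) (z := y)
        (F := fun _ g => q g * 1) hR (fun _ => hq1) η η))
      have t3 := ((Complex.continuous_re.tendsto _).comp (pa_spec (U := U) (z := y)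
        (F := fun _ g => q g * F g ^ 2) hR (fun _ => hqF2) ξ ξ))
      exact le_of_tendsto_of_tendsto t1 (t2.add t3) (Eventually.of_forall fun k =>
        hcs (R (y k) η) (R (y k) ξ))
    have k1 := key z
    have k2 := key (fun k => (z k)⁻¹)
    unfold Pi2T
    simp only [add_apply, inner_add_right, Complex.add_re]
    linarith
  have hηη : (⟪η, Pi2T B U R z q F ξ⟫_ℂ).re = ‖η‖ ^ 2 := by
    rw [← hη, inner_self_eq_norm_sq_to_K]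
    norm_cast
  have h1η : (⟪η, Pi2T B U R z q (fun _ => 1) η⟫_ℂ).re ≤ ‖η‖ ^ 2 := by
    rw [h1, hR.one_re]
    have := hR.norm_one_le η
    gcongr
  rw [hηη] at hlim
  rw [← hη]
  linarith

end

end Vale.Agent.P092.H714
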