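import Vale.Agent.P092.H714.TBal
import Vale.Agent.P092.H714.NComm

/-!
P092 (helper714): Theorem N for induced representations: far pairs from confinement, commutation
with the representation, and the mass outside of the wall (abstract row model).
-/

set_option linter.all false

open scoped InnerProductSpace
open Filter Topology ContinuousLinearMap

namespace Vale.Agent.P092.H714

open Vale.Agent.P092.H160 Vale.Agent.P092.H553 Vale.Agent.P092.H132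

section

variable {Γ ι 𝓗 D : Type} [Group Γ] [Group D] [Fintype ι] [NormedAddCommGroup 𝓗]
  [InnerProductSpace ℂ 𝓗] [CompleteSpace 𝓗]
  {B : Base Γ ι 𝓗} {t : ℝ} {R : D → (𝓗 →L[ℂ] 𝓗)} {Bd : Set 𝓗}
  {G12 G23 q : Γ → ℝ} {FF : Set (Γ → ℝ)} {U : Ultrafilter ℕ} {z : ℕ → D}

/-- Confinement. -/
def ConfT (B : Base Γ ι 𝓗) (R : D → (𝓗 →L[ℂ] 𝓗)) (G12 G23 : Γ → ℝ) (K : Subgroup D) : Prop :=
  ∀ ε : ℝ, 0 < ε → ∃ r : ℝ, ∀ w : D, (∀ v ∈ K, w * v = v * w) →
    massT B R (RegA G12 G23 r) w ≤ ε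

theorem ind_mul_self {X : Type} (P : X → Prop) (x : X) : ind P x * ind P x = ind P x := by
  by_cases h : P x
  · rw [ind_pos h, mul_one]
  · rw [ind_neg h, mul_zero]

theorem massX_ind (B : Base Γ ι 𝓗) (R : D → (𝓗 →L[ℂ] 𝓗)) (P : Γ → Prop) (w : D) :
    massX B R w (ind P) = ∑ i, ‖B.mp (ind P) (R w (B.ep i))‖ ^ 2 := by
  rw [← massX_sq B R w (abs_ind_le P)]
  congr 1
  funext g
  exact (ind_mul_self P g).symm

theorem re_mp_ind (P : Γ → Prop) (ξ : 𝓗) :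
    (⟪ξ, B.mp (ind P) ξ⟫_ℂ).re = ‖B.mp (ind P) ξ‖ ^ 2 := by
  rw [← B.inner_mp_sq (abs_ind_le P)]
  have e : (fun g => ind P g * ind P g) = ind P := by
    funext g
    exact ind_mul_self P g
  rw [e]

theorem mp_ind_ep_leT (B : Base Γ ι 𝓗) (R : D → (𝓗 →L[ℂ] 𝓗)) (P : Γ → Prop) (w : D) (i : ι) :
    ‖B.mp (ind P) (R w (B.ep i))‖ ≤ massT B R P w := by
  unfold massT
  refine Real.le_sqrt_of_sq_le ?_
  rw [massX_ind]
  exact Finset.single_le_sum (f := fun i => ‖B.mp (ind P) (R w (B.ep i))‖ ^ 2)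
    (fun i _ => by positivity) (Finset.mem_univ i)

theorem conf_shiftT (hR : TRep B t R) (hg : GeoA G12 G23 q FF) {K : Subgroup D}
    (hc : ConfT B R G12 G23 K) (s : Γ) {a : 𝓗 →L[ℂ] 𝓗} (ha : a ∈ B.sc) (i : ι) {ε : ℝ}
    (hε : 0 < ε) :
    ∃ r : ℝ, 3 ≤ r ∧ ∀ w : D, (∀ v ∈ K, w * v = v * w) →
      ‖B.mp (ind (RegA G12 G23 r)) (R w (B.lx s (a (B.ep i))))‖ ≤ ε := by
  obtain ⟨r, hr⟩ := hc ε hε
  obtain ⟨C, hC, hsh⟩ := hg.reg_shift s
  refine ⟨max 3 (C * max r 1), le_max_left _ _, fun w hw => ?_⟩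
  obtain ⟨a', ha', e⟩ := hR.sc w ha
  have e1 : R w (a (B.ep i)) = a' (R w (B.ep i)) :=
    congrArg (fun X : 𝓗 →L[ℂ] 𝓗 => X (B.ep i)) e
  have hb : ∀ g : Γ, |ind (RegA G12 G23 (max 3 (C * max r 1))) (s * g)| ≤ 1 :=
    fun g => abs_ind_le _ _
  have h1 : B.mp (ind (RegA G12 G23 (max 3 (C * max r 1)))) (R w (B.lx s (a (B.ep i)))) =
      B.lx s (a' (B.mp (fun g : Γ => ind (RegA G12 G23 (max 3 (C * max r 1))) (s * g))
        (R w (B.ep i)))) := by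
    have e2 : a' (B.mp (fun g : Γ => ind (RegA G12 G23 (max 3 (C * max r 1))) (s * g))
        (R w (B.ep i))) = B.mp (fun g : Γ => ind (RegA G12 G23 (max 3 (C * max r 1))) (s * g))
        (a' (R w (B.ep i))) :=
      congrArg (fun X : 𝓗 →L[ℂ] 𝓗 => X (R w (B.ep i))) (B.sc_mp a' ha' hb)
    rw [e2, B.lx_mp_apply hb, hR.lx, e1]
    congr 2
    funext g
    rw [mul_inv_cancel_left]
  rw [h1, B.norm_lx]
  refine ((a'.le_opNorm _).trans (mul_le_of_le_one_left (norm_nonneg _) (B.sc_le a' ha'))).trans ?_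
  refine le_trans ?_ ((mp_ind_ep_leT B R _ w i).trans (hr w hw))
  refine mpT_mono (C := 1) (D := 1) hb (abs_ind_le _) (fun g => ?_) _
  by_cases hx : RegA G12 G23 (max 3 (C * max r 1)) (s * g)
  · have h2 : RegA G12 G23 r g := by
      refine RegA.mono (le_max_left r 1) (hsh (max r 1) (by positivity) _ ?_)
      exact RegA.mono (le_max_right _ _) hx
    rw [ind_pos hx, ind_pos h2]
  · rw [ind_neg hx, abs_zero]
    exact abs_nonneg _

/-- Mass outside of the wall region `{G12 ≤ r, M ≤ G23}`. -/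
theorem mass_wallT (hR : TRep B t R) (hE : EscT B R) (hg : GeoA G12 G23 q FF) {K : Subgroup D}
    {r M ε : ℝ} (hε : 0 < ε) (hMr : r ≤ M) (y : ℕ → D) (hy : ∀ k, ∀ v ∈ K, y k * v = v * y k)
    (hyU : ∀ v : D, ∀ᶠ k in U, y k ≠ v) (a : 𝓗) {ra : ℝ} (hra : ra ≤ r)
    (hmass : ∀ w : D, (∀ v ∈ K, w * v = v * w) →
      ‖B.mp (ind (RegA G12 G23 ra)) (R w a)‖ ≤ ε / 2) :
    ∀ᶠ k in U, ∀ w, (w = y k ∨ w = (y k)⁻¹) →
      ‖B.mp (fun g : Γ => q g * ind (fun g : Γ => ¬ (G12 g ≤ r ∧ M ≤ G23 g)) g)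
        (R w a)‖ ≤ ε := by
  have hlow := hg.q_low M
  have hq0 : ∀ g, 0 ≤ q g := fun g => (hg.q_mem g).1
  have hq1 : ∀ g, q g ≤ 1 := fun g => (hg.q_mem g).2
  have hlowb : ∀ g : Γ, |q g * ind (fun g : Γ => G23 g < M) g| ≤ 1 := by
    intro g
    rw [abs_mul, abs_of_nonneg (hq0 _)]
    exact mul_le_one₀ (hq1 _) (abs_nonneg _) (abs_ind_le _ _)
  have s1 := smallT hR hE hyU hlowb hlow a
  have s2 := smallT hR hE (escape_inv hyU) hlowb hlow a
  filter_upwards [(Metric.tendsto_nhds.mp s1) (ε / 2) (by positivity),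
    (Metric.tendsto_nhds.mp s2) (ε / 2) (by positivity)] with k hk1 hk2 w hw
  rw [dist_zero_right, norm_norm] at hk1 hk2
  have hlow2 : ‖B.mp (fun g : Γ => q g * ind (fun g : Γ => G23 g < M) g) (R w a)‖ < ε / 2 := by
    rcases hw with rfl | rfl
    · exact hk1
    · exact hk2
  have hreg : ‖B.mp (ind (RegA G12 G23 r)) (R w a)‖ ≤ ε / 2 :=
    le_trans (mpT_ind_mono (fun g hg => RegA.mono hra hg) _)
      (hmass w (comm_inv hy k w hw).1)
  have hb1 : ∀ g : Γ, |q g * ind (fun g : Γ => ¬ (G12 g ≤ r ∧ M ≤ G23 g)) g| ≤ 1 := fun g => by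
    rw [abs_mul, abs_of_nonneg (hq0 _)]
    exact mul_le_one₀ (hq1 _) (abs_nonneg _) (abs_ind_le _ _)
  have hb2 : ∀ g : Γ, |ind (RegA G12 G23 r) g + q g * ind (fun g : Γ => G23 g < M) g| ≤ 1 + 1 :=
    fun g => (abs_add_le _ _).trans (add_le_add (abs_ind_le _ _) (hlowb g))
  have hle : ∀ g : Γ, |q g * ind (fun g : Γ => ¬ (G12 g ≤ r ∧ M ≤ G23 g)) g| ≤
      |ind (RegA G12 G23 r) g + q g * ind (fun g : Γ => G23 g < M) g| := by
    intro g
    have hpos : 0 ≤ ind (RegA G12 G23 r) g + q g * ind (fun g : Γ => G23 g < M) g :=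
      add_nonneg (ind_nonneg _ _) (mul_nonneg (hq0 g) (ind_nonneg _ _))
    rw [abs_of_nonneg hpos, abs_of_nonneg (mul_nonneg (hq0 g) (ind_nonneg _ _))]
    by_cases hE : G12 g ≤ r ∧ M ≤ G23 g
    · rw [ind_neg (P := fun g : Γ => ¬ (G12 g ≤ r ∧ M ≤ G23 g)) (fun h => h hE), mul_zero]
      exact hpos
    · rw [ind_pos (P := fun g : Γ => ¬ (G12 g ≤ r ∧ M ≤ G23 g)) hE, mul_one]
      by_cases h23 : G23 g < M
      · rw [ind_pos (P := fun g : Γ => G23 g < M) h23, mul_one]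
        linarith [ind_nonneg (RegA G12 G23 r) g]
      · rw [not_lt] at h23
        have h12 : r < G12 g := by
          by_contra h
          exact hE ⟨not_lt.mp h, h23⟩
        have hReg : RegA G12 G23 r g := ⟨h12.le, hMr.trans h23⟩
        rw [ind_pos hReg]
        have := mul_nonneg (hq0 g) (ind_nonneg (fun g : Γ => G23 g < M) g)
        linarith [hq1 g]
  have hsplit := mpT_mono (B := B) hb1 hb2 hle (R w a)
  refine hsplit.trans ?_
  rw [B.mp_add_apply (abs_ind_le _) hlowb]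
  refine (norm_add_le _ _).trans ?_
  linarith

/-- Far pairs, from the confinement of the elements commuting with `K`. -/
theorem far_of_confT (hR : TRep B t R) (hE : EscT B R) (hg : GeoA G12 G23 q FF)
    {K : Subgroup D} (hc : ConfT B R G12 G23 K) {z z' : ℕ → D}
    (hz : ∀ k, ∀ v ∈ K, z k * v = v * z k) (hz' : ∀ k, ∀ v ∈ K, z' k * v = v * z' k)
    (hU : ∀ v : D, ∀ᶠ k in U, z k ≠ v) (hU' : ∀ v : D, ∀ᶠ k in U, z' k ≠ v) {H : Γ → ℝ}
    (hH : H ∈ FF) (s : Γ) {a : 𝓗 →L[ℂ] 𝓗} (ha : a ∈ B.sc) (i : ι) (s' : Γ) {a' : 𝓗 →L[ℂ] 𝓗}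
    (ha' : a' ∈ B.sc) (i' : ι) :
    FarT B U R z z' q H (B.lx s (a (B.ep i))) (B.lx s' (a' (B.ep i'))) := by
  intro δ hδ ε hε
  obtain ⟨ra, hra3, hra⟩ := conf_shiftT hR hg hc s ha i (show 0 < ε / 2 by positivity)
  obtain ⟨rb, hrb3, hrb⟩ := conf_shiftT hR hg hc s' ha' i' (show 0 < ε / 2 by positivity)
  obtain ⟨r, hr⟩ : ∃ r : ℝ, r = max ra rb := ⟨_, rfl⟩
  have hr3 : 3 ≤ r := by rw [hr]; exact hra3.trans (le_max_left _ _)
  obtain ⟨κ, hκ0, T, hT1, hT2⟩ := hg.far H hH r δ hr3 hδ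
  obtain ⟨R1, hR1⟩ := hc (ε / (Real.sqrt T.card + 1)) (by positivity)
  obtain ⟨M, hM⟩ : ∃ M : ℝ, M = max r (R1 / κ) := ⟨_, rfl⟩
  have hMr : r ≤ M := by rw [hM]; exact le_max_left _ _
  have hMκ : R1 ≤ κ * M := by
    have : R1 / κ ≤ M := by rw [hM]; exact le_max_right _ _
    rw [div_le_iff₀ hκ0] at this
    linarith
  refine ⟨fun g : Γ => G12 g ≤ r ∧ M ≤ G23 g, RegA G12 G23 R1, T,
    mass_wallT hR hE hg hε hMr z hz hU _ (by rw [hr]; exact le_max_left _ _) hra,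
    mass_wallT hR hE hg hε hMr z' hz' hU' _ (by rw [hr]; exact le_max_right _ _) hrb, ?_, ?_, ?_⟩
  · intro k h hk hh hd
    have h1 := hT1 k h hk.1 hh.1 hd
    refine ⟨hMκ.trans (le_trans ?_ h1.1), hMκ.trans (le_trans ?_ h1.2)⟩
    · exact mul_le_mul_of_nonneg_left hk.2 hκ0.le
    · exact mul_le_mul_of_nonneg_left hh.2 hκ0.le
  · intro k₁ h₁ k₂ h₂ e1 e2 e3 e4 d1 d2 he
    exact hT2 _ _ _ _ e1.1 e2.1 e3.1 e4.1 d1 d2 he
  · intro k l w v hw hv
    have hwv : ∀ x ∈ K, (v * w⁻¹) * x = x * (v * w⁻¹) := by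
      intro x hx
      have h1 := (comm_inv hz k w hw).2 x hx
      have h2 := (comm_inv hz' l v hv).1 x hx
      rw [mul_assoc, h1, ← mul_assoc, h2, mul_assoc]
    have h3 := hR1 _ hwv
    have h0 : 0 ≤ massT B R (RegA G12 G23 R1) (v * w⁻¹) := Real.sqrt_nonneg _
    calc Real.sqrt T.card * _ ≤ Real.sqrt T.card * (ε / (Real.sqrt T.card + 1)) := by gcongr
      _ ≤ ε := by
        rw [mul_div_assoc', div_le_iff₀ (by positivity)]
        nlinarith [Real.sqrt_nonneg (T.card : ℝ)]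

/-! ### Commutation with the representation -/

theorem smallT_qH (hR : TRep B t R) (hE : EscT B R) (hg : GeoA G12 G23 q FF) {H : Γ → ℝ}
    (hH : H ∈ FF) (hz : ∀ v : D, ∀ᶠ k in U, z k ≠ v) (t : Γ) :
    B.SmallA U R z (fun _ g => q (g * t) * H (g * t) - q g * H g) := by
  refine smallT hR hE hz (C := 1 + 1) (fun g => ?_) (hg.qh_tendsto hH t)
  exact (abs_sub _ _).trans (add_le_add (abs_mul_le_oneA (hg.abs_q _) (hg.abs_H hH _))
    (abs_mul_le_oneA (hg.abs_q _) (hg.abs_H hH _)))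

theorem smallT_q1 (hR : TRep B t R) (hE : EscT B R) (hg : GeoA G12 G23 q FF)
    (hz : ∀ v : D, ∀ᶠ k in U, z k ≠ v) (t : Γ) :
    B.SmallA U R z (fun _ g => q (g * t) * 1 - q g * 1) := by
  refine smallT hR hE hz (C := 1 + 1) (fun g => ?_) ?_
  · rw [mul_one, mul_one]
    exact (abs_sub _ _).trans (add_le_add (hg.abs_q _) (hg.abs_q _))
  · refine (hg.q_tr 1 t).congr fun g => ?_
    rw [one_mul, mul_one, mul_one]

/-- Conjugation of the two-sided limit. -/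
theorem pi2_conjT (hR : TRep B t R) {q F : Γ → ℝ} {C : ℝ}
    (hF : ∀ g, |q g * F g| ≤ C) (v : D)
    (h1 : ∀ t : Γ, B.SmallA U R z (fun _ g => q (g * t) * F (g * t) - q g * F g))
    (h2 : ∀ t : Γ, B.SmallA U R (fun k => (z k)⁻¹)
      (fun _ g => q (g * t) * F (g * t) - q g * F g)) :
    R v * Pi2T B U R z q F * R v⁻¹ = Pi2T B U R (fun k => v * z k * v⁻¹) q F := by
  have e1 := pa_conj (U := U) hR (z := z) (F := fun _ g => q g * F g) (fun _ => hF) v h1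
  have e2 := pa_conj (U := U) hR (z := fun k => (z k)⁻¹) (F := fun _ g => q g * F g)
    (fun _ => hF) v h2
  have e3 : (fun k => (v * z k * v⁻¹)⁻¹) = fun k => v * (z k)⁻¹ * v⁻¹ := by
    funext k; group
  unfold Pi2T
  rw [e3, mul_add, add_mul, e1, e2]

/-- Commutation of `Π_z(H)`, `H` in the class, with the elements commuting with `K`. -/
theorem comm_FFT (hR : TRep B t R) (hE : EscT B R) (hS : SepT B R Bd)
    (hg : GeoA G12 G23 q FF) {K : Subgroup D}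
    (hc : ConfT B R G12 G23 K) (hz : ∀ k, ∀ v ∈ K, z k * v = v * z k)
    (hU : ∀ v : D, ∀ᶠ k in U, z k ≠ v) (h1 : Pi2T B U R z q (fun _ => 1) = R 1) {H : Γ → ℝ}
    (hH : H ∈ FF) (u : D) (hu : ∀ v ∈ K, u * v = v * u) :
    Pi2T B U R z q H * R u = R u * Pi2T B U R z q H := by
  obtain ⟨z', hz'⟩ : ∃ z' : ℕ → D, z' = fun k => u * z k * u⁻¹ := ⟨_, rfl⟩
  have hzz : ∀ k, ∀ v ∈ K, z' k * v = v * z' k := by rw [hz']; exact comm_conj hz hu
  have hU' : ∀ v : D, ∀ᶠ k in U, z' k ≠ v := by rw [hz']; exact escape_conj hU u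
  have h1' : Pi2T B U R z' q (fun _ => 1) = R 1 := by
    have e := pi2_conjT (U := U) (z := z) hR (q := q) (F := fun _ => 1) (C := 1)
      (fun g => by rw [mul_one]; exact hg.abs_q g) u (fun t => smallT_q1 hR hE hg hU t)
      (fun t => smallT_q1 hR hE hg (escape_inv hU) t)
    rw [hz', ← e, h1, hR.mul_one, hR.mul_inv]
  have hqH : ∀ g, |q g * H g| ≤ 1 := fun g => mul_abs_le (hg.abs_q g) (hg.abs_H hH g)
  have hbal := mulT hR hS U z z' (f := fun _ => 1) hg.q_mem (hg.mem H hH) (fun g => by simp) h1'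
    (fun s a ha i s' a' ha' i' => far_of_confT hR hE hg hc hz hzz hU hU' hH s ha i s' ha' i')
  rw [h1, pi2_mul_oneT hR hqH] at hbal
  have e1 : (fun g => (1 : ℝ) * H g) = H := by funext g; rw [one_mul]
  rw [e1] at hbal
  have e2 := pi2_conjT (U := U) (z := z) hR (q := q) (F := H) (C := 1) hqH u
    (fun t => smallT_qH hR hE hg hH hU t) (fun t => smallT_qH hR hE hg hH (escape_inv hU) t)
  rw [← hz', hbal] at e2
  calc Pi2T B U R z q H * R u = R u * Pi2T B U R z q H * R u⁻¹ * R u := by rw [e2]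
    _ = R u * (Pi2T B U R z q H * (R u⁻¹ * R u)) := by simp only [mul_assoc]
    _ = R u * Pi2T B U R z q H := by rw [hR.inv_mul, pi2_mul_oneT hR hqH]

/-- The mass outside of the wall region. -/
theorem mass_leT (hR : TRep B t R) (hE : EscT B R) (hS : SepT B R Bd)
    (hg : GeoA G12 G23 q FF) {K : Subgroup D}
    (hc : ConfT B R G12 G23 K) (s : Γ) {a : 𝓗 →L[ℂ] 𝓗} (ha : a ∈ B.sc) (i : ι) {ε : ℝ}
    (hε : 0 < ε) :
    ∃ r0 : ℝ, 3 ≤ r0 ∧ ∀ r, r0 ≤ r → ∀ (M : ℝ), r ≤ M → ∀ z : ℕ → D,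
      (∀ k, ∀ v ∈ K, z k * v = v * z k) → (∀ v : D, ∀ᶠ k in U, z k ≠ v) →
      ∀ u : D, (∀ v ∈ K, u * v = v * u) →
      (⟪R u (B.lx s (a (B.ep i))), Pi2T B U R z q (ind fun h => ¬ (G12 h ≤ r ∧ M ≤ G23 h))
        (R u (B.lx s (a (B.ep i))))⟫_ℂ).re ≤ ε := by
  obtain ⟨δ, hδ0, hδ⟩ : ∃ δ : ℝ, 0 < δ ∧ δ ^ 2 ≤ ε / 4 := by
    refine ⟨min 1 (ε / 4), lt_min one_pos (by positivity), ?_⟩
    have h1 : min 1 (ε / 4) ≤ 1 := min_le_left _ _
    have h2 : min 1 (ε / 4) ≤ ε / 4 := min_le_right _ _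
    have h3 : 0 < min 1 (ε / 4) := lt_min one_pos (by positivity)
    nlinarith
  obtain ⟨r0, hr0, hm⟩ := conf_shiftT hR hg hc s ha i hδ0
  obtain ⟨x, hx⟩ : ∃ x, x = B.lx s (a (B.ep i)) := ⟨_, rfl⟩
  have hx1 : ‖x‖ ≤ 1 := by rw [hx]; exact hS.norm _ (hS.ep s a ha i)
  rw [← hx] at hm ⊢
  refine ⟨r0, hr0, fun r hr M hM z hz hU u hu => ?_⟩
  have hq0 : ∀ g, 0 ≤ q g := fun g => (hg.q_mem g).1
  have hq1 : ∀ g, q g ≤ 1 := fun g => (hg.q_mem g).2
  obtain ⟨F, hF⟩ : ∃ F : Γ → ℝ, F = ind fun h => ¬ (G12 h ≤ r ∧ M ≤ G23 h) := ⟨_, rfl⟩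
  obtain ⟨L, hL⟩ : ∃ L : Γ → ℝ, L = fun g => q g * ind (fun g => G23 g < M) g := ⟨_, rfl⟩
  have hF1 : ∀ g, |F g| ≤ 1 := fun g => by rw [hF]; exact abs_ind_le _ _
  have hqF : ∀ g, |q g * F g| ≤ 1 := fun g => mul_abs_le (hg.abs_q g) (hF1 g)
  have hL1 : ∀ g, |L g| ≤ 1 := fun g => by rw [hL]; exact mul_abs_le (hg.abs_q g) (abs_ind_le _ _)
  have hL0 : Tendsto L cofinite (𝓝 0) := by rw [hL]; exact hg.q_low M
  have hle : ∀ g, q g * F g ≤ ind (RegA G12 G23 r) g + L g := by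
    intro g
    rw [hF, hL]
    by_cases hE : G12 g ≤ r ∧ M ≤ G23 g
    · rw [ind_neg (P := fun g : Γ => ¬ (G12 g ≤ r ∧ M ≤ G23 g)) (fun h => h hE), mul_zero]
      exact add_nonneg (ind_nonneg _ _) (mul_nonneg (hq0 g) (ind_nonneg _ _))
    · rw [ind_pos (P := fun g : Γ => ¬ (G12 g ≤ r ∧ M ≤ G23 g)) hE, mul_one]
      by_cases h23 : G23 g < M
      · dsimp only
        rw [ind_pos (P := fun g : Γ => G23 g < M) h23, mul_one]
        linarith [ind_nonneg (RegA G12 G23 r) g]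
      · rw [not_lt] at h23
        have h12 : r < G12 g := by
          by_contra h
          exact hE ⟨not_lt.mp h, h23⟩
        have hReg : RegA G12 G23 r g := ⟨h12.le, hM.trans h23⟩
        rw [ind_pos hReg]
        have := mul_nonneg (hq0 g) (ind_nonneg (fun g : Γ => G23 g < M) g)
        have := hq1 g
        dsimp only
        linarith
  have key : ∀ y : ℕ → D, (∀ k, ∀ v ∈ K, y k * v = v * y k) → (∀ v : D, ∀ᶠ k in U, y k ≠ v) →
      (⟪R u x, B.PiA U R y (fun _ g => q g * F g) (R u x)⟫_ℂ).re ≤ ε / 2 := by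
    intro y hy hyU
    have t1 := (Complex.continuous_re.tendsto _).comp (pa_spec (U := U) (z := y)
      (F := fun _ g => q g * F g) hR (fun _ => hqF) (R u x) (R u x))
    have t2 := smallT hR hE hyU hL1 hL0 (R u x)
    refine le_of_tendsto t1 ?_
    filter_upwards [(Metric.tendsto_nhds.mp t2) (ε / 4) (by positivity)] with k hk
    rw [dist_zero_right, norm_norm] at hk
    rw [Function.comp_apply]
    obtain ⟨X, hX⟩ : ∃ X, X = R (y k) (R u x) := ⟨_, rfl⟩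
    rw [← hX] at hk ⊢
    have hX1 : ‖X‖ ≤ 1 := by
      rw [hX]
      exact (hR.norm_le _ _).trans ((hR.norm_le _ _).trans hx1)
    have hXr : ‖B.mp (ind (RegA G12 G23 r)) X‖ ≤ δ := by
      rw [hX, hR.app]
      refine le_trans (mpT_ind_mono (fun g hg => RegA.mono hr hg) _) (hm _ fun v hv => ?_)
      have e1 : Commute (y k) v := hy k v hv
      have e2 : Commute u v := hu v hv
      exact e1.mul_left e2
    have h1 : (⟪X, B.mp (fun g => q g * F g) X⟫_ℂ).re ≤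
        (⟪X, B.mp (fun g => ind (RegA G12 G23 r) g + L g) X⟫_ℂ).re :=
      B.mp_re_mono (C := 1) (D := 1 + 1) hqF (fun x => (abs_add_le _ _).trans
          (add_le_add (abs_ind_le _ _) (hL1 x))) hle X
    have h3 : (⟪X, B.mp (ind (RegA G12 G23 r)) X⟫_ℂ).re ≤ δ ^ 2 := by
      rw [re_mp_ind]
      gcongr
    have h4 : (⟪X, B.mp L X⟫_ℂ).re ≤ ε / 4 := by
      refine (Complex.re_le_norm _).trans ((norm_inner_le_norm _ _).trans ?_)
      calc ‖X‖ * ‖B.mp L X‖ ≤ 1 * (ε / 4) :=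
            mul_le_mul hX1 hk.le (norm_nonneg _) zero_le_one
        _ = ε / 4 := one_mul _
    refine h1.trans ?_
    rw [B.mp_add_apply (abs_ind_le _) hL1, inner_add_right, Complex.add_re]
    linarith
  have k1 := key z hz hU
  have k2 := key (fun k => (z k)⁻¹) (fun k v hv => (comm_inv hz k (z k)⁻¹ (Or.inr rfl)).1 v hv)
    (escape_inv hU)
  rw [← hF]
  unfold Pi2T
  rw [add_apply, inner_add_right, Complex.add_re]
  linarith

end

end Vale.Agent.P092.H714
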