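import Vale.Agent.P092.H714.TSep

/-!
P092 (helper714): Theorem N for induced representations: `Π_z(q) + Π_{z⁻¹}(q) = R 1` in the
abstract row model.
-/

set_option linter.all false

open scoped InnerProductSpace
open Filter Topology ContinuousLinearMap

namespace Vale.Agent.P092.H714

open Vale.Agent.P092.H160 Vale.Agent.P092.H553 Vale.Agent.P092.H132

section

variable {Γ ι 𝓗 D : Type} [Group Γ] [Group D] [Fintype ι] [NormedAddCommGroup 𝓗]
  [InnerProductSpace ℂ 𝓗] [CompleteSpace 𝓗]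
  {B : Base Γ ι 𝓗} {t : ℝ} {R : D → (𝓗 →L[ℂ] 𝓗)} {U : Ultrafilter ℕ} {z : ℕ → D}

/-- The exchange identity for an element of the representation. -/
theorem exchT (hR : TRep B t R) (z : D) {S : 𝓗 →L[ℂ] 𝓗} (hS : B.RA S) {q : Γ → ℝ} {C : ℝ}
    (hq : ∀ g, |q g| ≤ C) :
    ∑ i, ⟪S (R z⁻¹ (B.ep i)), B.mp q (R z⁻¹ (B.ep i))⟫_ℂ =
      ∑ i, ⟪R z (B.ep i), B.mp (fun g => q g⁻¹) (R z (adjoint S (B.ep i)))⟫_ℂ := by
  obtain ⟨X, K, hX, hK, e⟩ := hR.nr z
  have h1 : ∀ ζ, R z ζ = X (K ζ) := fun ζ => by rw [e]; rfl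
  have h2 : ∀ i, R z⁻¹ (B.ep i) = adjoint K (adjoint X (B.ep i)) := fun i => by
    rw [← hR.adj, e, adj_mul]; rfl
  obtain ⟨S', hS'⟩ : ∃ S', S' = K * S * adjoint K := ⟨_, rfl⟩
  have hS'R : B.RA S' := by rw [hS']; exact hK.conj hS
  have h3 := B.exch (S := X * adjoint S') (T := adjoint X) (hX.mul hS'R.adj) hX.adj hq
  rw [adj_mul, adj_adj, adj_adj] at h3
  have hqb : ∀ g, |q g⁻¹| ≤ C := fun g => hq _
  calc _ = ∑ i, ⟪(S' * adjoint X) (B.ep i), B.mp q (adjoint X (B.ep i))⟫_ℂ := by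
        refine Finset.sum_congr rfl fun i _ => ?_
        rw [h2]
        have e1 : B.mp q (adjoint K (adjoint X (B.ep i))) =
            adjoint K (B.mp q (adjoint X (B.ep i))) :=
          (congrArg (fun Y : 𝓗 →L[ℂ] 𝓗 => Y (adjoint X (B.ep i))) (hK.adj_mp hq)).symm
        rw [e1, adjoint_inner_right, hS']
        rfl
    _ = _ := by
        rw [h3]
        refine Finset.sum_congr rfl fun i _ => ?_
        rw [h1, h1, hK.ep]
        have e2 : (X * adjoint S') (B.ep i) = X (K (adjoint S (B.ep i))) := by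
          have e3 : adjoint S' = K * (adjoint S * adjoint K) := by
            rw [hS', adj_mul, adj_mul, adj_adj]
          rw [e3, mul_ap, mul_ap, mul_ap, hK.adj_ep]
        rw [e2]

/-- `Π_z(q) + Π_{z⁻¹}(q) = R 1`. -/
theorem pa_totalT (hR : TRep B t R) (hE : EscT B R) (U : Ultrafilter ℕ) (z : ℕ → D)
    (C : Subgroup D) (hzC : ∀ k, z k ∈ C) (hz : ∀ k, ∀ v ∈ C, z k * v = v * z k)
    (hU : ∀ v : D, ∀ᶠ k in U, z k ≠ v) (q : Γ → ℝ)
    (hq : ∀ g, 0 ≤ q g ∧ q g ≤ 1) (hq1 : ∀ g, q g⁻¹ = 1 - q g)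
    (hq2 : ∀ s t, Tendsto (fun g => q (s * g * t) - q g) cofinite (𝓝 0)) :
    B.PiA U R z (fun _ => q) + B.PiA U R (fun k => (z k)⁻¹) (fun _ => q) = R 1 := by
  have hU' : ∀ v : D, ∀ᶠ k in U, (z k)⁻¹ ≠ v := escape_inv hU
  have hqb : ∀ g, |q g| ≤ 1 := fun g => by
    rw [abs_le]; constructor <;> linarith [(hq g).1, (hq g).2]
  have hqb' : ∀ g, |1 - q g| ≤ 1 := fun g => by
    rw [abs_le]; constructor <;> linarith [(hq g).1, (hq g).2]
  have hql : ∀ s : Γ, Tendsto (fun g => q (s * g) - q g) cofinite (𝓝 0) := fun s => by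
    simpa using hq2 s 1
  have hqr : ∀ t : Γ, Tendsto (fun g => q (g * t) - q g) cofinite (𝓝 0) := fun t => by
    simpa using hq2 1 t
  have hql' : ∀ s : Γ, Tendsto (fun g => (1 - q (s * g)) - (1 - q g)) cofinite (𝓝 0) := fun s => by
    have := (hql s).neg
    rw [neg_zero] at this
    exact this.congr fun g => by ring
  have hqr' : ∀ t : Γ, Tendsto (fun g => (1 - q (g * t)) - (1 - q g)) cofinite (𝓝 0) := fun t => by
    have := (hqr t).neg
    rw [neg_zero] at this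
    exact this.congr fun g => by ring
  have hb2 : ∀ (D : Γ → ℝ), (∀ g, |D g| ≤ 1) → ∀ g h, |D g - D h| ≤ 1 + 1 := fun D hD g h =>
    (abs_sub _ _).trans (add_le_add (hD _) (hD _))
  obtain ⟨T, hT⟩ : ∃ T, T = B.PiA U R (fun k => (z k)⁻¹) (fun _ => q) := ⟨_, rfl⟩
  obtain ⟨T', hT'⟩ : ∃ T', T' = B.PiA U R z (fun _ g => 1 - q g) := ⟨_, rfl⟩
  have hTl : B.RA T := by
    rw [hT]
    exact pa_ra hR (fun _ => hqb) fun s => smallT hR hE hU' (fun g => hb2 q hqb _ _) (hql s)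
  have hTl' : B.RA T' := by
    rw [hT']
    exact pa_ra hR (F := fun _ g => 1 - q g) (fun _ => hqb') fun s =>
      smallT hR hE hU (fun g => hb2 (fun g => 1 - q g) hqb' _ _) (hql' s)
  have hzi : ∀ k, ∀ v ∈ C, (z k)⁻¹ * v = v * (z k)⁻¹ := by
    intro k v hv
    rw [inv_mul_eq_iff_eq_mul, ← mul_assoc, hz k v hv, mul_assoc, mul_inv_cancel, mul_one]
  have hTc : ∀ v ∈ C, T * R v = R v * T := by
    intro v hv
    rw [hT]
    exact pa_comm hR (fun _ => hqb) v (fun k => hzi k v hv) fun s =>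
      smallT hR hE hU' (fun g => hb2 q hqb _ _) (hqr s)
  have hTc' : ∀ v ∈ C, T' * R v = R v * T' := by
    intro v hv
    rw [hT']
    exact pa_comm hR (F := fun _ g => 1 - q g) (fun _ => hqb') v (fun k => hz k v hv) fun s =>
      smallT hR hE hU (fun g => hb2 (fun g => 1 - q g) hqb' _ _) (hqr' s)
  -- the key computation
  have hkey : ∀ S : 𝓗 →L[ℂ] 𝓗, B.RA S → (∀ v ∈ C, S * R v = R v * S) →
      B.trA (adjoint S * T) = B.trA (adjoint S * T') := by
    intro S hS hSc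
    have hl : Tendsto (fun k => ∑ i, ⟪R (z k)⁻¹ (S (B.ep i)), B.mp q (R (z k)⁻¹ (B.ep i))⟫_ℂ) U
        (𝓝 (B.trA (adjoint S * T))) := by
      have h1 := tendsto_finsetSum Finset.univ fun i (_ : i ∈ Finset.univ) =>
        pa_spec (U := U) (z := fun k => (z k)⁻¹) (F := fun _ => q) hR (fun _ => hqb)
          (S (B.ep i)) (B.ep i)
      have h2 : B.trA (adjoint S * T) = ∑ i, ⟪S (B.ep i),
          B.PiA U R (fun k => (z k)⁻¹) (fun _ => q) (B.ep i)⟫_ℂ := by
        rw [Base.trA, hT]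
        refine Finset.sum_congr rfl fun i _ => ?_
        rw [mul_ap, adjoint_inner_right]
      rw [h2]
      exact h1
    have hr : Tendsto (fun k => ∑ i, ⟪R (z k) (B.ep i),
        B.mp (fun g => 1 - q g) (R (z k) (adjoint S (B.ep i)))⟫_ℂ) U
        (𝓝 (B.trA (adjoint S * T'))) := by
      have h1 := tendsto_finsetSum Finset.univ fun i (_ : i ∈ Finset.univ) =>
        pa_spec (U := U) (z := z) (F := fun _ g => 1 - q g) hR (fun _ => hqb')
          (B.ep i) (adjoint S (B.ep i))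
      have h2 : B.trA (adjoint S * T') = ∑ i, ⟪B.ep i,
          B.PiA U R z (fun _ g => 1 - q g) (adjoint S (B.ep i))⟫_ℂ := by
        rw [Base.trA_comm hS.adj hTl', Base.trA, hT']
        rfl
      rw [h2]
      exact h1
    refine tendsto_nhds_unique hl (hr.congr fun k => ?_)
    have hc : S * R (z k)⁻¹ = R (z k)⁻¹ * S := hSc _ (inv_mem (hzC k))
    have e1 : ∀ i, R (z k)⁻¹ (S (B.ep i)) = S (R (z k)⁻¹ (B.ep i)) := fun i =>
      (congrArg (fun X : 𝓗 →L[ℂ] 𝓗 => X (B.ep i)) hc).symm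
    have e2 := exchT hR (z k) hS hqb
    have e4 : (fun g => q g⁻¹) = fun g => 1 - q g := by
      funext g; rw [hq1]
    rw [e4] at e2
    simp only [e1]
    exact e2.symm
  have hTT : T = T' := by
    refine hTl.ext_tr hTl' (hkey _ (hTl.sub hTl') fun v hv => ?_)
    rw [sub_mul, mul_sub, hTc v hv, hTc' v hv]
  rw [← hT, hTT, hT', ← pa_add (F := fun _ => q) (F' := fun _ g => 1 - q g) hR (fun _ => hqb)
    (fun _ => hqb')]
  have h6 : (fun (_ : ℕ) (g : Γ) => q g + (1 - q g)) = fun _ _ => (1 : ℝ) := by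
    funext k g; ring
  rw [h6]
  exact pa_one hR

end

end Vale.Agent.P092.H714
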