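import Vale.Agent.P092.H714.TFar
import Vale.Agent.P092.H714.TTot
import Vale.Agent.P092.H714.NGood

/-!
P092 (helper714): Theorem N for induced representations: the properties of the limit maps.
-/

set_option linter.all false

open scoped InnerProductSpace
open Filter Topology ContinuousLinearMap

namespace Vale.Agent.P092.H714

open Vale.Agent.P092.H160 Vale.Agent.P092.H553 Vale.Agent.P092.H132 Vale.Agent.P092.H200

section

variable {Γ ι 𝓗 D : Type} [Group Γ] [Group D] [Fintype ι] [NormedAddCommGroup 𝓗]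
  [InnerProductSpace ℂ 𝓗] [CompleteSpace 𝓗]
  {B : Base Γ ι 𝓗} {t : ℝ} {R : D → (𝓗 →L[ℂ] 𝓗)} {Bd : Set 𝓗}
  {G12 G23 q : Γ → ℝ} {FF : Set (Γ → ℝ)}

theorem re_add_le {Q : 𝓗 →L[ℂ] 𝓗} (hpos : ∀ ξ, 0 ≤ (⟪ξ, Q ξ⟫_ℂ).re) (a b : 𝓗) :
    (⟪a + b, Q (a + b)⟫_ℂ).re ≤ 2 * (⟪a, Q a⟫_ℂ).re + 2 * (⟪b, Q b⟫_ℂ).re := by
  have h1 := hpos (a - b)
  have h2 : (⟪a + b, Q (a + b)⟫_ℂ).re + (⟪a - b, Q (a - b)⟫_ℂ).re =
      2 * (⟪a, Q a⟫_ℂ).re + 2 * (⟪b, Q b⟫_ℂ).re := by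
    simp only [map_add, map_sub, inner_add_left, inner_add_right, inner_sub_left,
      inner_sub_right, Complex.add_re, Complex.sub_re]
    ring
  linarith

theorem re_smul_eq {Q : 𝓗 →L[ℂ] 𝓗} (c : ℂ) (a : 𝓗) :
    (⟪c • a, Q (c • a)⟫_ℂ).re = ‖c‖ ^ 2 * (⟪a, Q a⟫_ℂ).re := by
  rw [map_smul, inner_smul_left, inner_smul_right, ← mul_assoc, ← Complex.normSq_eq_conj_mul_self,
    Complex.re_ofReal_mul, Complex.normSq_eq_norm_sq]

/-- Uniformly small positive operators: it is enough to test on the total family. -/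
theorem small_of_total {Q : ℝ → ℝ → (𝓗 →L[ℂ] 𝓗)} (hpos : ∀ r M ξ, 0 ≤ (⟪ξ, Q r M ξ⟫_ℂ).re)
    (hle : ∀ r M ξ, (⟪ξ, Q r M ξ⟫_ℂ).re ≤ ‖ξ‖ ^ 2)
    (hgen : ∀ s, ∀ a ∈ B.sc, ∀ i, ∀ ε : ℝ, 0 < ε → ∃ r0 : ℝ, ∀ r, r0 ≤ r → ∀ M, r ≤ M →
      (⟪B.lx s (a (B.ep i)), Q r M (B.lx s (a (B.ep i)))⟫_ℂ).re ≤ ε)
    (ξ : 𝓗) {ε : ℝ} (hε : 0 < ε) :
    ∃ r0 : ℝ, ∀ r, r0 ≤ r → ∀ M, r ≤ M → (⟪ξ, Q r M ξ⟫_ℂ).re ≤ ε := by
  have hspan : ∀ η ∈ (Submodule.span ℂ {ξ : 𝓗 | ∃ s, ∃ a ∈ B.sc, ∃ i,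
      ξ = B.lx s (a (B.ep i))} : Submodule ℂ 𝓗), ∀ ε : ℝ, 0 < ε →
      ∃ r0 : ℝ, ∀ r, r0 ≤ r → ∀ M, r ≤ M → (⟪η, Q r M η⟫_ℂ).re ≤ ε := by
    intro η hη
    induction hη using Submodule.span_induction with
    | mem x hx =>
      obtain ⟨s, a, ha, i, rfl⟩ := hx
      exact hgen s a ha i
    | zero =>
      intro ε hε
      refine ⟨0, fun r _ M _ => ?_⟩
      rw [inner_zero_left, Complex.zero_re]
      exact hε.le
    | add x y _ _ hx hy =>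
      intro ε hε
      obtain ⟨r1, h1⟩ := hx (ε / 4) (by positivity)
      obtain ⟨r2, h2⟩ := hy (ε / 4) (by positivity)
      refine ⟨max r1 r2, fun r hr M hM => ?_⟩
      have := re_add_le (hpos r M) x y
      have := h1 r ((le_max_left _ _).trans hr) M hM
      have := h2 r ((le_max_right _ _).trans hr) M hM
      linarith
    | smul c x _ hx =>
      intro ε hε
      obtain ⟨r1, h1⟩ := hx (ε / (‖c‖ ^ 2 + 1)) (by positivity)
      refine ⟨r1, fun r hr M hM => ?_⟩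
      rw [re_smul_eq]
      have h2 := h1 r hr M hM
      calc ‖c‖ ^ 2 * (⟪x, Q r M x⟫_ℂ).re ≤ (‖c‖ ^ 2 + 1) * (ε / (‖c‖ ^ 2 + 1)) := by
            have h3 := hpos r M x
            have h4 : (0 : ℝ) ≤ ‖c‖ ^ 2 := by positivity
            exact mul_le_mul (by linarith) h2 h3 (by positivity)
        _ = ε := by field_simp
  obtain ⟨δ, hδ0, hδ⟩ : ∃ δ : ℝ, 0 < δ ∧ δ ^ 2 ≤ ε / 4 := by
    refine ⟨min 1 (ε / 4), lt_min one_pos (by positivity), ?_⟩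
    have h1 : min 1 (ε / 4) ≤ 1 := min_le_left _ _
    have h2 : min 1 (ε / 4) ≤ ε / 4 := min_le_right _ _
    have h3 : 0 < min 1 (ε / 4) := lt_min one_pos (by positivity)
    nlinarith
  obtain ⟨η, hη, hd⟩ := B.dense_span.exists_dist_lt ξ hδ0
  obtain ⟨r1, h1⟩ := hspan η hη (ε / 4) (by positivity)
  refine ⟨r1, fun r hr M hM => ?_⟩
  have h2 := re_add_le (hpos r M) η (ξ - η)
  rw [add_sub_cancel] at h2
  have h3 := h1 r hr M hM
  have h4 := hle r M (ξ - η)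
  have h5 : ‖ξ - η‖ ^ 2 ≤ δ ^ 2 := by
    rw [← dist_eq_norm]
    exact pow_le_pow_left₀ dist_nonneg hd.le 2
  linarith

variable {z : ℕ → D}

theorem pi2_totalT (hR : TRep B t R) (hE : EscT B R) (hg : GeoA G12 G23 q FF) {A : Subgroup D}
    (hA : Vertex A) (hz : SeqInA A z) : Pi2T B Ufl R z q (fun _ => 1) = R 1 := by
  have h := pa_totalT hR hE Ufl z A hz.1 (fun k v hv => hA.2 _ (hz.1 k) _ hv) hz.2 q hg.q_mem
    hg.q_inv hg.q_tr
  unfold Pi2T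
  simp only [mul_one]
  exact h

theorem abs_qF (hg : GeoA G12 G23 q FF) {F : Γ → ℝ} {C : ℝ} (hF : ∀ g, |F g| ≤ C) (g : Γ) :
    |q g * F g| ≤ C := by
  rw [abs_mul]
  exact (mul_le_of_le_one_left (abs_nonneg _) (hg.abs_q g)).trans (hF g)

theorem pi2_covT (hR : TRep B t R) (hE : EscT B R) (hg : GeoA G12 G23 q FF)
    (hz : ∀ v : D, ∀ᶠ k in Ufl, z k ≠ v) {F : Γ → ℝ} (hF : ∀ g, |F g| ≤ 1) (s : Γ) (ξ : 𝓗) :
    Pi2T B Ufl R z q F (B.lx s ξ) = B.lx s (Pi2T B Ufl R z q (fun g => F (s * g)) ξ) := by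
  have hbs : ∀ (k : ℕ) (g : Γ), |q g * F (s * g)| ≤ 1 := fun _ g =>
    abs_qF hg (fun g => hF (s * g)) g
  have hD : Tendsto (fun g : Γ => q (s⁻¹ * g) * F g - q g * F g) cofinite (𝓝 0) := by
    have h1 := (hg.q_tr s⁻¹ 1).abs
    rw [abs_zero] at h1
    refine squeeze_zero_norm (fun g => ?_) h1
    rw [Real.norm_eq_abs, ← sub_mul, abs_mul, mul_one]
    exact mul_le_of_le_one_right (abs_nonneg _) (hF g)
  have hDb : ∀ g : Γ, |q (s⁻¹ * g) * F g - q g * F g| ≤ 1 + 1 := fun g =>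
    (abs_sub _ _).trans (add_le_add (abs_mul_le_oneA (hg.abs_q _) (hF _))
      (abs_mul_le_oneA (hg.abs_q _) (hF _)))
  have hs1 := smallT hR hE hz hDb hD
  have hs2 := smallT hR hE (escape_inv hz) hDb hD
  unfold Pi2T
  rw [add_apply, add_apply, map_add,
    pa_lx hR (F := fun _ g => q g * F (s * g)) (F' := fun _ g => q g * F g) hbs
      (fun _ => abs_qF hg hF) s (by simpa only [mul_inv_cancel_left] using hs1),
    pa_lx hR (F := fun _ g => q g * F (s * g)) (F' := fun _ g => q g * F g) hbs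
      (fun _ => abs_qF hg hF) s (by simpa only [mul_inv_cancel_left] using hs2)]

/-- The mass outside of the wall region tends to zero at every vector. -/
theorem mass_allT (hR : TRep B t R) (hE : EscT B R) (hS : SepT B R Bd)
    (hg : GeoA G12 G23 q FF) {K : Subgroup D} (hc : ConfT B R G12 G23 K)
    (hzK : ∀ k, ∀ v ∈ K, z k * v = v * z k) (hz : ∀ v : D, ∀ᶠ k in Ufl, z k ≠ v)
    (hone : Pi2T B Ufl R z q (fun _ => 1) = R 1) (ξ : 𝓗) {ε : ℝ} (hε : 0 < ε) :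
    ∃ r0 : ℝ, ∀ r, r0 ≤ r → ∀ M, r ≤ M →
      (⟪ξ, Pi2T B Ufl R z q (ind fun h => ¬ (G12 h ≤ r ∧ M ≤ G23 h)) ξ⟫_ℂ).re ≤ ε := by
  have hq0 : ∀ g, 0 ≤ q g := fun g => (hg.q_mem g).1
  have hone' : ∀ g, |(fun _ : Γ => (1 : ℝ)) g| ≤ 1 := fun g => by simp
  have hzero' : ∀ g, |(fun _ : Γ => (0 : ℝ)) g| ≤ 1 := fun g => by simp
  refine small_of_total (B := B) (Q := fun r M =>
    Pi2T B Ufl R z q (ind fun h => ¬ (G12 h ≤ r ∧ M ≤ G23 h))) (fun r M ξ => ?_)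
    (fun r M ξ => ?_) (fun s a ha i ε hε => ?_) ξ hε
  · have h1 := pi2_monoT (U := Ufl) (z := z) (q := q) hR hq0 (F := fun _ => 0)
      (abs_qF hg hzero') (abs_qF hg (abs_ind_le fun h => ¬ (G12 h ≤ r ∧ M ≤ G23 h)))
      (fun g => ind_nonneg _ _) ξ
    have h2 : Pi2T B Ufl R z q (fun _ => (0 : ℝ)) = 0 := by
      have h3 := pi2_smulT (U := Ufl) (z := z) (q := q) (F := fun _ => 0) (C := 0) hR 0
        (fun g => by simp)
      simp only [mul_zero, Complex.ofReal_zero, zero_smul] at h3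
      exact h3
    rw [h2, zero_apply, inner_zero_right, Complex.zero_re] at h1
    exact h1
  · have h1 := pi2_monoT (U := Ufl) (z := z) (q := q) hR hq0 (G := fun _ => 1)
      (abs_qF hg (abs_ind_le fun h => ¬ (G12 h ≤ r ∧ M ≤ G23 h))) (abs_qF hg hone')
      (fun g => ind_le_one _ _) ξ
    rw [hone, hR.one_re] at h1
    exact h1.trans (pow_le_pow_left₀ (norm_nonneg _) (hR.norm_one_le ξ) 2)
  · obtain ⟨r0, -, hr⟩ := mass_leT (U := Ufl) hR hE hS hg hc s ha i hε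
    refine ⟨r0, fun r hr0 M hM => ?_⟩
    have h1 := hr r hr0 M hM z hzK hz 1 (fun v _ => by rw [_root_.one_mul, _root_.mul_one])
    have h2 : ⟪R 1 (B.lx s (a (B.ep i))), Pi2T B Ufl R z q
        (ind fun h => ¬ (G12 h ≤ r ∧ M ≤ G23 h)) (R 1 (B.lx s (a (B.ep i))))⟫_ℂ =
        ⟪B.lx s (a (B.ep i)), Pi2T B Ufl R z q
          (ind fun h => ¬ (G12 h ≤ r ∧ M ≤ G23 h)) (B.lx s (a (B.ep i)))⟫_ℂ := by
      have hb := abs_qF hg (abs_ind_le fun h => ¬ (G12 h ≤ r ∧ M ≤ G23 h))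
      have e1 := congrArg (fun T : 𝓗 →L[ℂ] 𝓗 => T (B.lx s (a (B.ep i))))
        (pi2_mul_oneT (U := Ufl) (z := z) hR hb)
      have e2 := congrArg (fun T : 𝓗 →L[ℂ] 𝓗 => T (B.lx s (a (B.ep i))))
        (pi2_one_mulT (U := Ufl) (z := z) hR hb)
      simp only [mul_ap] at e1 e2
      rw [e1, hR.inner_left, inv_one, e2]
    rw [h2] at h1
    exact h1

/-- The mass outside of the wall region at the vectors `R u ε_i`, uniformly. -/
theorem mass_epT (hR : TRep B t R) (hE : EscT B R) (hS : SepT B R Bd)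
    (hg : GeoA G12 G23 q FF) {K : Subgroup D} (hc : ConfT B R G12 G23 K)
    (hzK : ∀ k, ∀ v ∈ K, z k * v = v * z k) (hz : ∀ v : D, ∀ᶠ k in Ufl, z k ≠ v)
    (i : ι) {ε : ℝ} (hε : 0 < ε) :
    ∃ r0 : ℝ, ∀ r, r0 ≤ r → ∀ M, r ≤ M → ∀ u : D, (∀ v ∈ K, u * v = v * u) →
      (⟪R u (B.ep i), Pi2T B Ufl R z q (ind fun h => ¬ (G12 h ≤ r ∧ M ≤ G23 h))
        (R u (B.ep i))⟫_ℂ).re ≤ ε := by
  obtain ⟨r0, -, hr⟩ := mass_leT (U := Ufl) hR hE hS hg hc 1 B.sc_one i hε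
  refine ⟨r0, fun r hr0 M hM u hu => ?_⟩
  have h1 := hr r hr0 M hM z hzK hz u hu
  have e : B.lx 1 ((1 : 𝓗 →L[ℂ] 𝓗) (B.ep i)) = B.ep i := by rw [B.lx_one]; rfl
  rw [e] at h1
  exact h1

end

end Vale.Agent.P092.H714
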