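import Vale.Agent.P092.H714.TFields
import Vale.Agent.P092.H714.TSepI
import Vale.Agent.P092.H859.TGood
import Vale.Agent.P092.H859.TConfT
import Vale.Agent.P092.L.H859.WallEmb
import Vale.Agent.P092.L.H553.Inst
import Vale.Agent.P092.H859.NoIso

/-!
P092 (helper714): Theorem N for induced representations: the limit maps satisfy the abstract
properties; measure equivalence data.
-/

set_option linter.all false

open scoped InnerProductSpace
open Filter Topology ContinuousLinearMap MeasureTheory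

namespace Vale.Agent.P092.H714

open Vale.Agent.P092.H160 Vale.Agent.P092.H553 Vale.Agent.P092.H200
open Vale.Agent.P092.H132 (Base TRep EFamT)
open Vale.Agent.P092.H432 (ARep)
open Vale.Agent.P092.H790 (MEData Ri baseL)
open Vale.Agent.P092.H859 (GoodT Pair)
open Vale.Agent.P092.L.H553 (Emb)

section

variable {Γ ι 𝓗 D : Type} [Group Γ] [Group D] [Fintype ι] [NormedAddCommGroup 𝓗]
  [InnerProductSpace ℂ 𝓗] [CompleteSpace 𝓗]
  {B : Base Γ ι 𝓗} {t : ℝ} {R : D → (𝓗 →L[ℂ] 𝓗)} {Bd : Set 𝓗}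
  {G12 G23 q : Γ → ℝ} {FF : Set (Γ → ℝ)} {z : ℕ → D}

theorem goodT (hR : TRep B t R) (hE : EscT B R) (hS : SepT B R Bd)
    (hg : GeoA G12 G23 q FF) {K0 K1 A : Subgroup D}
    (hc : ConfT B R G12 G23 K0) (hcom : ∀ u ∈ K1, ∀ v ∈ K0, u * v = v * u) (hA : Vertex A)
    (hAK : A ≤ K1) (hz : SeqInA A z) :
    GoodT B G12 G23 FF R K1 (Pi2T B Ufl R z q) := by
  have hone := pi2_totalT hR hE hg hA hz
  have hq0 : ∀ g, 0 ≤ q g := fun g => (hg.q_mem g).1
  have hzz : ∀ k, ∀ v ∈ K0, z k * v = v * z k := fun k v hv => hcom _ (hAK (hz.1 k)) v hv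
  refine ⟨hone, ?_, ?_, ?_, ?_, ?_, ?_, ?_, ?_, ?_, ?_, ?_⟩
  · intro s F C hF
    exact pi2_sumT hR s F (C := C) fun b g => abs_qF hg (hF b) g
  · intro c d F G C hF hG
    have hcF : ∀ g, |c * F g| ≤ |c| * C := fun g => by
      rw [abs_mul]; exact mul_le_mul_of_nonneg_left (hF g) (abs_nonneg _)
    have hdG : ∀ g, |d * G g| ≤ |d| * C := fun g => by
      rw [abs_mul]; exact mul_le_mul_of_nonneg_left (hG g) (abs_nonneg _)
    rw [pi2_addT hR (F := fun g => c * F g) (G := fun g => d * G g) (abs_qF hg hcF)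
      (abs_qF hg hdG), pi2_smulT hR c (abs_qF hg hF), pi2_smulT hR d (abs_qF hg hG)]
  · intro F G C D hF hG h ξ
    exact pi2_monoT hR hq0 (abs_qF hg hF) (abs_qF hg hG) h ξ
  · intro F hF ξ η
    exact pi2_symT hR (abs_qF hg hF) ξ η
  · intro F hF ξ
    exact pi2_ksT hR hg.q_mem hone hF ξ
  · intro F hF s ξ
    exact pi2_covT hR hE hg hz.2 hF s ξ
  · intro H f hH hf
    exact mulT hR hS Ufl z z hg.q_mem (hg.mem H hH) hf hone
      (fun s a ha i s' a' ha' i' => far_of_confT hR hE hg hc hzz hzz hz.2 hz.2 hH s ha i s' ha' i')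
  · intro H hH u hu
    exact comm_FFT hR hE hS hg hc hzz hz.2 hone hH u (fun v hv => hcom u hu v hv)
  · intro F C hF
    exact ⟨pi2_mul_oneT hR (abs_qF hg hF), pi2_one_mulT hR (abs_qF hg hF)⟩
  · intro F C hF a ha
    exact pi2_scT hR (abs_qF hg hF) ha
  · intro s a ha i ε hε
    obtain ⟨r0, -, hr⟩ := mass_leT (U := Ufl) hR hE hS hg hc s ha i hε
    exact ⟨r0, fun r hr0 M hM u hu => hr r hr0 M hM z hzz hz.2 u (fun v hv => hcom u hu v hv)⟩

/-- Theorem N in the abstract row model. -/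
theorem mean_NT [Countable Γ] (hR : TRep B t R) {E : Set D → (𝓗 →L[ℂ] 𝓗)} (hEf : EFamT B R E)
    (hE : EscT B R) (hS : SepT B R Bd) (hg : GeoA G12 G23 q FF) (hw : WallFun G12 G23 FF)
    {K0 K1 A : Subgroup D} (hc : ConfT B R G12 G23 K0)
    (hcom : ∀ u ∈ K1, ∀ v ∈ K0, u * v = v * u) (hA : Vertex A) (hAK : A ≤ K1) :
    ∃ m : Set D → ℝ, H200.IsInvMean K1 m := by
  obtain ⟨z, hz⟩ := exists_seqInA hA.1
  exact H859.mean_of_goodT hR hEf K1 _ (goodT hR hE hS hg hc hcom hA hAK hz) hw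

end

section me

variable {G3 : Type} [Group G3] [Emb G3] {D Λ ι : Type} [Group D] [Countable D] [Group Λ]
  [Countable Λ] [Fintype ι] {t : ℝ} {R : Λ → (Ell2 (G3 × ι) →L[ℂ] Ell2 (G3 × ι))}

/-- Theorem N for measure equivalence data: invariant means on the second factor. -/
theorem mean_me (m : MEData D Λ) (hR : ARep t R) {K0 K1 A : Subgroup D} (hK0 : NoMean K0)
    (hcom : ∀ v ∈ K0, ∀ w ∈ K1, v * w = w * v) (hA : Vertex A) (hAK : A ≤ K1) :
    ∃ m : Set D → ℝ, H200.IsInvMean K1 m := by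
  haveI : Countable G3 := L.H538.countable_emb G3
  obtain ⟨E, hE⟩ := H859.t_efam (Γ := G3) m hR
  have hT := H790.trep m.toC hR
  exact mean_NT hT hE (escT_ind m hR) (sepT_ind m.toC hR) (L.H553.geoA_emb (G3 := G3))
    L.H859.wallFun_emb (H859.confT hT hE hK0) (fun u hu v hv => (hcom v hv u hu).symm) hA hAK

/-- Theorem N for groups measure equivalent to a group with a pair of commuting subgroups. -/
theorem no_arep_me (m : MEData D Λ) (hD : Pair D) : ¬ ARep t R := by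
  intro hR
  obtain ⟨K0, K1, A, h0, h1, hcom, hA, hAK⟩ := hD
  exact h1 (mean_me m hR h0 hcom hA hAK)

end me

end Vale.Agent.P092.H714
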