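import Vale.Agent.P092.H132.MassX
import Vale.Agent.P092.H714.NBal

/-!
P092 (helper714): Theorem N for induced representations, first part: separation of vectors in the
abstract row model, and the balance estimate for one pair of vectors.
-/

set_option linter.all false

open scoped InnerProductSpace
open Filter Topology ContinuousLinearMap

namespace Vale.Agent.P092.H714

open Vale.Agent.P092.H160 Vale.Agent.P092.H553 Vale.Agent.P092.H132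

section

variable {Γ ι 𝓗 D : Type} [Group Γ] [Group D] [Fintype ι] [NormedAddCommGroup 𝓗]
  [InnerProductSpace ℂ 𝓗] [CompleteSpace 𝓗]

/-- The vectors `R_v ε_i` are asymptotically zero at every element of `Γ`. -/
def EscT (B : Base Γ ι 𝓗) (R : D → (𝓗 →L[ℂ] 𝓗)) : Prop :=
  ∀ (i : ι) (g : Γ), Tendsto (fun v : D => ‖B.mp (ind fun h => h = g) (R v (B.ep i))‖)
    cofinite (𝓝 0)

/-- Bounded vectors and the separation estimate for them. -/
structure SepT (B : Base Γ ι 𝓗) (R : D → (𝓗 →L[ℂ] 𝓗)) (Bd : Set 𝓗) : Prop where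
  ep : ∀ s, ∀ a ∈ B.sc, ∀ i, B.lx s (a (B.ep i)) ∈ Bd
  map : ∀ v, ∀ ξ ∈ Bd, R v ξ ∈ Bd
  mp : ∀ F : Γ → ℝ, (∀ g, |F g| ≤ 1) → ∀ ξ ∈ Bd, B.mp F ξ ∈ Bd
  norm : ∀ ξ ∈ Bd, ‖ξ‖ ≤ 1
  sep : ∀ (u : D), ∀ η ∈ Bd, ∀ ζ ∈ Bd, ∀ (F G : Γ → ℝ) (P : Γ → Prop) (T : Finset Γ),
    (∀ g, |F g| ≤ 1) → (∀ g, |G g| ≤ 1) →
    (∀ x y, F x ≠ 0 → G y ≠ 0 → P (x⁻¹ * y)) →
    (∀ x₁ y₁ x₂ y₂, F x₁ ≠ 0 → G y₁ ≠ 0 → F x₂ ≠ 0 → G y₂ ≠ 0 →
      x₁⁻¹ * y₁ = x₂⁻¹ * y₂ → x₂ * x₁⁻¹ ∈ T) →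
    ‖⟪B.mp G ζ, R u (B.mp F η)⟫_ℂ‖ ≤ Real.sqrt T.card * Real.sqrt (massX B R u (ind P))

variable {B : Base Γ ι 𝓗} {t : ℝ} {R : D → (𝓗 →L[ℂ] 𝓗)} {U : Ultrafilter ℕ} {z : ℕ → D}
  {Bd : Set 𝓗}

theorem EscT.escA (h : EscT B R) (hU : ∀ v : D, ∀ᶠ k in U, z k ≠ v) : B.EscA U R z :=
  Base.escA_of_cofinite (B := B) (R := R) h hU

/-- Functions vanishing at infinity are small along an escaping sequence. -/
theorem smallT (hR : TRep B t R) (hE : EscT B R) (hU : ∀ v : D, ∀ᶠ k in U, z k ≠ v) {q : Γ → ℝ}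
    {C : ℝ} (hq : ∀ g, |q g| ≤ C) (hq0 : Tendsto q cofinite (𝓝 0)) :
    B.SmallA U R z (fun _ => q) := smallA_of_tendsto hR (hE.escA hU) hq hq0

theorem mpT_mono {F G : Γ → ℝ} {C D : ℝ} (hF : ∀ g, |F g| ≤ C) (hG : ∀ g, |G g| ≤ D)
    (h : ∀ g, |F g| ≤ |G g|) (ξ : 𝓗) : ‖B.mp F ξ‖ ≤ ‖B.mp G ξ‖ := B.norm_mp_le_mp hF hG h ξ

theorem mpT_ind_mono {P Q : Γ → Prop} (h : ∀ x, P x → Q x) (ξ : 𝓗) :
    ‖B.mp (ind P) ξ‖ ≤ ‖B.mp (ind Q) ξ‖ := by
  refine mpT_mono (abs_ind_le P) (abs_ind_le Q) (fun x => ?_) ξ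
  by_cases hx : P x
  · rw [ind_pos hx, ind_pos (h x hx)]
  · rw [ind_neg hx, abs_zero]; exact abs_nonneg _

/-- The balance estimate for one pair of vectors and a contraction. -/
theorem pair_estimateT (B : Base Γ ι 𝓗) (W : 𝓗 →L[ℂ] 𝓗) (hW : ∀ v, ‖W v‖ ≤ ‖v‖)
    {q H : Γ → ℝ} (hq : ∀ g, 0 ≤ q g ∧ q g ≤ 1)
    (hH : ∀ g, 0 ≤ H g ∧ H g ≤ 1) (N : ℕ) (hN : 0 < N) (η ζ : 𝓗) (hη : ‖η‖ ≤ 1)
    (hζ : ‖ζ‖ ≤ 1) {ε : ℝ}
    (hfar : ∀ F G : Γ → ℝ, (∀ g, |F g| ≤ 1) → (∀ g, |G g| ≤ 1) →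
      (∀ g h, F g ≠ 0 → G h ≠ 0 → 1 / (N : ℝ) ≤ |H g - H h|) →
      ‖⟪B.mp (fun g => q g * G g) ζ, W (B.mp (fun g => q g * F g) η)⟫_ℂ‖ ≤ ε) :
    ‖⟪B.mp q ζ, W (B.mp (fun g => q g * H g) η)⟫_ℂ -
      ⟪B.mp (fun g => q g * H g) ζ, W (B.mp q η)⟫_ℂ‖ ≤ 9 / N + 2 * (N + 1) ^ 2 * ε := by
  have hq' : ∀ g, |q g| ≤ 1 := fun g => by rw [abs_of_nonneg (hq g).1]; exact (hq g).2
  have hH' : ∀ g, |H g| ≤ 1 := fun g => by rw [abs_of_nonneg (hH g).1]; exact (hH g).2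
  have hm : ∀ {a b : ℝ}, |a| ≤ 1 → |b| ≤ 1 → |a * b| ≤ 1 := fun {a b} ha hb => mul_abs_le ha hb
  have hqc : ∀ i g, |q g * cell N H i g| ≤ 1 := fun i g => hm (hq' g) (cell_abs N H i g)
  have hqHc : ∀ i g, |q g * (H g * cell N H i g)| ≤ 1 := fun i g =>
    hm (hq' g) (hm (hH' g) (cell_abs N H i g))
  have hsum : ∀ ξ : 𝓗, B.mp q ξ =
      ∑ i ∈ Finset.range (N + 1), B.mp (fun g => q g * cell N H i g) ξ := by
    intro ξ
    rw [← ContinuousLinearMap.sum_apply, ← B.mp_sum (Finset.range (N + 1))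
      (F := fun i g => q g * cell N H i g) (C := fun _ => 1) hqc]
    congr 2
    funext g
    rw [← Finset.mul_sum, cell_sum N H hH, mul_one]
  have hsum' : ∀ ξ : 𝓗, B.mp (fun g => q g * H g) ξ =
      ∑ i ∈ Finset.range (N + 1), B.mp (fun g => q g * (H g * cell N H i g)) ξ := by
    intro ξ
    rw [← ContinuousLinearMap.sum_apply, ← B.mp_sum (Finset.range (N + 1))
      (F := fun i g => q g * (H g * cell N H i g)) (C := fun _ => 1) hqHc]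
    congr 2
    funext g
    rw [← Finset.mul_sum, ← Finset.mul_sum, cell_sum N H hH, mul_one]
  have hnorm : ∀ (ξ : 𝓗) (i : ℕ), ‖B.mp (fun g => q g * cell N H i g) ξ‖ ≤
      ‖B.mp (cell N H i) ξ‖ := by
    intro ξ i
    refine mpT_mono (hqc i) (cell_abs N H i) (fun g => ?_) ξ
    rw [abs_mul]
    exact mul_le_of_le_one_left (abs_nonneg _) (hq' g)
  have hdiff : ∀ (ξ : 𝓗) (i : ℕ), ‖B.mp (fun g => q g * (H g * cell N H i g)) ξ -
      ((i / N : ℝ) : ℂ) • B.mp (fun g => q g * cell N H i g) ξ‖ ≤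
        1 / N * ‖B.mp (cell N H i) ξ‖ := by
    intro ξ i
    have hb1 : ∀ g, |(i / N : ℝ) * (q g * cell N H i g)| ≤ (i / N : ℝ) := fun g => by
      rw [abs_mul, abs_of_nonneg (by positivity)]
      exact mul_le_of_le_one_right (by positivity) (hqc i g)
    have hb2 : ∀ g, |(1 / N : ℝ) * cell N H i g| ≤ (1 / N : ℝ) := fun g => by
      rw [abs_mul, abs_of_nonneg (by positivity)]
      exact mul_le_of_le_one_right (by positivity) (cell_abs N H i g)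
    have e1 : B.mp (fun g => q g * (H g * cell N H i g)) ξ -
        ((i / N : ℝ) : ℂ) • B.mp (fun g => q g * cell N H i g) ξ =
        B.mp (fun g => q g * (H g * cell N H i g) - (i / N : ℝ) * (q g * cell N H i g)) ξ := by
      rw [B.mp_sub_apply (hqHc i) hb1, B.mp_smul_apply _ (hqc i)]
    have e2 : ((1 / N : ℝ) : ℝ) * ‖B.mp (cell N H i) ξ‖ =
        ‖B.mp (fun g => (1 / N : ℝ) * cell N H i g) ξ‖ := by
      rw [B.mp_smul_apply _ (cell_abs N H i), norm_smul, Complex.norm_real,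
        Real.norm_of_nonneg (by positivity)]
    rw [e1, e2]
    refine mpT_mono (C := 1 + i / N) (fun g => ?_) hb2 (fun g => ?_) ξ
    · exact (abs_sub _ _).trans (add_le_add (hqHc i g) (hb1 g))
    · have e3 : q g * (H g * cell N H i g) - (i / N : ℝ) * (q g * cell N H i g) =
          q g * ((H g - i / N) * cell N H i g) := by ring
      rw [e3, abs_mul]
      exact (mul_le_of_le_one_left (abs_nonneg _) (hq' g)).trans (cell_near N H hN hH i g)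
  have hsq : ∀ ξ : 𝓗, ‖ξ‖ ≤ 1 →
      ∑ i ∈ Finset.range (N + 1), ‖B.mp (cell N H i) ξ‖ ^ 2 ≤ 1 := by
    intro ξ hξ
    have h1 : ∀ i, ‖B.mp (cell N H i) ξ‖ ^ 2 = (⟪ξ, B.mp (cell N H i) ξ⟫_ℂ).re := by
      intro i
      rw [← B.inner_mp_sq (cell_abs N H i)]
      have e : (fun g => cell N H i g * cell N H i g) = cell N H i := by
        funext g
        rw [← sq, cell_sq]
      rw [e]
    rw [Finset.sum_congr rfl fun i _ => h1 i, ← Complex.re_sum, ← inner_sum,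
      ← ContinuousLinearMap.sum_apply, ← B.mp_sum (Finset.range (N + 1))
      (F := fun i => cell N H i) (C := fun _ => 1) (cell_abs N H)]
    have h2 : (fun g => ∑ i ∈ Finset.range (N + 1), cell N H i g) = fun _ => (1 : ℝ) := by
      funext g
      exact cell_sum N H hH g
    rw [h2, B.mp_one_apply, inner_self_eq_norm_sq_to_K]
    have h3 : ‖ξ‖ ^ 2 ≤ 1 := pow_le_one₀ (norm_nonneg _) hξ
    have h4 : (((‖ξ‖ : ℂ)) ^ 2).re = ‖ξ‖ ^ 2 := by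
      rw [← Complex.ofReal_pow, Complex.ofReal_re]
    exact h4.le.trans h3
  rw [hsum ζ, hsum' η, hsum' ζ, hsum η]
  refine double_sumA N hN _ _ _ _ (fun i => ‖B.mp (cell N H i) η‖)
    (fun i => ‖B.mp (cell N H i) ζ‖)
    W hW (hsq η hη) (hsq ζ hζ) (hnorm η) (hnorm ζ) (hdiff η) (hdiff ζ) ?_
  intro i j hij
  constructor
  · refine hfar (fun g => H g * cell N H i g) (cell N H j)
      (fun g => hm (hH' g) (cell_abs N H i g)) (cell_abs N H j) (fun g h hg hh => ?_)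
    exact cell_far N H hN hH hij (fun h0 => hg (by rw [h0, mul_zero])) hh
  · refine hfar (cell N H i) (fun g => H g * cell N H j g) (cell_abs N H i)
      (fun g => hm (hH' g) (cell_abs N H j g)) (fun g h hg hh => ?_)
    exact cell_far N H hN hH hij hg (fun h0 => hh (by rw [h0, mul_zero]))

end

end Vale.Agent.P092.H714
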